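import Vale.Agent.P361.Defs

/-!
# P361: shared elementary lemmas
-/

namespace Vale.Agent.P361

open Matrix Finset

/-! ## Lattice -/

lemma le_nrm (x : Z3) (i : Fin 3) : (x i).natAbs ≤ nrm x :=
  Finset.le_sup (f := fun i => (x i).natAbs) (Finset.mem_univ i)

lemma nrm_le_iff {x : Z3} {r : ℕ} : nrm x ≤ r ↔ ∀ i, (x i).natAbs ≤ r := by
  simp [nrm, Finset.sup_le_iff]

lemma nrm_le_iff_abs {x : Z3} {r : ℕ} : nrm x ≤ r ↔ ∀ i, |x i| ≤ r := by
  rw [nrm_le_iff]
  refine forall_congr' fun i => ?_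
  rw [← Int.natCast_natAbs]; exact_mod_cast Iff.rfl

lemma mem_cube {x y : Z3} {r : ℕ} : x ∈ cube y r ↔ nrm (x - y) ≤ r := by
  rw [nrm_le_iff_abs]
  simp only [cube, Fintype.mem_piFinset, Finset.mem_Icc, Pi.sub_apply, abs_le]
  refine forall_congr' fun i => ?_
  constructor <;> rintro ⟨h1, h2⟩ <;> constructor <;> linarith

lemma card_cube (y : Z3) (r : ℕ) : (cube y r).card = (2 * r + 1) ^ 3 := by
  simp only [cube, Fintype.card_piFinset, Int.card_Icc]
  have : ∀ i, (y i + r + 1 - (y i - r)).toNat = 2 * r + 1 := fun i => by omega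
  simp [this]

@[simp] lemma nrm_zero : nrm 0 = 0 := by simp [nrm]

lemma nrm_neg (x : Z3) : nrm (-x) = nrm x := by simp [nrm]

lemma nrm_sub_comm (x y : Z3) : nrm (x - y) = nrm (y - x) := by
  rw [← nrm_neg, neg_sub]

lemma nrm_add_le (x y : Z3) : nrm (x + y) ≤ nrm x + nrm y := by
  rw [nrm_le_iff]
  intro i
  exact (Int.natAbs_add_le _ _).trans (add_le_add (le_nrm x i) (le_nrm y i))

lemma nrm_triangle (x y z : Z3) : nrm (x - z) ≤ nrm (x - y) + nrm (y - z) := by
  have := nrm_add_le (x - y) (y - z)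
  rwa [sub_add_sub_cancel] at this

lemma nrm_eq_zero {x : Z3} : nrm x = 0 ↔ x = 0 := by
  constructor
  · intro h
    funext i
    have := le_nrm x i
    rw [h] at this
    simpa using this
  · rintro rfl; simp

lemma nrm_ev (i : Fin 3) : nrm (ev i) = 1 := by
  apply le_antisymm
  · rw [nrm_le_iff]
    intro j
    by_cases h : j = i
    · subst h; simp [ev]
    · simp [ev, Pi.single_eq_of_ne h]
  · simpa [ev] using le_nrm (ev i) i

lemma zadj_symm {x y : Z3} (h : zadj x y) : zadj y x := by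
  obtain ⟨i, h⟩ := h
  exact ⟨i, h.symm⟩

lemma nrm_of_zadj {x y : Z3} (h : zadj x y) : nrm (y - x) = 1 := by
  obtain ⟨i, h | h⟩ := h
  · rw [h, add_sub_cancel_left, nrm_ev]
  · rw [nrm_sub_comm, h, add_sub_cancel_left, nrm_ev]

lemma self_mem_cube (y : Z3) (r : ℕ) : y ∈ cube y r := by simp [mem_cube]

lemma mem_cube_symm {x y : Z3} {r : ℕ} : x ∈ cube y r ↔ y ∈ cube x r := by
  rw [mem_cube, mem_cube, nrm_sub_comm]

lemma cube_subset {x y : Z3} {r ρ R : ℕ} (h : x ∈ cube y r) (hR : r + ρ ≤ R) :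
    cube x ρ ⊆ cube y R := by
  intro z hz
  rw [mem_cube] at *
  have := nrm_triangle z x y
  omega

lemma cube_mono (y : Z3) {r R : ℕ} (h : r ≤ R) : cube y r ⊆ cube y R :=
  cube_subset (self_mem_cube y 0) (by omega)

lemma th_pos (x : Z3) : 0 < th x := by unfold th; positivity

lemma th_le_one (x : Z3) : th x ≤ 1 := by
  unfold th
  rw [div_le_one (by positivity)]
  have : (0 : ℝ) ≤ nrm x := Nat.cast_nonneg _
  nlinarith

lemma aa_pos (k : ℕ) : 0 < aa k := by unfold aa; positivity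

lemma aa_succ (k : ℕ) : aa (k + 1) = 1024 * aa k := by unfold aa; ring

lemma aa_mono {j k : ℕ} (h : j ≤ k) : aa j ≤ aa k := by
  unfold aa
  exact Nat.mul_le_mul_left _ (Nat.pow_le_pow_right (by norm_num) h)

lemma two_cc_le (k : ℕ) : 2 * cc k ≤ aa k := by
  cases k with
  | zero => simp [cc, aa]
  | succ k => simp only [cc, aa_succ]; omega

lemma cc_pos (k : ℕ) : 0 < cc k := by
  cases k with
  | zero => simp [cc]
  | succ k => have := aa_pos k; simp only [cc]; omega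

lemma cc_mono {j k : ℕ} (h : j ≤ k) : cc j ≤ cc k := by
  induction h with
  | refl => exact le_rfl
  | @step m _ ih =>
    have := two_cc_le m
    have e : cc (m + 1) = 5 * aa m := rfl
    rw [Nat.succ_eq_add_one, e]; omega

lemma hier_succ_subset (E : Set Z3) (k : ℕ) : hier E (k + 1) ⊆ hier E k := fun _ h => h.1

lemma hier_anti (E : Set Z3) {j k : ℕ} (h : j ≤ k) : hier E k ⊆ hier E j := by
  induction h with
  | refl => exact subset_rfl
  | step _ ih => exact (hier_succ_subset E _).trans ih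

lemma hier_subset (E : Set Z3) (k : ℕ) : hier E k ⊆ E := hier_anti E (Nat.zero_le k)

lemma one_le_wgt (E : Set Z3) (Kc : ℕ) (y : Z3) : 1 ≤ wgt E Kc y := by
  unfold wgt
  have : (0 : ℝ) ≤ ∑ j ∈ range Kc, by
      classical exact if ∃ x ∈ hier E j, nrm (x - y) ≤ 2 * aa j then ((cc (j + 1) : ℕ) : ℝ) ^ 10 else 0 :=
    Finset.sum_nonneg fun j _ => by split_ifs <;> positivity
  linarith

/-! ## Torus -/

lemma prj_add (L : ℕ) (x y : Z3) : prj L (x + y) = prj L x + prj L y := by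
  funext i; simp [prj]

lemma prj_sub (L : ℕ) (x y : Z3) : prj L (x - y) = prj L x - prj L y := by
  funext i; simp [prj]

lemma prj_neg (L : ℕ) (x : Z3) : prj L (-x) = -prj L x := by
  funext i; simp [prj]

@[simp] lemma prj_zero (L : ℕ) : prj L 0 = 0 := by
  funext i; simp [prj]

lemma prj_surj {L : ℕ} (x : TV L) : ∃ z : Z3, prj L z = x := by
  refine ⟨fun i => (x i).cast, ?_⟩
  funext i
  simp [prj]

lemma prj_inj {L : ℕ} {x y : Z3} (h : nrm (x - y) < L) (hp : prj L x = prj L y) : x = y := by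
  funext i
  have h1 : ((x i : ZMod L)) = (y i : ZMod L) := congrFun hp i
  rw [ZMod.intCast_eq_intCast_iff_dvd_sub] at h1
  have h2 := le_nrm (x - y) i
  have h3 : (y i - x i).natAbs < L := by
    have : (y i - x i).natAbs = (x i - y i).natAbs := by omega
    simp only [Pi.sub_apply] at h2
    omega
  have := Int.eq_zero_of_dvd_of_natAbs_lt_natAbs h1 (by simpa using h3)
  linarith

lemma prj_inj_cube {L : ℕ} {c x y : Z3} {ρ : ℕ} (hL : 2 * ρ < L) (hx : x ∈ cube c ρ)
    (hy : y ∈ cube c ρ) (hp : prj L x = prj L y) : x = y := by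
  refine prj_inj ?_ hp
  rw [mem_cube] at hx hy
  have := nrm_triangle x c y
  rw [nrm_sub_comm c y] at this
  omega

lemma mem_tball {L : ℕ} {x y : TV L} {r : ℕ} :
    y ∈ tball x r ↔ ∃ z : Z3, nrm z ≤ r ∧ y = x + prj L z := by
  simp only [tball, Finset.mem_image, mem_cube, sub_zero]
  constructor <;> rintro ⟨z, h1, h2⟩ <;> exact ⟨z, h1, h2.symm⟩

lemma mem_tball_prj {L : ℕ} {a : Z3} {y : TV L} {r : ℕ} :
    y ∈ tball (prj L a) r ↔ ∃ z ∈ cube a r, prj L z = y := by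
  rw [mem_tball]
  constructor
  · rintro ⟨z, h1, rfl⟩
    exact ⟨a + z, by simpa [mem_cube] using h1, prj_add _ _ _⟩
  · rintro ⟨z, h1, rfl⟩
    exact ⟨z - a, mem_cube.1 h1, by rw [prj_sub]; abel⟩

lemma card_tball_le {L : ℕ} (x : TV L) (r : ℕ) : (tball x r).card ≤ (2 * r + 1) ^ 3 := by
  unfold tball
  exact Finset.card_image_le.trans (card_cube _ _).le

lemma self_mem_tball {L : ℕ} (x : TV L) (r : ℕ) : x ∈ tball x r :=
  mem_tball.2 ⟨0, by simp, by simp⟩

lemma mem_tball_symm {L : ℕ} {x y : TV L} {r : ℕ} (h : y ∈ tball x r) : x ∈ tball y r := by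
  obtain ⟨z, h1, rfl⟩ := mem_tball.1 h
  exact mem_tball.2 ⟨-z, by rwa [nrm_neg], by rw [prj_neg]; abel⟩

lemma mem_tball_trans {L : ℕ} {x y z : TV L} {r ρ R : ℕ} (h : y ∈ tball x r) (h' : z ∈ tball y ρ)
    (hR : r + ρ ≤ R) : z ∈ tball x R := by
  obtain ⟨a, h1, rfl⟩ := mem_tball.1 h
  obtain ⟨b, h2, rfl⟩ := mem_tball.1 h'
  exact mem_tball.2 ⟨a + b, (nrm_add_le a b).trans (by omega), by rw [prj_add]; abel⟩

lemma tball_mono {L : ℕ} (x : TV L) {r R : ℕ} (h : r ≤ R) : tball x r ⊆ tball x R :=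
  fun _ hy => mem_tball_trans (self_mem_tball x 0) hy (by omega)

lemma torus_adj {L : ℕ} {x y : TV L} :
    (torus L).Adj x y ↔ x ≠ y ∧ ∃ i, y = x + prj L (ev i) ∨ x = y + prj L (ev i) := by
  simp only [torus, SimpleGraph.fromRel_adj]
  refine and_congr Iff.rfl ?_
  constructor
  · rintro (⟨i, h⟩ | ⟨i, h⟩)
    · exact ⟨i, Or.inl h⟩
    · exact ⟨i, Or.inr h⟩
  · rintro ⟨i, h | h⟩
    · exact Or.inl ⟨i, h⟩
    · exact Or.inr ⟨i, h⟩

lemma mem_tball_of_adj {L : ℕ} {x y : TV L} (h : (torus L).Adj x y) : y ∈ tball x 1 := by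
  obtain ⟨-, i, h | h⟩ := torus_adj.1 h
  · exact mem_tball.2 ⟨ev i, (nrm_ev i).le, h⟩
  · exact mem_tball_symm (mem_tball.2 ⟨ev i, (nrm_ev i).le, h⟩)

lemma torus_adj_prj {L : ℕ} (hL : 2 ≤ L) {x y : Z3} (h : zadj x y) :
    (torus L).Adj (prj L x) (prj L y) := by
  rw [torus_adj]
  refine ⟨fun hp => ?_, ?_⟩
  · have h1 := nrm_of_zadj h
    have := prj_inj (L := L) (x := y) (y := x) (by omega) hp.symm
    rw [this] at h1
    simp at h1
  · obtain ⟨i, h | h⟩ := h
    · exact ⟨i, Or.inl (by rw [h, prj_add])⟩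
    · exact ⟨i, Or.inr (by rw [h, prj_add])⟩

lemma card_torus_adj_le {L : ℕ} [NeZero L] (x : TV L) :
    (Finset.univ.filter fun y => (torus L).Adj x y).card ≤ 6 := by
  have hsub : (Finset.univ.filter fun y => (torus L).Adj x y) ⊆
      (Finset.univ : Finset (Fin 3 × Bool)).image
        fun q => if q.2 then x + prj L (ev q.1) else x - prj L (ev q.1) := by
    intro y hy
    obtain ⟨-, i, h | h⟩ := torus_adj.1 (Finset.mem_filter.1 hy).2
    · exact Finset.mem_image.2 ⟨(i, true), Finset.mem_univ _, by simp [h]⟩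
    · exact Finset.mem_image.2 ⟨(i, false), Finset.mem_univ _, by simp [h]⟩
  exact (Finset.card_le_card hsub).trans (Finset.card_image_le.trans (by simp))

/-! ## Finite probability -/

section Prob

variable {Ω : Type} [Fintype Ω] {wt : Ω → ℝ}

lemma Ex_mono (hw : ∀ o, 0 ≤ wt o) {f g : Ω → ℝ} (h : ∀ o, wt o ≠ 0 → f o ≤ g o) :
    Ex wt f ≤ Ex wt g := by
  refine Finset.sum_le_sum fun o _ => ?_
  by_cases h0 : wt o = 0
  · simp [h0]
  · exact mul_le_mul_of_nonneg_left (h o h0) (hw o)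

lemma Ex_congr {f g : Ω → ℝ} (h : ∀ o, wt o ≠ 0 → f o = g o) : Ex wt f = Ex wt g := by
  refine Finset.sum_congr rfl fun o _ => ?_
  by_cases h0 : wt o = 0
  · simp [h0]
  · rw [h o h0]

lemma Ex_nonneg (hw : ∀ o, 0 ≤ wt o) {f : Ω → ℝ} (h : ∀ o, wt o ≠ 0 → 0 ≤ f o) : 0 ≤ Ex wt f := by
  have := Ex_mono (f := fun _ => 0) hw h
  simpa [Ex] using this

lemma Ex_add (f g : Ω → ℝ) : Ex wt (fun o => f o + g o) = Ex wt f + Ex wt g := by
  simp [Ex, mul_add, Finset.sum_add_distrib]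

lemma Ex_sub (f g : Ω → ℝ) : Ex wt (fun o => f o - g o) = Ex wt f - Ex wt g := by
  simp [Ex, mul_sub, Finset.sum_sub_distrib]

lemma Ex_const_mul (c : ℝ) (f : Ω → ℝ) : Ex wt (fun o => c * f o) = c * Ex wt f := by
  simp only [Ex, Finset.mul_sum]
  exact Finset.sum_congr rfl fun o _ => by ring

lemma Ex_mul_const (c : ℝ) (f : Ω → ℝ) : Ex wt (fun o => f o * c) = Ex wt f * c := by
  simp only [Ex, Finset.sum_mul]
  exact Finset.sum_congr rfl fun o _ => by ring

lemma Ex_div_const (c : ℝ) (f : Ω → ℝ) : Ex wt (fun o => f o / c) = Ex wt f / c := by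
  simp only [div_eq_mul_inv, Ex_mul_const]

lemma Ex_const (h1 : ∑ o, wt o = 1) (c : ℝ) : Ex wt (fun _ => c) = c := by
  simp [Ex, ← Finset.sum_mul, h1]

lemma Ex_sum {ι : Type*} (S : Finset ι) (f : ι → Ω → ℝ) :
    Ex wt (fun o => ∑ i ∈ S, f i o) = ∑ i ∈ S, Ex wt (f i) := by
  simp only [Ex, Finset.mul_sum]
  exact Finset.sum_comm

lemma Ex_mul_le_sqrt (hw : ∀ o, 0 ≤ wt o) (f g : Ω → ℝ) :
    Ex wt (fun o => f o * g o) ≤
      Real.sqrt (Ex wt fun o => f o ^ 2) * Real.sqrt (Ex wt fun o => g o ^ 2) := by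
  have h := Real.sum_mul_le_sqrt_mul_sqrt Finset.univ (fun o => Real.sqrt (wt o) * f o)
    (fun o => Real.sqrt (wt o) * g o)
  have e1 : ∀ o, Real.sqrt (wt o) * f o * (Real.sqrt (wt o) * g o) = wt o * (f o * g o) := fun o => by
    have := Real.mul_self_sqrt (hw o)
    calc _ = (Real.sqrt (wt o) * Real.sqrt (wt o)) * (f o * g o) := by ring
      _ = _ := by rw [this]
  have e2 : ∀ (f : Ω → ℝ) o, (Real.sqrt (wt o) * f o) ^ 2 = wt o * f o ^ 2 := fun f o => by
    rw [mul_pow, Real.sq_sqrt (hw o)]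
  simpa only [e1, e2, Ex] using h

lemma Ex_le_sqrt (hw : ∀ o, 0 ≤ wt o) (h1 : ∑ o, wt o = 1) (f : Ω → ℝ) :
    Ex wt f ≤ Real.sqrt (Ex wt fun o => f o ^ 2) := by
  have := Ex_mul_le_sqrt hw f fun _ => 1
  simpa [Ex_const h1] using this

lemma Pr_nonneg (hw : ∀ o, 0 ≤ wt o) (P : Ω → Prop) : 0 ≤ Pr wt P :=
  Ex_nonneg hw fun o _ => by split_ifs <;> norm_num

lemma Pr_mono (hw : ∀ o, 0 ≤ wt o) {P Q : Ω → Prop} (h : ∀ o, wt o ≠ 0 → P o → Q o) :
    Pr wt P ≤ Pr wt Q := by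
  refine Ex_mono hw fun o ho => ?_
  by_cases hP : P o
  · simp [hP, h o ho hP]
  · simp only [hP, if_false]; split_ifs <;> norm_num

lemma Pr_or_le (hw : ∀ o, 0 ≤ wt o) (P Q : Ω → Prop) :
    Pr wt (fun o => P o ∨ Q o) ≤ Pr wt P + Pr wt Q := by
  unfold Pr
  rw [← Ex_add]
  refine Ex_mono hw fun o _ => ?_
  by_cases hP : P o <;> by_cases hQ : Q o <;> simp [hP, hQ]

lemma Pr_exists_le (hw : ∀ o, 0 ≤ wt o) {ι : Type*} (S : Finset ι) (P : ι → Ω → Prop) :
    Pr wt (fun o => ∃ i ∈ S, P i o) ≤ ∑ i ∈ S, Pr wt (P i) := by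
  classical
  unfold Pr
  rw [← Ex_sum]
  refine Ex_mono hw fun o _ => ?_
  split_ifs with h
  · obtain ⟨i, hi, hP⟩ := h
    have := Finset.single_le_sum (f := fun i => if P i o then (1 : ℝ) else 0)
      (fun j _ => by split_ifs <;> norm_num) hi
    simpa [hP] using this
  · exact Finset.sum_nonneg fun j _ => by split_ifs <;> norm_num

end Prob

/-! ## Kernels -/

section Ker

variable {Y : Type} [Fintype Y] [DecidableEq Y]

lemma bit_nonneg (b : Bool) : 0 ≤ bit b := by unfold bit; split_ifs <;> norm_num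

lemma bit_le_one (b : Bool) : bit b ≤ 1 := by unfold bit; split_ifs <;> norm_num

lemma lz_mulVec (σ : Equiv.Perm Y) (q : ℝ) (f : Y → ℝ) (y : Y) :
    (lz σ q *ᵥ f) y = (1 - q) * f y + q * f (σ y) := by
  simp [lz, Matrix.mulVec, dotProduct, add_mul, Finset.sum_add_distrib]

lemma lz_dstoch (σ : Equiv.Perm Y) {q : ℝ} (h0 : 0 ≤ q) (h1 : q ≤ 1) : DStoch (lz σ q) := by
  refine ⟨fun v w => ?_, fun v => ?_, fun w => ?_⟩
  · simp only [lz, Matrix.of_apply]
    have : 0 ≤ 1 - q := by linarith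
    positivity
  · simp [lz, Finset.sum_add_distrib]
  · have : ∀ v, (w = σ v) = (σ.symm w = v) := fun v => by
      rw [Equiv.symm_apply_eq]
    simp [lz, Finset.sum_add_distrib, this]

omit [Fintype Y] in
lemma lz_swap_transpose (a b : Y) (q : ℝ) : (lz (Equiv.swap a b) q)ᵀ = lz (Equiv.swap a b) q := by
  ext v w
  have : (v = Equiv.swap a b w) = (w = Equiv.swap a b v) := by
    apply propext
    constructor <;> rintro rfl <;> simp
  simp [lz, this, eq_comm (a := v) (b := w)]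

lemma dstoch_one : DStoch (1 : Matrix Y Y ℝ) := by
  refine ⟨fun v w => ?_, fun v => ?_, fun w => ?_⟩
  · rw [Matrix.one_apply]; split_ifs <;> norm_num
  · simp [Matrix.one_apply]
  · simp [Matrix.one_apply]

omit [DecidableEq Y] in
lemma DStoch.mul {A B : Matrix Y Y ℝ} (hA : DStoch A) (hB : DStoch B) : DStoch (A * B) := by
  refine ⟨fun v w => ?_, fun v => ?_, fun w => ?_⟩
  · exact Finset.sum_nonneg fun x _ => mul_nonneg (hA.1 _ _) (hB.1 _ _)
  · simp only [Matrix.mul_apply]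
    rw [Finset.sum_comm]
    simp [← Finset.mul_sum, hB.2.1, hA.2.1]
  · simp only [Matrix.mul_apply]
    rw [Finset.sum_comm]
    simp [← Finset.sum_mul, hB.2.2, hA.2.2]

omit [DecidableEq Y] in
lemma DStoch.transpose {A : Matrix Y Y ℝ} (hA : DStoch A) : DStoch Aᵀ :=
  ⟨fun v w => hA.1 w v, hA.2.2, hA.2.1⟩

omit [DecidableEq Y] in
lemma DStoch.le_one {A : Matrix Y Y ℝ} (hA : DStoch A) (v w : Y) : A v w ≤ 1 := by
  rw [← hA.2.1 v]
  exact Finset.single_le_sum (f := fun w => A v w) (fun x _ => hA.1 v x) (Finset.mem_univ w)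

@[simp] lemma kp_zero (A : ℕ → Matrix Y Y ℝ) (t : ℕ) : kp A t 0 = 1 := rfl

lemma kp_succ (A : ℕ → Matrix Y Y ℝ) (t len : ℕ) : kp A t (len + 1) = kp A t len * A (t + len) := rfl

lemma kp_one (A : ℕ → Matrix Y Y ℝ) (t : ℕ) : kp A t 1 = A t := by simp [kp_succ]

lemma kp_add (A : ℕ → Matrix Y Y ℝ) (t i j : ℕ) : kp A t (i + j) = kp A t i * kp A (t + i) j := by
  induction j with
  | zero => simp
  | succ j ih => rw [← add_assoc, kp_succ, kp_succ, ih, Matrix.mul_assoc, add_assoc]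

lemma kp_succ' (A : ℕ → Matrix Y Y ℝ) (t len : ℕ) :
    kp A t (len + 1) = A t * kp A (t + 1) len := by
  rw [add_comm len 1, kp_add, kp_one]

lemma kp_congr {A B : ℕ → Matrix Y Y ℝ} {t t' len : ℕ} (h : ∀ j < len, A (t + j) = B (t' + j)) :
    kp A t len = kp B t' len := by
  induction len with
  | zero => rfl
  | succ len ih => rw [kp_succ, kp_succ, ih fun j hj => h j (by omega), h len (by omega)]

lemma kp_kp (A : ℕ → Matrix Y Y ℝ) (M k len : ℕ) :
    kp (fun k => kp A (k * M) M) k len = kp A (k * M) (len * M) := by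
  induction len with
  | zero => simp
  | succ len ih => rw [kp_succ, ih, Nat.succ_mul, kp_add, add_mul]

lemma kp_const (A : Matrix Y Y ℝ) (t len : ℕ) : kp (fun _ => A) t len = A ^ len := by
  induction len with
  | zero => simp
  | succ len ih => rw [kp_succ, ih, pow_succ]

/-- reversal of an ordered product -/
lemma kp_transpose {A B : ℕ → Matrix Y Y ℝ} {t t' len : ℕ}
    (h : ∀ j < len, B (t' + j) = (A (t + (len - 1 - j)))ᵀ) : kp B t' len = (kp A t len)ᵀ := by
  induction len generalizing t' with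
  | zero => simp
  | succ len ih =>
    rw [kp_succ' B, kp_succ A, Matrix.transpose_mul]
    have h0 := h 0 (by omega)
    simp only [add_zero, Nat.add_sub_cancel, tsub_zero] at h0
    rw [h0, ih (t' := t' + 1)]
    intro j hj
    have := h (j + 1) (by omega)
    rw [show t' + 1 + j = t' + (j + 1) by ring, this]
    congr 3
    omega

lemma kp_nonneg {A : ℕ → Matrix Y Y ℝ} (h : ∀ k v w, 0 ≤ A k v w) (t len : ℕ) (v w : Y) :
    0 ≤ kp A t len v w := by
  induction len generalizing w with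
  | zero => exact dstoch_one.1 v w
  | succ len ih => exact Finset.sum_nonneg fun x _ => mul_nonneg (ih x) (h _ _ _)

lemma kp_mono {A B : ℕ → Matrix Y Y ℝ} (h0 : ∀ k v w, 0 ≤ A k v w) (h : ∀ k v w, A k v w ≤ B k v w)
    (t len : ℕ) (v w : Y) : kp A t len v w ≤ kp B t len v w := by
  induction len generalizing w with
  | zero => exact le_rfl
  | succ len ih =>
    exact Finset.sum_le_sum fun x _ =>
      mul_le_mul (ih x) (h _ _ _) (h0 _ _ _) ((kp_nonneg h0 _ _ _ _).trans (ih x))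

lemma kp_dstoch {A : ℕ → Matrix Y Y ℝ} (h : ∀ k, DStoch (A k)) (t len : ℕ) :
    DStoch (kp A t len) := by
  induction len with
  | zero => exact dstoch_one
  | succ len ih => exact ih.mul (h _)

end Ker

section Gate

variable {L s : ℕ} [NeZero L] {g : GD (XX L s)} (om : ℕ → Bool) (U : ℕ → Finset (XX L s))

omit [NeZero L] in
lemma GD.Ok.qt_nonneg (hg : g.Ok) (t : ℕ) : 0 ≤ g.qt om U t := by
  unfold GD.qt; split_ifs
  · exact hg.gp_nonneg t
  · exact bit_nonneg _

omit [NeZero L] in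
lemma GD.Ok.qt_le_one (hg : g.Ok) (t : ℕ) : g.qt om U t ≤ 1 := by
  unfold GD.qt; split_ifs
  · linarith [hg.gp_le t]
  · exact bit_le_one _

omit [NeZero L] in
lemma GD.Ok.qt_le (hg : g.Ok) (t : ℕ) : g.qt om U t ≤ g.gp t + bit (om t) := by
  unfold GD.qt; split_ifs
  · linarith [bit_nonneg (om t)]
  · linarith [hg.gp_nonneg t]

lemma GD.Ok.Kt_dstoch (hg : g.Ok) (t : ℕ) : DStoch (g.Kt om U t) :=
  lz_dstoch _ (hg.qt_nonneg om U t) (hg.qt_le_one om U t)

lemma GD.Ok.Kf_dstoch (hg : g.Ok) (t : ℕ) : DStoch (g.Kf t) :=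
  lz_dstoch _ (hg.gp_nonneg t) (by linarith [hg.gp_le t])

lemma GD.Ok.Kb_nonneg (hg : g.Ok) (t : ℕ) (v w : XX L s) : 0 ≤ g.Kb om U t v w :=
  le_min ((hg.Kt_dstoch om U t).1 v w) ((hg.Kf_dstoch t).1 v w)

lemma GD.Ok.Ks_dstoch (hg : g.Ok) (k : ℕ) : DStoch (g.Ks om U k) := kp_dstoch (hg.Kt_dstoch om U) _ _

lemma GD.Ok.Kfs_dstoch (hg : g.Ok) (k : ℕ) : DStoch (g.Kfs k) := kp_dstoch hg.Kf_dstoch _ _

lemma GD.Ok.Kbs_nonneg (hg : g.Ok) (k : ℕ) (v w : XX L s) : 0 ≤ g.Kbs om U k v w :=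
  kp_nonneg (hg.Kb_nonneg om U) _ _ _ _

lemma GD.Ok.Kbs_le_Ks (hg : g.Ok) (k : ℕ) (v w : XX L s) : g.Kbs om U k v w ≤ g.Ks om U k v w :=
  kp_mono (hg.Kb_nonneg om U) (fun _ _ _ => min_le_left _ _) _ _ _ _

lemma GD.Ok.Kbs_le_Kfs (hg : g.Ok) (k : ℕ) (v w : XX L s) : g.Kbs om U k v w ≤ g.Kfs k v w :=
  kp_mono (hg.Kb_nonneg om U) (fun _ _ _ => min_le_right _ _) _ _ _ _

omit [NeZero L] in
/-- the walk never enters the obstacle set, one gate -/
lemma GD.Inv.Kt_notMem {om : ℕ → Bool} {U : ℕ → Finset (XX L s)} (hi : g.Inv om U) {t : ℕ}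
    {v w : XX L s} (hv : v ∉ U t) (hK : g.Kt om U t v w ≠ 0) : w ∉ U (t + 1) := by
  have h1 := hi t
  by_cases hf : g.ga t ∉ U t ∧ g.gb t ∉ U t
  · have hw : w = v ∨ w = Equiv.swap (g.ga t) (g.gb t) v := by
      by_contra hc
      push Not at hc
      apply hK
      simp [GD.Kt, lz, hc.1, hc.2]
    have hsw : Equiv.swap (g.ga t) (g.gb t) v ∉ U t := by
      rw [Equiv.swap_apply_def]
      split_ifs
      · exact hf.2
      · exact hf.1
      · exact hv
    cases hom : om t with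
    | false =>
      simp only [hom, Bool.false_eq_true, if_false] at h1
      rcases hw with rfl | rfl
      · rwa [h1]
      · rwa [h1]
    | true =>
      simp only [hom, if_true] at h1
      rcases hw with rfl | rfl
      · have := h1 (Equiv.swap (g.ga t) (g.gb t) w)
        rw [Equiv.swap_apply_self] at this
        rwa [this]
      · rwa [h1]
  · cases hom : om t with
    | false =>
      simp only [hom, Bool.false_eq_true, if_false] at h1
      have : w = v := by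
        by_contra hc
        apply hK
        simp [GD.Kt, GD.qt, hf, hom, bit, lz, hc]
      rw [this, h1]; exact hv
    | true =>
      simp only [hom, if_true] at h1
      have : w = Equiv.swap (g.ga t) (g.gb t) v := by
        by_contra hc
        apply hK
        simp [GD.Kt, GD.qt, hf, hom, bit, lz, hc]
      rw [this, h1]; exact hv

lemma GD.Inv.kp_notMem {om : ℕ → Bool} {U : ℕ → Finset (XX L s)} (hi : g.Inv om U) {t len : ℕ}
    {v w : XX L s} (hv : v ∉ U t) (hK : kp (g.Kt om U) t len v w ≠ 0) : w ∉ U (t + len) := by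
  induction len generalizing w with
  | zero =>
    have : v = w := by
      by_contra hc
      exact hK (by simp [hc])
    rw [← this]; exact hv
  | succ len ih =>
    rw [kp_succ, Matrix.mul_apply] at hK
    obtain ⟨x, -, hx⟩ := Finset.exists_ne_zero_of_sum_ne_zero hK
    exact hi.Kt_notMem (ih (left_ne_zero_of_mul hx)) (right_ne_zero_of_mul hx)

lemma GD.Inv.Ks_notMem {om : ℕ → Bool} {U : ℕ → Finset (XX L s)} (hi : g.Inv om U) {k : ℕ}
    {v w : XX L s} (hv : v ∉ U (k * g.M)) (hK : g.Ks om U k v w ≠ 0) : w ∉ U ((k + 1) * g.M) := by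
  rw [Nat.succ_mul]
  exact hi.kp_notMem hv hK

end Gate

end Vale.Agent.P361
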