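import Vale.Agent.P361.StabA

set_option linter.all false

namespace Vale.Agent.P361

open Matrix Finset Function ComplexConjugate Filter Topology

variable {I X : Type} [Fintype I] [DecidableEq I] [Fintype X] [DecidableEq X] {c : Circ I X}
  {d : I × X → ℝ} {ζ : ℝ}

/-- Regularised local weights of the cut function. -/
noncomputable def stL (d : I × X → ℝ) (B : Finset (I × X)) (ε : ℝ) (S : Finset (I × X)) (v : I × X) :
    Bool → Bool → ℝ :=
  if v ∈ B then (if v ∈ S then fun o _ => if o then 1 else ε else fun o _ => if o then ε else 1)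
  else stG ε (d v)

lemma stL_cast (hd0 : ∀ v, 0 ≤ d v) (B S : Finset (I × X)) {ε : ℝ} (hε : 0 < ε) {u : ℂ}
    (hu : 0 < u.re) (v : I × X) :
    (v ∈ B → ∃ κ z w : ℂ, κ ≠ 0 ∧ 0 < (conj u * z).re ∧ 0 < (conj u * w).re ∧
      (fun o i => (stL d B ε S v o i : ℂ)) = stE κ z w) ∧
    (v ∉ B → ∃ ε' d' : ℝ, 0 < ε' ∧ 0 ≤ d' ∧ (fun o i => (stL d B ε S v o i : ℂ)) = stG (ε' : ℂ) d') := by
  have h1 : ∀ t : ℝ, 0 < t → 0 < (conj u * (t : ℂ)).re := fun t ht => by
    simpa [Complex.mul_re] using mul_pos hu ht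
  have h2 : (ε : ℂ) ≠ 0 := Complex.ofReal_ne_zero.2 hε.ne'
  refine ⟨fun hv => ?_, fun hv => ⟨ε, d v, hε, hd0 v, ?_⟩⟩
  · by_cases hS : v ∈ S
    · refine ⟨ε, (ε⁻¹ : ℝ), (1 : ℝ), h2, h1 _ (inv_pos.2 hε), h1 _ one_pos, ?_⟩
      funext o i
      cases o <;> simp [stL, hv, hS, stE, h2]
    · refine ⟨1, ε, (1 : ℝ), one_ne_zero, h1 _ hε, h1 _ one_pos, ?_⟩
      funext o i
      cases o <;> simp [stL, hv, hS, stE]
  · funext o i
    cases o <;> cases i <;> simp [stL, hv, stG, stE]

lemma stL_pos (hc : c.Ok) (hd0 : ∀ v, 0 ≤ d v) (B S : Finset (I × X)) {ε : ℝ} (hε : 0 < ε) :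
    0 < stF c c.pw (stL d B ε S) := by
  refine lt_of_le_of_ne (sum_nonneg fun ω _ => mul_nonneg (prod_nonneg fun i _ => ?_)
    (sum_nonneg fun σ _ => prod_nonneg fun v _ => ?_)) fun h => ?_
  · have := hc.gp_nonneg i
    have := hc.gp_le i
    split_ifs <;> linarith
  · have := hd0 v
    unfold stL stG stE
    split_ifs <;> first | positivity | (dsimp only; split_ifs <;> positivity)
  · refine stF_ne hc (u := 1) (by simp) Bᶜ (fun v o i => (stL d B ε S v o i : ℂ))
      (fun v hv => (stL_cast hd0 B S hε (by simp) v).1 (by simpa using hv))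
      (fun v hv => (stL_cast hd0 B S hε (u := 1) (by simp) v).2 (by simpa using hv)) ?_
    rw [← stF_cast, ← h, Complex.ofReal_zero]

lemma stL_sub (hc : c.Ok) (hd0 : ∀ v, 0 ≤ d v) {B S : Finset (I × X)} {ε : ℝ} (hε : 0 < ε)
    {a b : I × X} (ha : a ∈ B) (hb : b ∈ B) (hab : a ≠ b) (haS : a ∉ S) (hbS : b ∉ S) :
    stF c c.pw (stL d B ε (insert a (insert b S))) * stF c c.pw (stL d B ε S) ≤
      stF c c.pw (stL d B ε (insert a S)) * stF c c.pw (stL d B ε (insert b S)) := by
  obtain ⟨Ψ, hΨ⟩ : ∃ Ψ : (Bool → Bool → ℝ) → (Bool → Bool → ℝ) → ℝ, ∀ μ ν,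
    Ψ μ ν = stF c c.pw (update (update (stL d B ε S) a μ) b ν) := ⟨_, fun _ _ => rfl⟩
  obtain ⟨e0, he0⟩ : ∃ e0 : Bool → Bool → ℝ, e0 = fun o _ => if o then 0 else 1 := ⟨_, rfl⟩
  obtain ⟨e1, he1⟩ : ∃ e1 : Bool → Bool → ℝ, e1 = fun o _ => if o then 1 else 0 := ⟨_, rfl⟩
  have h1 : Ψ e0 e0 * Ψ e1 e1 ≤ Ψ e1 e0 * Ψ e0 e1 := by
    refine st_rayleigh fun u x y hu hx hy => ?_
    have h1u : 0 < (conj u * 1).re := by simpa using hu
    have := stF_ne hc hu Bᶜ (update (update (fun v o i => (stL d B ε S v o i : ℂ)) a (stE 1 x 1)) b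
      (stE 1 y 1)) (fun v hv => ?_) fun v hv => ?_
    · have f1 : ∀ z : ℂ, stE 1 z 1 = fun o i => (e0 o i : ℂ) + z * (e1 o i : ℂ) := fun z => by
        funext o i; cases o <;> simp [stE, he0, he1]
      have f2 : ∀ μ ν, (Ψ μ ν : ℂ) = stF c (fun ω => (c.pw ω : ℂ))
          (update (update (fun v o i => (stL d B ε S v o i : ℂ)) b fun o i => (ν o i : ℂ)) a
            fun o i => (μ o i : ℂ)) := fun μ ν => by
        rw [hΨ, stF_cast, update_comm hab]
        congr 1
        funext v
        by_cases h : v = a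
        · simp [h]
        · by_cases h' : v = b
          · subst h'; simp [h]
          · simp [h, h']
      rw [f1 y, stF_add, update_comm hab, update_comm hab, f1 x, stF_add, stF_add] at this
      simpa only [f2] using this
    · by_cases h' : v = b
      · exact ⟨1, y, 1, one_ne_zero, hy, h1u, by rw [h', update_self]⟩
      · by_cases h : v = a
        · exact ⟨1, x, 1, one_ne_zero, hx, h1u, by rw [update_of_ne h', h, update_self]⟩
        · rw [update_of_ne h', update_of_ne h]
          exact (stL_cast hd0 B S hε hu v).1 (by simpa using hv)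
    · have hv' : v ∉ B := by simpa using hv
      rw [update_of_ne (ne_of_mem_of_not_mem hb hv').symm, update_of_ne (ne_of_mem_of_not_mem ha hv').symm]
      exact (stL_cast hd0 B S hε hu v).2 hv'
  have l1 : ∀ μ ν ν' x, Ψ μ (fun o i => ν o i + x * ν' o i) = Ψ μ ν + x * Ψ μ ν' :=
    fun μ ν ν' x => by simp only [hΨ, stF_add]
  have l2 : ∀ μ μ' ν x, Ψ (fun o i => μ o i + x * μ' o i) ν = Ψ μ ν + x * Ψ μ' ν :=
    fun μ μ' ν x => by simp only [hΨ, update_comm hab, stF_add]
  have g : ∀ T : Finset (I × X), (∀ v, v ≠ a → v ≠ b → (v ∈ T ↔ v ∈ S)) →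
      stF c c.pw (stL d B ε T) = Ψ (stL d B ε T a) (stL d B ε T b) := fun T hT => by
    rw [hΨ]
    congr 1
    funext v
    by_cases h' : v = b
    · rw [h', update_self]
    · by_cases h : v = a
      · rw [update_of_ne h', h, update_self]
      · rw [update_of_ne h', update_of_ne h]
        simp only [stL, hT v h h']
  have m1 : (fun (o _ : Bool) => if o then (1 : ℝ) else ε) = fun o i => e1 o i + ε * e0 o i := by
    funext o i; cases o <;> simp [he0, he1]
  have m0 : (fun (o _ : Bool) => if o then ε else (1 : ℝ)) = fun o i => e0 o i + ε * e1 o i := by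
    funext o i; cases o <;> simp [he0, he1]
  rw [g _ fun v h h' => by simp [h, h'], g S fun v h h' => Iff.rfl, g (insert a S) fun v h h' => by simp [h],
    g (insert b S) fun v h h' => by simp [h']]
  simp only [stL, ha, hb, hab, hab.symm, haS, hbS, mem_insert, true_or, or_true, or_self, if_true,
    if_false, m1, m0, l1, l2]
  nlinarith [mul_le_mul_of_nonneg_left h1 (sq_nonneg (1 - ε ^ 2))]

lemma st_chain {Y : Type} [DecidableEq Y] {h : Finset Y → ℝ} {B : Finset Y} (h0 : ∀ S, 0 < h S)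
    (h1 : ∀ S a b, a ∈ B → b ∈ B → a ≠ b → a ∉ S → b ∉ S →
      h (insert a (insert b S)) * h S ≤ h (insert a S) * h (insert b S)) :
    h B * h ∅ ^ B.card ≤ h ∅ * ∏ a ∈ B, h {a} := by
  have k1 : ∀ S ⊆ B, ∀ a ∈ B, a ∉ S → h (insert a S) * h ∅ ≤ h S * h {a} := by
    intro S
    induction S using Finset.induction_on with
    | empty => intro _ a _ _; rw [mul_comm]; rfl
    | insert b S hb ih =>
      intro hS a ha haS
      have a1 := ih ((subset_insert _ _).trans hS) a ha fun h => haS (mem_insert_of_mem h)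
      have a2 := h1 S a b ha (hS (mem_insert_self _ _)) (fun h => haS (h ▸ mem_insert_self _ _))
        (fun h => haS (mem_insert_of_mem h)) hb
      refine le_of_mul_le_mul_left ?_ (h0 S)
      nlinarith [mul_le_mul_of_nonneg_left a1 (h0 (insert b S)).le,
        mul_le_mul_of_nonneg_left a2 (h0 ∅).le]
  have k2 : ∀ S ⊆ B, h S * h ∅ ^ S.card ≤ h ∅ * ∏ a ∈ S, h {a} := by
    intro S
    induction S using Finset.induction_on with
    | empty => intro _; simp
    | insert b S hb ih =>
      intro hS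
      have a1 := ih ((subset_insert _ _).trans hS)
      have a2 := k1 S ((subset_insert _ _).trans hS) b (hS (mem_insert_self _ _)) hb
      rw [card_insert_of_notMem hb, prod_insert hb, pow_succ]
      nlinarith [mul_le_mul_of_nonneg_left a1 (h0 {b}).le,
        mul_le_mul_of_nonneg_left a2 (pow_pos (h0 ∅) S.card).le]
  exact k2 B subset_rfl

lemma stL_zero (c : Circ I X) (d : I × X → ℝ) {B S : Finset (I × X)} (hS : S ⊆ B) :
    stF c c.pw (stL d B 0 S) = c.cut d B S := by
  refine sum_congr rfl fun ω _ => congrArg _ (sum_congr rfl fun σ _ => ?_)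
  split_ifs with h
  · rw [← univ_inter (σ \ B), ← prod_ite_mem]
    refine prod_congr rfl fun v _ => ?_
    by_cases hv : v ∈ B
    · have h2 : v ∈ S ↔ v ∈ σ := by rw [← h.2, mem_inter, and_iff_left hv]
      by_cases h3 : v ∈ σ <;> simp [stL, hv, h2, h3]
    · have h2 := h.1 ((c.perm ω).symm v)
      rw [Equiv.apply_symm_apply] at h2
      by_cases h3 : v ∈ σ <;> simp [stL, stG, hv, ← h2 hv, h3]
  · rw [not_and_or] at h
    rcases h with h | h
    · obtain ⟨y, hy⟩ := not_forall.1 h
      obtain ⟨h1, h2⟩ := Classical.not_imp.1 hy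
      refine prod_eq_zero (mem_univ (c.perm ω y)) ?_
      by_cases h3 : y ∈ σ <;> by_cases h4 : c.perm ω y ∈ σ <;> simp_all [stL, stG]
    · obtain ⟨v, hv⟩ := not_forall.1 fun h' => h (Finset.ext h')
      refine prod_eq_zero (mem_univ v) ?_
      have := @hS v
      by_cases h3 : v ∈ σ <;> by_cases h4 : v ∈ S <;> by_cases h5 : v ∈ B <;> simp_all [stL]

lemma stL_cont (c : Circ I X) (d : I × X → ℝ) (B S : Finset (I × X)) :
    Continuous fun ε => stF c c.pw (stL d B ε S) := by
  refine continuous_finset_sum _ fun ω _ => continuous_const.mul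
    (continuous_finset_sum _ fun σ _ => continuous_finset_prod _ fun v _ => ?_)
  generalize decide (v ∈ σ) = o
  generalize decide ((c.perm ω).symm v ∈ σ) = i
  by_cases h1 : v ∈ B <;> by_cases h2 : v ∈ S <;> cases o <;> cases i <;>
    simp [stL, stG, stE, h1, h2] <;> fun_prop

theorem cut_stab (hc : c.Ok) (hd0 : ∀ v, 0 ≤ d v) (B : Finset (I × X)) :
    c.cut d B B * c.cut d B ∅ ^ B.card ≤ c.cut d B ∅ * ∏ a ∈ B, c.cut d B {a} := by
  rw [← stL_zero c d subset_rfl, ← stL_zero c d (empty_subset B),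
    ← prod_congr rfl fun a ha => stL_zero c d (singleton_subset_iff.2 ha)]
  refine le_of_tendsto_of_tendsto (b := 𝓝[>] (0 : ℝ))
    (((stL_cont c d B B).mul ((stL_cont c d B ∅).pow B.card)).continuousAt.tendsto.mono_left
      nhdsWithin_le_nhds)
    (((stL_cont c d B ∅).mul (continuous_finset_prod B fun a _ =>
      stL_cont c d B {a})).continuousAt.tendsto.mono_left nhdsWithin_le_nhds) ?_
  filter_upwards [self_mem_nhdsWithin] with ε hε
  exact st_chain (h := fun S => stF c c.pw (stL d B ε S)) (fun S => stL_pos hc hd0 B S hε)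
    fun S a b ha hb hab haS hbS => stL_sub hc hd0 hε ha hb hab haS hbS

end Vale.Agent.P361
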