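import Vale.Agent.P361.Cut
import Vale.Agent.P361.Stab

set_option linter.all false

namespace Vale.Agent.P361

open Matrix Finset

variable {I X : Type} [Fintype I] [DecidableEq I] [Fintype X] [DecidableEq X] {c : Circ I X}
  {d : I × X → ℝ} {ζ : ℝ}

theorem num_le_prod (hc : c.Ok) (hd0 : ∀ v, 0 ≤ d v) (hd : ∀ v, d v ≤ ζ) (hζ : ζ < 1)
    (B : Finset (I × X)) :
    c.num d B ≤ (∏ a ∈ B, c.rr (pin d B) B a) * c.num d ∅ := by
  have p0 : ∀ v, 0 ≤ pin d B v := fun v => by unfold pin; split_ifs; exacts [le_rfl, hd0 v]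
  have p1 : ∀ v, pin d B v ≤ d v := fun v => by unfold pin; split_ifs; exacts [hd0 v, le_rfl]
  have h1 : c.num d B ≤ c.cut d B B := sum_le_sum fun ω _ => mul_le_mul_of_nonneg_left
    (sum_le_sum fun U _ => by
      by_cases h : IsInv (c.perm ω) U ∧ B ⊆ U
      · rw [if_pos h, if_pos ⟨fun y _ => h.1 y, inter_eq_right.2 h.2⟩]
        exact prod_le_prod_of_subset_of_le_one sdiff_subset (fun v _ => hd0 v)
          fun v _ _ => (hd v).trans hζ.le
      · rw [if_neg h]
        split_ifs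
        exacts [prod_nonneg fun v _ => hd0 v, le_rfl]) (pw_nonneg hc ω)
  have h2 : c.num (pin d B) ∅ ≤ c.num d ∅ := sum_le_sum fun ω _ => mul_le_mul_of_nonneg_left
    (sum_le_sum fun U _ => by
      split_ifs
      exacts [prod_le_prod (fun v _ => p0 v) fun v _ => p1 v, le_rfl]) (pw_nonneg hc ω)
  have h3 := cut_stab hc hd0 B
  have h4 := one_pos.trans_le (one_le_num hc p0)
  rw [cut_empty, prod_congr rfl fun a ha => cut_single hc hd0 hd hζ ha, prod_mul_distrib,
    prod_const, mul_left_comm, mul_comm] at h3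
  refine h1.trans ((le_of_mul_le_mul_left h3 (pow_pos h4 _)).trans ?_)
  rw [mul_comm]
  exact mul_le_mul_of_nonneg_left h2 (prod_nonneg fun a _ =>
    rr_nonneg hc p0 (fun v => (p1 v).trans (hd v)) hζ B a)

theorem num_single_eq (hc : c.Ok) (hd0 : ∀ v, 0 ≤ d v) (hd : ∀ v, d v ≤ ζ) (hζ : ζ < 1)
    (a : I × X) :
    c.num d {a} * (1 + d a * c.rr (pin d {a}) {a} a) =
      d a * c.rr (pin d {a}) {a} a * c.num d ∅ := by
  have h1 : c.num d {a} = d a * c.cut d {a} {a} := by
    rw [Circ.num, Circ.cut, mul_sum]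
    refine sum_congr rfl fun ω _ => ?_
    rw [mul_left_comm, mul_sum _ _ (d a)]
    refine congrArg _ (sum_congr rfl fun U _ => ?_)
    by_cases h : IsInv (c.perm ω) U ∧ {a} ⊆ U
    · rw [if_pos h, if_pos ⟨fun y _ => h.1 y, inter_eq_right.2 h.2⟩, sdiff_singleton_eq_erase,
        mul_prod_erase _ _ (singleton_subset_iff.1 h.2)]
    · rw [if_neg h, if_neg, mul_zero]
      refine fun h' => h ⟨cutA_inv fun y hy => ?_, inter_eq_right.1 h'.2⟩
      by_cases hy' : c.perm ω y ∈ ({a} : Finset (I × X))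
      · exact inter_eq_right.1 h'.2 hy'
      · exact (h'.1 y hy').2 hy
  have h2 : c.num d ∅ = c.num (pin d {a}) ∅ + c.num d {a} := by
    simp only [Circ.num, ← sum_add_distrib, ← mul_add]
    refine sum_congr rfl fun ω _ => congrArg _ (sum_congr rfl fun U _ => ?_)
    by_cases h : IsInv (c.perm ω) U
    · by_cases hU : a ∈ U
      · rw [cutA_pin0 d fun h' => disjoint_singleton_right.1 h' hU]
        simp [h, hU]
      · rw [cutA_pin d (disjoint_singleton_right.2 hU)]
        simp [h, hU]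
    · simp [h]
  rw [h2, h1, cut_single hc hd0 hd hζ (mem_singleton_self a)]
  ring

end Vale.Agent.P361
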