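import Vale.Agent.P361.LinesA
import Vale.Agent.P361.CutFin

namespace Vale.Agent.P361

open Matrix Finset

lemma boot_amgm {Y : Type} (S : Finset Y) (z : Y → ℝ) (hz : ∀ a ∈ S, 0 ≤ z a) {ε : ℝ}
    (h : ∑ a ∈ S, z a ≤ S.card * ε) : ∏ a ∈ S, z a ≤ ε ^ S.card := by
  rcases S.eq_empty_or_nonempty with rfl | hS
  · simp
  have hm : (0 : ℝ) < S.card := by exact_mod_cast hS.card_pos
  have hs : 0 ≤ ∑ a ∈ S, z a := Finset.sum_nonneg hz
  have hε : 0 ≤ ε := by
    by_contra hc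
    push Not at hc
    nlinarith
  rcases hε.eq_or_lt with rfl | hε
  · have h0 : ∑ a ∈ S, z a = 0 := le_antisymm (by simpa using h) hs
    rw [Finset.sum_eq_zero_iff_of_nonneg hz] at h0
    obtain ⟨a, ha⟩ := hS
    rw [Finset.prod_eq_zero ha (h0 a ha)]
    positivity
  · have h1 : ∏ a ∈ S, z a ≤ ∏ a ∈ S, (ε * Real.exp (z a / ε - 1)) := by
      refine Finset.prod_le_prod hz fun a _ => ?_
      have := Real.add_one_le_exp (z a / ε - 1)
      have h2 : z a = ε * (z a / ε) := by field_simp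
      calc z a = ε * (z a / ε) := h2
        _ ≤ ε * Real.exp (z a / ε - 1) := mul_le_mul_of_nonneg_left (by linarith) hε.le
    rw [Finset.prod_mul_distrib, Finset.prod_const, ← Real.exp_sum] at h1
    have h3 : ∑ a ∈ S, (z a / ε - 1) ≤ 0 := by
      rw [Finset.sum_sub_distrib, ← Finset.sum_div]
      simp only [Finset.sum_const, nsmul_eq_mul, mul_one]
      rw [sub_nonpos, div_le_iff₀ hε]
      exact h
    have h4 : Real.exp (∑ a ∈ S, (z a / ε - 1)) ≤ 1 := Real.exp_le_one_iff.2 h3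
    have h5 : 0 ≤ ε ^ S.card := by positivity
    nlinarith

lemma boot_card {L s : ℕ} [NeZero L] {B : Finset Z3} (hB : Adm L B) (c : Z3 → Fin s) :
    (B.image fun y => ((prj L y, c y) : XX L s)).card = B.card := by
  refine Finset.card_image_of_injOn fun a ha b hb hab => ?_
  have h1 := hB.2 a ha b hb
  have hL : 0 < L := Nat.pos_of_ne_zero (NeZero.ne L)
  exact prj_inj (L := L) (by omega) (congrArg Prod.fst hab)

variable {L s : ℕ} [NeZero L] {g : GD (XX L s)} {n : ℕ} [NeZero n] [NeZero (n * g.M)]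

omit [NeZero n] in
lemma boot_prod (hg : g.Ok) {ζ : ℝ} (hζ0 : 0 ≤ ζ) (hζ1 : ζ < 1)
    (P : Finset (ZMod n × XX L s)) (k : ZMod n) (B : Finset (XX L s)) :
    (g.circ n).num (dP n g.M ζ P) (atS n g.M k B) ≤
      (∏ a ∈ B, g.rB n ζ P k B a) * (g.circ n).num (dP n g.M ζ P) ∅ := by
  have h := num_le_prod (hg.circ n) (dP_nonneg n g.M hζ0 P) (dP_le n g.M hζ0 P) hζ1
    (atS n g.M k B)
  rw [pin_dP] at h
  have e : ∏ a ∈ atS n g.M k B, (g.circ n).rr (dP n g.M ζ (P ∪ B.image fun x => (k, x)))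
      (atS n g.M k B) a = ∏ a ∈ B, g.rB n ζ P k B a := by
    conv_lhs => rw [atS]
    rw [Finset.prod_image fun a _ b _ hab => (Prod.ext_iff.1 hab).2]
    rfl
  rwa [e] at h

omit [NeZero n] in
lemma boot_rB_nonneg (hg : g.Ok) {ζ : ℝ} (hζ0 : 0 ≤ ζ) (hζ1 : ζ < 1)
    (P : Finset (ZMod n × XX L s)) (k : ZMod n) (B : Finset (XX L s)) (a : XX L s) :
    0 ≤ g.rB n ζ P k B a :=
  rr_nonneg (hg.circ n) (dP_nonneg n g.M hζ0 _) (dP_le n g.M hζ0 _) hζ1 _ _

theorem bh_of_sums (hg : g.Ok) {ζ ε1 ε2 : ℝ} (hζ0 : 0 ≤ ζ) (hζ1 : ζ < 1)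
    (h1 : ∀ (P : Finset (ZMod n × XX L s)) (k : ZMod n) (B : Finset Z3) (c : Z3 → Fin s),
      Adm L B → ∑ a ∈ B.image fun y => (prj L y, c y),
        g.rB n ζ P k (B.image fun y => (prj L y, c y)) a ≤ B.card * ε1)
    (h2 : ∀ (P : Finset (ZMod n × XX L s)) (k : ZMod n) (B : Finset (XX L s)), B.card ≤ 6 →
      ∑ a ∈ B, g.rB n ζ P k B a ≤ ε2) :
    g.BH n ζ ε1 ε2 := by
  intro P k
  have hN : 0 ≤ (g.circ n).num (dP n g.M ζ P) ∅ :=
    num_nonneg (hg.circ n) (dP_nonneg n g.M hζ0 P) ∅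
  refine ⟨fun B c hB => ?_, fun B hB => ?_⟩
  · refine (boot_prod hg hζ0 hζ1 P k _).trans (mul_le_mul_of_nonneg_right ?_ hN)
    have h := h1 P k B c hB
    rw [← boot_card hB c] at h ⊢
    exact boot_amgm _ _ (fun a _ => boot_rB_nonneg hg hζ0 hζ1 P k _ a) h
  · refine (boot_prod hg hζ0 hζ1 P k _).trans (mul_le_mul_of_nonneg_right ?_ hN)
    rw [← Finset.prod_const]
    refine Finset.prod_le_prod (fun a _ => boot_rB_nonneg hg hζ0 hζ1 P k _ a) fun a ha => ?_
    exact (Finset.single_le_sum (fun b _ => boot_rB_nonneg hg hζ0 hζ1 P k _ b) ha).trans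
      (h2 P k B hB)

omit [NeZero n] in
lemma boot_cont (g : GD (XX L s)) (n : ℕ) [NeZero (n * g.M)] (P : Finset (ZMod n × XX L s))
    (B : Finset (ZMod (n * g.M) × XX L s)) :
    Continuous fun ζ : ℝ => (g.circ n).num (dP n g.M ζ P) B := by
  unfold Circ.num
  refine continuous_finsetSum _ fun ω _ => continuous_const.mul ?_
  refine continuous_finsetSum _ fun U _ => ?_
  split_ifs
  · refine continuous_finsetProd _ fun v _ => ?_
    unfold dP pin
    split_ifs
    · exact continuous_const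
    · exact continuous_id
  · exact continuous_const

omit [NeZero n] in
lemma boot_zero (g : GD (XX L s)) (n : ℕ) [NeZero (n * g.M)] (P : Finset (ZMod n × XX L s))
    (k : ZMod n) (B : Finset (XX L s)) (hg : g.Ok) {ε : ℝ} (hε : 0 < ε) :
    (g.circ n).num (dP n g.M 0 P) (atS n g.M k B) ≤
      ε ^ B.card * (g.circ n).num (dP n g.M 0 P) ∅ := by
  rcases B.eq_empty_or_nonempty with rfl | ⟨a, ha⟩
  · simp [atS]
  · have hN : 0 ≤ (g.circ n).num (dP n g.M 0 P) ∅ :=
      num_nonneg (hg.circ n) (dP_nonneg n g.M le_rfl P) ∅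
    have h0 : (g.circ n).num (dP n g.M 0 P) (atS n g.M k B) = 0 := by
      unfold Circ.num
      refine Finset.sum_eq_zero fun ω _ => ?_
      rw [Finset.sum_eq_zero, mul_zero]
      intro U _
      split_ifs with h
      · refine Finset.prod_eq_zero (h.2 (Finset.mem_image.2 ⟨a, ha, rfl⟩)) ?_
        unfold dP pin
        split_ifs <;> rfl
      · rfl
    rw [h0]
    positivity

omit [NeZero n] in
lemma boot_ev (hg : g.Ok) (P : Finset (ZMod n × XX L s)) (k : ZMod n) (B : Finset (XX L s))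
    {ε ζ : ℝ} (hε : 0 < ε) (hζ : 0 ≤ ζ) :
    ∀ᶠ y in nhds ζ, (g.circ n).num (dP n g.M ζ P) (atS n g.M k B) ≤
        (ε / 2) ^ B.card * (g.circ n).num (dP n g.M ζ P) ∅ →
      (g.circ n).num (dP n g.M y P) (atS n g.M k B) ≤
        ε ^ B.card * (g.circ n).num (dP n g.M y P) ∅ := by
  rcases B.eq_empty_or_nonempty with rfl | hB
  · exact Filter.Eventually.of_forall fun y _ => by simp [atS]
  by_cases h : (g.circ n).num (dP n g.M ζ P) (atS n g.M k B) ≤
      (ε / 2) ^ B.card * (g.circ n).num (dP n g.M ζ P) ∅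
  · have hN : 1 ≤ (g.circ n).num (dP n g.M ζ P) ∅ :=
      one_le_num (hg.circ n) (dP_nonneg n g.M hζ P)
    have hlt : (ε / 2) ^ B.card < ε ^ B.card :=
      pow_lt_pow_left₀ (by linarith) (by positivity) hB.card_pos.ne'
    have hs : (g.circ n).num (dP n g.M ζ P) (atS n g.M k B) <
        ε ^ B.card * (g.circ n).num (dP n g.M ζ P) ∅ :=
      h.trans_lt (mul_lt_mul_of_pos_right hlt (by linarith))
    have hev := (boot_cont g n P (atS n g.M k B)).continuousAt.eventually_lt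
      (continuous_const.mul (boot_cont g n P ∅)).continuousAt hs
    exact hev.mono fun y hy _ => hy.le
  · exact Filter.Eventually.of_forall fun y hy => absurd hy h

theorem bh_cont (hg : g.Ok) {ζ ε1 ε2 : ℝ} (hζ0 : 0 ≤ ζ) (h1 : 0 < ε1) (h2 : 0 < ε2)
    (hstep : ∀ ζ', 0 ≤ ζ' → ζ' ≤ ζ → g.BH n ζ' ε1 ε2 → g.BH n ζ' (ε1 / 2) (ε2 / 2)) :
    g.BH n ζ ε1 ε2 := by
  have hcl : IsClosed {y : ℝ | g.BH n y ε1 ε2} := by
    simp only [GD.BH, Set.ofPred_forall, Set.ofPred_and]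
    refine isClosed_iInter fun P => isClosed_iInter fun k => IsClosed.inter ?_ ?_
    · exact isClosed_iInter fun B => isClosed_iInter fun c => isClosed_iInter fun _ =>
        isClosed_le (boot_cont g n P _) (continuous_const.mul (boot_cont g n P ∅))
    · exact isClosed_iInter fun B => isClosed_iInter fun _ =>
        isClosed_le (boot_cont g n P _) (continuous_const.mul (boot_cont g n P ∅))
  have h0 : (0 : ℝ) ∈ {y : ℝ | g.BH n y ε1 ε2} := by
    intro P k
    refine ⟨fun B c hB => ?_, fun B _ => boot_zero g n P k B hg h2⟩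
    rw [← boot_card hB c]
    exact boot_zero g n P k _ hg h1
  have key := IsClosed.Icc_subset_of_forall_mem_nhdsWithin (a := 0) (b := ζ)
    (s := {y : ℝ | g.BH n y ε1 ε2}) (hcl.inter isClosed_Icc) h0 (by
      rintro x ⟨hx, hx0, hx1⟩
      have hh := hstep x hx0 hx1.le hx
      have e1 := Filter.eventually_all.2 fun P : Finset (ZMod n × XX L s) =>
        Filter.eventually_all.2 fun k : ZMod n => Filter.eventually_all.2
          fun B : Finset (XX L s) => (boot_ev hg P k B h1 hx0).and (boot_ev hg P k B h2 hx0)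
      refine mem_nhdsWithin_of_mem_nhds (e1.mono fun y hy => ?_)
      intro P k
      refine ⟨fun B c hB => ?_, fun B hB => (hy P k B).2 ((hh P k).2 B hB)⟩
      have h3 := (hh P k).1 B c hB
      rw [← boot_card hB c] at h3 ⊢
      exact (hy P k _).1 h3)
  exact key ⟨hζ0, le_rfl⟩

theorem num_single_rB (hg : g.Ok) {ζ : ℝ} (hζ0 : 0 ≤ ζ) (hζ1 : ζ < 1) (a : XX L s) :
    (g.circ n).num (fun _ => ζ) {(0, a)} * (1 + ζ * g.rB n ζ ∅ 0 {a} a) =
      ζ * g.rB n ζ ∅ 0 {a} a * (g.circ n).num (fun _ => ζ) ∅ := by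
  have h := num_single_eq (hg.circ n) (d := fun _ => ζ) (fun _ => hζ0) (fun _ => le_rfl) hζ1 (0, a)
  have hs : sl n g.M 0 = 0 := by simp [sl]
  have e1 : dP n g.M ζ (∅ : Finset (ZMod n × XX L s)) = fun _ => ζ := by
    funext v
    simp [dP, pin]
  have e2 : atS n g.M 0 ({a} : Finset (XX L s)) = {(0, a)} := by simp [atS, hs]
  have e3 : g.rB n ζ ∅ 0 {a} a =
      (g.circ n).rr (pin (fun _ => ζ) {(0, a)}) {(0, a)} (0, a) := by
    unfold GD.rB
    rw [← pin_dP, e1, e2, hs]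
  rw [e3]
  exact h

end Vale.Agent.P361
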