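import Vale.Agent.P361.Peierls

namespace Vale.Agent.P361

open Matrix Finset

lemma cmptorus_box (N : ℕ) : box N = cube 0 N := by
  simp [box, cube]

lemma cmptorus_three {a b c a' b' c' : ℤ} (h : |a - a'| + |b - b'| + |c - c'| = 1) :
    (a' = a + 1 ∧ b' = b ∧ c' = c) ∨ (a = a' + 1 ∧ b = b' ∧ c = c') ∨
      (a' = a ∧ b' = b + 1 ∧ c' = c) ∨ (a = a' ∧ b = b' + 1 ∧ c = c') ∨
      (a' = a ∧ b' = b ∧ c' = c + 1) ∨ (a = a' ∧ b = b' ∧ c = c' + 1) := by
  have h0 := abs_nonneg (a - a')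
  have h1 := abs_nonneg (b - b')
  have h2 := abs_nonneg (c - c')
  have hc : (|a - a'| = 1 ∧ |b - b'| = 0 ∧ |c - c'| = 0) ∨
      (|a - a'| = 0 ∧ |b - b'| = 1 ∧ |c - c'| = 0) ∨
      (|a - a'| = 0 ∧ |b - b'| = 0 ∧ |c - c'| = 1) := by
    generalize |a - a'| = u at *
    generalize |b - b'| = v at *
    generalize |c - c'| = w at *
    omega
  simp only [abs_eq_zero, sub_eq_zero, abs_eq (zero_le_one' ℤ)] at hc
  rcases hc with ⟨h3 | h3, rfl, rfl⟩ | ⟨rfl, h3 | h3, rfl⟩ | ⟨rfl, rfl, h3 | h3⟩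
  · exact Or.inr (Or.inl ⟨by linarith, rfl, rfl⟩)
  · exact Or.inl ⟨by linarith, rfl, rfl⟩
  · exact Or.inr (Or.inr (Or.inr (Or.inl ⟨rfl, by linarith, rfl⟩)))
  · exact Or.inr (Or.inr (Or.inl ⟨rfl, by linarith, rfl⟩))
  · exact Or.inr (Or.inr (Or.inr (Or.inr (Or.inr ⟨rfl, rfl, by linarith⟩))))
  · exact Or.inr (Or.inr (Or.inr (Or.inr (Or.inl ⟨rfl, rfl, by linarith⟩))))

lemma cmptorus_zadj {x y : Z3} : ∑ i, |x i - y i| = 1 ↔ zadj x y := by
  constructor
  · intro h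
    rw [Fin.sum_univ_three] at h
    have key : ∀ (i : Fin 3) (a b : Z3), (∀ j, a j = b j + if j = i then 1 else 0) →
        a = b + ev i := fun i a b h => funext fun j => by
      rw [h j]; simp [ev, Pi.single_apply]
    have hc := cmptorus_three h
    rcases hc with h | h | h | h | h | h
    · exact ⟨0, Or.inl (key 0 _ _ fun j => by fin_cases j <;> simp [h.1, h.2.1, h.2.2])⟩
    · exact ⟨0, Or.inr (key 0 _ _ fun j => by fin_cases j <;> simp [h.1, h.2.1, h.2.2])⟩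
    · exact ⟨1, Or.inl (key 1 _ _ fun j => by fin_cases j <;> simp [h.1, h.2.1, h.2.2])⟩
    · exact ⟨1, Or.inr (key 1 _ _ fun j => by fin_cases j <;> simp [h.1, h.2.1, h.2.2])⟩
    · exact ⟨2, Or.inl (key 2 _ _ fun j => by fin_cases j <;> simp [h.1, h.2.1, h.2.2])⟩
    · exact ⟨2, Or.inr (key 2 _ _ fun j => by fin_cases j <;> simp [h.1, h.2.1, h.2.2])⟩
  · rintro ⟨i, h | h⟩ <;> subst h <;> fin_cases i <;> simp [ev, Fin.sum_univ_three]

lemma cmptorus_inj (N : ℕ) : Function.Injective fun x : box N => prj (2 * N + 1) x.1 := by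
  intro x y h
  refine Subtype.ext (prj_inj_cube (c := 0) (ρ := N) (by omega) ?_ ?_ h)
  · rw [← cmptorus_box]; exact x.2
  · rw [← cmptorus_box]; exact y.2

lemma cmptorus_bij (N : ℕ) : Function.Bijective fun x : box N => prj (2 * N + 1) x.1 := by
  rw [Fintype.bijective_iff_injective_and_card]
  refine ⟨cmptorus_inj N, ?_⟩
  rw [Fintype.card_coe, cmptorus_box, card_cube]
  simp [ZMod.card]

lemma cmptorus_inner {M : ℕ} {x y : Z3} (hx : x ∈ cube 0 M) (hy : y ∈ cube 0 (M + 1))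
    (h : (torus (2 * (M + 1) + 1)).Adj (prj _ x) (prj _ y)) : zadj x y := by
  obtain ⟨-, i, h | h⟩ := torus_adj.1 h
  · refine ⟨i, Or.inl (prj_inj_cube (L := 2 * (M + 1) + 1) (c := 0) (ρ := M + 1) (by omega) hy
      ?_ (by rw [h, prj_add]))⟩
    rw [mem_cube, sub_zero] at hx ⊢
    have := nrm_add_le x (ev i)
    rw [nrm_ev] at this
    omega
  · have e : y = x - ev i := by
      refine prj_inj_cube (L := 2 * (M + 1) + 1) (c := 0) (ρ := M + 1) (by omega) hy ?_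
        (by rw [prj_sub, h]; abel)
      rw [mem_cube, sub_zero] at hx ⊢
      have := nrm_add_le x (-ev i)
      rw [nrm_neg, nrm_ev, ← sub_eq_add_neg] at this
      omega
    exact ⟨i, Or.inr (by rw [e]; abel)⟩

theorem cmp_torus (s : ℕ) : ∃ C : ℝ, 0 < C ∧ ∀ (N : ℕ) (β h : ℝ), 1 ≤ N → 0 ≤ β →
    |Real.log (partZ s (boxGraph N) β h) - Real.log (partZ s (torus (2 * N + 1)) β h)| ≤
      C * β * (2 * (N : ℝ) + 1) ^ 2 := by
  classical
  obtain ⟨C, hC, hcmp⟩ := partZ_cmp s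
  refine ⟨36 * C, by positivity, fun N β h hN hβ => ?_⟩
  obtain ⟨M, rfl⟩ : ∃ M, N = M + 1 := ⟨N - 1, by omega⟩
  set G' : SimpleGraph (box (M + 1)) :=
    (torus (2 * (M + 1) + 1)).comap fun x : box (M + 1) => prj (2 * (M + 1) + 1) x.1 with hG'
  have hiso := partZ_iso s G' (torus (2 * (M + 1) + 1)) (Equiv.ofBijective _ (cmptorus_bij (M + 1)))
    (fun x y => Iff.rfl) β h
  rw [← hiso]
  refine (hcmp (boxGraph (M + 1)) G' β h hβ).trans ?_
  set D := (Finset.univ : Finset (box (M + 1) × box (M + 1))).filter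
    fun q => ¬ ((boxGraph (M + 1)).Adj q.1 q.2 ↔ G'.Adj q.1 q.2) with hD
  have hadj : ∀ q ∈ D, G'.Adj q.1 q.2 ∧ ¬ zadj q.1.1 q.2.1 := by
    intro q hq
    have h1 := (Finset.mem_filter.1 hq).2
    have h2 : (boxGraph (M + 1)).Adj q.1 q.2 ↔ zadj q.1.1 q.2.1 := cmptorus_zadj
    have h3 : zadj q.1.1 q.2.1 → G'.Adj q.1 q.2 := fun hz => torus_adj_prj (by omega) hz
    rw [h2] at h1
    tauto
  have hcard : D.card ≤ 6 * (cube 0 (M + 1) \ cube 0 M).card := by
    refine Finset.card_le_mul_card_image_of_maps_to (f := fun q => q.1.1) (fun q hq => ?_) 6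
      fun b _ => ?_
    · refine Finset.mem_sdiff.2 ⟨by rw [← cmptorus_box]; exact q.1.2, fun hin => ?_⟩
      exact (hadj q hq).2 (cmptorus_inner hin (by rw [← cmptorus_box]; exact q.2.2) (hadj q hq).1)
    · refine le_trans ?_ (card_torus_adj_le (prj (2 * (M + 1) + 1) b))
      refine Finset.card_le_card_of_injOn (fun q => prj (2 * (M + 1) + 1) q.2.1) ?_ ?_
      · intro q hq
        have hq' := Finset.mem_filter.1 (Finset.mem_coe.1 hq)
        refine Finset.mem_coe.2 (Finset.mem_filter.2 ⟨Finset.mem_univ _, ?_⟩)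
        rw [← hq'.2]
        exact (hadj q hq'.1).1
      · intro q hq q' hq' hqq
        have h1 := (Finset.mem_filter.1 (Finset.mem_coe.1 hq)).2
        have h2 := (Finset.mem_filter.1 (Finset.mem_coe.1 hq')).2
        exact Prod.ext (Subtype.ext (h1.trans h2.symm)) (cmptorus_inj _ hqq)
  have hsd : (cube 0 (M + 1) \ cube 0 M).card ≤ 6 * (2 * (M + 1) + 1) ^ 2 := by
    rw [Finset.card_sdiff_of_subset (cube_mono 0 (Nat.le_succ M)), card_cube, card_cube]
    rw [Nat.sub_le_iff_le_add]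
    nlinarith [Nat.zero_le M, Nat.zero_le (M ^ 2)]
  have hfin : (D.card : ℝ) ≤ 36 * (2 * ((M + 1 : ℕ) : ℝ) + 1) ^ 2 := by
    have : D.card ≤ 36 * (2 * (M + 1) + 1) ^ 2 := by omega
    exact_mod_cast this
  calc C * β * (D.card : ℝ) ≤ C * β * (36 * (2 * ((M + 1 : ℕ) : ℝ) + 1) ^ 2) :=
        mul_le_mul_of_nonneg_left hfin (mul_nonneg hC.le hβ)
    _ = _ := by ring

end Vale.Agent.P361
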