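import Vale.Agent.P361.Fill

namespace Vale.Agent.P361

open Matrix Finset

lemma core_pigeon {ι : Type} [Fintype ι] (hι : Fintype.card ι = 6) (E : Set Z3) (F : Finset Z3)
    (hF : F.card ≤ 5) (A : ι → Set Z3) (hsub : ∀ i, ∀ x ∈ A i, x ∈ E → x ∈ F)
    (hdisj : ∀ i j x, x ∈ A i → x ∈ A j → i = j) : ∃ i, ∀ x ∈ A i, x ∉ E := by
  classical
  by_contra hn
  have h1 : ∀ i, ∃ x, x ∈ A i ∧ x ∈ E := by
    intro i
    by_contra h2
    exact hn ⟨i, fun x hx hE => h2 ⟨x, hx, hE⟩⟩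
  choose f hf using h1
  have h2 := Finset.card_le_card_of_injOn (s := (Finset.univ : Finset ι)) (t := F) f
    (fun i _ => Finset.mem_coe.2 (hsub i _ (hf i).1 (hf i).2))
    (fun i _ j _ h => hdisj i j (f i) (hf i).1 (by rw [h]; exact (hf j).1))
  rw [Finset.card_univ, hι] at h2
  omega

/-- the six axis directions -/
def coreDir (q : Fin 3 × Bool) : Z3 := if q.2 then ev q.1 else -ev q.1

lemma core_zadj (q : Fin 3 × Bool) (x : Z3) : zadj x (x + coreDir q) := by
  obtain ⟨i, b⟩ := q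
  cases b
  · exact ⟨i, Or.inr (by simp [coreDir])⟩
  · exact ⟨i, Or.inl (by simp [coreDir])⟩

lemma core_nrm (q : Fin 3 × Bool) (t : ℤ) : nrm (t • coreDir q) = t.natAbs := by
  obtain ⟨i, b⟩ := q
  apply le_antisymm
  · rw [nrm_le_iff]
    intro l
    by_cases hl : l = i
    · subst hl
      cases b <;> simp [coreDir, ev]
    · cases b <;> simp [coreDir, ev, Pi.single_eq_of_ne hl]
  · have := le_nrm (t • coreDir (i, b)) i
    cases b <;> simpa [coreDir, ev] using this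

lemma core_dir_inj {q q' : Fin 3 × Bool} {t t' : ℕ} (ht : 1 ≤ t) (_ht' : 1 ≤ t')
    (h : (t : ℤ) • coreDir q = (t' : ℤ) • coreDir q') : q = q' := by
  obtain ⟨i, b⟩ := q
  obtain ⟨j, b'⟩ := q'
  have h1 := congrFun h i
  by_cases hij : i = j
  · subst hij
    cases b <;> cases b' <;> simp [coreDir, ev] at h1 ⊢ <;> omega
  · exfalso
    cases b <;> cases b' <;> simp [coreDir, ev, Pi.single_eq_of_ne hij] at h1 <;> omega

theorem fill_core (E : Set Z3) (Kc : ℕ) (hcat : hier E Kc = ∅) : ∃ φ nb : Z3 → Z3,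
    (∀ y y' k, (y' = y ∨ zadj y y') → Far E Kc y k →
      Conn ((cube y (cc k) : Set Z3) \ E) (φ y) (φ y')) ∧
    ∀ y, (∀ w ∈ cube y r0, GoodPt E Kc w) →
      zadj y (nb y) ∧ Conn ((cube y r1 : Set Z3) \ E) (nb y) (φ y) := by
  classical
  obtain ⟨φ, hφ0, hφ⟩ := fill E Kc
  rw [hcat, Set.sdiff_empty] at hφ
  have key : ∀ y, ∃ n, (∀ w ∈ cube y r0, GoodPt E Kc w) →
      zadj y n ∧ Conn ((cube y r1 : Set Z3) \ E) n (φ y) := by
    intro y
    by_cases hg : ∀ w ∈ cube y r0, GoodPt E Kc w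
    swap
    · exact ⟨y, fun h => absurd h hg⟩
    have ha : 6 ≤ aa 3 := by unfold aa; norm_num
    have e0 : r0 = 27 * aa 3 := rfl
    have e1 : r1 = 32 * aa 3 := rfl
    have e4 : cc 4 = 5 * aa 3 := rfl
    have hy := (hg y (self_mem_cube _ _)).1
    have hmem : ∀ (q : Fin 3 × Bool) (t : ℕ), t ≤ r0 → y + (t : ℤ) • coreDir q ∈ cube y r0 := by
      intro q t ht
      rw [mem_cube, add_sub_cancel_left, core_nrm]
      simpa using ht
    obtain ⟨q, hq⟩ := core_pigeon (ι := Fin 3 × Bool) (by simp) E _ hy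
      (fun q => {x | ∃ t : ℕ, 1 ≤ t ∧ t ≤ r0 ∧ x = y + (t : ℤ) • coreDir q})
      (by
        rintro q x ⟨t, -, h2, rfl⟩ hE
        exact Finset.mem_filter.2 ⟨hmem q t h2, hE⟩)
      (by
        rintro q q' x ⟨t, h1, -, rfl⟩ ⟨t', h1', -, h⟩
        exact core_dir_inj h1 h1' (add_left_cancel h))
    have hm : ∀ i : Fin 6, (i.1 + 1) * (4 * aa 3 + 1) ≤ 24 * aa 3 + 6 := by
      intro i
      have h1 : i.1 + 1 ≤ 6 := i.2
      calc _ ≤ 6 * (4 * aa 3 + 1) := Nat.mul_le_mul_right _ h1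
        _ = _ := by ring
    obtain ⟨i, hi⟩ := core_pigeon (ι := Fin 6) (by simp) E _ hy
      (fun i => (cube (y + (((i.1 + 1) * (4 * aa 3 + 1) : ℕ) : ℤ) • coreDir q) (2 * aa 3) : Set Z3))
      (by
        intro i x hx hE
        refine Finset.mem_filter.2 ⟨?_, hE⟩
        have h1 : y + (((i.1 + 1) * (4 * aa 3 + 1) : ℕ) : ℤ) • coreDir q ∈
            cube y (24 * aa 3 + 6) := by
          rw [mem_cube, add_sub_cancel_left, core_nrm, Int.natAbs_natCast]
          exact hm i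
        exact cube_subset h1 (by omega) (Finset.mem_coe.1 hx))
      (by
        intro i j x hx hx'
        have h1 := mem_cube.1 (Finset.mem_coe.1 hx)
        have h2 := mem_cube.1 (Finset.mem_coe.1 hx')
        have h3 := nrm_triangle (y + (((i.1 + 1) * (4 * aa 3 + 1) : ℕ) : ℤ) • coreDir q) x
          (y + (((j.1 + 1) * (4 * aa 3 + 1) : ℕ) : ℤ) • coreDir q)
        rw [nrm_sub_comm _ x, add_sub_add_left_eq_sub, ← sub_smul, core_nrm] at h3
        have h4 : (((i.1 + 1) * (4 * aa 3 + 1) : ℕ) : ℤ) - (((j.1 + 1) * (4 * aa 3 + 1) : ℕ) : ℤ)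
            = ((i.1 : ℤ) - j.1) * ((4 * aa 3 + 1 : ℕ) : ℤ) := by push_cast; ring
        rw [h4, Int.natAbs_mul, Int.natAbs_natCast] at h3
        by_contra hne
        have h5 : 1 ≤ ((i.1 : ℤ) - j.1).natAbs := by
          have : i.1 ≠ j.1 := fun h => hne (Fin.ext h)
          omega
        have h6 := Nat.mul_le_mul_right (4 * aa 3 + 1) h5
        omega)
    obtain ⟨m, hmdef⟩ : ∃ m, m + 1 = (i.1 + 1) * (4 * aa 3 + 1) :=
      ⟨(i.1 + 1) * (4 * aa 3 + 1) - 1, by
        have : 0 < (i.1 + 1) * (4 * aa 3 + 1) := by positivity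
        omega⟩
    have hm1 := hm i
    rw [← hmdef] at hi hm1
    have hfar : Far E Kc (y + ((m + 1 : ℕ) : ℤ) • coreDir q) 0 := by
      intro j _ hj x hx
      by_cases h4 : 4 ≤ j
      · exact (hg _ (hmem q _ (by omega))).2 j h4 hj x hx
      · have h1 : aa j ≤ aa 3 := aa_mono (by omega)
        by_contra hn
        exact hi x (Finset.mem_coe.2 (mem_cube.2 (by omega))) (hier_subset E j hx)
    refine ⟨y + coreDir q, fun _ => ⟨core_zadj q y, ?_⟩⟩
    have hsh : ∀ t : ℕ, y + coreDir q + (t : ℤ) • coreDir q = y + ((t + 1 : ℕ) : ℤ) • coreDir q := by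
      intro t
      push_cast
      rw [add_smul, one_smul]
      abel
    have c1 : Conn ((cube y r1 : Set Z3) \ E) (y + coreDir q)
        (y + ((m + 1 : ℕ) : ℤ) • coreDir q) := by
      rw [← hsh]
      refine fill_ray _ _ (core_zadj q) m fun t ht => ?_
      rw [hsh]
      exact ⟨Finset.mem_coe.2 (cube_mono y (by omega) (hmem q (t + 1) (by omega))),
        hq _ ⟨t + 1, by omega, by omega, rfl⟩⟩
    have c2 : Conn (cube y r0 : Set Z3) y (y + ((m + 1 : ℕ) : ℤ) • coreDir q) :=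
      fill_ray _ _ (core_zadj q) (m + 1) fun t ht => Finset.mem_coe.2 (hmem q t (by omega))
    have c3 : Conn ((cube y r1 : Set Z3) \ E) (φ y) (φ (y + ((m + 1 : ℕ) : ℤ) • coreDir q)) := by
      refine c2.lift fun w hw w' hww => ?_
      have hw' := Finset.mem_coe.1 hw
      refine (hφ w w' 4 hww (hg w hw').2).mono fun z hz => ⟨?_, hz.2⟩
      exact Finset.mem_coe.2 (cube_subset hw' (by omega) (Finset.mem_coe.1 hz.1))
    rw [hφ0 _ hfar] at c3
    exact c1.trans c3.symm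
  choose nb hnb using key
  exact ⟨φ, nb, hφ, hnb⟩

end Vale.Agent.P361
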