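import Vale.Agent.P361.CutA

set_option linter.all false

namespace Vale.Agent.P361

open Matrix Finset

variable {I X : Type} [Fintype I] [DecidableEq I] [Fintype X] [DecidableEq X] {c : Circ I X}
  {d : I × X → ℝ} {ζ : ℝ}

theorem hit_eq (hc : c.Ok) (hd0 : ∀ v, 0 ≤ d v) (hd : ∀ v, d v ≤ ζ) (hζ : ζ < 1)
    (B : Finset (I × X)) (o : Env I X) (v : I × X) :
    c.hit d B o v = ind B v + d v * (c.kE o *ᵥ c.hit d B o) v :=
  green_eq (kE_dstoch hc o).1 (fun v => ((kE_dstoch hc o).2.1 v).le) hd0 hd hζ _ v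

theorem hit_nonneg (hc : c.Ok) (hd0 : ∀ v, 0 ≤ d v) (hd : ∀ v, d v ≤ ζ) (hζ : ζ < 1)
    (B : Finset (I × X)) (o : Env I X) (v : I × X) : 0 ≤ c.hit d B o v :=
  sum_nonneg fun w _ => mul_nonneg
    (green_nonneg (kE_dstoch hc o).1 (fun v => ((kE_dstoch hc o).2.1 v).le) hd0 hd hζ v w)
    (by unfold ind; split_ifs <;> norm_num)

theorem rr_nonneg (hc : c.Ok) (hd0 : ∀ v, 0 ≤ d v) (hd : ∀ v, d v ≤ ζ) (hζ : ζ < 1)
    (B : Finset (I × X)) (a : I × X) : 0 ≤ c.rr d B a :=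
  Ex_nonneg (ew_nonneg hc hd0 hd hζ) fun o _ => sum_nonneg fun w _ =>
    mul_nonneg ((kE_dstoch hc o).1 a w) (hit_nonneg hc hd0 hd hζ B o w)

theorem cut_empty (c : Circ I X) (d : I × X → ℝ) (B : Finset (I × X)) :
    c.cut d B ∅ = c.num (pin d B) ∅ := by
  refine sum_congr rfl fun ω _ => congrArg _ (sum_congr rfl fun σ _ => ?_)
  by_cases hT : Disjoint σ B
  · rw [cutA_pin d hT, sdiff_eq_self_of_disjoint hT]
    by_cases h : IsInv (c.perm ω) σ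
    · rw [if_pos ⟨fun y _ => h y, disjoint_iff_inter_eq_empty.1 hT⟩, if_pos ⟨h, empty_subset _⟩]
    · rw [if_neg fun h' => h (cutA_inv' fun y hy => (h'.1 y (disjoint_left.1 hT hy)).1 hy),
        if_neg fun h' => h h'.1]
  · rw [cutA_pin0 d hT, ite_self, if_neg fun h => hT (disjoint_iff_inter_eq_empty.2 h.2)]

theorem cut_single (hc : c.Ok) (hd0 : ∀ v, 0 ≤ d v) (hd : ∀ v, d v ≤ ζ) (hζ : ζ < 1)
    {B : Finset (I × X)} {a : I × X} (ha : a ∈ B) :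
    c.cut d B {a} = c.num (pin d B) ∅ * c.rr (pin d B) B a := by
  classical
  have p0 : ∀ v, 0 ≤ pin d B v := fun v => by unfold pin; split_ifs; exacts [le_rfl, hd0 v]
  have p1 : ∀ v, pin d B v ≤ ζ := fun v => by
    unfold pin; split_ifs; exacts [(hd0 v).trans (hd v), hd v]
  have hN : c.num (pin d B) ∅ ≠ 0 := (one_pos.trans_le (one_le_num hc p0)).ne'
  have kb : ∀ ω : I → Bool, DStoch (c.ker fun i => bit (ω i)) := fun ω =>
    ker_dstoch c (fun _ => bit_nonneg _) fun _ => bit_le_one _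
  obtain ⟨Φ, hΦ⟩ : ∃ Φ : Finset (I × X) × Finset (I × X) → (I → Bool) → ℝ, ∀ p ω, Φ p ω =
    if IsInv (c.perm ω) p.1 ∧ IsInv (c.perm ω) p.2 ∧ Disjoint p.1 p.2 then
      (∏ v ∈ p.1, pin d B v) * ∏ v ∈ p.2, pin d B v else 0 := ⟨_, fun _ _ => rfl⟩
  obtain ⟨ψ, hψ⟩ : ∃ ψ : (I → ℝ) → ℝ, ∀ q, ψ q =
    (c.ker q *ᵥ ((1 - diagonal (pin d B) * c.ker q)⁻¹ *ᵥ ind B)) a := ⟨_, fun _ => rfl⟩
  obtain ⟨G, hG⟩ : ∃ G : Matrix (I × X) (I × X) ℝ → (I → ℝ) → ℝ, ∀ A q, G A q =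
    (1 - A * c.ker q).det := ⟨_, fun _ _ => rfl⟩
  have h1 : c.num (pin d B) ∅ * c.rr (pin d B) B a = ∑ p : Finset (I × X) × Finset (I × X), ∑ ω,
      c.pw ω * (Φ p ω * ψ (c.qt ω (p.1 ∪ p.2)) *
        G (diagonal (pin (pin d B) (p.1 ∪ p.2))) fun i => bit (ω i)) := by
    rw [Circ.rr, Ex, mul_sum, Fintype.sum_prod_type_right]
    refine sum_congr rfl fun p _ => sum_congr rfl fun ω _ => ?_
    rw [Circ.ew, ← mul_assoc, mul_div_cancel₀ _ hN, hΦ, hψ, hG]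
    by_cases h : IsInv (c.perm ω) p.1 ∧ IsInv (c.perm ω) p.2 ∧ Disjoint p.1 p.2
    · rw [if_pos h, if_pos h]
      simp only [Circ.kE, Circ.hit, Circ.fdet]
      ring
    · rw [if_neg h, if_neg h]
      ring
  have h2 : ∀ p : Finset (I × X) × Finset (I × X), ∑ ω, c.pw ω * (Φ p ω * ψ (c.qt ω (p.1 ∪ p.2)) *
        G (diagonal (pin (pin d B) (p.1 ∪ p.2))) fun i => bit (ω i)) =
      ∑ ω, c.pw ω * (Φ p ω * (G (diagonal (pin (pin d B) (p.1 ∪ p.2))) (fun i => bit (ω i)) *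
        ψ fun i => bit (ω i))) := fun p => by
    have a1 : ∀ ω j b, (j, c.ga j) ∉ p.1 ∪ p.2 → (j, c.gb j) ∉ p.1 ∪ p.2 →
        Φ p (Function.update ω j b) = Φ p ω := fun ω j b k1 k2 => by
      rw [mem_union, not_or] at k1 k2
      simp only [hΦ, cutA_inv_update c k1.1 k2.1, cutA_inv_update c k1.2 k2.2]
    have a2 : ∀ ω j b, (j, c.ga j) ∉ p.1 ∪ p.2 → (j, c.gb j) ∉ p.1 ∪ p.2 →
        c.qt (Function.update ω j b) (p.1 ∪ p.2) = c.qt ω (p.1 ∪ p.2) := fun ω j b k1 k2 => by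
      funext i
      by_cases hi : i = j
      · rw [hi, Circ.qt, Circ.qt, if_pos ⟨k1, k2⟩, if_pos ⟨k1, k2⟩]
      · rw [Circ.qt, Circ.qt, Function.update_of_ne hi]
    have a3 : ∀ ω q, DStoch (c.ker q) → (∀ v ∈ p.1 ∪ p.2, ∀ f, (c.ker q *ᵥ f) v = f (c.perm ω v)) →
        Φ p ω * (G (diagonal (pin (pin d B) (p.1 ∪ p.2))) q * ψ q) =
          Φ p ω * (G (diagonal (pin (pin d B) (p.1 ∪ p.2))) q -
            G (diagonal (pin (pin d B) (p.1 ∪ p.2)) + vecMulVec (ind B) (Pi.single a 1)) q) := by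
      intro ω q k1 k2
      by_cases h0 : Φ p ω = 0
      · rw [h0, zero_mul, zero_mul]
      rw [hΦ] at h0
      obtain ⟨b1, b2⟩ := ite_ne_right_iff.1 h0
      rw [hG, hG, hψ, cutA_hit k1 p0 p1 hζ (disjoint_union_left.2
        ⟨by_contra fun h => left_ne_zero_of_mul b2 (cutA_pin0 d h),
          by_contra fun h => right_ne_zero_of_mul b2 (cutA_pin0 d h)⟩)
        fun v hv => ⟨c.perm ω v, ?_, k2 v hv⟩]
      rwa [mem_union, b1.1, b1.2.1, ← mem_union]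
    have a4 : ∀ A q j t, G A (Function.update q j t) =
        (1 - t) * G A (Function.update q j 0) + t * G A (Function.update q j 1) :=
      fun A q j t => by simp only [hG, cutA_aff c A q j t]
    rw [cutA_avg c (p.1 ∪ p.2) (a4 _) (Φ := fun ω => Φ p ω * ψ (c.qt ω (p.1 ∪ p.2)))
      fun ω j b k1 k2 => by simp only [a1 ω j b k1 k2, a2 ω j b k1 k2]]
    simp only [a3 _ _ (kb _) fun v _ f => cutA_ker_bit c _ f v]
    rw [cutA_avg c (p.1 ∪ p.2) (G := fun q => G (diagonal (pin (pin d B) (p.1 ∪ p.2))) q -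
      G (diagonal (pin (pin d B) (p.1 ∪ p.2)) + vecMulVec (ind B) (Pi.single a 1)) q)
      (fun q j t => by simp only [a4 _ q j t]; ring) a1]
    refine sum_congr rfl fun ω _ => ?_
    rw [← a3 ω _ (kE_dstoch hc (ω, p)) fun v hv f => cutA_ker_qt c ω hv f]
    simp only [mul_assoc, mul_comm (ψ _)]
  rw [h1, sum_congr rfl fun p _ => h2 p, sum_comm]
  refine sum_congr rfl fun ω _ => ?_
  rw [← mul_sum]
  refine congrArg _ ((cutA_perm (kb ω) (cutA_ker_bit c ω) hd0 hd hζ ha).trans ?_)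
  simp only [← mul_assoc]
  rw [← sum_mul, ← hψ, Fintype.sum_prod_type]
  refine congrArg (· * _) (sum_congr rfl fun U _ => ?_)
  by_cases hU : IsInv (c.perm ω) U
  · rw [if_pos hU, ← mul_one (∏ v ∈ U, _), ← fermi_id c (pin d B) ω hU, mul_sum]
    refine sum_congr rfl fun U2 _ => ?_
    rw [hΦ, hG]
    by_cases h : IsInv (c.perm ω) U2 ∧ Disjoint U U2
    · rw [if_pos h, if_pos ⟨hU, h⟩, mul_assoc]
      rfl
    · rw [if_neg h, if_neg fun h' => h h'.2, mul_zero, zero_mul]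
  · rw [if_neg hU]
    exact (sum_eq_zero fun U2 _ => by rw [hΦ, if_neg fun h => hU h.1, zero_mul]).symm

end Vale.Agent.P361
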