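import Vale.Agent.P361.EnvP

/-! Auxiliary lemmas for the cut identity. -/

set_option linter.all false

namespace Vale.Agent.P361

open Matrix Finset Function

section Gen

variable {Y : Type} [Fintype Y] [DecidableEq Y]

lemma cutA_inv {π : Equiv.Perm Y} {U : Finset Y} (h : ∀ y ∈ U, π y ∈ U) : IsInv π U := by
  have e : U.map π.toEmbedding = U := eq_of_subset_of_card_le
    (fun x hx => by obtain ⟨y, hy, rfl⟩ := mem_map.1 hx; exact h y hy) (card_map _).ge
  refine fun y => ⟨fun hy => ?_, h y⟩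
  rw [← e] at hy
  exact (mem_map' _).1 hy

lemma cutA_inv' {π : Equiv.Perm Y} {U : Finset Y} (h : ∀ y, π y ∈ U → y ∈ U) : IsInv π U :=
  fun y => by
    have := cutA_inv (π := π.symm) (U := U) (fun x hx => h _ (by simpa using hx)) (π y)
    simpa using this.symm

lemma cutA_pin (d : Y → ℝ) {B T : Finset Y} (h : Disjoint T B) :
    ∏ v ∈ T, pin d B v = ∏ v ∈ T, d v :=
  prod_congr rfl fun v hv => if_neg (disjoint_left.1 h hv)

lemma cutA_pin0 (d : Y → ℝ) {B T : Finset Y} (h : ¬ Disjoint T B) : ∏ v ∈ T, pin d B v = 0 := by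
  obtain ⟨v, h1, h2⟩ := not_disjoint_iff.1 h
  exact prod_eq_zero h1 (if_pos h2)

lemma cutA_det_aff (M : Matrix Y Y ℝ) (u w : Y → ℝ) (t : ℝ) :
    (M - t • vecMulVec u w).det = (1 - t) * M.det + t * (M - vecMulVec u w).det := by
  have e : ∀ t : ℝ, (M - t • vecMulVec u w).det =
      ((fromBlocks M (replicateCol Unit u) 0 1).updateRow (.inr ())
        (Sum.elim (t • w) fun _ => 1)).det := fun t => by
    rw [← vecMulVec_smul, vecMulVec_eq Unit, ← det_fromBlocks_one₂₂]
    congr 1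
    ext (i | i) (j | j) <;> simp
  have e2 : (Sum.elim (t • w) fun _ : Unit => (1 : ℝ)) =
      (1 - t) • (Sum.elim ((0 : ℝ) • w) fun _ => 1) + t • Sum.elim ((1 : ℝ) • w) fun _ => 1 := by
    ext (j | j) <;> simp
  rw [e, e2, det_updateRow_add, det_updateRow_smul, det_updateRow_smul, ← e, ← e]
  simp

lemma cutA_det_sub {M : Matrix Y Y ℝ} (hM : M.det ≠ 0) (u w : Y → ℝ) :
    (M - vecMulVec u w).det = M.det * (1 - w ⬝ᵥ M⁻¹ *ᵥ u) := by
  have e : M - vecMulVec u w = M * (1 + vecMulVec (M⁻¹ *ᵥ u) (-w)) := by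
    rw [Matrix.mul_add, Matrix.mul_one, mul_vecMulVec, mulVec_mulVec,
      mul_nonsing_inv _ (Ne.isUnit hM), one_mulVec, vecMulVec_neg, sub_eq_add_neg]
  rw [e, det_mul, vecMulVec_eq Unit, det_one_add_replicateCol_mul_replicateRow, neg_dotProduct,
    sub_eq_add_neg]

/-- The fermion form of the hitting weight. -/
lemma cutA_hit {K : Matrix Y Y ℝ} {d : Y → ℝ} {ζ : ℝ} (hK : DStoch K) (hd0 : ∀ v, 0 ≤ d v)
    (hd : ∀ v, d v ≤ ζ) (hζ : ζ < 1) {B U : Finset Y} (hB : Disjoint U B)
    (hU : ∀ v ∈ U, ∃ w ∈ U, ∀ f, (K *ᵥ f) v = f w) (a : Y) :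
    (1 - diagonal (pin d U) * K).det * (K *ᵥ ((1 - diagonal d * K)⁻¹ *ᵥ ind B)) a =
      (1 - diagonal (pin d U) * K).det -
        (1 - (diagonal (pin d U) + vecMulVec (ind B) (Pi.single a 1)) * K).det := by
  have p0 : ∀ v, 0 ≤ pin d U v := fun v => by unfold pin; split_ifs; exacts [le_rfl, hd0 v]
  have p1 : ∀ v, pin d U v ≤ ζ := fun v => by
    unfold pin; split_ifs; exacts [(hd0 v).trans (hd v), hd v]
  have h1 := green_eq hK.1 (fun v => (hK.2.1 v).le) p0 p1 hζ (ind B)
  have h2 := green_unique hK.1 (fun v => (hK.2.1 v).le) hd0 hd hζ (f := ind B)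
    (h := (1 - diagonal (pin d U) * K)⁻¹ *ᵥ ind B) fun v => by
      by_cases hv : v ∈ U
      · obtain ⟨w, hw, e⟩ := hU v hv
        rw [e, h1 w, h1 v]
        simp [pin, ind, hv, hw, disjoint_left.1 hB hw]
      · rw [h1 v, pin, if_neg hv]
  rw [← h2, Matrix.add_mul, vecMulVec_mul, ← sub_sub,
    cutA_det_sub (green_det_pos hK.1 (fun v => (hK.2.1 v).le) p0 p1 hζ).ne', ← dotProduct_mulVec,
    single_dotProduct]
  ring

open Classical in
/-- The cut weight of a single permutation. -/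
lemma cutA_perm {π : Equiv.Perm Y} {K : Matrix Y Y ℝ} {d : Y → ℝ} {ζ : ℝ} (hK : DStoch K)
    (hπ : ∀ f v, (K *ᵥ f) v = f (π v)) (hd0 : ∀ v, 0 ≤ d v) (hd : ∀ v, d v ≤ ζ) (hζ : ζ < 1)
    {B : Finset Y} {a : Y} (ha : a ∈ B) :
    (∑ σ : Finset Y, if (∀ y, π y ∉ B → (π y ∈ σ ↔ y ∈ σ)) ∧ σ ∩ B = {a} then
      ∏ v ∈ σ \ B, d v else 0) =
      (∑ U : Finset Y, if IsInv π U then ∏ v ∈ U, pin d B v else 0) *
        (K *ᵥ ((1 - diagonal (pin d B) * K)⁻¹ *ᵥ ind B)) a := by
  have p0 : ∀ v, 0 ≤ pin d B v := fun v => by unfold pin; split_ifs; exacts [le_rfl, hd0 v]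
  have p1 : ∀ v, pin d B v ≤ ζ := fun v => by
    unfold pin; split_ifs; exacts [(hd0 v).trans (hd v), hd v]
  obtain ⟨C, hC⟩ : ∃ C : Y → ℝ, ∀ y, C y = ∑ T ∈ univ.filter fun T : Finset Y => Disjoint T B ∧
    y ∉ T ∧ ∀ x, π x ∉ B → (π x ∈ T ↔ x ∈ T ∨ x = y), ∏ v ∈ T, d v := ⟨_, fun _ => rfl⟩
  obtain ⟨Z, hZ⟩ : ∃ Z, Z = ∑ U : Finset Y, if IsInv π U then ∏ v ∈ U, pin d B v else 0 := ⟨_, rfl⟩
  have h1 : ∀ y, π y ∈ B → C y = Z := fun y hy => by
    rw [hC, hZ, sum_filter]
    refine sum_congr rfl fun T _ => ?_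
    by_cases hT : Disjoint T B
    · rw [cutA_pin d hT]
      refine if_congr ⟨fun h => cutA_inv' fun x hx => ?_, fun h => ⟨hT, fun h' => ?_,
        fun x hx => ?_⟩⟩ rfl rfl
      · refine ((h.2.2 x (disjoint_left.1 hT hx)).1 hx).resolve_right ?_
        rintro rfl
        exact disjoint_left.1 hT hx hy
      · exact disjoint_left.1 hT ((h y).2 h') hy
      · rw [h x, or_iff_left]
        rintro rfl
        exact hx hy
    · rw [cutA_pin0 d hT, if_neg fun h => hT h.1, ite_self]
  have h2 : ∀ y, π y ∉ B → C y = d (π y) * C (π y) := fun y hy => by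
    rw [hC, hC, mul_sum]
    refine sum_nbij' (fun T => T.erase (π y)) (fun T => insert (π y) T) ?_ ?_ ?_ ?_ ?_
    · simp only [mem_filter, mem_univ, true_and]
      rintro T ⟨a1, a2, a3⟩
      refine ⟨a1.mono_left (erase_subset _ _), notMem_erase _ _, fun x hx => ?_⟩
      have a4 := (a3 y hy).2 (.inr rfl)
      have a5 := a3 x hx
      simp only [mem_erase, ne_eq, EmbeddingLike.apply_eq_iff_eq]
      grind
    · simp only [mem_filter, mem_univ, true_and]
      rintro T ⟨a1, a2, a3⟩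
      have a4 := a3 y hy
      refine ⟨disjoint_insert_left.2 ⟨hy, a1⟩, by grind, fun x hx => ?_⟩
      have a5 := a3 x hx
      simp only [mem_insert, EmbeddingLike.apply_eq_iff_eq]
      grind
    · simp only [mem_filter, mem_univ, true_and]
      exact fun T h => insert_erase ((h.2.2 y hy).2 (.inr rfl))
    · simp only [mem_filter, mem_univ, true_and]
      exact fun T h => erase_insert h.2.1
    · simp only [mem_filter, mem_univ, true_and]
      exact fun T h => (mul_prod_erase _ _ ((h.2.2 y hy).2 (.inr rfl))).symm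
  have h3 := green_unique hK.1 (fun v => (hK.2.1 v).le) p0 p1 hζ (f := Z • ind B)
    (h := fun v => C (π.symm v)) fun v => by
      obtain ⟨y, rfl⟩ := π.surjective v
      rw [hπ, Equiv.symm_apply_apply, Equiv.symm_apply_apply]
      by_cases hy : π y ∈ B
      · simp [ind, pin, hy, h1 y hy]
      · simp [ind, pin, hy, h2 y hy]
  have h4 := congrFun h3 (π a)
  rw [mulVec_smul, Pi.smul_apply, smul_eq_mul, Equiv.symm_apply_apply] at h4
  rw [← hZ, hπ, ← h4, hC, ← sum_filter]
  refine sum_nbij' (fun T => T \ B) (fun T => insert a T) ?_ ?_ ?_ ?_ fun _ _ => rfl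
  · simp only [mem_filter, mem_univ, true_and]
    rintro T ⟨a1, a2⟩
    refine ⟨sdiff_disjoint, fun h => (mem_sdiff.1 h).2 ha, fun x hx => ?_⟩
    have a3 := a1 x hx
    have a4 := Finset.ext_iff.1 a2 x
    simp only [mem_inter, mem_singleton, mem_sdiff] at a4 ⊢
    grind
  · simp only [mem_filter, mem_univ, true_and]
    rintro T ⟨a1, a2, a3⟩
    refine ⟨fun x hx => ?_, ?_⟩
    · have a4 := a3 x hx
      simp only [mem_insert]
      grind
    · rw [insert_inter_of_mem ha, disjoint_iff_inter_eq_empty.1 a1]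
      rfl
  · simp only [mem_filter, mem_univ, true_and]
    rintro T ⟨a1, a2⟩
    rw [insert_eq, ← a2, union_comm, sdiff_union_inter]
  · simp only [mem_filter, mem_univ, true_and]
    rintro T ⟨a1, a2, a3⟩
    rw [insert_sdiff_of_mem _ ha, sdiff_eq_self_of_disjoint a1]

end Gen

variable {I X : Type} [Fintype I] [DecidableEq I] [Fintype X] [DecidableEq X]

lemma cutA_ker (c : Circ I X) (q : I → ℝ) (f : I × X → ℝ) (i : I) (x : X) :
    (c.ker q *ᵥ f) (i, x) =
      (1 - q i) * f (c.nx i, x) + q i * f (c.nx i, Equiv.swap (c.ga i) (c.gb i) x) := by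
  rw [← lz_mulVec _ _ fun y => f (c.nx i, y)]
  simp [Circ.ker, mulVec, dotProduct, Fintype.sum_prod_type]

lemma cutA_ker_bit (c : Circ I X) (ω : I → Bool) (f : I × X → ℝ) (v : I × X) :
    (c.ker (fun i => bit (ω i)) *ᵥ f) v = f (c.perm ω v) := by
  obtain ⟨i, x⟩ := v
  rw [cutA_ker, perm_apply]
  cases ω i <;> simp [bit]

lemma cutA_ker_qt (c : Circ I X) (ω : I → Bool) {U : Finset (I × X)} {v : I × X} (hv : v ∈ U)
    (f : I × X → ℝ) : (c.ker (c.qt ω U) *ᵥ f) v = f (c.perm ω v) := by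
  obtain ⟨i, x⟩ := v
  rw [cutA_ker, perm_apply, Circ.qt]
  by_cases h : (i, c.ga i) ∉ U ∧ (i, c.gb i) ∉ U
  · rw [Equiv.swap_apply_of_ne_of_ne (a := c.ga i) (b := c.gb i) (x := x)
        (fun h' => h.1 (h' ▸ hv)) fun h' => h.2 (h' ▸ hv), ite_self]
    ring
  · rw [if_neg h]
    cases ω i <;> simp [bit]

lemma cutA_aff (c : Circ I X) (A : Matrix (I × X) (I × X) ℝ) (q : I → ℝ) (j : I) (t : ℝ) :
    (1 - A * c.ker (update q j t)).det =
      (1 - t) * (1 - A * c.ker (update q j 0)).det + t * (1 - A * c.ker (update q j 1)).det := by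
  have e : ∀ t, c.ker (update q j t) = c.ker (update q j 0) + t • vecMulVec
      (Pi.single (j, c.ga j) 1 - Pi.single (j, c.gb j) 1)
      (Pi.single (c.nx j, c.gb j) 1 - Pi.single (c.nx j, c.ga j) 1) := fun t => by
    refine ext_iff_mulVec.2 fun f => funext fun ⟨i, x⟩ => ?_
    rw [add_mulVec, smul_mulVec, vecMulVec_mulVec, op_smul_eq_smul, Pi.add_apply, cutA_ker, cutA_ker]
    simp only [sub_dotProduct, single_dotProduct, Pi.smul_apply, Pi.sub_apply, Pi.single_apply,
      Prod.mk.injEq, smul_eq_mul]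
    by_cases hi : i = j
    · subst hi
      simp only [update_self, Equiv.swap_apply_def, true_and]
      by_cases h1 : x = c.ga i <;> by_cases h2 : x = c.gb i
      · simp [h1.symm.trans h2, h2]; ring
      · subst h1; simp [h2]; ring
      · subst h2; simp [h1]; ring
      · simp [h1, h2]; ring
    · simp [update_of_ne hi, hi]
  rw [e t, e 1, one_smul, Matrix.mul_add, Matrix.mul_add, Matrix.mul_smul, mul_vecMulVec, ← sub_sub,
    ← sub_sub, cutA_det_aff]

/-- Averaging over the free gates. -/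
lemma cutA_avg (c : Circ I X) (U : Finset (I × X)) {G : (I → ℝ) → ℝ}
    (hG : ∀ q j t, G (update q j t) = (1 - t) * G (update q j 0) + t * G (update q j 1))
    {Φ : (I → Bool) → ℝ}
    (hΦ : ∀ ω j b, (j, c.ga j) ∉ U → (j, c.gb j) ∉ U → Φ (update ω j b) = Φ ω) :
    ∑ ω, c.pw ω * (Φ ω * G fun i => bit (ω i)) = ∑ ω, c.pw ω * (Φ ω * G (c.qt ω U)) := by
  have key : ∀ S : Finset I, (∀ j ∈ S, (j, c.ga j) ∉ U ∧ (j, c.gb j) ∉ U) →
      ∑ ω, c.pw ω * (Φ ω * G fun i => bit (ω i)) =
        ∑ ω, c.pw ω * (Φ ω * G fun i => if i ∈ S then c.gp i else bit (ω i)) := by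
    intro S
    induction S using Finset.induction_on with
    | empty => intro _; simp
    | insert j S hj ih =>
      intro hS
      rw [ih fun i hi => hS i (mem_insert_of_mem hi)]
      obtain ⟨h1, h2⟩ := hS j (mem_insert_self _ _)
      have split : ∀ F : (I → Bool) → ℝ,
          2 * ∑ ω, F ω = ∑ ω, (F (update ω j true) + F (update ω j false)) := fun F => by
        have h : Involutive fun ω : I → Bool => update ω j (!ω j) := fun ω => by simp
        rw [two_mul]
        nth_rewrite 2 [← Equiv.sum_comp h.toPerm F]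
        rw [← sum_add_distrib]
        refine sum_congr rfl fun ω _ => ?_
        have e : F ω = F (update ω j (ω j)) := by rw [update_eq_self]
        rw [e, Involutive.coe_toPerm]
        cases ω j
        · exact add_comm _ _
        · rfl
      refine mul_left_cancel₀ two_ne_zero ?_
      rw [split, split]
      refine sum_congr rfl fun ω _ => ?_
      have e1 : ∀ b, c.pw (update ω j b) = (if b then c.gp j else 1 - c.gp j) *
          ∏ i ∈ univ.erase j, if ω i then c.gp i else 1 - c.gp i := fun b => by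
        rw [Circ.pw, ← mul_prod_erase _ _ (mem_univ j), update_self]
        congr 1
        exact prod_congr rfl fun i hi => by rw [update_of_ne (ne_of_mem_erase hi)]
      have e2 : ∀ b, (fun i => if i ∈ S then c.gp i else bit (update ω j b i)) =
          update (fun i => if i ∈ S then c.gp i else bit (ω i)) j (bit b) := fun b => by
        funext i
        by_cases hi : i = j
        · simp [hi, hj]
        · simp [hi]
      have e3 : ∀ b, (fun i => if i ∈ insert j S then c.gp i else bit (update ω j b i)) =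
          update (fun i => if i ∈ S then c.gp i else bit (ω i)) j (c.gp j) := fun b => by
        funext i
        by_cases hi : i = j
        · simp [hi]
        · simp [hi]
      rw [e1, e1, e2, e2, e3, e3, hΦ _ _ _ h1 h2, hΦ _ _ _ h1 h2, hG _ _ (c.gp j)]
      simp only [bit, if_true, Bool.false_eq_true, if_false]
      ring
  rw [key (univ.filter fun j => (j, c.ga j) ∉ U ∧ (j, c.gb j) ∉ U) fun j hj => (mem_filter.1 hj).2]
  refine sum_congr rfl fun ω _ => ?_
  congr 3
  funext i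
  simp only [Circ.qt, mem_filter, mem_univ, true_and]

lemma cutA_inv_update (c : Circ I X) {U : Finset (I × X)} {j : I} (h1 : (j, c.ga j) ∉ U)
    (h2 : (j, c.gb j) ∉ U) (ω : I → Bool) (b : Bool) :
    IsInv (c.perm (update ω j b)) U ↔ IsInv (c.perm ω) U := by
  have e : ∀ v ∈ U, c.perm (update ω j b) v = c.perm ω v := fun ⟨i, x⟩ hv => by
    rw [perm_apply, perm_apply]
    by_cases hi : i = j
    · subst hi
      rw [Equiv.swap_apply_of_ne_of_ne (a := c.ga i) (b := c.gb i) (x := x)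
        (fun h' => h1 (h' ▸ hv)) fun h' => h2 (h' ▸ hv), ite_self,
        ite_self]
    · rw [update_of_ne hi]
  exact ⟨fun h => cutA_inv fun v hv => e v hv ▸ (h v).2 hv,
    fun h => cutA_inv fun v hv => (e v hv).symm ▸ (h v).2 hv⟩

end Vale.Agent.P361
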