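import Vale.Agent.P361.Model

/-!
# P361: internal definitions for the proof of the Bloch law
-/

namespace Vale.Agent.P361

open Matrix Finset

noncomputable section

open Classical

/-! ## Geometry of the cubic lattice -/

abbrev Z3 := Fin 3 → ℤ

/-- sup norm -/
def nrm (x : Z3) : ℕ := Finset.univ.sup fun i => (x i).natAbs

/-- sup norm ball -/
def cube (y : Z3) (r : ℕ) : Finset Z3 :=
  Fintype.piFinset fun i => Finset.Icc (y i - r) (y i + r)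

def ev (i : Fin 3) : Z3 := Pi.single i 1

def zadj (x y : Z3) : Prop := ∃ i, y = x + ev i ∨ x = y + ev i

/-- scales of the island hierarchy -/
def aa (k : ℕ) : ℕ := 2 * 1024 ^ k

/-- detour radii -/
def cc : ℕ → ℕ
  | 0 => 1
  | k + 1 => 5 * aa k

/-- points of rank at least `k` -/
def hier (E : Set Z3) : ℕ → Set Z3
  | 0 => E
  | k + 1 => {y | y ∈ hier E k ∧ ∃ y' ∈ hier E k, aa k < nrm (y' - y) ∧ nrm (y' - y) ≤ 4 * aa k}

def Far (E : Set Z3) (Kc : ℕ) (y : Z3) (k : ℕ) : Prop :=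
  ∀ j, k ≤ j → j < Kc → ∀ x ∈ hier E j, 2 * aa j < nrm (x - y)

def wgt (E : Set Z3) (Kc : ℕ) (y : Z3) : ℝ :=
  1 + ∑ j ∈ range Kc, if ∃ x ∈ hier E j, nrm (x - y) ≤ 2 * aa j then ((cc (j + 1) : ℕ) : ℝ) ^ 10 else 0

def r0 : ℕ := 27 * aa 3

def r1 : ℕ := 32 * aa 3

def GoodPt (E : Set Z3) (Kc : ℕ) (y : Z3) : Prop :=
  ((cube y r0).filter fun x => x ∈ E).card ≤ 5 ∧ Far E Kc y 4

/-- nearest neighbour connection inside `S` -/
def Conn (S : Set Z3) (a b : Z3) : Prop :=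
  a ∈ S ∧ Relation.ReflTransGen (fun x y => zadj x y ∧ y ∈ S) a b

def th (x : Z3) : ℝ := 1 / (1 + (nrm x : ℝ)) ^ 2

/-- sparse sets of small diameter -/
def Adm (L : ℕ) (B : Finset Z3) : Prop :=
  (∀ a ∈ B, ∀ ρ : ℕ, (B.filter fun b => b ∈ cube a ρ).card ^ 4 ≤ 16 * (1 + ρ)) ∧
    ∀ a ∈ B, ∀ b ∈ B, 8 * nrm (a - b) ≤ L

/-- static energy off `E` on the lattice -/
def zen (E : Set Z3) (u : Z3 → ℝ) (r : ℕ) (S : Finset Z3) : ℝ :=
  ∑ x ∈ S, if x ∈ E then 0 else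
    (∑ i, if x + ev i ∈ E then 0 else (u (x + ev i) - u x) ^ 2) + u x ^ 2 / (r : ℝ) ^ 2

/-- far part of the functional bound -/
def farW (E : Set Z3) (Kc : ℕ) (B : Finset Z3) (c0 : Z3) (L R : ℕ) : ℝ :=
  ∑ e ∈ cube c0 L, wgt E Kc e * (∑ a ∈ B, if 2 * R < nrm (e - a) then th (e - a) else 0) ^ 2

/-! ## Torus -/

abbrev TV (L : ℕ) := Fin 3 → ZMod L

abbrev XX (L s : ℕ) := TV L × Fin s

def prj (L : ℕ) (z : Z3) : TV L := fun i => (z i : ZMod L)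

def tball {L : ℕ} (x : TV L) (r : ℕ) : Finset (TV L) := (cube 0 r).image fun z => x + prj L z

def torus (L : ℕ) : SimpleGraph (TV L) := SimpleGraph.fromRel fun x y => ∃ i, y = x + prj L (ev i)

instance torusDec (L : ℕ) : DecidableRel (torus L).Adj := Classical.decRel _

/-- lattice points over a site carrying a point of `U` -/
def liftE {L s : ℕ} (U : Finset (XX L s)) : Set Z3 := {y | ∃ c, (prj L y, c) ∈ U}

/-- static energy on the torus with copies -/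
def xen {L s : ℕ} [NeZero L] [NeZero s] (U : Finset (XX L s)) (u : XX L s → ℝ) (r : ℕ) : ℝ :=
  (∑ v : XX L s, ∑ y : TV L,
      if v ∉ U ∧ (torus L).Adj v.1 y ∧ ∀ c, (y, c) ∉ U then (u v - u (y, 0)) ^ 2 else 0) +
    (∑ v, u v ^ 2) / (r : ℝ) ^ 2

/-! ## Finite probability -/

def Ex {Ω : Type} [Fintype Ω] (wt f : Ω → ℝ) : ℝ := ∑ o, wt o * f o

def Pr {Ω : Type} [Fintype Ω] (wt : Ω → ℝ) (P : Ω → Prop) : ℝ :=
  Ex wt fun o => if P o then 1 else 0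

/-! ## Kernels -/

def bit (b : Bool) : ℝ := if b then 1 else 0

/-- lazy permutation kernel -/
def lz {Y : Type} [DecidableEq Y] (σ : Equiv.Perm Y) (q : ℝ) : Matrix Y Y ℝ :=
  Matrix.of fun y y' => (1 - q) * (if y' = y then 1 else 0) + q * (if y' = σ y then 1 else 0)

/-- ordered product `A t * A (t+1) * ⋯ * A (t+len-1)` -/
def kp {Y : Type} [Fintype Y] [DecidableEq Y] (A : ℕ → Matrix Y Y ℝ) (t : ℕ) : ℕ → Matrix Y Y ℝ
  | 0 => 1
  | len + 1 => kp A t len * A (t + len)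

/-- nonnegative with unit row and column sums -/
def DStoch {Y : Type} [Fintype Y] (A : Matrix Y Y ℝ) : Prop :=
  (∀ v w, 0 ≤ A v w) ∧ (∀ v, ∑ w, A v w = 1) ∧ ∀ w, ∑ v, A v w = 1

def ind {Y : Type} [DecidableEq Y] (B : Finset Y) : Y → ℝ := fun v => if v ∈ B then 1 else 0

/-- the quadratic form of one sweep -/
def form {Y : Type} [Fintype Y] (K : ℕ → Matrix Y Y ℝ) (c : ℝ) (x : ℕ → Y → ℝ) (k : ℕ) : ℝ :=
  (∑ v, ∑ w, K k v w * (x k v - x (k + 1) w) ^ 2) + c * ∑ v, x k v ^ 2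

/-- Output of a run: marks `mu`, leftover `lam`, occupation `occ`, functional norm `al`. -/
structure IsRun {Y : Type} [Fintype Y] (K : ℕ → Matrix Y Y ℝ) (d : ℕ → Y → ℝ) (c : ℝ)
    (n u J0 N : ℕ) (F0 : Y → ℝ) (mu lam occ : ℕ → Y → ℝ) (al : ℝ) : Prop where
  mu_nonneg : ∀ k v, 0 ≤ mu k v
  lam_nonneg : ∀ k v, 0 ≤ lam k v
  occ_nonneg : ∀ k v, 0 ≤ occ k v
  al_nonneg : 0 ≤ al
  supp : ∀ k v, mu k v ≠ 0 → J0 ≤ k % n ∧ k % n < J0 + 2 * u
  ident : ∀ h s : ℕ → Y → ℝ, (∀ k v, h k v = s k v + d k v * (K k *ᵥ h (k + 1)) v) →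
    F0 ⬝ᵥ h 0 = ∑ k ∈ range (N + 1), (occ k ⬝ᵥ s k + mu k ⬝ᵥ h k + lam k ⬝ᵥ h k)
  func : ∀ (x : ℕ → Y → ℝ) (Q : ℝ), (∀ k v, 0 ≤ x k v) →
    (∀ T, ∑ k ∈ Ico T (T + u), form K c x k ≤ Q) →
    ∑ k ∈ range (N + 1), mu k ⬝ᵥ x k ≤ al * Real.sqrt Q

/-- Raw output of a run from the vertex `a`; `N = k0 * n + J0 + 2 * u`. -/
structure RunRaw {Y : Type} [Fintype Y] [DecidableEq Y] (K Kb : ℕ → Matrix Y Y ℝ) (d : ℕ → Y → ℝ)
    (n u J0 k0 : ℕ) (q : ℝ) (a : Y) (ok : ℕ → Y → Prop) (mu0 mu1 lam occ : ℕ → Y → ℝ) : Prop where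
  mu0_nonneg : ∀ k v, 0 ≤ mu0 k v
  mu1_nonneg : ∀ k v, 0 ≤ mu1 k v
  lam_nonneg : ∀ k v, 0 ≤ lam k v
  occ_nonneg : ∀ k v, 0 ≤ occ k v
  ident : ∀ h s : ℕ → Y → ℝ, (∀ k v, h k v = s k v + d k v * (K k *ᵥ h (k + 1)) v) →
    h 0 a = ∑ k ∈ range (k0 * n + J0 + 2 * u + 1),
      (occ k ⬝ᵥ s k + (mu0 k + mu1 k) ⬝ᵥ h k + lam k ⬝ᵥ h k)
  mu0_supp : ∀ k v, mu0 k v ≠ 0 → k0 * n + J0 ≤ k ∧ k < k0 * n + J0 + u ∧ ok k v
  mu0_le : ∀ k v, mu0 k v ≤ kp Kb 0 k a v / u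
  mu1_supp : ∀ k v, mu1 k v ≠ 0 →
    J0 + u ≤ k % n ∧ k % n < J0 + 2 * u ∧ k < k0 * n + J0 + 2 * u ∧ ok k v
  mu1_mass : ∀ k, ∑ v, mu1 k v ≤ q * (1 - ∑ v, kp Kb 0 (k0 * n + J0 + 2 * u) a v)

/-- number of bad sweeps in `T, …, T+u-1` -/
def nbad (good : ℕ → Prop) (T u : ℕ) : ℕ := ((Ico T (T + u)).filter fun k => ¬ good k).card

def mass {Y : Type} [Fintype Y] (N : ℕ) (lam : ℕ → Y → ℝ) : ℝ :=
  ∑ k ∈ range (N + 1), ∑ v, lam k v

/-! ## Gate data and time lines -/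

structure GD (X : Type) where
  M : ℕ
  o1 : ℕ
  o2 : ℕ
  G : ℕ
  p : ℝ
  ga : ℕ → X
  gb : ℕ → X
  gp : ℕ → ℝ

structure GD.Ok {L s : ℕ} (g : GD (XX L s)) : Prop where
  M_pos : 0 < g.M
  o12 : g.o1 ≤ g.o2
  o2M : g.o2 ≤ g.M
  p_pos : 0 < g.p
  p_le : g.p ≤ 1 / 2
  gp_nonneg : ∀ t, 0 ≤ g.gp t
  gp_le : ∀ t, g.gp t ≤ 1 / 2
  ne : ∀ t, g.ga t ≠ g.gb t
  ga_per : ∀ t, g.ga t = g.ga (t % g.M)
  gb_per : ∀ t, g.gb t = g.gb (t % g.M)
  gp_per : ∀ t, g.gp t = g.gp (t % g.M)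
  mid : ∀ t, g.o1 ≤ t % g.M → t % g.M < g.o2 →
    (torus L).Adj (g.ga t).1 (g.gb t).1 ∧ g.gp t = g.p
  out : ∀ t, ¬ (g.o1 ≤ t % g.M ∧ t % g.M < g.o2) → (g.ga t).1 = (g.gb t).1
  cover : ∀ (k : ℕ) (v v' : XX L s), (torus L).Adj v.1 v'.1 →
    ∃ t, k * g.M + g.o1 ≤ t ∧ t < k * g.M + g.o2 ∧
      ((g.ga t = v ∧ g.gb t = v') ∨ (g.ga t = v' ∧ g.gb t = v))
  count : ∀ (k : ℕ) (y : TV L),
    ((Ico (k * g.M) ((k + 1) * g.M)).filter fun t => (g.ga t).1 = y ∨ (g.gb t).1 = y).card ≤ g.G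

/-- time reversed gate data -/
def GD.rev {X : Type} (g : GD X) : GD X where
  M := g.M
  o1 := g.M - g.o2
  o2 := g.M - g.o1
  G := g.G
  p := g.p
  ga := fun t => g.ga (g.M - 1 - t % g.M)
  gb := fun t => g.gb (g.M - 1 - t % g.M)
  gp := fun t => g.gp (g.M - 1 - t % g.M)

section Env

variable {X : Type} [Fintype X] [DecidableEq X]

/-- obstacles follow the actual crossings -/
def GD.Inv (g : GD X) (om : ℕ → Bool) (U : ℕ → Finset X) : Prop :=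
  ∀ t x, (if om t then Equiv.swap (g.ga t) (g.gb t) x else x) ∈ U (t + 1) ↔ x ∈ U t

def GD.qt (g : GD X) (om : ℕ → Bool) (U : ℕ → Finset X) (t : ℕ) : ℝ :=
  if g.ga t ∉ U t ∧ g.gb t ∉ U t then g.gp t else bit (om t)

/-- gate kernel in the environment -/
def GD.Kt (g : GD X) (om : ℕ → Bool) (U : ℕ → Finset X) (t : ℕ) : Matrix X X ℝ :=
  lz (Equiv.swap (g.ga t) (g.gb t)) (g.qt om U t)

/-- free gate kernel -/
def GD.Kf (g : GD X) (t : ℕ) : Matrix X X ℝ := lz (Equiv.swap (g.ga t) (g.gb t)) (g.gp t)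

/-- common part of the two gate kernels -/
def GD.Kb (g : GD X) (om : ℕ → Bool) (U : ℕ → Finset X) (t : ℕ) : Matrix X X ℝ :=
  Matrix.of fun v w => min (g.Kt om U t v w) (g.Kf t v w)

def GD.Ks (g : GD X) (om : ℕ → Bool) (U : ℕ → Finset X) (k : ℕ) : Matrix X X ℝ :=
  kp (g.Kt om U) (k * g.M) g.M

def GD.Kfs (g : GD X) (k : ℕ) : Matrix X X ℝ := kp g.Kf (k * g.M) g.M

def GD.Kbs (g : GD X) (om : ℕ → Bool) (U : ℕ → Finset X) (k : ℕ) : Matrix X X ℝ :=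
  kp (g.Kb om U) (k * g.M) g.M

/-- mass lost by the common kernel in the first `N` sweeps -/
def GD.lost (g : GD X) (om : ℕ → Bool) (U : ℕ → Finset X) (a : X) (N : ℕ) : ℝ :=
  1 - ∑ v, kp (g.Kbs om U) 0 N a v

/-- column deficiency of the common kernel over sweeps `T, …, T+len-1` -/
def GD.cdef (g : GD X) (om : ℕ → Bool) (U : ℕ → Finset X) (T len : ℕ) (b : X) : ℝ :=
  1 - ∑ v, kp (g.Kbs om U) T len v b

/-- sup bounds for the free kernel, by number of windows -/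
def GD.FreeBd (g : GD X) (w nw : ℕ) (σ : ℕ → ℝ) : Prop :=
  ∀ k len j, j * w ≤ len → len ≤ nw * w → ∀ v v', kp g.Kfs k len v v' ≤ σ j

end Env

/-- no obstacle changes site during sweep `k` -/
def GD.Quiet {V C : Type} (g : GD (V × C)) (om : ℕ → Bool) (U : ℕ → Finset (V × C)) (k : ℕ) :
    Prop :=
  ∀ t, k * g.M ≤ t → t < (k + 1) * g.M → (g.ga t).1 ≠ (g.gb t).1 → om t = true →
    g.ga t ∉ U t ∧ g.gb t ∉ U t

/-- chain majorant, `psi π f len t` runs over the gates `t, …, t+len-1` -/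
def GD.psi {V C : Type} (g : GD (V × C)) (π : ℕ → ℝ) (f : V → ℝ) : ℕ → ℕ → V → ℝ
  | 0, _ => f
  | len + 1, t => fun y => g.psi π f len (t + 1) y + π t *
      (if (g.ga t).1 = (g.gb t).1 then 0 else
        (if y = (g.ga t).1 then g.psi π f len (t + 1) (g.gb t).1 else 0) +
        (if y = (g.gb t).1 then g.psi π f len (t + 1) (g.ga t).1 else 0))

structure TL (Ω X : Type) where
  g : GD X
  wt : Ω → ℝ
  om : Ω → ℕ → Bool
  U : Ω → ℕ → Finset X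

/-- product bounds for one random obstacle slice -/
structure SliceOk {Ω : Type} [Fintype Ω] {L s : ℕ} (wt : Ω → ℝ) (U : Ω → Finset (XX L s))
    (e1 e2 : ℝ) : Prop where
  wt_nonneg : ∀ o, 0 ≤ wt o
  wt_sum : ∑ o, wt o = 1
  e1_nonneg : 0 ≤ e1
  e2_nonneg : 0 ≤ e2
  p1a : ∀ B : Finset Z3, Adm L B → Pr wt (fun o => ∀ y ∈ B, y ∈ liftE (U o)) ≤ e1 ^ B.card
  p1b : ∀ B : Finset (TV L), B.card ≤ 6 →
    Pr wt (fun o => ∀ y ∈ B, ∃ c, (y, c) ∈ U o) ≤ e2 ^ B.card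

structure TL.Ok {Ω : Type} [Fintype Ω] {L s : ℕ} (T : TL Ω (XX L s)) (w : ℕ) (e1 e2 : ℝ) :
    Prop where
  gd : T.g.Ok
  inv : ∀ o, T.wt o ≠ 0 → T.g.Inv (T.om o) (T.U o)
  sl : ∀ k, SliceOk T.wt (fun o => T.U o (k * T.g.M)) e1 e2
  p2 : ∀ (k : ℕ) (I : Finset ℕ), I ⊆ Ico (k * T.g.M) ((k + w) * T.g.M) →
    Ex T.wt (fun o => ∏ t ∈ I, (T.g.gp t + bit (T.om o t))) ≤ ∏ t ∈ I, 7 * T.g.gp t

/-- good sweeps for the start with lift `a` -/
def TL.good {Ω : Type} {L s : ℕ} (T : TL Ω (XX L s)) (Kc R : ℕ) (a : Z3) (o : Ω) (k : ℕ) : Prop :=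
  T.g.Quiet (T.om o) (T.U o) k ∧ hier (liftE (T.U o (k * T.g.M))) Kc = ∅ ∧
    ∀ y ∈ cube a (3 * R), GoodPt (liftE (T.U o (k * T.g.M))) Kc y

/-! ## Explicit bounds -/

/-- probability that a sweep is not good -/
def etaB (C p : ℝ) (M L Kc R : ℕ) (e1 e2 : ℝ) : ℝ :=
  7 * p * M + (L : ℝ) ^ 3 * (1 / 2) ^ (2 ^ Kc) + C * (6 * (R : ℝ) + 1) ^ 3 * (e2 ^ 6 + e1 ^ 16)

/-- expected leftover mass per start -/
def lamB (s nw K R : ℕ) (η qu : ℝ) : ℝ :=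
  (nw : ℝ) * s * (2 * (R : ℝ) + 1) ^ 3 * (1 / 2) ^ K + 3 * η + Real.exp (-(qu / 2))

/-- second moment of the lost mass -/
def lostB (s nw K : ℕ) (e2 : ℝ) (σ : ℕ → ℝ) : ℝ :=
  2 * (∑ j ∈ range nw, (4 * (K : ℝ) + 3) ^ 3 * (Real.sqrt (s * e2 * σ j) + e2)) ^ 2 +
    2 * nw * (1 + (2 * (K : ℝ) + 3) ^ 3) * (1 / 2) ^ K

/-- second moment of the functional norm of a sharp run -/
def alB (C pu qu : ℝ) (k0 ρ R : ℕ) (σ0 LM : ℝ) : ℝ :=
  C / pu * ((ρ : ℝ) ^ 2 * σ0 + 1 / ρ + 1 / R + ((k0 : ℝ) + 1) ^ 2 * qu ^ 2 * (LM + 1 / R))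

/-- geometric side conditions -/
structure Geo (L Kc K R r nw : ℕ) : Prop where
  hK : nw * K ≤ R
  hr0 : r0 ≤ R
  hL : 16 * (R + 2 * r + r1) ≤ L
  hKc : 8 * aa Kc ≤ L
  hr : 1 ≤ r

/-! ## Circuits -/

structure Circ (I X : Type) where
  nx : Equiv.Perm I
  ga : I → X
  gb : I → X
  gp : I → ℝ

structure Circ.Ok {I X : Type} (c : Circ I X) : Prop where
  ne : ∀ i, c.ga i ≠ c.gb i
  gp_nonneg : ∀ i, 0 ≤ c.gp i
  gp_le : ∀ i, c.gp i ≤ 1 / 2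

def IsInv {Y : Type} (σ : Equiv.Perm Y) (U : Finset Y) : Prop := ∀ y, σ y ∈ U ↔ y ∈ U

abbrev Env (I X : Type) := (I → Bool) × Finset (I × X) × Finset (I × X)

def pin {Y : Type} [DecidableEq Y] (d : Y → ℝ) (B : Finset Y) : Y → ℝ :=
  fun v => if v ∈ B then 0 else d v

section Circuit

variable {I X : Type} [Fintype I] [DecidableEq I] [Fintype X] [DecidableEq X]

/-- the space time permutation -/
def Circ.perm (c : Circ I X) (ω : I → Bool) : Equiv.Perm (I × X) :=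
  Equiv.prodShear c.nx fun i => if ω i then Equiv.swap (c.ga i) (c.gb i) else Equiv.refl X

def Circ.pw (c : Circ I X) (ω : I → Bool) : ℝ := ∏ i, if ω i then c.gp i else 1 - c.gp i

/-- weight of the invariant sets containing `B`; the partition function is `num d ∅` -/
def Circ.num (c : Circ I X) (d : I × X → ℝ) (B : Finset (I × X)) : ℝ :=
  ∑ ω : I → Bool, c.pw ω * ∑ U : Finset (I × X),
    if IsInv (c.perm ω) U ∧ B ⊆ U then ∏ v ∈ U, d v else 0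

def Circ.ker (c : Circ I X) (q : I → ℝ) : Matrix (I × X) (I × X) ℝ :=
  Matrix.of fun v w =>
    if w.1 = c.nx v.1 then lz (Equiv.swap (c.ga v.1) (c.gb v.1)) (q v.1) v.2 w.2 else 0

def Circ.qt (c : Circ I X) (ω : I → Bool) (U : Finset (I × X)) (i : I) : ℝ :=
  if (i, c.ga i) ∉ U ∧ (i, c.gb i) ∉ U then c.gp i else bit (ω i)

/-- fermion determinant off `U` -/
def Circ.fdet (c : Circ I X) (d : I × X → ℝ) (ω : I → Bool) (U : Finset (I × X)) : ℝ :=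
  (1 - Matrix.diagonal (pin d U) * c.ker fun i => bit (ω i)).det

/-- environment probability -/
def Circ.ew (c : Circ I X) (d : I × X → ℝ) (o : Env I X) : ℝ :=
  (if IsInv (c.perm o.1) o.2.1 ∧ IsInv (c.perm o.1) o.2.2 ∧ Disjoint o.2.1 o.2.2 then
      c.pw o.1 * (∏ v ∈ o.2.1, d v) * (∏ v ∈ o.2.2, d v) * c.fdet d o.1 (o.2.1 ∪ o.2.2)
    else 0) / c.num d ∅

/-- kernel of the walk in the environment -/
def Circ.kE (c : Circ I X) (o : Env I X) : Matrix (I × X) (I × X) ℝ :=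
  c.ker (c.qt o.1 (o.2.1 ∪ o.2.2))

def Circ.hit (c : Circ I X) (d : I × X → ℝ) (B : Finset (I × X)) (o : Env I X) : I × X → ℝ :=
  (1 - Matrix.diagonal d * c.kE o)⁻¹ *ᵥ ind B

/-- annealed weight of hitting `B` again from `a` -/
def Circ.rr (c : Circ I X) (d : I × X → ℝ) (B : Finset (I × X)) (a : I × X) : ℝ :=
  Ex (c.ew d) fun o => (c.kE o *ᵥ c.hit d B o) a

/-- cut partition function: minus set `σ`, conservation off `B`, trace `S` on `B` -/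
def Circ.cut (c : Circ I X) (d : I × X → ℝ) (B S : Finset (I × X)) : ℝ :=
  ∑ ω : I → Bool, c.pw ω * ∑ σ : Finset (I × X),
    if (∀ y, c.perm ω y ∉ B → (c.perm ω y ∈ σ ↔ y ∈ σ)) ∧ σ ∩ B = S then ∏ v ∈ σ \ B, d v else 0

def slice (U : Finset (I × X)) (i : I) : Finset X := Finset.univ.filter fun x => (i, x) ∈ U

end Circuit

/-- the periodic circuit of `n` sweeps -/
def GD.circ {X : Type} (g : GD X) (n : ℕ) : Circ (ZMod (n * g.M)) X where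
  nx := Equiv.addRight 1
  ga := fun i => g.ga i.val
  gb := fun i => g.gb i.val
  gp := fun i => g.gp i.val

/-- start of sweep `k` -/
def sl (n M : ℕ) (k : ZMod n) : ZMod (n * M) := ((k.val * M : ℕ) : ZMod (n * M))

section Lines

variable {X : Type} [Fintype X] [DecidableEq X]

/-- forward time line based at sweep `k` -/
def GD.fwd (g : GD X) (n : ℕ) [NeZero (n * g.M)] (d : ZMod (n * g.M) × X → ℝ) (k : ZMod n) :
    TL (Env (ZMod (n * g.M)) X) X where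
  g := g
  wt := (g.circ n).ew d
  om := fun o t => o.1 (sl n g.M k + t)
  U := fun o t => slice (o.2.1 ∪ o.2.2) (sl n g.M k + t)

/-- backward time line based at sweep `k` -/
def GD.bwd (g : GD X) (n : ℕ) [NeZero (n * g.M)] (d : ZMod (n * g.M) × X → ℝ) (k : ZMod n) :
    TL (Env (ZMod (n * g.M)) X) X where
  g := g.rev
  wt := (g.circ n).ew d
  om := fun o t => o.1 (sl n g.M k - 1 - t)
  U := fun o t => slice (o.2.1 ∪ o.2.2) (sl n g.M k - t)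

/-- sweep kernel number `κ` in the environment `o` -/
def GD.Kz (g : GD X) (n : ℕ) [NeZero (n * g.M)] (o : Env (ZMod (n * g.M)) X) (κ : ZMod n) :
    Matrix X X ℝ :=
  g.Ks (fun t => o.1 (sl n g.M κ + t)) (fun t => slice (o.2.1 ∪ o.2.2) (sl n g.M κ + t)) 0

/-- weights `ζ` with pins at the sweep starts listed in `P` -/
def dP (n M : ℕ) (ζ : ℝ) (P : Finset (ZMod n × X)) : ZMod (n * M) × X → ℝ :=
  pin (fun _ => ζ) (P.image fun q => (sl n M q.1, q.2))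

/-- the set `B` placed at the start of sweep `k` -/
def atS (n M : ℕ) (k : ZMod n) (B : Finset X) : Finset (ZMod (n * M) × X) :=
  B.image fun x => (sl n M k, x)

end Lines

/-- bootstrap hypothesis -/
def GD.BH {L s : ℕ} [NeZero L] (g : GD (XX L s)) (n : ℕ) [NeZero (n * g.M)] (ζ ε1 ε2 : ℝ) : Prop :=
  ∀ (P : Finset (ZMod n × XX L s)) (k : ZMod n),
    (∀ (B : Finset Z3) (c : Z3 → Fin s), Adm L B →
      (g.circ n).num (dP n g.M ζ P) (atS n g.M k (B.image fun y => (prj L y, c y))) ≤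
        ε1 ^ B.card * (g.circ n).num (dP n g.M ζ P) ∅) ∧
    ∀ B : Finset (XX L s), B.card ≤ 6 →
      (g.circ n).num (dP n g.M ζ P) (atS n g.M k B) ≤
        ε2 ^ B.card * (g.circ n).num (dP n g.M ζ P) ∅

/-- parameters of the runs: `n = 16 u` sweeps per period, `u = l w`, windows of `w` sweeps -/
structure Par {L s : ℕ} [NeZero L] (g : GD (XX L s)) (n u l w nw K R r Kc k0 : ℕ)
    [NeZero (n * g.M)] (ζ ξ ε1 ε2 q : ℝ) (σ : ℕ → ℝ) : Prop where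
  ok : g.Ok
  hn : n = 16 * u
  hu : u = l * w
  hl : 1 ≤ l
  hw : 1 ≤ w
  hp : 28 * g.p * g.G * w ≤ 1
  hnw : (k0 + 1) * (16 * l) ≤ nw
  geo : Geo L Kc K R r nw
  hq0 : 0 ≤ q
  hq1 : q ≤ 1
  hζ0 : 0 ≤ ζ
  hζ1 : ζ < 1
  hζξ : ζ ^ g.M ≤ ξ
  hξ0 : 1 / 2 ≤ ξ
  hξ1 : ξ < 1
  hc : g.p / (r : ℝ) ^ 2 ≤ 1 - ξ
  hε1 : 0 ≤ ε1
  hε2 : 0 ≤ ε2
  he1 : 2 * s * ε1 ≤ (1 / 2) ^ 200
  hσ : ∀ j, 0 ≤ σ j
  free : g.FreeBd w nw σ
  bh : g.BH n ζ ε1 ε2

/-- annealed hitting weight for the set `B` at sweep `k`, pinned in addition to `P` -/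
def GD.rB {X : Type} [Fintype X] [DecidableEq X] (g : GD X) (n : ℕ) [NeZero (n * g.M)] (ζ : ℝ)
    (P : Finset (ZMod n × X)) (k : ZMod n) (B : Finset X) (a : X) : ℝ :=
  (g.circ n).rr (dP n g.M ζ (P ∪ B.image fun x => (k, x))) (atS n g.M k B) (sl n g.M k, a)

/-! ## The Trotter sweep -/

section Sweep

variable {V : Type} [Fintype V] [DecidableEq V]

/-- lazy star transpositions whose product is the symmetrizer -/
def siteList (V : Type) [Fintype V] (s : ℕ) : List ((V × Fin s) × (V × Fin s) × ℝ) :=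
  (Finset.univ : Finset V).toList.flatMap fun x =>
    (List.finRange s).flatMap fun j =>
      ((List.finRange s).filter fun i => i < j).map fun i =>
        ((x, i), (x, j), 1 / (((j : ℕ) : ℝ) + 1 - ((i : ℕ) : ℝ)))

/-- ordered adjacent pairs of copies -/
def edgePairs (G : SimpleGraph V) [DecidableRel G.Adj] (s : ℕ) : Finset ((V × Fin s) × (V × Fin s)) :=
  Finset.univ.filter fun q => G.Adj q.1.1 q.2.1

def edgeList (G : SimpleGraph V) [DecidableRel G.Adj] (s : ℕ) (p : ℝ) : List ((V × Fin s) × (V × Fin s) × ℝ) :=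
  (edgePairs G s).toList.map fun q => (q.1, q.2, p)

def sweepList (G : SimpleGraph V) [DecidableRel G.Adj] (s : ℕ) (p : ℝ) : List ((V × Fin s) × (V × Fin s) × ℝ) :=
  siteList V s ++ edgeList G s p

/-- one body gate -/
def g1 {X : Type} [DecidableEq X] (e : X × X × ℝ) : Matrix X X ℝ := lz (Equiv.swap e.1 e.2.1) e.2.2

/-- many body gate -/
def gM {X : Type} [DecidableEq X] (e : X × X × ℝ) : Matrix (Finset X) (Finset X) ℝ :=
  lz (Equiv.swap e.1 e.2.1).finsetCongr e.2.2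

def cnt {s : ℕ} (η : Finset (V × Fin s)) (x : V) : ℕ :=
  (Finset.univ.filter fun i : Fin s => (x, i) ∈ η).card

/-- many body symmetrizer -/
def symP (V : Type) [Fintype V] [DecidableEq V] (s : ℕ) :
    Matrix (Finset (V × Fin s)) (Finset (V × Fin s)) ℝ :=
  Matrix.of fun η η' => ∏ x : V, if cnt η x = cnt η' x then 1 / ((s.choose (cnt η x) : ℕ) : ℝ) else 0

/-- one body symmetrizer -/
def symP1 (V : Type) [DecidableEq V] (s : ℕ) : Matrix (V × Fin s) (V × Fin s) ℝ :=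
  Matrix.of fun v w => if v.1 = w.1 then 1 / (s : ℝ) else 0

/-- many body generator -/
def genM (G : SimpleGraph V) [DecidableRel G.Adj] (s : ℕ) : Matrix (Finset (V × Fin s)) (Finset (V × Fin s)) ℝ :=
  ∑ q ∈ edgePairs G s, (1 / 4 : ℝ) • (lz (Equiv.swap q.1 q.2).finsetCongr 1 - 1)

/-- one body generator -/
def gen1 (G : SimpleGraph V) [DecidableRel G.Adj] (s : ℕ) : Matrix (V × Fin s) (V × Fin s) ℝ :=
  ∑ q ∈ edgePairs G s, (1 / 4 : ℝ) • (lz (Equiv.swap q.1 q.2) 1 - 1)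

/-- heat kernel of one magnon -/
def heat (G : SimpleGraph V) [DecidableRel G.Adj] (s : ℕ) (t : ℝ) : Matrix V V ℝ :=
  NormedSpace.exp ((-(t * s / 2)) • G.lapMatrix ℝ)

def fug {X : Type} [DecidableEq X] (z : ℝ) : Matrix (Finset X) (Finset X) ℝ :=
  Matrix.diagonal fun η => z ^ η.card

end Sweep

/-- gate data of the Trotter sweep on the torus -/
def sweepGD (L s : ℕ) [NeZero L] [NeZero s] (p : ℝ) : GD (XX L s) where
  M := (sweepList (torus L) s p).length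
  o1 := (siteList (TV L) s).length
  o2 := (sweepList (torus L) s p).length
  G := 13 * s ^ 2
  p := p
  ga := fun t => ((sweepList (torus L) s p).getD (t % (sweepList (torus L) s p).length) (0, 0, 0)).1
  gb := fun t => ((sweepList (torus L) s p).getD (t % (sweepList (torus L) s p).length) (0, 0, 0)).2.1
  gp := fun t => ((sweepList (torus L) s p).getD (t % (sweepList (torus L) s p).length) (0, 0, 0)).2.2

/-- the Bloch constant -/
def blochC (s : ℕ) : ℝ :=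
  (riemannZeta (3 / 2)).re / (8 * Real.pi ^ (3 / 2 : ℝ) * ((s : ℝ) / 2) ^ (3 / 2 : ℝ))

end

end Vale.Agent.P361
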