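import Vale.Agent.P361.Basic

/-!
# P361: numerics of the parameters, `β = x ^ 100`
-/

namespace Vale.Agent.P361

open Finset Filter

noncomputable section

def pl (G : ℕ) (x : ℝ) : ℕ := ⌈(G : ℝ) * x ^ 100⌉₊

def pK (x : ℝ) : ℕ := ⌈x⌉₊

def pnw (G k0 : ℕ) (x : ℝ) : ℕ := (k0 + 1) * (16 * pl G x)

def pR (G k0 : ℕ) (x : ℝ) : ℕ := pnw G k0 x * pK x + r0

def psig (C : ℝ) (j : ℕ) : ℝ := C / ((1 + (j : ℝ)) * Real.sqrt (1 + j))

def prho (m : ℕ) (x : ℝ) : ℕ := ⌈(m : ℝ) ^ 2 * x ^ 50⌉₊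

end

lemma psig_nonneg {C : ℝ} (hC : 0 ≤ C) (j : ℕ) : 0 ≤ psig C j := by
  unfold psig; positivity

structure PB (G k0 : ℕ) (x : ℝ) : Prop where
  x1 : 2 ≤ x
  l1 : x ^ 100 ≤ pl G x
  l2 : (pl G x : ℝ) ≤ 2 * G * x ^ 100
  K1 : x ≤ pK x
  K2 : (pK x : ℝ) ≤ 2 * x
  nw1 : x ^ 100 ≤ pnw G k0 x
  nw2 : (pnw G k0 x : ℝ) ≤ x ^ 101
  R1 : x ^ 100 ≤ pR G k0 x
  R2 : (pR G k0 x : ℝ) ≤ x ^ 103

lemma ev_PB {G : ℕ} (hG : 1 ≤ G) (k0 : ℕ) : ∀ᶠ x in atTop, PB G k0 x := by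
  filter_upwards [eventually_ge_atTop (2 : ℝ), eventually_ge_atTop (32 * ((k0 : ℝ) + 1) * G),
    eventually_ge_atTop ((r0 : ℝ) + 2)] with x h2 hk hr
  have hG' : (1 : ℝ) ≤ G := by exact_mod_cast hG
  have hx0 : 0 < x := by linarith
  have hp : 1 ≤ x ^ 100 := one_le_pow₀ (by linarith)
  have l1 : x ^ 100 ≤ pl G x := by
    refine le_trans ?_ (Nat.le_ceil _)
    nlinarith
  have l2 : (pl G x : ℝ) ≤ 2 * G * x ^ 100 := by
    have := (Nat.ceil_lt_add_one (a := (G : ℝ) * x ^ 100) (by positivity)).le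
    unfold pl
    nlinarith
  have K1 : x ≤ pK x := Nat.le_ceil _
  have K2 : (pK x : ℝ) ≤ 2 * x := by
    have := (Nat.ceil_lt_add_one (a := x) hx0.le).le
    unfold pK
    linarith
  have e : (pnw G k0 x : ℝ) = ((k0 : ℝ) + 1) * (16 * pl G x) := by simp [pnw]
  have k1 : (1 : ℝ) ≤ (k0 : ℝ) + 1 := by linarith [Nat.cast_nonneg (α := ℝ) k0]
  have nw1 : x ^ 100 ≤ pnw G k0 x := by rw [e]; nlinarith
  have nw2 : (pnw G k0 x : ℝ) ≤ x ^ 101 := by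
    rw [e]
    calc ((k0 : ℝ) + 1) * (16 * pl G x) ≤ ((k0 : ℝ) + 1) * (16 * (2 * G * x ^ 100)) := by gcongr
      _ = (32 * ((k0 : ℝ) + 1) * G) * x ^ 100 := by ring
      _ ≤ x * x ^ 100 := by gcongr
      _ = x ^ 101 := by ring
  have eR : (pR G k0 x : ℝ) = pnw G k0 x * pK x + r0 := by simp [pR]
  refine ⟨h2, l1, l2, K1, K2, nw1, nw2, ?_, ?_⟩
  · rw [eR]
    have : (0 : ℝ) ≤ r0 := Nat.cast_nonneg _
    nlinarith
  · rw [eR]
    have h1 : (pnw G k0 x : ℝ) * pK x ≤ x ^ 101 * (2 * x) := by gcongr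
    have h3 : 1 ≤ x ^ 102 := one_le_pow₀ (by linarith)
    have h4 : (0 : ℝ) ≤ r0 := Nat.cast_nonneg _
    calc (pnw G k0 x : ℝ) * pK x + r0 ≤ x ^ 101 * (2 * x) + r0 * x ^ 102 := by nlinarith
      _ = (r0 + 2) * x ^ 102 := by ring
      _ ≤ x * x ^ 102 := by gcongr
      _ = x ^ 103 := by ring

lemma ev_exp (k : ℕ) : ∀ᶠ x : ℝ in atTop, Real.exp (-(x / 2)) ≤ 1 / x ^ k := by
  have h := (Real.tendsto_pow_mul_exp_neg_atTop_nhds_zero k).comp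
    (tendsto_id.atTop_div_const (r := 2) (by norm_num))
  have h2 := h.eventually (ge_mem_nhds (show (0 : ℝ) < 1 / 2 ^ k by positivity))
  filter_upwards [h2, eventually_gt_atTop 0] with x hx hx0
  simp only [Function.comp, id] at hx
  rw [le_div_iff₀ (by positivity)]
  rw [div_pow, le_div_iff₀ (by positivity)] at hx
  calc Real.exp (-(x / 2)) * x ^ k = x ^ k / 2 ^ k * Real.exp (-(x / 2)) * 2 ^ k := by
        field_simp
    _ ≤ 1 := hx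

lemma half_pow_le {x : ℝ} {K : ℕ} (h : x ≤ K) : (1 / 2 : ℝ) ^ K ≤ Real.exp (-(x / 2)) := by
  have h1 : (1 / 2 : ℝ) ≤ Real.exp (-(1 / 2)) := by
    have := Real.add_one_le_exp (-(1 / 2) : ℝ)
    linarith
  calc (1 / 2 : ℝ) ^ K ≤ Real.exp (-(1 / 2)) ^ K := by gcongr
    _ = Real.exp (K * -(1 / 2)) := by rw [Real.exp_nat_mul]
    _ ≤ _ := by apply Real.exp_le_exp.2; linarith

lemma div_pow_le {x A : ℝ} (hx : 1 ≤ x) {a b : ℕ} (hA : A ≤ x) (h : b + 1 ≤ a) :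
    A / x ^ a ≤ 1 / x ^ b := by
  have hx0 : 0 < x := by linarith
  rw [div_le_div_iff₀ (by positivity) (by positivity), one_mul]
  calc A * x ^ b ≤ x * x ^ b := by gcongr
    _ = x ^ (b + 1) := by ring
    _ ≤ x ^ a := pow_le_pow_right₀ hx h

/-- the geometric part of the bad sweep probability -/
lemma ev_eta (s : ℕ) {G : ℕ} (hG : 1 ≤ G) (k0 : ℕ) {C : ℝ} (hC : 0 ≤ C) : ∀ᶠ x in atTop,
    C * (6 * (pR G k0 x : ℝ) + 1) ^ 3 *
      ((2 * s * (1 / x ^ 140)) ^ 6 + (2 * s * (1 / x ^ 50)) ^ 16) ≤ 1 / x ^ 400 := by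
  filter_upwards [ev_PB hG k0, eventually_ge_atTop (2 * (s : ℝ)), eventually_ge_atTop (686 * C)]
    with x hb hs hCx
  have h1 : (1 : ℝ) ≤ x := by linarith [hb.x1]
  have hx0 : 0 < x := by linarith
  have e2 : 2 * s * (1 / x ^ 140) ≤ 1 / x ^ 139 := by
    rw [← mul_div_assoc, mul_one]; exact div_pow_le h1 hs (by norm_num)
  have e1 : 2 * s * (1 / x ^ 50) ≤ 1 / x ^ 49 := by
    rw [← mul_div_assoc, mul_one]; exact div_pow_le h1 hs (by norm_num)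
  have hR : 6 * (pR G k0 x : ℝ) + 1 ≤ 7 * x ^ 103 := by
    have : 1 ≤ x ^ 103 := one_le_pow₀ h1
    linarith [hb.R2]
  have e3 : (1 / x ^ 139) ^ 6 ≤ (1 / x ^ 49) ^ 16 := by
    rw [div_pow, div_pow, one_pow, one_pow, ← pow_mul, ← pow_mul]
    exact one_div_le_one_div_of_le (by positivity) (pow_le_pow_right₀ h1 (by norm_num))
  calc _ ≤ C * (7 * x ^ 103) ^ 3 * ((1 / x ^ 139) ^ 6 + (1 / x ^ 49) ^ 16) := by gcongr
    _ ≤ C * (7 * x ^ 103) ^ 3 * ((1 / x ^ 49) ^ 16 + (1 / x ^ 49) ^ 16) := by gcongr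
    _ = 686 * C / x ^ 475 := by field_simp; ring
    _ ≤ 1 / x ^ 400 := div_pow_le h1 hCx (by norm_num)

lemma ev_lam (s : ℕ) {G : ℕ} (hG : 1 ≤ G) (k0 : ℕ) : ∀ᶠ x in atTop, ∀ η : ℝ, η ≤ 3 / x ^ 400 →
    lamB s (pnw G k0 x) (pK x) (pR G k0 x) η x ≤ 11 / x ^ 400 := by
  filter_upwards [ev_PB hG k0, eventually_ge_atTop (27 * (s : ℝ)), ev_exp 400, ev_exp 811]
    with x hb hs he1 he2 η hη
  have h1 : (1 : ℝ) ≤ x := by linarith [hb.x1]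
  have hx0 : 0 < x := by linarith
  have hR : 2 * (pR G k0 x : ℝ) + 1 ≤ 3 * x ^ 103 := by
    have : 1 ≤ x ^ 103 := one_le_pow₀ h1
    linarith [hb.R2]
  have hK := (half_pow_le hb.K1).trans he2
  have : (pnw G k0 x : ℝ) * s * (2 * (pR G k0 x : ℝ) + 1) ^ 3 * (1 / 2) ^ pK x ≤ 1 / x ^ 400 := by
    calc _ ≤ x ^ 101 * s * (3 * x ^ 103) ^ 3 * (1 / x ^ 811) := by gcongr; exact hb.nw2
      _ = 27 * s / x ^ 401 := by field_simp; ring
      _ ≤ 1 / x ^ 400 := div_pow_le h1 hs (by norm_num)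
  unfold lamB
  have e : (11 : ℝ) / x ^ 400 = 1 / x ^ 400 + 3 * (3 / x ^ 400) + 1 / x ^ 400 := by ring
  rw [e]
  gcongr

lemma sum_inv_rt (n : ℕ) :
    ∑ j ∈ range n, 1 / Real.sqrt ((1 + (j : ℝ)) * Real.sqrt (1 + j)) ≤
      4 * Real.sqrt (Real.sqrt n) := by
  induction n with
  | zero => simp
  | succ n ih =>
    rw [Finset.sum_range_succ]
    set a := Real.sqrt (Real.sqrt n) with ha
    set b := Real.sqrt (Real.sqrt ((n + 1 : ℕ) : ℝ)) with hb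
    have ha0 : 0 ≤ a := Real.sqrt_nonneg _
    have hn : (0 : ℝ) ≤ n := Nat.cast_nonneg _
    have ha4 : a ^ 4 = n := by
      rw [show a ^ 4 = (a ^ 2) ^ 2 by ring, Real.sq_sqrt (Real.sqrt_nonneg _), Real.sq_sqrt hn]
    have hb2 : b ^ 2 = Real.sqrt (1 + n) := by
      rw [hb, Real.sq_sqrt (Real.sqrt_nonneg _)]; push_cast; rw [add_comm]
    have hb4 : b ^ 4 = 1 + n := by
      rw [show b ^ 4 = (b ^ 2) ^ 2 by ring, hb2, Real.sq_sqrt (by linarith)]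
    have hb0 : 0 < b := by
      rw [hb]; apply Real.sqrt_pos.2; apply Real.sqrt_pos.2; positivity
    have hab : a ≤ b := by
      rw [ha, hb]; gcongr; linarith
    have e : Real.sqrt ((1 + (n : ℝ)) * Real.sqrt (1 + n)) = b ^ 3 := by
      rw [← hb2, ← hb4, show b ^ 4 * b ^ 2 = (b ^ 3) ^ 2 by ring, Real.sqrt_sq (by positivity)]
    rw [e]
    have : 1 / b ^ 3 ≤ 4 * b - 4 * a := by
      rw [div_le_iff₀ (by positivity)]
      have h1 : b ^ 4 - a ^ 4 = 1 := by rw [hb4, ha4]; ring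
      have h2 : b ^ 4 - a ^ 4 = (b - a) * (b ^ 3 + b ^ 2 * a + b * a ^ 2 + a ^ 3) := by ring
      have h3 : b ^ 3 + b ^ 2 * a + b * a ^ 2 + a ^ 3 ≤ 4 * b ^ 3 := by
        have : b ^ 2 * a ≤ b ^ 2 * b := by gcongr
        have : b * a ^ 2 ≤ b * b ^ 2 := by gcongr
        have : a ^ 3 ≤ b ^ 3 := by gcongr
        nlinarith
      have h4 : (b - a) * (b ^ 3 + b ^ 2 * a + b * a ^ 2 + a ^ 3) ≤ (b - a) * (4 * b ^ 3) :=
        mul_le_mul_of_nonneg_left h3 (by linarith)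
      nlinarith
    linarith

lemma ev_lost (s : ℕ) {G : ℕ} (hG : 1 ≤ G) (k0 : ℕ) {C : ℝ} (hC : 0 ≤ C) : ∀ᶠ x in atTop,
    lostB s (pnw G k0 x) (pK x) (2 * s * (1 / x ^ 140)) (psig C) ≤ 1 / x ^ 66 := by
  filter_upwards [ev_PB hG k0, eventually_ge_atTop (2 * (s : ℝ)), eventually_ge_atTop (s * C),
    eventually_ge_atTop (1331 : ℝ), ev_exp 200] with x hb hs hsC h13 he
  have h1 : (1 : ℝ) ≤ x := by linarith [hb.x1]
  have hx0 : 0 < x := by linarith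
  have e2 : 2 * s * (1 / x ^ 140) ≤ 1 / x ^ 139 := by
    rw [← mul_div_assoc, mul_one]; exact div_pow_le h1 hs (by norm_num)
  have hK4 : (4 * (pK x : ℝ) + 3) ^ 3 ≤ x ^ 4 := by
    calc (4 * (pK x : ℝ) + 3) ^ 3 ≤ (11 * x) ^ 3 := by gcongr; linarith [hb.K2]
      _ = 1331 * x ^ 3 := by ring
      _ ≤ x * x ^ 3 := by gcongr
      _ = x ^ 4 := by ring
  have hterm : ∀ j : ℕ, Real.sqrt (s * (2 * s * (1 / x ^ 140)) * psig C j) ≤
      1 / x ^ 69 * (1 / Real.sqrt ((1 + (j : ℝ)) * Real.sqrt (1 + j))) := by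
    intro j
    have hj : 0 < (1 + (j : ℝ)) * Real.sqrt (1 + j) := by positivity
    apply Real.sqrt_le_iff.2 ⟨by positivity, ?_⟩
    rw [mul_pow, div_pow, div_pow, Real.sq_sqrt hj.le]
    unfold psig
    calc s * (2 * s * (1 / x ^ 140)) * (C / ((1 + (j : ℝ)) * Real.sqrt (1 + j)))
        ≤ s * (1 / x ^ 139) * (C / ((1 + (j : ℝ)) * Real.sqrt (1 + j))) := by gcongr
      _ = (s * C / x ^ 139) * (1 / ((1 + (j : ℝ)) * Real.sqrt (1 + j))) := by ring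
      _ ≤ (1 / x ^ 138) * (1 / ((1 + (j : ℝ)) * Real.sqrt (1 + j))) := by
          exact mul_le_mul_of_nonneg_right (div_pow_le h1 hsC (by norm_num)) (by positivity)
      _ = _ := by ring
  have hrt : Real.sqrt (Real.sqrt (pnw G k0 x)) ≤ x ^ 26 := by
    apply Real.sqrt_le_iff.2 ⟨by positivity, ?_⟩
    apply Real.sqrt_le_iff.2 ⟨by positivity, ?_⟩
    calc (pnw G k0 x : ℝ) ≤ x ^ 101 := hb.nw2
      _ ≤ x ^ 104 := pow_le_pow_right₀ h1 (by norm_num)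
      _ = _ := by ring
  have hsum : ∑ j ∈ range (pnw G k0 x), (4 * (pK x : ℝ) + 3) ^ 3 *
      (Real.sqrt (s * (2 * s * (1 / x ^ 140)) * psig C j) + 2 * s * (1 / x ^ 140)) ≤ 5 / x ^ 34 := by
    calc _ ≤ ∑ j ∈ range (pnw G k0 x), x ^ 4 *
          (1 / x ^ 69 * (1 / Real.sqrt ((1 + (j : ℝ)) * Real.sqrt (1 + j))) + 1 / x ^ 139) := by
          refine Finset.sum_le_sum fun j _ => ?_
          gcongr
          exact hterm j
      _ = x ^ 4 * (1 / x ^ 69 * ∑ j ∈ range (pnw G k0 x),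
          (1 / Real.sqrt ((1 + (j : ℝ)) * Real.sqrt (1 + j))) + pnw G k0 x * (1 / x ^ 139)) := by
          rw [← Finset.mul_sum, Finset.sum_add_distrib, ← Finset.mul_sum]
          simp
      _ ≤ x ^ 4 * (1 / x ^ 69 * (4 * x ^ 26) + x ^ 101 * (1 / x ^ 139)) := by
          gcongr
          · exact (sum_inv_rt _).trans (by gcongr)
          · exact hb.nw2
      _ = 4 / x ^ 39 + 1 / x ^ 34 := by field_simp
      _ ≤ 4 / x ^ 34 + 1 / x ^ 34 := by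
          gcongr
          norm_num
      _ = 5 / x ^ 34 := by ring
  have hsum0 : 0 ≤ ∑ j ∈ range (pnw G k0 x), (4 * (pK x : ℝ) + 3) ^ 3 *
      (Real.sqrt (s * (2 * s * (1 / x ^ 140)) * psig C j) + 2 * s * (1 / x ^ 140)) :=
    Finset.sum_nonneg fun j _ => by positivity
  have hK := (half_pow_le hb.K1).trans he
  have hK3 : 1 + (2 * (pK x : ℝ) + 3) ^ 3 ≤ 2 * x ^ 4 := by
    have : (2 * (pK x : ℝ) + 3) ^ 3 ≤ (4 * (pK x : ℝ) + 3) ^ 3 := by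
      gcongr; norm_num
    have : 1 ≤ x ^ 4 := one_le_pow₀ h1
    linarith
  unfold lostB
  calc _ ≤ 2 * (5 / x ^ 34) ^ 2 + 2 * x ^ 101 * (2 * x ^ 4) * (1 / x ^ 200) := by
        gcongr; exact hb.nw2
    _ = 50 / x ^ 68 + 4 / x ^ 95 := by field_simp; ring
    _ ≤ 50 / x ^ 68 + 4 / x ^ 68 := by
        gcongr
        norm_num
    _ = 54 / x ^ 68 := by ring
    _ ≤ 1 / x ^ 66 := div_pow_le h1 (by linarith) (by norm_num)

lemma psig_le {C x : ℝ} (hC : 0 ≤ C) (hx : 0 < x) {m j : ℕ} (hm : 1 ≤ m)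
    (h : (m : ℝ) ^ 4 * x ^ 100 ≤ j) : psig C j ≤ C / ((m : ℝ) ^ 6 * x ^ 150) := by
  have hm' : (0 : ℝ) < m := by exact_mod_cast hm
  unfold psig
  have h1 : (m : ℝ) ^ 4 * x ^ 100 ≤ 1 + j := by linarith
  have h2 : (m : ℝ) ^ 2 * x ^ 50 ≤ Real.sqrt (1 + j) := by
    apply Real.le_sqrt_of_sq_le
    calc ((m : ℝ) ^ 2 * x ^ 50) ^ 2 = (m : ℝ) ^ 4 * x ^ 100 := by ring
      _ ≤ _ := h1
  apply div_le_div_of_nonneg_left hC (by positivity)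
  calc (m : ℝ) ^ 6 * x ^ 150 = ((m : ℝ) ^ 4 * x ^ 100) * ((m : ℝ) ^ 2 * x ^ 50) := by ring
    _ ≤ _ := by gcongr

lemma ev_al {G : ℕ} (hG : 1 ≤ G) (k0 k1 : ℕ) {m : ℕ} (hm : 1 ≤ m) {C Cσ : ℝ} (hC : 0 ≤ C)
    (hσ : 0 ≤ Cσ) : ∀ᶠ x in atTop, 1 ≤ prho m x ∧ ∀ (σ0 LM : ℝ), σ0 ≤ Cσ / ((m : ℝ) ^ 6 * x ^ 150) →
      LM ≤ 1 / x ^ 66 →
      alB C (x ^ 100 / 64) x k1 (prho m x) (pR G k0 x) σ0 LM ≤
        64 * C * (4 * Cσ + 2) / ((m : ℝ) ^ 2 * x ^ 150) := by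
  filter_upwards [ev_PB hG k0, eventually_ge_atTop (3 * ((k1 : ℝ) + 1) ^ 2),
    eventually_ge_atTop ((m : ℝ) ^ 2)] with x hb hk hmx
  have h1 : (1 : ℝ) ≤ x := by linarith [hb.x1]
  have hx0 : 0 < x := by linarith
  have hm' : (1 : ℝ) ≤ m := by exact_mod_cast hm
  have hA : (1 : ℝ) ≤ (m : ℝ) ^ 2 * x ^ 50 :=
    one_le_mul_of_one_le_of_one_le (one_le_pow₀ hm') (one_le_pow₀ h1)
  have r1 : (m : ℝ) ^ 2 * x ^ 50 ≤ prho m x := Nat.le_ceil _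
  have r2 : (prho m x : ℝ) ≤ 2 * ((m : ℝ) ^ 2 * x ^ 50) := by
    have := (Nat.ceil_lt_add_one (a := (m : ℝ) ^ 2 * x ^ 50) (by positivity)).le
    unfold prho
    linarith
  refine ⟨by exact_mod_cast hA.trans r1, fun σ0 LM h0 hL => ?_⟩
  have t1 : (prho m x : ℝ) ^ 2 * σ0 ≤ 4 * Cσ / ((m : ℝ) ^ 2 * x ^ 50) := by
    calc (prho m x : ℝ) ^ 2 * σ0 ≤ (prho m x : ℝ) ^ 2 * (Cσ / ((m : ℝ) ^ 6 * x ^ 150)) := by gcongr
      _ ≤ (2 * ((m : ℝ) ^ 2 * x ^ 50)) ^ 2 * (Cσ / ((m : ℝ) ^ 6 * x ^ 150)) := by gcongr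
      _ = _ := by field_simp; ring
  have t2 : 1 / (prho m x : ℝ) ≤ 1 / ((m : ℝ) ^ 2 * x ^ 50) :=
    one_div_le_one_div_of_le (by positivity) r1
  have t3 : 1 / (pR G k0 x : ℝ) ≤ 1 / x ^ 66 :=
    (one_div_le_one_div_of_le (by positivity) hb.R1).trans
      (one_div_le_one_div_of_le (by positivity) (pow_le_pow_right₀ h1 (by norm_num)))
  have k1' : (1 : ℝ) ≤ ((k1 : ℝ) + 1) ^ 2 :=
    one_le_pow₀ (by linarith [Nat.cast_nonneg (α := ℝ) k1])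
  have t4 : 1 / (pR G k0 x : ℝ) + ((k1 : ℝ) + 1) ^ 2 * x ^ 2 * (LM + 1 / (pR G k0 x : ℝ)) ≤
      1 / ((m : ℝ) ^ 2 * x ^ 50) := by
    have h2 : 1 ≤ ((k1 : ℝ) + 1) ^ 2 * x ^ 2 :=
      one_le_mul_of_one_le_of_one_le k1' (one_le_pow₀ h1)
    calc _ ≤ ((k1 : ℝ) + 1) ^ 2 * x ^ 2 * (1 / x ^ 66) +
          ((k1 : ℝ) + 1) ^ 2 * x ^ 2 * (1 / x ^ 66 + 1 / x ^ 66) := by
          gcongr
          exact t3.trans (le_mul_of_one_le_left (by positivity) h2)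
      _ = 3 * ((k1 : ℝ) + 1) ^ 2 / x ^ 64 := by field_simp; ring
      _ ≤ 1 / x ^ 51 := div_pow_le h1 hk (by norm_num)
      _ ≤ _ := by
          apply one_div_le_one_div_of_le (by positivity)
          calc (m : ℝ) ^ 2 * x ^ 50 ≤ x * x ^ 50 := by gcongr
            _ = x ^ 51 := by ring
  unfold alB
  calc _ ≤ C / (x ^ 100 / 64) * (4 * Cσ / ((m : ℝ) ^ 2 * x ^ 50) + 1 / ((m : ℝ) ^ 2 * x ^ 50) +
        1 / ((m : ℝ) ^ 2 * x ^ 50)) := by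
        exact mul_le_mul_of_nonneg_left (by linarith) (by positivity)
    _ = _ := by field_simp; ring

lemma ev_nst {G : ℕ} (hG : 1 ≤ G) (k0 : ℕ) : ∀ᶠ x in atTop, ∀ c : ℕ,
    c ^ 4 ≤ 16 * (1 + 4 * pR G k0 x) → c ≤ ⌊x ^ 26⌋₊ := by
  filter_upwards [ev_PB hG k0, eventually_ge_atTop (80 : ℝ)] with x hb h80 c hc
  have h1 : (1 : ℝ) ≤ x := by linarith [hb.x1]
  apply Nat.le_floor
  have h2 : (c : ℝ) ^ 4 ≤ 16 * (1 + 4 * pR G k0 x) := by exact_mod_cast hc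
  have h3 : 1 ≤ x ^ 103 := one_le_pow₀ h1
  have h4 : (c : ℝ) ^ 4 ≤ (x ^ 26) ^ 4 := by
    calc (c : ℝ) ^ 4 ≤ 80 * x ^ 103 := by linarith [hb.R2]
      _ ≤ x * x ^ 103 := by gcongr
      _ = _ := by ring
  exact (pow_le_pow_iff_left₀ (Nat.cast_nonneg _) (by positivity) (by norm_num)).1 h4

lemma ev_crude {C : ℝ} (hC : 0 ≤ C) : ∀ᶠ x : ℝ in atTop,
    2 * (11 / x ^ 400) + C / (x ^ 100 / 64) * x ^ 2 * ((⌊x ^ 26⌋₊ : ℝ) + 1) ≤ 1 / x ^ 50 / 2 := by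
  filter_upwards [eventually_ge_atTop (4 : ℝ), eventually_ge_atTop (128 * C + 22)] with x h4 hCx
  have h1 : (1 : ℝ) ≤ x := by linarith
  have hx0 : 0 < x := by linarith
  have h2 : (⌊x ^ 26⌋₊ : ℝ) + 1 ≤ 2 * x ^ 26 := by
    have := Nat.floor_le (a := x ^ 26) (by positivity)
    have : 1 ≤ x ^ 26 := one_le_pow₀ h1
    linarith
  calc _ ≤ 2 * (11 / x ^ 72) + C / (x ^ 100 / 64) * x ^ 2 * (2 * x ^ 26) := by
        gcongr
        norm_num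
    _ = (128 * C + 22) / x ^ 72 := by field_simp; ring
    _ ≤ 1 / x ^ 51 := div_pow_le h1 hCx (by norm_num)
    _ ≤ _ := by
        rw [div_div]
        apply one_div_le_one_div_of_le (by positivity)
        calc x ^ 50 * 2 ≤ x ^ 50 * x := by gcongr; linarith
          _ = x ^ 51 := by ring

lemma ev_small (A : ℝ) {a b : ℕ} (h : b + 1 ≤ a) {ε : ℝ} (hε : 0 < ε) : ∀ᶠ x : ℝ in atTop,
    A / x ^ a ≤ ε / x ^ b := by
  filter_upwards [eventually_ge_atTop (1 : ℝ), eventually_ge_atTop (A / ε)] with x h1 hA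
  have := div_pow_le h1 hA h
  calc A / x ^ a = ε * (A / ε / x ^ a) := by field_simp
    _ ≤ ε * (1 / x ^ b) := by gcongr
    _ = _ := by ring

lemma exists_Kc {τ : ℝ} (hτ : 0 < τ) : ∃ L0 : ℕ, ∀ L : ℕ, L0 ≤ L →
    ∃ Kc : ℕ, 8 * aa Kc ≤ L ∧ (L : ℝ) ^ 3 * (1 / 2) ^ (2 ^ Kc) ≤ τ := by
  have hlim : Tendsto (fun K : ℕ => ((8 * aa (K + 1) : ℕ) : ℝ) ^ 3 * (1 / 2 : ℝ) ^ (2 ^ K)) atTop
      (nhds 0) := by
    have h0 : Tendsto (fun K : ℕ => (2 : ℝ) ^ 42 * (1 / 2) ^ K) atTop (nhds 0) := by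
      simpa using (tendsto_pow_atTop_nhds_zero_of_lt_one (r := (1 / 2 : ℝ)) (by norm_num)
        (by norm_num)).const_mul ((2 : ℝ) ^ 42)
    refine squeeze_zero' (Eventually.of_forall fun K => by positivity) ?_ h0
    filter_upwards [eventually_ge_atTop 10] with K hK
    have hK2 : 31 * K ≤ 2 ^ K := by
      induction K, hK using Nat.le_induction with
      | base => norm_num
      | succ K hK ih => rw [pow_succ]; omega
    have e : ((8 * aa (K + 1) : ℕ) : ℝ) ^ 3 = 2 ^ 42 * 2 ^ (30 * K) := by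
      unfold aa
      push_cast
      rw [show (1024 : ℝ) = 2 ^ 10 by norm_num, ← pow_mul, pow_mul (2 : ℝ) 30 K, mul_add, pow_add,
        pow_mul (2 : ℝ) 10 K, mul_pow, mul_pow, mul_pow, ← pow_mul ((2 : ℝ) ^ 10) K 3, mul_comm K 3,
        pow_mul ((2 : ℝ) ^ 10) 3 K]
      norm_num
      ring
    rw [e, mul_assoc]
    gcongr
    calc (2 : ℝ) ^ (30 * K) * (1 / 2) ^ (2 ^ K) ≤ 2 ^ (30 * K) * (1 / 2) ^ (31 * K) := by
          gcongr _ * ?_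
          exact pow_le_pow_of_le_one (by norm_num) (by norm_num) hK2
      _ = (1 / 2) ^ K := by
          rw [show 31 * K = 30 * K + K by ring, pow_add, ← mul_assoc, ← mul_pow]
          norm_num
  obtain ⟨K0, hK0⟩ := eventually_atTop.1 (hlim.eventually (ge_mem_nhds hτ))
  refine ⟨8 * aa K0, fun L hL => ?_⟩
  have hex : ∃ K, L < 8 * aa (K + 1) := by
    refine ⟨L, ?_⟩
    unfold aa
    have : L + 1 < 1024 ^ (L + 1) := Nat.lt_pow_self (by norm_num)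
    omega
  classical
  set K := Nat.find hex with hK
  have hK1 : L < 8 * aa (K + 1) := Nat.find_spec hex
  have hK0K : K0 ≤ K := by
    by_contra hc
    have := aa_mono (j := K + 1) (k := K0) (by omega)
    omega
  refine ⟨K, ?_, ?_⟩
  · rcases Nat.eq_zero_or_pos K with h0 | h0
    · have : K0 = 0 := by omega
      rw [h0, ← this]; exact hL
    · have := Nat.find_min hex (m := K - 1) (by omega)
      rw [show K - 1 + 1 = K by omega] at this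
      omega
  · refine le_trans ?_ (hK0 K hK0K)
    gcongr

end Vale.Agent.P361
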