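import Vale.Agent.P361.HeatA

namespace Vale.Agent.P361

open Matrix Finset
open Real Filter Topology MeasureTheory

theorem heatB_tele {a : ℝ} (ha : 0 < a) (n : ℕ) :
    ∑ k ∈ range n, 1 / (1 + (a * (k + 1 : ℕ)) ^ 2) ≤ 2 / a := by
  have h1 : ∑ k ∈ range n, 1 / (1 + (a * (k + 1 : ℕ)) ^ 2) ≤
      ∑ k ∈ range n, 2 / a * (1 / (1 + a * k) - 1 / (1 + a * (k + 1 : ℕ))) :=
    sum_le_sum fun k _ => by
      have h2 : 2 / a * (1 / (1 + a * k) - 1 / (1 + a * (k + 1 : ℕ))) =
          2 / ((1 + a * k) * (1 + a * (k + 1 : ℕ))) := by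
        push_cast
        field_simp
        ring
      have h3 : a * k ≤ a * (k + 1 : ℕ) := by gcongr; omega
      have h4 : 0 ≤ a * k := by positivity
      rw [h2, div_le_div_iff₀ (by positivity) (by positivity)]
      nlinarith [sq_nonneg (a * (k + 1 : ℕ) - 1)]
  rw [← mul_sum, sum_range_sub' fun k : ℕ => 1 / (1 + a * k)] at h1
  refine h1.trans (mul_le_of_le_one_right (by positivity) ?_)
  simp only [Nat.cast_zero, mul_zero, add_zero, div_one, sub_le_self_iff]
  positivity

theorem heatB_term {c t : ℝ} (ht : 0 ≤ t) (hc : t ≤ c) {u : ℝ} (h0 : 0 ≤ u) (h1 : u ≤ 1 / 2) :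
    Real.exp (-(c * (1 - Real.cos (2 * π * u)))) ≤ 1 / (1 + (√t * u) ^ 2) := by
  have h2 := Real.cos_le_one_sub_mul_cos_sq (x := 2 * π * u) (by
    rw [abs_of_nonneg (by positivity)]
    nlinarith [pi_pos])
  have h3 : 2 / π ^ 2 * (2 * π * u) ^ 2 = 8 * u ^ 2 := by
    field_simp
    ring
  have h4 : t * u ^ 2 ≤ c * (1 - Real.cos (2 * π * u)) :=
    mul_le_mul hc (by nlinarith) (by positivity) (ht.trans hc)
  rw [Real.exp_neg, one_div, mul_pow, Real.sq_sqrt ht]
  exact inv_anti₀ (by positivity) (((add_comm _ _).trans_le (add_le_add h4 le_rfl)).trans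
    (Real.add_one_le_exp _))

theorem heatB_le {c t : ℝ} (ht : 0 ≤ t) (hc : t ≤ c) {L : ℕ} (hL : 0 < L) (htL : t ≤ (L : ℝ) ^ 2) :
    heatH c L ≤ 6 / √(1 + t) := by
  have hL' : (0 : ℝ) < L := by exact_mod_cast hL
  have h0 : 0 ≤ heatH c L := by unfold heatH; positivity
  have h1 : heatH c L ≤ 1 := by
    rw [heatH, div_le_one hL']
    refine (sum_le_card_nsmul _ _ 1 fun k _ => Real.exp_le_one_iff.2 (neg_nonpos.2
      (mul_nonneg (ht.trans hc) (sub_nonneg.2 (Real.cos_le_one _))))).trans_eq (by simp)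
  have h2 : heatH c L * √t ≤ 5 := by
    rcases ht.eq_or_lt with rfl | ht'
    · simp
    have h3 := Real.sqrt_pos.2 ht'
    have h4 := heatB_tele (a := √t / L) (by positivity) L
    have h5 : ∑ k ∈ range L, Real.exp (-(c * (1 - Real.cos (2 * π * k / L)))) ≤
        ∑ k ∈ range L, (1 / (1 + (√t / L * k) ^ 2) +
          1 / (1 + (√t / L * (L - 1 - k + 1 : ℕ)) ^ 2)) := sum_le_sum fun k hk => by
      have hk' := mem_range.1 hk
      have hk2 : (k : ℝ) ≤ L := by exact_mod_cast hk'.le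
      rw [show L - 1 - k + 1 = L - k by omega, Nat.cast_sub hk'.le, div_mul_eq_mul_div,
        div_mul_eq_mul_div, mul_div_assoc, mul_div_assoc, mul_div_assoc]
      rcases le_total ((k : ℝ) / L) (1 / 2) with h | h
      · exact (heatB_term ht hc (by positivity) h).trans (le_add_of_nonneg_right (by positivity))
      · have h6 := heatB_term ht hc (u := 1 - k / L) (sub_nonneg.2 ((div_le_one hL').2 hk2))
          (by linarith)
        rw [mul_sub (2 * π), mul_one, Real.cos_two_pi_sub] at h6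
        rw [sub_div, div_self hL'.ne']
        exact h6.trans (le_add_of_nonneg_left (by positivity))
    rw [sum_add_distrib, sum_range_reflect (fun k => 1 / (1 + (√t / L * (k + 1 : ℕ)) ^ 2))] at h5
    have h6 := sum_le_sum_of_subset_of_nonneg (f := fun k : ℕ => 1 / (1 + (√t / L * k) ^ 2))
      (range_mono L.le_succ) fun _ _ _ => by positivity
    rw [sum_range_succ'] at h6
    simp only [Nat.cast_zero, mul_zero, zero_pow two_ne_zero, add_zero, div_one] at h6
    have h7 : √t ≤ L := Real.sqrt_le_iff.2 ⟨hL'.le, htL⟩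
    have h8 : 2 / (√t / L) * √t = 2 * L := by field_simp
    rw [heatH, div_mul_eq_mul_div, div_le_iff₀ hL']
    nlinarith
  rw [le_div_iff₀ (by positivity)]
  refine abs_le_of_sq_le_sq' ?_ (by norm_num) |>.2
  have h3 := pow_le_pow_left₀ (by positivity) h2 2
  rw [mul_pow, Real.sq_sqrt ht] at h3
  rw [mul_pow, Real.sq_sqrt (by linarith)]
  nlinarith

theorem heatB_rpow {x : ℝ} (hx : 0 ≤ x) : x ^ (3 / 2 : ℝ) = √x ^ 3 := by
  rw [Real.sqrt_eq_rpow, ← Real.rpow_natCast, ← Real.rpow_mul hx]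
  norm_num

theorem heat_le (s : ℕ) (hs : 1 ≤ s) : ∃ C : ℝ, 0 < C ∧ ∀ (L : ℕ) [NeZero L], 3 ≤ L →
    ∀ t : ℝ, 0 ≤ t → t ≤ (L : ℝ) ^ 2 → ∀ x y : TV L,
    heat (torus L) s t x y ≤ C / (1 + t) ^ (3 / 2 : ℝ) := by
  refine ⟨6 ^ 3, by norm_num, fun L _ hL t ht htL x y => (heatA_le hL s t x y).trans ?_⟩
  rw [heatB_rpow (by linarith), ← div_pow]
  exact pow_le_pow_left₀ (by unfold heatH; positivity) (heatB_le ht
    (le_mul_of_one_le_right ht (by exact_mod_cast hs)) (by omega) htL) 3

theorem heatB_lip {c : ℝ} (hc : 0 ≤ c) (x y : ℝ) :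
    |Real.exp (-(c * (1 - Real.cos x))) - Real.exp (-(c * (1 - Real.cos y)))| ≤ c * |x - y| := by
  have key : ∀ u v : ℝ, u ≤ 0 → Real.exp u - Real.exp v ≤ |u - v| := fun u v hu => by
    have h1 := mul_le_mul_of_nonneg_left (Real.add_one_le_exp (v - u)) (Real.exp_nonneg u)
    rw [← Real.exp_add, add_sub_cancel] at h1
    have h2 := mul_le_mul_of_nonneg_left (le_abs_self (u - v)) (Real.exp_nonneg u)
    have h3 := mul_le_of_le_one_left (abs_nonneg (u - v)) (Real.exp_le_one_iff.2 hu)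
    linarith
  have h0 : ∀ z, -(c * (1 - Real.cos z)) ≤ 0 := fun z =>
    neg_nonpos.2 (mul_nonneg hc (sub_nonneg.2 (Real.cos_le_one _)))
  have h1 : |-(c * (1 - Real.cos x)) - -(c * (1 - Real.cos y))| ≤ c * |x - y| := by
    rw [show -(c * (1 - Real.cos x)) - -(c * (1 - Real.cos y)) = c * (Real.cos x - Real.cos y) by
      ring, abs_mul, abs_of_nonneg hc]
    exact mul_le_mul_of_nonneg_left (Real.abs_cos_sub_cos_le x y) hc
  exact abs_sub_le_iff.2 ⟨(key _ _ (h0 x)).trans h1,
    (key _ _ (h0 y)).trans ((abs_sub_comm _ _).trans_le h1)⟩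

/-- Riemann sums -/
theorem heatB_riemann {c : ℝ} (hc : 0 ≤ c) : Tendsto (heatH c) atTop
    (𝓝 ((∫ θ in (-π)..π, Real.exp (-(c * (1 - Real.cos θ)))) / (2 * π))) := by
  set f : ℝ → ℝ := fun θ => Real.exp (-(c * (1 - Real.cos θ))) with hf
  have hfc : Continuous f := by fun_prop
  have h1 : ∫ θ in (-π)..π, f θ = ∫ θ in (0 : ℝ)..(2 * π), f θ := by
    have := Function.Periodic.intervalIntegral_add_eq (f := f) (T := 2 * π)
      (fun x => by simp only [hf, Real.cos_add_two_pi]) (-π) 0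
    rwa [zero_add, show -π + 2 * π = π by ring] at this
  rw [h1, tendsto_iff_norm_sub_tendsto_zero]
  refine squeeze_zero' (Eventually.of_forall fun _ => norm_nonneg _) ?_
    (tendsto_const_div_atTop_nhds_zero_nat (c * (2 * π)))
  filter_upwards [eventually_gt_atTop 0] with L hL
  have hL' : (0 : ℝ) < L := by exact_mod_cast hL
  have h2 := intervalIntegral.sum_integral_adjacent_intervals (f := f) (μ := volume)
    (a := fun k : ℕ => 2 * π * k / L) (n := L) fun k _ => hfc.intervalIntegrable _ _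
  simp only [Nat.cast_zero, mul_zero, zero_div, mul_div_cancel_right₀ _ hL'.ne'] at h2
  rw [← h2, heatH, sum_div, sum_div, ← sum_sub_distrib]
  refine (norm_sum_le _ _).trans ((sum_le_card_nsmul _ _ (c * (2 * π) / L / L)
    fun k _ => ?_).trans_eq (by rw [card_range, nsmul_eq_mul]; field_simp))
  have h3 : 2 * π * (k + 1 : ℕ) / L - 2 * π * k / L = 2 * π / L := by
    push_cast
    ring
  have h4 : 0 < 2 * π / L := by positivity
  have h5 := intervalIntegral.norm_integral_le_of_norm_le_const (a := 2 * π * k / L)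
    (b := 2 * π * (k + 1 : ℕ) / L) (f := fun θ => f (2 * π * k / L) - f θ)
    (C := c * (2 * π / L)) fun θ hθ => by
      rw [Set.uIoc_of_le (by linarith)] at hθ
      refine (heatB_lip hc _ _).trans (mul_le_mul_of_nonneg_left (abs_le.2 ⟨?_, ?_⟩) hc) <;>
        linarith [hθ.1, hθ.2]
  rw [intervalIntegral.integral_sub (by simp) (hfc.intervalIntegrable _ _),
    intervalIntegral.integral_const, h3, abs_of_pos h4, smul_eq_mul] at h5
  have h6 := div_le_div_of_nonneg_right h5 two_pi_pos.le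
  rw [← abs_of_pos two_pi_pos, ← Real.norm_eq_abs, ← norm_div, Real.norm_eq_abs (2 * π),
    abs_of_pos two_pi_pos] at h6
  refine le_of_eq_of_le (congrArg _ ?_) (h6.trans_eq (by field_simp))
  change f _ / _ - _ = _
  field_simp

/-- the Laplace asymptotics -/
theorem heatB_laplace {s : ℝ} (hs : 0 < s) : Tendsto (fun r : ℝ =>
    r * ∫ θ in (-π)..π, Real.exp (-(r ^ 2 * s * (1 - Real.cos θ)))) atTop (𝓝 √(π / (s / 2))) := by
  have h1 := tendsto_integral_filter_of_dominated_convergence (μ := volume) (l := atTop)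
    (F := fun r x : ℝ => (Set.Ioc (-π * r) (π * r)).indicator
      (fun x => Real.exp (-(r ^ 2 * s * (1 - Real.cos (x / r))))) x)
    (f := fun x => Real.exp (-(s / 2) * x ^ 2)) (fun x => Real.exp (-(s * (2 / π ^ 2)) * x ^ 2))
    (Eventually.of_forall fun r => (Continuous.aestronglyMeasurable (by fun_prop)).indicator
      measurableSet_Ioc) ?_ (integrable_exp_neg_mul_sq (by positivity))
    (Eventually.of_forall fun x => ?_)
  · rw [integral_gaussian] at h1
    refine h1.congr' ?_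
    filter_upwards [eventually_gt_atTop 0] with r hr
    rw [integral_indicator measurableSet_Ioc, ← intervalIntegral.integral_of_le
      (by nlinarith [pi_pos]), intervalIntegral.integral_comp_div
        (fun θ => Real.exp (-(r ^ 2 * s * (1 - Real.cos θ)))) hr.ne',
      mul_div_cancel_right₀ _ hr.ne', mul_div_cancel_right₀ _ hr.ne', smul_eq_mul]
  · filter_upwards [eventually_gt_atTop 0] with r hr
    refine Eventually.of_forall fun x => ?_
    by_cases hx : x ∈ Set.Ioc (-π * r) (π * r)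
    · rw [Set.indicator_of_mem hx, Real.norm_of_nonneg (Real.exp_nonneg _), Real.exp_le_exp]
      have h2 := Real.cos_le_one_sub_mul_cos_sq (x := x / r) (by
        rw [abs_le, le_div_iff₀ hr, div_le_iff₀ hr]
        exact ⟨hx.1.le, hx.2⟩)
      have h3 := mul_le_mul_of_nonneg_left (le_sub_comm.1 h2) (show 0 ≤ r ^ 2 * s by positivity)
      have h4 : r ^ 2 * s * (2 / π ^ 2 * (x / r) ^ 2) = s * (2 / π ^ 2) * x ^ 2 := by field_simp
      linarith
    · rw [Set.indicator_of_notMem hx, norm_zero]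
      exact Real.exp_nonneg _
  · have h2 : Tendsto (fun r : ℝ => -(r ^ 2 * s * (1 - Real.cos (x / r)))) atTop
        (𝓝 (-(s / 2) * x ^ 2)) := by
      rw [tendsto_iff_norm_sub_tendsto_zero]
      refine squeeze_zero' (Eventually.of_forall fun _ => norm_nonneg _) ?_
        ((tendsto_const_nhds (x := s * (|x| ^ 4 * (5 / 96)))).div_atTop
          (tendsto_pow_atTop two_ne_zero))
      filter_upwards [eventually_gt_atTop 0, eventually_ge_atTop |x|] with r hr hx
      have h3 := Real.cos_bound (x := x / r) (by rwa [abs_div, abs_of_pos hr, div_le_one hr])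
      have h4 : -(r ^ 2 * s * (1 - Real.cos (x / r))) - -(s / 2) * x ^ 2 =
          r ^ 2 * s * (Real.cos (x / r) - (1 - (x / r) ^ 2 / 2)) := by
        field_simp
        ring
      rw [h4, Real.norm_eq_abs, abs_mul, abs_of_pos (show 0 < r ^ 2 * s by positivity)]
      refine (mul_le_mul_of_nonneg_left h3 (by positivity)).trans_eq ?_
      rw [abs_div, abs_of_pos hr]
      field_simp
    refine ((Real.continuous_exp.tendsto _).comp h2).congr' ?_
    filter_upwards [eventually_gt_atTop |x|] with r hr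
    have h3 := abs_lt.1 hr
    have h4 := mul_le_mul_of_nonneg_right pi_gt_three.le ((abs_nonneg x).trans hr.le)
    rw [Set.indicator_of_mem (show x ∈ Set.Ioc (-π * r) (π * r) from
      ⟨by linarith [h3.1, h3.2], by linarith [h3.1, h3.2]⟩)]
    rfl

theorem heat_diag (s : ℕ) (hs : 1 ≤ s) (η : ℝ) (hη : 0 < η) : ∃ t0 : ℝ, ∀ t : ℝ, t0 ≤ t →
    ∃ L0 : ℕ, ∀ (L : ℕ) [NeZero L], L0 ≤ L → ∀ x : TV L,
    |t ^ (3 / 2 : ℝ) * heat (torus L) s t x x - 1 / (2 * Real.pi * s) ^ (3 / 2 : ℝ)| ≤ η := by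
  have hs' : (0 : ℝ) < s := by exact_mod_cast hs
  have h1 : 1 / (2 * π * s) ^ (3 / 2 : ℝ) = (√(π / (s / 2)) / (2 * π)) ^ 3 := by
    rw [heatB_rpow (by positivity), ← _root_.one_div_pow, eq_comm]
    congr 1
    rw [div_eq_div_iff (by positivity) (by positivity), ← Real.sqrt_mul (by positivity), one_mul,
      Real.sqrt_eq_iff_mul_self_eq (by positivity) (by positivity)]
    field_simp
  have h2 := ((((heatB_laplace hs').comp Real.tendsto_sqrt_atTop).div_const (2 * π)).pow 3).eventually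
    (Metric.ball_mem_nhds _ hη)
  obtain ⟨t0, ht0⟩ := eventually_atTop.1 (h2.and (eventually_ge_atTop 0))
  refine ⟨t0, fun t ht => ?_⟩
  obtain ⟨h3, h4⟩ := ht0 t ht
  simp only [Function.comp, Real.sq_sqrt h4, mul_div_assoc] at h3
  have h5 := (((heatB_riemann (c := t * s) (by positivity)).const_mul √t).pow 3).eventually
    (Metric.isOpen_ball.mem_nhds h3)
  obtain ⟨L0, hL0⟩ := eventually_atTop.1 (h5.and (eventually_ge_atTop 3))
  refine ⟨L0, fun L _ hL x => ?_⟩
  rw [heatA_diag (hL0 L hL).2, h1, heatB_rpow h4, ← mul_pow]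
  exact le_of_lt (hL0 L hL).1

end Vale.Agent.P361
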