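import Vale.Agent.P361.Basic

namespace Vale.Agent.P361

open Matrix Finset

theorem GD.Ok.rev {L s : ℕ} {g : GD (XX L s)} (hg : g.Ok) : g.rev.Ok := by
  have hM := hg.M_pos
  have h12 := hg.o12
  have h2M := hg.o2M
  have hτ : ∀ t, (g.M - 1 - t % g.M) % g.M = g.M - 1 - t % g.M := fun t =>
    Nat.mod_eq_of_lt (by omega)
  refine ⟨hM, Nat.sub_le_sub_left h12 _, Nat.sub_le _ _, hg.p_pos, hg.p_le,
    fun t => hg.gp_nonneg _, fun t => hg.gp_le _, fun t => hg.ne _,
    fun t => by simp only [GD.rev, Nat.mod_mod], fun t => by simp only [GD.rev, Nat.mod_mod],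
    fun t => by simp only [GD.rev, Nat.mod_mod], fun t h1 h2 => ?_, fun t h => ?_,
    fun k v v' h => ?_, fun k y => ?_⟩
  · simp only [GD.rev] at h1 h2
    exact hg.mid _ (by rw [hτ]; omega) (by rw [hτ]; omega)
  · simp only [GD.rev] at h
    have := Nat.mod_lt t hM
    exact hg.out _ (by rw [hτ]; omega)
  · obtain ⟨t, h1, h2, h3⟩ := hg.cover 0 v v' h
    have e : g.M - 1 - (k * g.M + (g.M - 1 - t)) % g.M = t := by
      rw [Nat.mul_add_mod_self_right, Nat.mod_eq_of_lt (by omega)]
      omega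
    refine ⟨k * g.M + (g.M - 1 - t), ?_, ?_, ?_⟩
    · simp only [GD.rev]
      omega
    · simp only [GD.rev]
      omega
    · simp only [GD.rev, e]
      exact h3
  · refine le_trans (Finset.card_le_card_of_injOn (fun t => g.M - 1 - t % g.M) ?_ ?_)
      (hg.count 0 y)
    · intro t ht
      rw [Finset.coe_filter] at ht ⊢
      exact ⟨Finset.mem_Ico.2 ⟨by omega, by dsimp only; omega⟩, ht.2⟩
    · intro t ht t' ht' e
      obtain ⟨a1, a2⟩ := Finset.mem_Ico.1 (Finset.mem_filter.1 ht).1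
      obtain ⟨b1, b2⟩ := Finset.mem_Ico.1 (Finset.mem_filter.1 ht').1
      obtain ⟨i, rfl⟩ := Nat.exists_eq_add_of_le a1
      obtain ⟨j, rfl⟩ := Nat.exists_eq_add_of_le b1
      simp only [GD.rev, Nat.succ_mul] at a2 b2 e ⊢
      rw [Nat.mul_add_mod_self_right, Nat.mul_add_mod_self_right, Nat.mod_eq_of_lt (by omega),
        Nat.mod_eq_of_lt (by omega)] at e
      omega

theorem GD.Ok.circ {L s : ℕ} {g : GD (XX L s)} (hg : g.Ok) (n : ℕ) : (g.circ n).Ok := by
  exact ⟨fun i => hg.ne _, fun i => hg.gp_nonneg _, fun i => hg.gp_le _⟩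

theorem GD.Ok.Kfs_eq {L s : ℕ} [NeZero L] {g : GD (XX L s)} (hg : g.Ok) (k : ℕ) :
    g.Kfs k = g.Kfs 0 := by
  refine kp_congr fun j _ => ?_
  rw [GD.Kf, GD.Kf, hg.ga_per, hg.gb_per, hg.gp_per, hg.ga_per (0 * g.M + j),
    hg.gb_per (0 * g.M + j), hg.gp_per (0 * g.M + j), Nat.mul_add_mod_self_right,
    Nat.mul_add_mod_self_right]

theorem GD.Ok.kp_Kfs {L s : ℕ} [NeZero L] {g : GD (XX L s)} (hg : g.Ok) (k len : ℕ) :
    kp g.Kfs k len = g.Kfs 0 ^ len := by
  rw [← kp_const (g.Kfs 0) k len]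
  exact kp_congr fun j _ => hg.Kfs_eq _

theorem GD.Ok.rev_Kfs {L s : ℕ} [NeZero L] {g : GD (XX L s)} (hg : g.Ok) (k : ℕ) :
    g.rev.Kfs k = (g.Kfs 0)ᵀ := by
  refine kp_transpose fun j hj => ?_
  have e : (k * g.M + j) % g.M = j := by
    rw [Nat.mul_add_mod_self_right]
    exact Nat.mod_eq_of_lt hj
  rw [GD.Kf, GD.Kf, lz_swap_transpose]
  simp only [GD.rev, e, zero_mul, zero_add]

theorem GD.Ok.rev_freeBd {L s : ℕ} [NeZero L] {g : GD (XX L s)} (hg : g.Ok) {w nw : ℕ}
    {σ : ℕ → ℝ} (h : g.FreeBd w nw σ) : g.rev.FreeBd w nw σ := by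
  intro k len j h1 h2 v v'
  have := h 0 len j h1 h2 v' v
  rw [hg.kp_Kfs] at this
  rw [hg.rev.kp_Kfs, hg.rev_Kfs, ← Matrix.transpose_pow]
  exact this

theorem sweepOk_count {α : Type} (l : List α) (d : α) (P : α → Prop) [DecidablePred P] :
    ((range l.length).filter fun t => P (l.getD t d)).card = l.countP fun a => decide (P a) := by
  rw [Finset.card_filter]
  induction l with
  | nil => simp
  | cons a l ih =>
    rw [List.length_cons, Finset.sum_range_succ', List.countP_cons, ← ih]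
    simp

theorem sweepOk_kp {α Y : Type} [Fintype Y] [DecidableEq Y] (l : List α) (d : α)
    (f : α → Matrix Y Y ℝ) : kp (fun t => f (l.getD t d)) 0 l.length = (l.map f).prod := by
  induction l with
  | nil => rfl
  | cons a l ih =>
    rw [List.length_cons, kp_succ', List.map_cons, List.prod_cons, ← ih]
    exact congrArg _ (kp_congr fun j _ => by rw [zero_add, zero_add, add_comm]; rfl)

theorem sweepOk_kp' {α Y : Type} [Fintype Y] [DecidableEq Y] (l : List α) (d : α)
    (f : α → Matrix Y Y ℝ) (k : ℕ) :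
    kp (fun t => f (l.getD (t % l.length) d)) (k * l.length) l.length = (l.map f).prod := by
  rw [← sweepOk_kp l d f]
  exact kp_congr fun j hj => by rw [Nat.mul_add_mod_self_right, Nat.mod_eq_of_lt hj, zero_add]

theorem sweepOk_mem_site {V : Type} [Fintype V] {s : ℕ} {e : (V × Fin s) × (V × Fin s) × ℝ}
    (h : e ∈ siteList V s) : ∃ (x : V) (i j : Fin s), i < j ∧
      e = ((x, i), (x, j), 1 / (((j : ℕ) : ℝ) + 1 - ((i : ℕ) : ℝ))) := by
  simp only [siteList, List.mem_flatMap, List.mem_map, List.mem_filter, decide_eq_true_eq] at h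
  obtain ⟨x, -, j, -, i, ⟨-, hij⟩, rfl⟩ := h
  exact ⟨x, i, j, hij, rfl⟩

theorem sweepOk_mem_edge {V : Type} [Fintype V] {G : SimpleGraph V} [DecidableRel G.Adj] {s : ℕ}
    {p : ℝ} {e : (V × Fin s) × (V × Fin s) × ℝ} :
    e ∈ edgeList G s p ↔ G.Adj e.1.1 e.2.1.1 ∧ e.2.2 = p := by
  simp only [edgeList, edgePairs, List.mem_map, Finset.mem_toList, Finset.mem_filter,
    Finset.mem_univ, true_and]
  constructor
  · rintro ⟨q, hq, rfl⟩
    exact ⟨hq, rfl⟩
  · rintro ⟨h, rfl⟩
    exact ⟨(e.1, e.2.1), h, rfl⟩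

theorem sweepOk_count_site {V : Type} [Fintype V] [DecidableEq V] (s : ℕ) (y : V) :
    ((siteList V s).countP fun e => decide (e.1.1 = y ∨ e.2.1.1 = y)) ≤ s ^ 2 := by
  rw [siteList, List.countP_flatMap, Finset.sum_map_toList]
  refine (Finset.sum_le_sum (g := fun x => if x = y then s ^ 2 else 0) fun x _ => ?_).trans
    (by simp)
  rw [Function.comp_apply]
  split_ifs with h
  · refine List.countP_le_length.trans ?_
    rw [List.length_flatMap]
    refine (List.sum_le_card_nsmul _ s fun n hn => ?_).trans (by simp [sq])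
    obtain ⟨j, -, rfl⟩ := List.mem_map.1 hn
    rw [List.length_map]
    exact (List.length_filter_le _ _).trans (by simp)
  · refine (List.countP_eq_zero.2 fun e he => ?_).le
    simp only [List.mem_flatMap, List.mem_map] at he
    obtain ⟨j, -, i, -, rfl⟩ := he
    simp [h]

theorem sweepOk_count_edge {L : ℕ} [NeZero L] (s : ℕ) (p : ℝ) (y : TV L) :
    ((edgeList (torus L) s p).countP fun e => decide (e.1.1 = y ∨ e.2.1.1 = y)) ≤ 12 * s ^ 2 := by
  rw [edgeList, List.countP_map, Function.comp_def, ← Multiset.coe_countP, Finset.coe_toList,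
    Multiset.countP_eq_card_filter, ← Finset.filter_val, ← Finset.card_def]
  let N := (Finset.univ.filter fun z => (torus L).Adj y z) ×ˢ
    (Finset.univ : Finset (Fin s × Fin s))
  have hN : N.card ≤ 6 * s ^ 2 := by
    rw [Finset.card_product, Finset.card_univ, Fintype.card_prod, Fintype.card_fin, ← sq]
    exact Nat.mul_le_mul_right _ (card_torus_adj_le y)
  refine (Finset.card_le_card (t := (N.image fun q => ((y, q.2.1), (q.1, q.2.2))) ∪
    N.image fun q => ((q.1, q.2.1), (y, q.2.2))) fun q hq => ?_).trans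
    ((Finset.card_union_le _ _).trans ((add_le_add (Finset.card_image_le.trans hN)
      (Finset.card_image_le.trans hN)).trans (by omega)))
  obtain ⟨h1, h2⟩ := Finset.mem_filter.1 hq
  have h3 := (Finset.mem_filter.1 h1).2
  obtain ⟨⟨a, i⟩, ⟨b, j⟩⟩ := q
  rcases h2 with rfl | rfl
  · exact Finset.mem_union_left _ (Finset.mem_image.2 ⟨(b, i, j), by simpa [N] using h3, rfl⟩)
  · exact Finset.mem_union_right _
      (Finset.mem_image.2 ⟨(a, i, j), by simpa [N] using h3.symm, rfl⟩)

theorem sweepGD_ok {L s : ℕ} [NeZero L] [NeZero s] (hL : 3 ≤ L) {p : ℝ} (hp0 : 0 < p)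
    (hp : p ≤ 1 / 2) : (sweepGD L s p).Ok := by
  have hlen : (sweepList (torus L) s p).length =
      (siteList (TV L) s).length + (edgeList (torus L) s p).length := List.length_append
  have hM : 0 < (sweepList (torus L) s p).length := by
    have h1 : (torus L).Adj (prj L 0) (prj L (ev 0)) :=
      torus_adj_prj (by omega) ⟨0, Or.inl (zero_add _).symm⟩
    exact List.length_pos_of_mem (a := ((prj L 0, 0), (prj L (ev 0), 0), p))
      (List.mem_append_right _ (sweepOk_mem_edge.2 ⟨h1, rfl⟩))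
  have h1 : ∀ τ < (siteList (TV L) s).length,
      (sweepList (torus L) s p).getD τ (0, 0, 0) ∈ siteList (TV L) s := fun τ hτ => by
    rw [sweepList, List.getD_append _ _ _ _ hτ, List.getD_eq_getElem _ _ hτ]
    exact List.getElem_mem _
  have h2 : ∀ τ < (sweepList (torus L) s p).length, (siteList (TV L) s).length ≤ τ →
      (sweepList (torus L) s p).getD τ (0, 0, 0) ∈ edgeList (torus L) s p := fun τ hτ hτ' => by
    rw [sweepList, List.getD_append_right _ _ _ _ hτ', List.getD_eq_getElem _ _ (by omega)]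
    exact List.getElem_mem _
  have h3 : ∀ t, 0 ≤ (sweepGD L s p).gp t ∧ (sweepGD L s p).gp t ≤ 1 / 2 ∧
      (sweepGD L s p).ga t ≠ (sweepGD L s p).gb t := fun t => by
    simp only [sweepGD]
    rcases lt_or_ge (t % (sweepList (torus L) s p).length) (siteList (TV L) s).length with h | h
    · obtain ⟨x, i, j, hij, e⟩ := sweepOk_mem_site (h1 _ h)
      have h4 : ((i : ℕ) : ℝ) + 1 ≤ ((j : ℕ) : ℝ) := by exact_mod_cast hij
      rw [e]
      refine ⟨one_div_nonneg.2 (by linarith), one_div_le_one_div_of_le two_pos (by linarith), ?_⟩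
      exact fun h => hij.ne (congrArg Prod.snd h)
    · obtain ⟨a1, a2⟩ := sweepOk_mem_edge.1 (h2 _ (Nat.mod_lt t hM) h)
      rw [a2]
      exact ⟨hp0.le, hp, fun h => a1.ne (congrArg Prod.fst h)⟩
  refine ⟨hM, (Nat.le_add_right _ _).trans hlen.ge, le_rfl, hp0, hp, fun t => (h3 t).1,
    fun t => (h3 t).2.1, fun t => (h3 t).2.2, fun t => by simp only [sweepGD, Nat.mod_mod],
    fun t => by simp only [sweepGD, Nat.mod_mod], fun t => by simp only [sweepGD, Nat.mod_mod],
    fun t a1 a2 => sweepOk_mem_edge.1 (h2 _ a2 a1), fun t h => ?_, fun k v v' h => ?_,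
    fun k y => ?_⟩
  · obtain ⟨x, i, j, -, e⟩ := sweepOk_mem_site (h1 (t % (sweepList (torus L) s p).length)
      (not_le.1 fun h' => h ⟨h', Nat.mod_lt t hM⟩))
    simp only [sweepGD, e]
  · obtain ⟨i, hi, e⟩ := List.getElem_of_mem
      ((sweepOk_mem_edge (e := (v, v', p)) (p := p)).2 ⟨h, rfl⟩)
    have e' : (sweepList (torus L) s p).getD ((k * (sweepList (torus L) s p).length +
        ((siteList (TV L) s).length + i)) % (sweepList (torus L) s p).length) (0, 0, 0) =
        (v, v', p) := by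
      rw [Nat.mul_add_mod_self_right, Nat.mod_eq_of_lt (by omega), sweepList,
        List.getD_append_right _ _ _ _ (Nat.le_add_right _ _), Nat.add_sub_cancel_left,
        List.getD_eq_getElem _ _ hi, e]
    refine ⟨k * (sweepList (torus L) s p).length + ((siteList (TV L) s).length + i), ?_, ?_,
      Or.inl ?_⟩
    · simp only [sweepGD]
      omega
    · simp only [sweepGD]
      omega
    · simp only [sweepGD, e', and_self]
  · have h4 := sweepOk_count (sweepList (torus L) s p) (0, 0, 0)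
      fun e => e.1.1 = y ∨ e.2.1.1 = y
    have h5 := add_le_add (sweepOk_count_site s y) (sweepOk_count_edge s p y)
    rw [← List.countP_append, ← sweepList, ← h4] at h5
    refine le_trans (Finset.card_le_card_of_injOn
      (fun t => t % (sweepList (torus L) s p).length) ?_ ?_) (h5.trans (le_of_eq ?_))
    · intro t ht
      rw [Finset.coe_filter] at ht ⊢
      exact ⟨Finset.mem_range.2 (Nat.mod_lt t hM), ht.2⟩
    · intro t ht t' ht' e
      obtain ⟨a1, a2⟩ := Finset.mem_Ico.1 (Finset.mem_filter.1 ht).1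
      obtain ⟨b1, b2⟩ := Finset.mem_Ico.1 (Finset.mem_filter.1 ht').1
      obtain ⟨i, rfl⟩ := Nat.exists_eq_add_of_le a1
      obtain ⟨j, rfl⟩ := Nat.exists_eq_add_of_le b1
      simp only [sweepGD, Nat.succ_mul] at a2 b2 e ⊢
      rw [Nat.mul_add_mod_self_right, Nat.mul_add_mod_self_right, Nat.mod_eq_of_lt (by omega),
        Nat.mod_eq_of_lt (by omega)] at e
      omega
    · simp only [sweepGD]
      ring

theorem sweepGD_M (L s : ℕ) [NeZero L] [NeZero s] (p p' : ℝ) :
    (sweepGD L s p).M = (sweepGD L s p').M := by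
  simp only [sweepGD, sweepList, edgeList, List.length_append, List.length_map]

theorem sweepGD_Kfs (L s : ℕ) [NeZero L] [NeZero s] (p : ℝ) :
    (sweepGD L s p).Kfs 0 = ((sweepList (torus L) s p).map g1).prod := by
  exact sweepOk_kp' (sweepList (torus L) s p) (0, 0, 0) g1 0

theorem sweepGD_many (L s : ℕ) [NeZero L] [NeZero s] (p : ℝ) (n : ℕ) :
    kp (fun t => lz (Equiv.swap ((sweepGD L s p).ga t) ((sweepGD L s p).gb t)).finsetCongr
        ((sweepGD L s p).gp t)) 0 (n * (sweepGD L s p).M) =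
      ((sweepList (torus L) s p).map gM).prod ^ n := by
  rw [← kp_const _ 0 n, ← zero_mul (sweepGD L s p).M, ← kp_kp, zero_mul]
  exact kp_congr fun j _ => sweepOk_kp' (sweepList (torus L) s p) (0, 0, 0) gM _

end Vale.Agent.P361
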