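import Vale.Agent.P361.Basic

namespace Vale.Agent.P361

open Matrix Finset

variable {V : Type} [Fintype V] [DecidableEq V]

/-- lifting functions of the site to functions of the copy -/
def oneBodyJ (V : Type) [DecidableEq V] (s : ℕ) : Matrix (V × Fin s) V ℝ :=
  Matrix.of fun v x => if v.1 = x then 1 else 0

lemma oneBody_J_mulVec (s : ℕ) (f : V → ℝ) : oneBodyJ V s *ᵥ f = fun v => f v.1 := by
  funext v
  simp [oneBodyJ, Matrix.mulVec, dotProduct]

omit [Fintype V] in
lemma oneBody_swap {s : ℕ} (a b v : V × Fin s) (hab : a ≠ b) (f : V → ℝ) :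
    f (Equiv.swap a b v).1 - f v.1 =
      (if v = a then f b.1 - f v.1 else 0) + (if v = b then f a.1 - f v.1 else 0) := by
  by_cases h1 : v = a
  · subst h1
    simp [hab]
  · by_cases h2 : v = b
    · subst h2
      simp [h1]
    · simp [h1, h2, Equiv.swap_apply_of_ne_of_ne h1 h2]

lemma oneBody_gen_mulVec (G : SimpleGraph V) [DecidableRel G.Adj] (s : ℕ) (f : V → ℝ)
    (v : V × Fin s) :
    (gen1 G s *ᵥ fun w => f w.1) v = -((s : ℝ) / 2) * (G.lapMatrix ℝ *ᵥ f) v.1 := by
  have h1 : (gen1 G s *ᵥ fun w => f w.1) v =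
      ∑ q ∈ edgePairs G s, (1 / 4 : ℝ) * (f (Equiv.swap q.1 q.2 v).1 - f v.1) := by
    unfold gen1
    rw [Matrix.sum_mulVec, Finset.sum_apply]
    refine Finset.sum_congr rfl fun q _ => ?_
    rw [Matrix.smul_mulVec, Matrix.sub_mulVec, Matrix.one_mulVec, Pi.smul_apply, Pi.sub_apply,
      lz_mulVec]
    simp
  have h2 : ∑ q ∈ edgePairs G s, (1 / 4 : ℝ) * (f (Equiv.swap q.1 q.2 v).1 - f v.1) =
      (1 / 4 : ℝ) * ((∑ q ∈ edgePairs G s, if v = q.1 then f q.2.1 - f v.1 else 0) +
        ∑ q ∈ edgePairs G s, if v = q.2 then f q.1.1 - f v.1 else 0) := by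
    rw [← Finset.sum_add_distrib, Finset.mul_sum]
    refine Finset.sum_congr rfl fun q hq => ?_
    have hadj : G.Adj q.1.1 q.2.1 := (Finset.mem_filter.1 hq).2
    have hne : q.1 ≠ q.2 := fun h => G.ne_of_adj hadj (by rw [h])
    rw [oneBody_swap q.1 q.2 v hne f]
  have h3 : ∑ y : V × Fin s, (if G.Adj v.1 y.1 then f y.1 - f v.1 else 0) =
      -(s : ℝ) * (G.lapMatrix ℝ *ᵥ f) v.1 := by
    rw [Fintype.sum_prod_type]
    simp only [Finset.sum_const, Finset.card_univ, Fintype.card_fin, nsmul_eq_mul]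
    rw [← Finset.mul_sum, ← Finset.sum_filter, SimpleGraph.lapMatrix_mulVec_apply,
      Finset.sum_sub_distrib, Finset.sum_const, ← SimpleGraph.neighborFinset_eq_filter,
      SimpleGraph.card_neighborFinset_eq_degree, nsmul_eq_mul]
    ring
  have h4 : (∑ q ∈ edgePairs G s, if v = q.1 then f q.2.1 - f v.1 else 0) =
      ∑ y : V × Fin s, (if G.Adj v.1 y.1 then f y.1 - f v.1 else 0) := by
    unfold edgePairs
    rw [Finset.sum_filter, Fintype.sum_prod_type, Finset.sum_eq_single v]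
    · simp
    · intro b _ hb
      simp [Ne.symm hb]
    · simp
  have h5 : (∑ q ∈ edgePairs G s, if v = q.2 then f q.1.1 - f v.1 else 0) =
      ∑ y : V × Fin s, (if G.Adj v.1 y.1 then f y.1 - f v.1 else 0) := by
    unfold edgePairs
    rw [Finset.sum_filter, Fintype.sum_prod_type_right, Finset.sum_eq_single v]
    · simp [G.adj_comm]
    · intro b _ hb
      simp [Ne.symm hb]
    · simp
  rw [h1, h2, h4, h5, h3]
  ring

lemma oneBody_gen_J (G : SimpleGraph V) [DecidableRel G.Adj] (s : ℕ) :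
    gen1 G s * oneBodyJ V s = oneBodyJ V s * ((-((s : ℝ) / 2)) • G.lapMatrix ℝ) := by
  apply Matrix.toLin'.injective
  refine LinearMap.ext fun f => ?_
  simp only [Matrix.toLin'_apply, ← Matrix.mulVec_mulVec, oneBody_J_mulVec]
  funext v
  rw [oneBody_gen_mulVec, Matrix.smul_mulVec]
  simp

lemma oneBody_gen_transpose (G : SimpleGraph V) [DecidableRel G.Adj] (s : ℕ) :
    (gen1 G s)ᵀ = gen1 G s := by
  unfold gen1
  rw [Matrix.transpose_sum]
  refine Finset.sum_congr rfl fun q _ => ?_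
  rw [Matrix.transpose_smul, Matrix.transpose_sub, lz_swap_transpose, Matrix.transpose_one]

lemma oneBody_J_gen (G : SimpleGraph V) [DecidableRel G.Adj] (s : ℕ) :
    (oneBodyJ V s)ᵀ * gen1 G s = ((-((s : ℝ) / 2)) • G.lapMatrix ℝ) * (oneBodyJ V s)ᵀ := by
  have h := congrArg Matrix.transpose (oneBody_gen_J G s)
  rw [Matrix.transpose_mul, Matrix.transpose_mul, oneBody_gen_transpose, Matrix.transpose_smul,
    (G.isSymm_lapMatrix (R := ℝ)).eq] at h
  exact h

lemma oneBody_symP1 (V : Type) [Fintype V] [DecidableEq V] (s : ℕ) :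
    symP1 V s = (1 / (s : ℝ)) • (oneBodyJ V s * (oneBodyJ V s)ᵀ) := by
  ext v w
  by_cases h : v.1 = w.1
  · simp [symP1, oneBodyJ, Matrix.mul_apply, h]
  · simp [symP1, oneBodyJ, Matrix.mul_apply, h]

theorem symP1_mul_self (V : Type) [Fintype V] [DecidableEq V] (s : ℕ) :
    symP1 V s * symP1 V s = symP1 V s := by
  ext v w
  have hs : (s : ℝ) ≠ 0 := by
    have := v.2.pos
    positivity
  simp only [symP1, Matrix.mul_apply, Matrix.of_apply]
  rw [Fintype.sum_prod_type, Finset.sum_eq_single v.1]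
  · by_cases h : v.1 = w.1
    · simp only [h, if_true, Finset.sum_const, Finset.card_univ, Fintype.card_fin, nsmul_eq_mul]
      field_simp
    · simp [h]
  · intro b _ hb
    simp [Ne.symm hb]
  · simp

theorem symP1_comm (G : SimpleGraph V) [DecidableRel G.Adj] (s : ℕ) :
    symP1 V s * gen1 G s = gen1 G s * symP1 V s := by
  rw [oneBody_symP1, Matrix.smul_mul, Matrix.mul_smul, Matrix.mul_assoc, oneBody_J_gen,
    ← Matrix.mul_assoc, ← Matrix.mul_assoc, oneBody_gen_J]

open scoped Matrix.Norms.Operator in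
lemma oneBody_hasSum {Y : Type} [Fintype Y] [DecidableEq Y] (A : Matrix Y Y ℝ) :
    HasSum (fun n : ℕ => ((n.factorial : ℝ)⁻¹) • A ^ n) (NormedSpace.exp A) :=
  NormedSpace.exp_series_hasSum_exp' (𝕂 := ℝ) A

lemma oneBody_exp_intertwine {X Y : Type} [Fintype X] [DecidableEq X] [Fintype Y] [DecidableEq Y]
    (J : Matrix X Y ℝ) (A : Matrix Y Y ℝ) (B : Matrix X X ℝ) (h : J * A = B * J) :
    J * NormedSpace.exp A = NormedSpace.exp B * J := by
  have hp : ∀ n : ℕ, J * A ^ n = B ^ n * J := fun n => by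
    induction n with
    | zero => simp
    | succ n ih =>
      rw [pow_succ, ← Matrix.mul_assoc, ih, Matrix.mul_assoc, h, ← Matrix.mul_assoc, ← pow_succ]
  let L : Matrix Y Y ℝ →+ Matrix X Y ℝ :=
    { toFun := fun Z => J * Z, map_zero' := by simp, map_add' := fun a b => Matrix.mul_add _ _ _ }
  let R : Matrix X X ℝ →+ Matrix X Y ℝ :=
    { toFun := fun Z => Z * J, map_zero' := by simp, map_add' := fun a b => Matrix.add_mul _ _ _ }
  have hL : Continuous L := continuous_const.matrix_mul continuous_id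
  have hR : Continuous R := continuous_id.matrix_mul continuous_const
  have h1 := (oneBody_hasSum A).map L hL
  have h2 := (oneBody_hasSum B).map R hR
  have e : (L ∘ fun n : ℕ => ((n.factorial : ℝ)⁻¹) • A ^ n) =
      R ∘ fun n : ℕ => ((n.factorial : ℝ)⁻¹) • B ^ n := by
    funext n
    change J * (((n.factorial : ℝ)⁻¹) • A ^ n) = (((n.factorial : ℝ)⁻¹) • B ^ n) * J
    rw [Matrix.mul_smul, Matrix.smul_mul, hp]
  rw [e] at h1
  exact h1.unique h2

theorem symP1_exp (G : SimpleGraph V) [DecidableRel G.Adj] (s : ℕ) (t : ℝ) (v w : V × Fin s) :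
    (symP1 V s * NormedSpace.exp (t • gen1 G s)) v w = heat G s t v.1 w.1 / s := by
  have h := oneBody_exp_intertwine (oneBodyJ V s)ᵀ (t • gen1 G s)
    ((-(t * s / 2)) • G.lapMatrix ℝ) (by
      rw [Matrix.mul_smul, oneBody_J_gen, ← Matrix.smul_mul, smul_smul]
      have : t * -((s : ℝ) / 2) = -(t * s / 2) := by ring
      rw [this])
  rw [oneBody_symP1, Matrix.smul_mul, Matrix.mul_assoc, h]
  unfold heat
  generalize NormedSpace.exp ((-(t * s / 2)) • G.lapMatrix ℝ) = E
  simp [oneBodyJ, Matrix.mul_apply, div_eq_inv_mul]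

end Vale.Agent.P361
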