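import Vale.Agent.P361.SpinRedA

set_option linter.all false

namespace Vale.Agent.P361

open Matrix Finset

variable {V : Type} [Fintype V] [DecidableEq V]

lemma sr_onSite_add {s : ℕ} (x : V) (A B : Matrix (Fin (s + 1)) (Fin (s + 1)) ℂ) :
    onSite x (A + B) = onSite x A + onSite x B := by
  ext σ τ
  simp only [onSite, of_apply, Matrix.add_apply]
  split_ifs <;> simp

lemma sr_onSite_sub {s : ℕ} (x : V) (A B : Matrix (Fin (s + 1)) (Fin (s + 1)) ℂ) :
    onSite x (A - B) = onSite x A - onSite x B := by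
  ext σ τ
  simp only [onSite, of_apply, Matrix.sub_apply]
  split_ifs <;> simp

lemma sr_onSite_smul {s : ℕ} (x : V) (c : ℂ) (A : Matrix (Fin (s + 1)) (Fin (s + 1)) ℂ) :
    onSite x (c • A) = c • onSite x A := by
  ext σ τ
  simp only [onSite, of_apply, Matrix.smul_apply]
  split_ifs <;> simp

lemma sr_dot (s : ℕ) (x y : V) :
    (2 : ℂ) • ∑ a : Fin 3, onSite x (spin s a) * onSite y (spin s a) =
      (2 : ℂ) • (onSite x (spin s 2) * onSite y (spin s 2)) +
        onSite x (spinPlus s) * onSite y (spinPlus s)ᴴ +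
        onSite x (spinPlus s)ᴴ * onSite y (spinPlus s) := by
  have e0 : spin s 0 = (1 / 2 : ℂ) • (spinPlus s + (spinPlus s)ᴴ) := rfl
  have e1 : spin s 1 = (1 / (2 * Complex.I) : ℂ) • (spinPlus s - (spinPlus s)ᴴ) := rfl
  have e2 : (1 / (2 * Complex.I) : ℂ) * (1 / (2 * Complex.I)) = -(1 / 4) := by
    rw [div_mul_div_comm, mul_mul_mul_comm, Complex.I_mul_I]; norm_num
  rw [Fin.sum_univ_three, e0, e1]
  simp only [sr_onSite_smul, sr_onSite_add, sr_onSite_sub, smul_mul_smul_comm, e2, mul_add, add_mul,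
    mul_sub, sub_mul]
  module

lemma sr_pair (s : ℕ) {x y : V} (h : x ≠ y) :
    ∑ i : Fin s, ∑ j : Fin s, (srT (x, i) (y, j) * srJ V s - (1 / 2 : ℂ) • srJ V s) =
      srJ V s * ((2 : ℂ) • ∑ a : Fin 3, onSite x (spin s a) * onSite y (spin s a)) := by
  have e : ∀ f g : V × Fin s → Matrix (Finset (V × Fin s)) (Finset (V × Fin s)) ℂ,
      ∑ i : Fin s, ∑ j : Fin s, f (x, i) * (g (y, j) * srJ V s) = srS f x * (srS g y * srJ V s) :=
    fun f g => by simp only [srS, Matrix.sum_mul, Matrix.mul_sum]; exact sum_comm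
  have e2 : ∀ i j : Fin s, (x, i) ≠ (y, j) := fun i j h' => h (congrArg Prod.fst h')
  simp only [sr_swap (e2 _ _), add_sub_cancel_right, sum_add_distrib, ← smul_sum, e]
  rw [sr_dot, srZ_srJ, srM_srJ, srP_srJ]
  simp only [← Matrix.mul_assoc, srZ_srJ, srM_srJ, srP_srJ, Matrix.mul_add, Matrix.mul_smul]

/-- Complexification. -/
noncomputable abbrev srC {Y : Type} [Fintype Y] [DecidableEq Y] : Matrix Y Y ℝ →+* Matrix Y Y ℂ :=
  Complex.ofRealHom.mapMatrix

lemma srC_smul {Y : Type} [Fintype Y] [DecidableEq Y] (c : ℝ) (A : Matrix Y Y ℝ) :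
    srC (c • A) = (c : ℂ) • srC A := by
  ext i j; simp

lemma srC_inj {Y : Type} [Fintype Y] [DecidableEq Y] {A B : Matrix Y Y ℝ} (h : srC A = srC B) :
    A = B := by
  ext i j
  exact Complex.ofReal_injective (congrFun (congrFun h i) j)

lemma sr_gen (G : SimpleGraph V) [DecidableRel G.Adj] (s : ℕ) :
    srC (genM G s) * srJ V s + (((edgePairs G s).card : ℂ) / 8) • srJ V s = srJ V s * -ham s G := by
  have e1 : srC (genM G s) * srJ V s + (((edgePairs G s).card : ℂ) / 8) • srJ V s =
      ∑ q ∈ edgePairs G s, (1 / 4 : ℂ) • (srT q.1 q.2 * srJ V s - (1 / 2 : ℂ) • srJ V s) := by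
    rw [genM, map_sum, Matrix.sum_mul, div_eq_mul_inv _ (8 : ℂ), mul_smul, Nat.cast_smul_eq_nsmul, ← sum_const,
      ← sum_add_distrib]
    refine sum_congr rfl fun q _ => ?_
    rw [srC_smul, map_sub, map_one, Matrix.smul_mul, Matrix.sub_mul, Matrix.one_mul]
    change _ • (srT q.1 q.2 * srJ V s - _) + _ = _
    push_cast
    module
  rw [e1, ham, ← neg_smul, neg_neg, Matrix.mul_smul, Matrix.mul_sum, smul_sum, edgePairs, sum_filter,
    Fintype.sum_prod_type, Fintype.sum_prod_type]
  refine sum_congr rfl fun x _ => ?_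
  simp only [Fintype.sum_prod_type]
  rw [sum_comm, Matrix.mul_sum, smul_sum]
  refine sum_congr rfl fun y _ => ?_
  by_cases h : G.Adj x y
  · simp only [if_pos h, ← smul_sum, sr_pair s h.ne, Matrix.mul_smul, smul_smul]
    norm_num
  · simp [h]

lemma srC_symP (s : ℕ) : srC (symP V s) = srJ V s * (srJ V s)ᵀ := srJ_mul_transpose.symm

theorem symP_mul_self (V : Type) [Fintype V] [DecidableEq V] (s : ℕ) :
    symP V s * symP V s = symP V s := by
  refine srC_inj ?_
  rw [map_mul, srC_symP, Matrix.mul_assoc, ← Matrix.mul_assoc (srJ V s)ᵀ, transpose_mul_srJ,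
    Matrix.one_mul]

lemma sr_gen_symm (G : SimpleGraph V) [DecidableRel G.Adj] (s : ℕ) : (genM G s)ᵀ = genM G s := by
  rw [genM, transpose_sum]
  refine sum_congr rfl fun q _ => ?_
  rw [transpose_smul, transpose_sub, transpose_one]
  congr 2
  ext η η'
  have : η = (Equiv.swap q.1 q.2).finsetCongr η' ↔ η' = (Equiv.swap q.1 q.2).finsetCongr η := by
    rw [eq_comm, Equiv.apply_eq_iff_eq_symm_apply, Equiv.finsetCongr_symm, Equiv.symm_swap]
  simp only [lz, transpose_apply, of_apply, sub_self, zero_mul, this]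

theorem symP_comm (G : SimpleGraph V) [DecidableRel G.Adj] (s : ℕ) :
    symP V s * genM G s = genM G s * symP V s := by
  have h1 : symP V s * (genM G s * symP V s) = genM G s * symP V s := by
    refine srC_inj ?_
    simp only [map_mul, srC_symP]
    rw [← Matrix.mul_assoc (srC _), eq_sub_of_add_eq (sr_gen G s)]
    simp only [Matrix.sub_mul, Matrix.mul_sub, Matrix.smul_mul, Matrix.mul_smul, Matrix.mul_assoc]
    simp only [← Matrix.mul_assoc (srJ V s)ᵀ, transpose_mul_srJ, Matrix.one_mul]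
  have h2 : (symP V s)ᵀ = symP V s := by
    refine srC_inj ?_
    change (srC (symP V s))ᵀ = _
    rw [srC_symP, transpose_mul, transpose_transpose]
  have h3 := congrArg transpose h1
  simp only [transpose_mul, h2, sr_gen_symm] at h3
  rw [← h1, ← h3, Matrix.mul_assoc]

open scoped Matrix.Norms.Operator in
set_option backward.isDefEq.respectTransparency false in
lemma sr_hasSum {Y : Type} [Fintype Y] [DecidableEq Y] (A : Matrix Y Y ℂ) :
    HasSum (fun k : ℕ => ((k.factorial : ℂ)⁻¹) • A ^ k) (NormedSpace.exp A) :=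
  NormedSpace.exp_series_hasSum_exp' A

lemma sr_exp {Y Z : Type} [Fintype Y] [DecidableEq Y] [Fintype Z] [DecidableEq Z]
    {A : Matrix Y Y ℂ} {B : Matrix Z Z ℂ} {J : Matrix Y Z ℂ} (h : A * J = J * B) :
    NormedSpace.exp A * J = J * NormedSpace.exp B := by
  have e : ∀ k : ℕ, A ^ k * J = J * B ^ k := fun k => by
    induction k with
    | zero => simp
    | succ k ih => rw [pow_succ, Matrix.mul_assoc, h, ← Matrix.mul_assoc, ih, Matrix.mul_assoc, pow_succ]
  have h1 := (sr_hasSum A).map (AddMonoidHom.mk' (fun M : Matrix Y Y ℂ => M * J)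
    fun M M' => Matrix.add_mul M M' J) (continuous_id.matrix_mul continuous_const)
  have h2 := (sr_hasSum B).map (AddMonoidHom.mk' (fun M : Matrix Z Z ℂ => J * M)
    fun M M' => Matrix.mul_add J M M') (continuous_const.matrix_mul continuous_id)
  simp only [Function.comp_def, AddMonoidHom.mk'_apply, Matrix.smul_mul, Matrix.mul_smul, e] at h1 h2
  exact h1.unique h2

open scoped Matrix.Norms.Operator in
set_option backward.isDefEq.respectTransparency false in
lemma srC_exp {Y : Type} [Fintype Y] [DecidableEq Y] (A : Matrix Y Y ℝ) :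
    srC (NormedSpace.exp A) = NormedSpace.exp (srC A) :=
  NormedSpace.map_exp srC (continuous_id.matrix_map Complex.continuous_ofReal) A

open scoped Matrix.Norms.Operator in
set_option backward.isDefEq.respectTransparency false in
lemma sr_comm_exp {Y : Type} [Fintype Y] [DecidableEq Y] {A B : Matrix Y Y ℝ} (h : Commute A B) :
    Commute A (NormedSpace.exp B) := h.exp_right

theorem partZ_eq (G : SimpleGraph V) [DecidableRel G.Adj] (s : ℕ) (β h : ℝ) :
    partZ s G β h =
      Real.exp (β * (((edgePairs G s).card : ℝ) / 8 + h * s * Fintype.card V / 2)) *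
        Matrix.trace (fug (Real.exp (-(β * h))) * symP V s * NormedSpace.exp (β • genM G s)) := by
  obtain ⟨c, hc⟩ : ∃ c : ℝ, c = β * (((edgePairs G s).card : ℝ) / 8 + h * s * Fintype.card V / 2) :=
    ⟨_, rfl⟩
  obtain ⟨D, hD⟩ : ∃ D : Matrix (Finset (V × Fin s)) (Finset (V × Fin s)) ℝ,
    D = diagonal fun η => c - β * h * η.card := ⟨_, rfl⟩
  have h1 : srC D * srJ V s = ((β : ℂ) * ((edgePairs G s).card / 8)) • srJ V s +
      ((β : ℂ) * h) • (srJ V s * mag s V) := by
    rw [mag, Matrix.mul_sum]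
    simp only [← srZ_srJ]
    ext η τ
    have e : ∑ x : V, (srS (s := s) srZ x * srJ V s) η τ = (s * Fintype.card V / 2 - η.card) * srJ V s η τ := by
      simp only [srS, Matrix.sum_mul, Matrix.sum_apply, srZ, diagonal_mul, ← sum_mul]
      rw [← Fintype.sum_prod_type' fun x i => (1 / 2 - if (x, i) ∈ η then 1 else 0 : ℂ)]
      simp
      ring_nf
      simp
    rw [hD, RingHom.mapMatrix_apply, diagonal_map (by simp), diagonal_mul, Matrix.add_apply,
      Matrix.smul_apply, Matrix.smul_apply, Matrix.sum_apply, e, hc]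
    simp
    ring
  have h2 : srC (D + β • genM G s) * srJ V s =
      srJ V s * ((-(β : ℂ)) • (ham s G - (h : ℂ) • mag s V)) := by
    rw [map_add, srC_smul, Matrix.add_mul, h1, Matrix.smul_mul, eq_sub_of_add_eq (sr_gen G s),
      Matrix.mul_smul, Matrix.mul_sub, Matrix.mul_smul, Matrix.mul_neg]
    module
  have h3 : Commute D (β • genM G s) := by
    refine (Commute.sum_right _ _ _ fun q _ => (Commute.sub_right ?_ (Commute.one_right _)).smul_right
      _).smul_right _
    ext η η'
    rw [hD, diagonal_mul, mul_diagonal, lz, of_apply]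
    by_cases hq : η' = (Equiv.swap q.1 q.2).finsetCongr η
    · rw [hq, Equiv.finsetCongr_apply, card_map, mul_comm]
    · simp only [if_neg hq]
      simp
  have h4 : NormedSpace.exp D = Real.exp c • fug (Real.exp (-(β * h))) := by
    rw [hD, exp_diagonal, fug, ← diagonal_smul]
    congr 1
    funext η
    rw [Pi.coe_exp, ← Real.exp_eq_exp_ℝ, Pi.smul_apply, smul_eq_mul, ← Real.exp_nat_mul,
      ← Real.exp_add]
    congr 1
    ring
  have h5 := sr_exp h2
  rw [← srC_exp, exp_add_of_commute _ _ h3, h4] at h5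
  rw [partZ, ← Matrix.one_mul (NormedSpace.exp _), ← transpose_mul_srJ, Matrix.mul_assoc, ← h5,
    trace_mul_comm, Matrix.mul_assoc, ← srC_symP, ← map_mul, ← hc, Matrix.mul_assoc,
    Matrix.mul_assoc, (sr_comm_exp (Commute.smul_right (symP_comm G s) β)).eq, smul_mul_assoc,
    RingHom.mapMatrix_apply, ← AddMonoidHom.map_trace, trace_smul]
  exact Complex.ofReal_re _

end Vale.Agent.P361
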