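import Vale.Agent.P361.Symm
import Vale.Agent.P361.SpinRed
import Vale.Agent.P361.OneBody

namespace Vale.Agent.P361

open Matrix Finset

section Abstract

variable {R : Type} [NormedRing R] [NormedAlgebra ℝ R]

lemma trotter_deriv {ι : Type} (l : List ι) (a : ι → R) :
    HasDerivAt (fun δ : ℝ => (l.map fun i => 1 + δ • a i).prod) (l.map a).sum 0 := by
  induction l with
  | nil => simpa using hasDerivAt_const (0 : ℝ) (1 : R)
  | cons i l ih =>
    have h1 : HasDerivAt (fun δ : ℝ => 1 + δ • a i) (a i) 0 := by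
      simpa using ((hasDerivAt_id (0 : ℝ)).smul_const (a i)).const_add 1
    have h2 := h1.mul ih
    have h3 : (l.map fun i => (1 : R) + (0 : ℝ) • a i).prod = 1 := by simp
    simp only [List.map_cons, List.prod_cons, List.sum_cons]
    rw [h3] at h2
    simp only [zero_smul, add_zero, one_mul, mul_one] at h2
    exact h2

omit [NormedAlgebra ℝ R] in
lemma trotter_pow (X Y : R) (C : ℝ) (hX : ‖X‖ ≤ 1) (j : ℕ) (hY : ∀ m < j, ‖Y ^ m‖ ≤ C) :
    ‖X ^ j - Y ^ j‖ ≤ j * (‖X - Y‖ * C) := by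
  induction j with
  | zero => simp
  | succ j ih =>
    have e : X ^ (j + 1) - Y ^ (j + 1) = X * (X ^ j - Y ^ j) + (X - Y) * Y ^ j := by
      rw [pow_succ' X, pow_succ' Y]; noncomm_ring
    have h1 := ih fun m hm => hY m (by omega)
    have h2 := hY j (by omega)
    have h3 : ‖X * (X ^ j - Y ^ j)‖ ≤ ‖X ^ j - Y ^ j‖ :=
      (norm_mul_le _ _).trans (mul_le_of_le_one_left (norm_nonneg _) hX)
    have h4 : ‖(X - Y) * Y ^ j‖ ≤ ‖X - Y‖ * C :=
      (norm_mul_le _ _).trans (mul_le_mul_of_nonneg_left h2 (norm_nonneg _))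
    rw [e]
    refine (norm_add_le _ _).trans ?_
    push_cast
    linarith

variable [CompleteSpace R]

lemma trotter_proj_pow (P A : R) (hPP : P * P = P) (hc : P * A = A * P) (δ : ℝ) (j : ℕ) :
    (P * NormedSpace.exp (δ • A)) ^ (j + 1) =
      P * NormedSpace.exp ((((j + 1 : ℕ) : ℝ) * δ) • A) := by
  let _ : NormedAlgebra ℚ R := NormedAlgebra.restrictScalars ℚ ℝ R
  have hcm : Commute P (NormedSpace.exp (δ • A)) :=
    (Commute.smul_right (show Commute P A from hc) δ).exp_right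
  have hP : P ^ (j + 1) = P := (show IsIdempotentElem P from hPP).pow_succ_eq j
  rw [hcm.mul_pow, hP, ← NormedSpace.exp_nsmul, mul_smul, Nat.cast_smul_eq_nsmul]

lemma trotter_abs {ι : Type} (P : R) (hP : ‖P‖ ≤ 1) (hPP : P * P = P) (l : List ι) (a : ι → R)
    (hc : P * (l.map a).sum = (l.map a).sum * P)
    (hF : ∀ δ : ℝ, 0 < δ → δ ≤ 1 → ‖P * (l.map fun i => 1 + δ • a i).prod‖ ≤ 1)
    (T η : ℝ) (hη : 0 < η) :
    ∃ δ0 : ℝ, 0 < δ0 ∧ ∀ δ : ℝ, 0 < δ → δ ≤ δ0 → ∀ j : ℕ, 1 ≤ j → j * δ ≤ T →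
      ‖(P * (l.map fun i => 1 + δ • a i).prod) ^ j -
        P * NormedSpace.exp (((j : ℝ) * δ) • (l.map a).sum)‖ ≤ η := by
  set A := (l.map a).sum with hA
  have hcont : Continuous fun t : ℝ => NormedSpace.exp (t • A) :=
    continuous_iff_continuousAt.2 fun t => (hasDerivAt_exp_smul_const A t).continuousAt
  obtain ⟨C0, hC0⟩ := (isCompact_Icc (a := (0 : ℝ)) (b := T)).exists_bound_of_continuousOn
    hcont.continuousOn
  set C : ℝ := max (max C0 ‖(1 : R)‖) 1 with hC
  have hCpos : 0 < C := lt_of_lt_of_le one_pos (le_max_right _ _)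
  set T1 : ℝ := max T 1 with hT1
  have hT1pos : 0 < T1 := lt_of_lt_of_le one_pos (le_max_right _ _)
  have hd : HasDerivAt (fun δ : ℝ => (l.map fun i => 1 + δ • a i).prod - NormedSpace.exp (δ • A))
      0 0 := by
    have h1 := (trotter_deriv l a).sub (hasDerivAt_exp_smul_const A (0 : ℝ))
    simp only [zero_smul, NormedSpace.exp_zero, one_mul, ← hA, sub_self] at h1
    exact h1
  have ho := hasDerivAt_iff_isLittleO.1 hd
  have hε : 0 < η / (T1 * C) := by positivity
  have hev := ho.def hε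
  obtain ⟨r, hr, hball⟩ := Metric.eventually_nhds_iff.1 hev
  refine ⟨min (r / 2) 1, by positivity, fun δ hδ hδ0 j hj hjT => ?_⟩
  have hδr : δ < r := by
    have := hδ0.trans (min_le_left _ _)
    linarith
  have hδ1 : δ ≤ 1 := hδ0.trans (min_le_right _ _)
  have hb := hball (y := δ) (by simpa [Real.dist_eq, abs_of_pos hδ] using hδr)
  have h3 : (l.map fun i => (1 : R) + (0 : ℝ) • a i).prod = 1 := by simp
  rw [h3] at hb
  simp only [zero_smul, NormedSpace.exp_zero, sub_self, sub_zero, smul_zero, Real.norm_eq_abs,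
    abs_of_pos hδ] at hb
  obtain ⟨j, rfl⟩ : ∃ k, j = k + 1 := ⟨j - 1, by omega⟩
  rw [← trotter_proj_pow P A hPP hc δ j]
  have hY : ∀ m < j + 1, ‖(P * NormedSpace.exp (δ • A)) ^ m‖ ≤ C := by
    intro m hm
    cases m with
    | zero =>
      rw [pow_zero]
      exact (le_max_right _ _).trans (le_max_left _ _)
    | succ m =>
      rw [trotter_proj_pow P A hPP hc δ m]
      have hmem : ((m + 1 : ℕ) : ℝ) * δ ∈ Set.Icc (0 : ℝ) T := by
        refine ⟨by positivity, le_trans ?_ hjT⟩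
        exact mul_le_mul_of_nonneg_right (by exact_mod_cast hm.le) hδ.le
      refine (norm_mul_le _ _).trans ((mul_le_of_le_one_left (norm_nonneg _) hP).trans ?_)
      exact (hC0 _ hmem).trans ((le_max_left _ _).trans (le_max_left _ _))
  refine (trotter_pow _ _ C (hF δ hδ hδ1) (j + 1) hY).trans ?_
  have hdiff : ‖P * (l.map fun i => 1 + δ • a i).prod - P * NormedSpace.exp (δ • A)‖ ≤
      η / (T1 * C) * δ := by
    rw [← mul_sub]
    exact (norm_mul_le _ _).trans ((mul_le_of_le_one_left (norm_nonneg _) hP).trans hb)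
  have hjT1 : ((j + 1 : ℕ) : ℝ) * δ ≤ T1 := hjT.trans (le_max_left _ _)
  calc ((j + 1 : ℕ) : ℝ) *
        (‖P * (l.map fun i => 1 + δ • a i).prod - P * NormedSpace.exp (δ • A)‖ * C)
      ≤ ((j + 1 : ℕ) : ℝ) * (η / (T1 * C) * δ * C) := by gcongr
    _ = (((j + 1 : ℕ) : ℝ) * δ) * (η / T1) := by field_simp
    _ ≤ T1 * (η / T1) := by gcongr
    _ = η := by field_simp

end Abstract

section Mat

variable {Y : Type} [Fintype Y] [DecidableEq Y]

open scoped Matrix.Norms.Operator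

lemma trotter_entry_le (A : Matrix Y Y ℝ) (y y' : Y) : |A y y'| ≤ ‖A‖ := by
  rw [Matrix.linfty_opNorm_def]
  have h1 : ‖A y y'‖₊ ≤ ∑ j, ‖A y j‖₊ :=
    Finset.single_le_sum (f := fun j => ‖A y j‖₊) (fun _ _ => zero_le) (Finset.mem_univ y')
  have h2 : ∑ j, ‖A y j‖₊ ≤ Finset.univ.sup fun i => ∑ j, ‖A i j‖₊ :=
    Finset.le_sup (f := fun i => ∑ j, ‖A i j‖₊) (Finset.mem_univ y)
  have h3 := NNReal.coe_le_coe.2 (h1.trans h2)
  simpa using h3

lemma trotter_norm_le {A : Matrix Y Y ℝ} (hA : DStoch A) : ‖A‖ ≤ 1 := by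
  rw [Matrix.linfty_opNorm_def]
  have h : (Finset.univ.sup fun i => ∑ j, ‖A i j‖₊) ≤ 1 := by
    refine Finset.sup_le fun i _ => ?_
    rw [← NNReal.coe_le_coe]
    push_cast
    simp only [Real.norm_eq_abs, abs_of_nonneg (hA.1 i _), hA.2.1 i, le_refl]
  exact_mod_cast h

omit [Fintype Y] in
lemma trotter_lz (σ : Equiv.Perm Y) (δ : ℝ) :
    lz σ (δ / 4) = 1 + δ • ((1 / 4 : ℝ) • (lz σ 1 - 1)) := by
  ext y y'
  simp only [lz, Matrix.of_apply, Matrix.add_apply, Matrix.smul_apply, Matrix.sub_apply,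
    Matrix.one_apply, smul_eq_mul, eq_comm (a := y') (b := y)]
  ring

lemma trotter_dstoch_prod {ι : Type} (l : List ι) (f : ι → Matrix Y Y ℝ) (h : ∀ i, DStoch (f i)) :
    DStoch (l.map f).prod := by
  induction l with
  | nil => simpa using dstoch_one
  | cons i l ih =>
    rw [List.map_cons, List.prod_cons]
    exact (h i).mul ih

end Mat

open scoped Matrix.Norms.Operator in
theorem trotter_gen {Y ι : Type} [Fintype Y] [DecidableEq Y] (P : Matrix Y Y ℝ) (hP : DStoch P)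
    (hPP : P * P = P) (l : List ι) (σ : ι → Equiv.Perm Y) (A : Matrix Y Y ℝ)
    (hA : A = (l.map fun i => (1 / 4 : ℝ) • (lz (σ i) 1 - 1)).sum) (hc : P * A = A * P)
    (T η : ℝ) (hη : 0 < η) :
    ∃ δ0 : ℝ, 0 < δ0 ∧ ∀ δ : ℝ, 0 < δ → δ ≤ δ0 → ∀ j : ℕ, 1 ≤ j → j * δ ≤ T → ∀ y y',
      |((P * (l.map fun i => lz (σ i) (δ / 4)).prod) ^ j) y y' -
        (P * NormedSpace.exp (((j : ℝ) * δ) • A)) y y'| ≤ η := by
  subst hA
  obtain ⟨δ0, h0, h⟩ := trotter_abs (R := Matrix Y Y ℝ) P (trotter_norm_le hP) hPP l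
    (fun i => (1 / 4 : ℝ) • (lz (σ i) 1 - 1)) hc (fun δ hδ hδ1 => by
      simp only [← trotter_lz]
      exact trotter_norm_le (hP.mul (trotter_dstoch_prod l _ fun i =>
        lz_dstoch _ (by linarith) (by linarith)))) T η hη
  refine ⟨δ0, h0, fun δ hδ hδ0 j hj hjT y y' => ?_⟩
  have h1 := h δ hδ hδ0 j hj hjT
  simp only [← trotter_lz] at h1
  exact (trotter_entry_le (_ - _) y y').trans h1

lemma trotter_sweep_many {V : Type} [Fintype V] [DecidableEq V] (G : SimpleGraph V)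
    [DecidableRel G.Adj] (s : ℕ) (p : ℝ) :
    ((sweepList G s p).map gM).prod = symP V s *
      ((edgePairs G s).toList.map fun q => lz (Equiv.swap q.1 q.2).finsetCongr p).prod := by
  rw [sweepList, List.map_append, List.prod_append, siteList_many, edgeList, List.map_map]
  rfl

lemma trotter_sweep_one {V : Type} [Fintype V] [DecidableEq V] (G : SimpleGraph V)
    [DecidableRel G.Adj] (s : ℕ) (p : ℝ) :
    ((sweepList G s p).map g1).prod = symP1 V s *
      ((edgePairs G s).toList.map fun q => lz (Equiv.swap q.1 q.2) p).prod := by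
  rw [sweepList, List.map_append, List.prod_append, siteList_one, edgeList, List.map_map]
  rfl

theorem trotter_many {V : Type} [Fintype V] [DecidableEq V] (G : SimpleGraph V)
    [DecidableRel G.Adj] (s : ℕ) {β : ℝ} (hβ : 0 < β) (z : ℝ) :
    Filter.Tendsto
      (fun n : ℕ => Matrix.trace (fug z * ((sweepList G s (β / (4 * n))).map gM).prod ^ n))
      Filter.atTop
      (nhds (Matrix.trace (fug z * symP V s * NormedSpace.exp (β • genM G s)))) := by
  have key : Filter.Tendsto (fun n : ℕ => ((sweepList G s (β / (4 * n))).map gM).prod ^ n)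
      Filter.atTop (nhds (symP V s * NormedSpace.exp (β • genM G s))) := by
    refine tendsto_pi_nhds.2 fun y => tendsto_pi_nhds.2 fun y' => ?_
    refine Metric.tendsto_nhds.2 fun ε hε => ?_
    obtain ⟨δ0, h0, h⟩ := trotter_gen (symP V s) (symP_dstoch V s) (symP_mul_self V s)
      (edgePairs G s).toList (fun q => (Equiv.swap q.1 q.2).finsetCongr) (genM G s)
      (by rw [Finset.sum_map_toList]; rfl) (symP_comm G s) β (ε / 2) (by positivity)
    have hev : ∀ᶠ n : ℕ in Filter.atTop, β / (n : ℝ) ≤ δ0 :=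
      (tendsto_const_div_atTop_nhds_zero_nat β).eventually (ge_mem_nhds h0)
    filter_upwards [hev, Filter.eventually_ge_atTop 1] with n hn hn1
    have hnpos : (0 : ℝ) < n := by exact_mod_cast hn1
    have e1 : (n : ℝ) * (β / n) = β := by field_simp
    have h1 := h (β / n) (by positivity) hn n hn1 e1.le y y'
    have e2 : β / (4 * (n : ℝ)) = β / n / 4 := by field_simp
    rw [e1] at h1
    rw [Real.dist_eq, trotter_sweep_many, e2]
    linarith
  have hc : Continuous fun X : Matrix (Finset (V × Fin s)) (Finset (V × Fin s)) ℝ =>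
      Matrix.trace (fug z * X) := (continuous_const.matrix_mul continuous_id).matrix_trace
  rw [Matrix.mul_assoc]
  exact (hc.tendsto _).comp key

theorem trotter_one {V : Type} [Fintype V] [DecidableEq V] (G : SimpleGraph V)
    [DecidableRel G.Adj] (s : ℕ) (T η : ℝ) (hη : 0 < η) :
    ∃ δ0 : ℝ, 0 < δ0 ∧ ∀ δ : ℝ, 0 < δ → δ ≤ δ0 → ∀ j : ℕ, 1 ≤ j → j * δ ≤ T → ∀ v w,
      |(((sweepList G s (δ / 4)).map g1).prod ^ j) v w - heat G s (j * δ) v.1 w.1 / s| ≤ η := by
  obtain ⟨δ0, h0, h⟩ := trotter_gen (symP1 V s) (symP1_dstoch V s) (symP1_mul_self V s)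
    (edgePairs G s).toList (fun q => Equiv.swap q.1 q.2) (gen1 G s)
    (by rw [Finset.sum_map_toList]; rfl) (symP1_comm G s) T η hη
  refine ⟨δ0, h0, fun δ hδ hδ0 j hj hjT v w => ?_⟩
  have h1 := h δ hδ hδ0 j hj hjT v w
  rw [symP1_exp] at h1
  rw [trotter_sweep_one]
  exact h1

end Vale.Agent.P361
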