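import Vale.Agent.P361.DensA
import Vale.Agent.P361.Trotter
import Vale.Agent.P361.Heat
import Vale.Agent.P361.SweepOk

/-!
# P361: free kernel estimates for the Trotter sweep
-/

namespace Vale.Agent.P361

open Finset Filter

lemma exists_w0 {β δ0 : ℝ} (_hβ : 0 < β) (h0 : 0 < δ0) :
    ∃ w0 : ℕ, ∀ l w n : ℕ, 1 ≤ l → w0 ≤ w → n = 16 * l * w → 1 ≤ w ∧ 1 ≤ n ∧ β / n ≤ δ0 := by
  refine ⟨⌈β / δ0⌉₊ + 1, fun l w n hl hw hn => ?_⟩
  have hw1 : 1 ≤ w := by omega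
  have hwn : w ≤ n := by rw [hn]; nlinarith
  refine ⟨hw1, by omega, ?_⟩
  have h1 : β / δ0 ≤ n := by
    refine (Nat.le_ceil _).trans ?_
    exact_mod_cast (by omega : ⌈β / δ0⌉₊ ≤ n)
  have hn0 : (0 : ℝ) < n := by exact_mod_cast (by omega : 0 < n)
  rw [div_le_iff₀ h0] at h1
  rw [div_le_iff₀ hn0]
  linarith

lemma rpow_three_half {y : ℝ} (hy : 0 ≤ y) : y ^ (3 / 2 : ℝ) = y * Real.sqrt y := by
  rw [Real.sqrt_eq_rpow, show (3 / 2 : ℝ) = 1 + 1 / 2 by norm_num,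
    Real.rpow_add' hy (by norm_num), Real.rpow_one]

lemma sweep_pow {L s : ℕ} [NeZero L] [NeZero s] (hL : 3 ≤ L) {δ : ℝ} (h0 : 0 < δ) (h2 : δ ≤ 2)
    (k len : ℕ) :
    kp (sweepGD L s (δ / 4)).Kfs k len = ((sweepList (torus L) s (δ / 4)).map g1).prod ^ len := by
  rw [(sweepGD_ok hL (by positivity) (by linarith)).kp_Kfs, sweepGD_Kfs]

theorem dens_free (s : ℕ) [NeZero s] : ∃ Cσ : ℝ, 0 < Cσ ∧ ∀ (β : ℝ) (l nw : ℕ), 1 ≤ β → 1 ≤ l →
    (l : ℝ) ≤ 2 * ((13 * s ^ 2 : ℕ) : ℝ) * β → ∀ (L : ℕ) [NeZero L], 3 ≤ L →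
    nw * β ≤ (L : ℝ) ^ 2 → ∃ w0 : ℕ, ∀ w n : ℕ, w0 ≤ w → n = 16 * l * w →
    (sweepGD L s (β / (4 * n))).FreeBd w nw (psig Cσ) := by
  have hs : 1 ≤ s := Nat.one_le_iff_ne_zero.2 (NeZero.ne s)
  have hs' : (1 : ℝ) ≤ s := by exact_mod_cast hs
  obtain ⟨Ch, hCh, hheat⟩ := heat_le s hs
  set G : ℝ := ((13 * s ^ 2 : ℕ) : ℝ) with hG
  have hG1 : 1 ≤ G := by rw [hG]; push_cast; nlinarith
  refine ⟨Ch * (32 * G) ^ 2 + 1, by positivity, fun β l nw hβ hl hlG L _ hL hT => ?_⟩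
  have hβ0 : 0 < β := by linarith
  obtain ⟨δ0, hδ0, htr⟩ := trotter_one (torus L) s (nw * β)
    (1 / ((1 + (nw : ℝ)) * Real.sqrt (1 + nw))) (by positivity)
  obtain ⟨w0, hw0⟩ := exists_w0 hβ0 (lt_min hδ0 (by norm_num : (0 : ℝ) < 2))
  refine ⟨w0, fun w n hw hn k len j hj hlen v v' => ?_⟩
  obtain ⟨hw1, hn1, hδ⟩ := hw0 l w n hl hw hn
  have hn0 : (0 : ℝ) < n := by exact_mod_cast hn1
  have hδpos : 0 < β / n := by positivity
  have e : β / (4 * n) = β / n / 4 := by field_simp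
  rw [e, sweep_pow hL hδpos (hδ.trans (min_le_right _ _))]
  have hjnw : j ≤ nw := Nat.le_of_mul_le_mul_right (hj.trans hlen) hw1
  have hj0 : (0 : ℝ) ≤ j := Nat.cast_nonneg _
  have hjpos : 0 < (1 + (j : ℝ)) * Real.sqrt (1 + j) := by positivity
  rcases Nat.eq_zero_or_pos len with h0 | h0
  · have : j = 0 := by
      rw [h0] at hj
      rcases Nat.mul_eq_zero.1 (Nat.le_zero.1 hj) with h | h <;> omega
    rw [h0, this, pow_zero]
    have h1 := dstoch_one.le_one v v'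
    have h2 : 0 ≤ Ch * (32 * G) ^ 2 := by positivity
    simp only [psig, Nat.cast_zero, add_zero, Real.sqrt_one, mul_one, div_one]
    linarith
  have hl' : (1 : ℝ) ≤ l := by exact_mod_cast hl
  have hw' : (1 : ℝ) ≤ w := by exact_mod_cast hw1
  have hn' : (n : ℝ) = 16 * l * w := by rw [hn]; push_cast; ring
  have hlen' : (len : ℝ) ≤ nw * w := by exact_mod_cast hlen
  have hj' : (j : ℝ) * w ≤ len := by exact_mod_cast hj
  have ht : len * (β / n) ≤ nw * β := by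
    rw [← mul_div_assoc, div_le_iff₀ hn0, hn']
    have : (0 : ℝ) ≤ nw := Nat.cast_nonneg _
    calc (len : ℝ) * β ≤ nw * w * β := by gcongr
      _ = nw * β * (1 * w) := by ring
      _ ≤ nw * β * (16 * l * w) := by gcongr; linarith
  have h1 := htr (β / n) hδpos (hδ.trans (min_le_left _ _)) len h0 ht v v'
  have h2 := hheat L hL (len * (β / n)) (by positivity) (ht.trans hT) v.1 v'.1
  set t : ℝ := len * (β / n) with htdef
  have ht0 : 0 ≤ t := by positivity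
  have hjt : (j : ℝ) ≤ 32 * G * t := by
    rw [htdef, ← mul_div_assoc, ← mul_div_assoc, le_div_iff₀ hn0, hn']
    calc (j : ℝ) * (16 * l * w) = 16 * l * (j * w) := by ring
      _ ≤ 16 * (2 * G * β) * len := by gcongr
      _ = _ := by ring
  have hj1 : 1 + (j : ℝ) ≤ 32 * G * (1 + t) := by nlinarith
  have hsq : Real.sqrt (1 + j) ≤ 32 * G * Real.sqrt (1 + t) := by
    apply Real.sqrt_le_iff.2 ⟨by positivity, ?_⟩
    rw [mul_pow, Real.sq_sqrt (by linarith)]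
    have : 32 * G * (1 + t) ≤ (32 * G) ^ 2 * (1 + t) := by gcongr; nlinarith
    linarith
  have h3 : Ch / (1 + t) ^ (3 / 2 : ℝ) ≤ Ch * (32 * G) ^ 2 / ((1 + (j : ℝ)) * Real.sqrt (1 + j)) := by
    rw [rpow_three_half (by linarith), div_le_div_iff₀ (by positivity) hjpos]
    calc Ch * ((1 + (j : ℝ)) * Real.sqrt (1 + j))
        ≤ Ch * ((32 * G * (1 + t)) * (32 * G * Real.sqrt (1 + t))) := by gcongr
      _ = _ := by ring
  have h4 : 1 / ((1 + (nw : ℝ)) * Real.sqrt (1 + nw)) ≤ 1 / ((1 + (j : ℝ)) * Real.sqrt (1 + j)) := by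
    apply one_div_le_one_div_of_le hjpos
    have : (j : ℝ) ≤ nw := by exact_mod_cast hjnw
    gcongr
  have h5 : heat (torus L) s t v.1 v'.1 / s ≤ Ch / (1 + t) ^ (3 / 2 : ℝ) := by
    calc heat (torus L) s t v.1 v'.1 / s ≤ Ch / (1 + t) ^ (3 / 2 : ℝ) / s := by gcongr
      _ ≤ _ := div_le_self (by positivity) hs'
  have h6 := (abs_le.1 h1).2
  unfold psig
  rw [add_div]
  linarith

theorem dens_diag (s : ℕ) [NeZero s] {η1 : ℝ} (hη : 0 < η1) (k0 : ℕ) : ∃ β0 : ℝ, ∀ β : ℝ, β0 ≤ β →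
    ∃ L0 : ℕ, ∀ (L : ℕ) [NeZero L], L0 ≤ L → ∀ τ : ℝ, 0 < τ → ∃ w0 : ℕ, ∀ l w n : ℕ, 1 ≤ l →
    w0 ≤ w → n = 16 * l * w → ∀ j ∈ Icc 1 k0, ∀ a : XX L s,
    |kp (sweepGD L s (β / (4 * n))).Kfs 0 (j * n) a a -
      1 / (2 * Real.pi * s) ^ (3 / 2 : ℝ) / (j : ℝ) ^ (3 / 2 : ℝ) / β ^ (3 / 2 : ℝ) / s| ≤
      η1 / β ^ (3 / 2 : ℝ) + τ := by
  have hs : 1 ≤ s := Nat.one_le_iff_ne_zero.2 (NeZero.ne s)
  have hs' : (1 : ℝ) ≤ s := by exact_mod_cast hs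
  obtain ⟨t0, ht0⟩ := heat_diag s hs η1 hη
  refine ⟨max t0 1, fun β hβ => ?_⟩
  have hβ1 : 1 ≤ β := (le_max_right _ _).trans hβ
  have hβ0 : 0 < β := by linarith
  have hall : ∀ j : ℕ, ∃ L0 : ℕ, 1 ≤ j → ∀ (L : ℕ) [NeZero L], L0 ≤ L → ∀ x : TV L,
      |(j * β) ^ (3 / 2 : ℝ) * heat (torus L) s (j * β) x x -
        1 / (2 * Real.pi * s) ^ (3 / 2 : ℝ)| ≤ η1 := by
    intro j
    by_cases hj : 1 ≤ j
    · have hj' : (1 : ℝ) ≤ j := by exact_mod_cast hj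
      obtain ⟨L0, hL0⟩ := ht0 (j * β) (by nlinarith [le_max_left t0 1])
      exact ⟨L0, fun _ => hL0⟩
    · exact ⟨0, fun h => absurd h hj⟩
  choose L0 hL0 using hall
  refine ⟨max 3 ((Icc 1 k0).sup L0), fun L _ hL τ hτ => ?_⟩
  obtain ⟨δ0, hδ0, htr⟩ := trotter_one (torus L) s (k0 * β) τ hτ
  obtain ⟨w0, hw0⟩ := exists_w0 hβ0 (lt_min hδ0 (by norm_num : (0 : ℝ) < 2))
  refine ⟨w0, fun l w n hl hw hn j hj a => ?_⟩
  obtain ⟨hw1, hn1, hδ⟩ := hw0 l w n hl hw hn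
  have hn0 : (0 : ℝ) < n := by exact_mod_cast hn1
  have hδpos : 0 < β / n := by positivity
  have e : β / (4 * n) = β / n / 4 := by field_simp
  rw [e, sweep_pow ((le_max_left _ _).trans hL) hδpos (hδ.trans (min_le_right _ _))]
  obtain ⟨hj1, hjk⟩ := Finset.mem_Icc.1 hj
  have hj' : (1 : ℝ) ≤ j := by exact_mod_cast hj1
  have et : ((j * n : ℕ) : ℝ) * (β / n) = j * β := by push_cast; field_simp
  have h1 := htr (β / n) hδpos (hδ.trans (min_le_left _ _)) (j * n) (Nat.mul_pos hj1 hn1)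
    (by rw [et]; gcongr) a a
  rw [et] at h1
  have h2 := hL0 j hj1 L
    ((Finset.le_sup (f := L0) hj).trans ((le_max_right _ _).trans hL)) a.1
  rw [Real.mul_rpow (by positivity) hβ0.le] at h2
  have hJ : 1 ≤ (j : ℝ) ^ (3 / 2 : ℝ) := Real.one_le_rpow hj' (by norm_num)
  have hB : 0 < β ^ (3 / 2 : ℝ) := by positivity
  set H := heat (torus L) s (j * β) a.1 a.1
  set c1 := 1 / (2 * Real.pi * s) ^ (3 / 2 : ℝ)
  set J := (j : ℝ) ^ (3 / 2 : ℝ)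
  set B := β ^ (3 / 2 : ℝ)
  have h3 : |H / s - c1 / J / B / s| ≤ η1 / B := by
    have e2 : H / s - c1 / J / B / s = (J * B * H - c1) / (J * B * s) := by field_simp
    rw [e2, abs_div, abs_of_pos (by positivity : 0 < J * B * s)]
    calc |J * B * H - c1| / (J * B * s) ≤ η1 / (J * B * s) := by gcongr
      _ ≤ η1 / B := by
          apply div_le_div_of_nonneg_left hη.le hB
          calc B = 1 * B * 1 := by ring
            _ ≤ J * B * s := by gcongr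
  calc _ ≤ _ := abs_sub_le _ (H / s) _
    _ ≤ τ + η1 / B := add_le_add h1 h3
    _ = _ := add_comm _ _

end Vale.Agent.P361
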