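import Vale.Agent.P361.Peierls

namespace Vale.Agent.P361

open Matrix Finset

lemma final_lim {f : ℝ → ℝ} {m h0 : ℝ} (hf : Continuous f)
    (hm : HasDerivWithinAt f m (Set.Ioi 0) 0) {K : Set ℝ} (hK : IsClosed K) (hh : 0 < h0)
    (h : ∀ h1 h2 : ℝ, 0 < h1 → h1 < h2 → h2 ≤ h0 → (f h2 - f h1) / (h2 - h1) ∈ K) : m ∈ K := by
  have h1 : ∀ h2 : ℝ, 0 < h2 → h2 ≤ h0 → (f h2 - f 0) / (h2 - 0) ∈ K := by
    intro h2 hp hle
    have hc : ContinuousAt (fun t => (f h2 - f t) / (h2 - t)) 0 :=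
      ContinuousAt.div (by fun_prop) (by fun_prop) (by simpa using hp.ne')
    refine hK.mem_of_tendsto (hc.tendsto.mono_left (nhdsWithin_le_nhds (s := Set.Ioi 0))) ?_
    filter_upwards [Ioo_mem_nhdsGT hp] with t ht
    exact h t h2 ht.1 ht.2 hle
  have h2 := (hasDerivWithinAt_iff_tendsto_slope' (by simp)).1 hm
  refine hK.mem_of_tendsto h2 ?_
  filter_upwards [Ioo_mem_nhdsGT hh] with t ht
  rw [slope_def_field]
  exact h1 t ht.1 ht.2.le

theorem final_analysis (c S : ℝ) (p : ℝ → ℝ → ℝ) (hconv : ∀ β, 0 < β → ConvexOn ℝ Set.univ (p β))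
    (hsl : ∀ η : ℝ, 0 < η → ∃ β0 : ℝ, ∀ β, β0 ≤ β →
      (∀ h1 h2 : ℝ, 0 < h1 → h1 < h2 →
        S - (p β h2 - p β h1) / (h2 - h1) ≤ (c + η) / β ^ (3 / 2 : ℝ)) ∧
      ∃ h0 : ℝ, 0 < h0 ∧ ∀ h1 h2 : ℝ, 0 < h1 → h1 < h2 → h2 ≤ h0 →
        (c - η) / β ^ (3 / 2 : ℝ) ≤ S - (p β h2 - p β h1) / (h2 - h1)) :
    ∃ m : ℝ → ℝ, (∀ β, 0 < β → HasDerivWithinAt (p β) (m β) (Set.Ici 0) 0) ∧
      Filter.Tendsto (fun β => β ^ (3 / 2 : ℝ) * (S - m β)) Filter.atTop (nhds c) := by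
  have hder : ∀ β, 0 < β →
      HasDerivWithinAt (p β) (derivWithin (p β) (Set.Ioi 0) 0) (Set.Ioi 0) 0 := fun β hβ =>
    (hconv β hβ).hasDerivWithinAt_rightDeriv_of_mem_interior (by simp)
  have hcont : ∀ β, 0 < β → Continuous (p β) := fun β hβ =>
    continuousOn_univ.1 ((hconv β hβ).continuousOn isOpen_univ)
  refine ⟨fun β => derivWithin (p β) (Set.Ioi 0) 0, fun β hβ => (hder β hβ).Ici_of_Ioi, ?_⟩
  rw [Metric.tendsto_atTop]
  intro ε hε
  obtain ⟨β0, hβ0⟩ := hsl (ε / 2) (by positivity)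
  refine ⟨max β0 1, fun β hβ => ?_⟩
  have hb : 0 < β := lt_of_lt_of_le one_pos ((le_max_right _ _).trans hβ)
  obtain ⟨hup, h0, hh0, hlo⟩ := hβ0 β ((le_max_left _ _).trans hβ)
  have hpow : 0 < β ^ (3 / 2 : ℝ) := Real.rpow_pos_of_pos hb _
  have e1 := final_lim (hcont β hb) (hder β hb)
    (K := {t | S - t ≤ (c + ε / 2) / β ^ (3 / 2 : ℝ)})
    (isClosed_le (by fun_prop) (by fun_prop)) hh0 fun h1 h2 a b _ => hup h1 h2 a b
  have e2 := final_lim (hcont β hb) (hder β hb)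
    (K := {t | (c - ε / 2) / β ^ (3 / 2 : ℝ) ≤ S - t})
    (isClosed_le (by fun_prop) (by fun_prop)) hh0 hlo
  simp only [Set.mem_ofPred_eq] at e1 e2
  rw [le_div_iff₀ hpow] at e1
  rw [div_le_iff₀ hpow] at e2
  rw [Real.dist_eq, abs_lt]
  constructor <;> nlinarith

theorem zeta_partial (s : ℕ) (hs : 1 ≤ s) :
    Filter.Tendsto
      (fun k0 : ℕ => ∑ j ∈ Icc 1 k0, 1 / (2 * Real.pi * s) ^ (3 / 2 : ℝ) / (j : ℝ) ^ (3 / 2 : ℝ))
      Filter.atTop (nhds (blochC s)) := by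
  have hsum : Summable fun n : ℕ => 1 / (n : ℝ) ^ (3 / 2 : ℝ) :=
    Real.summable_one_div_nat_rpow.2 (by norm_num)
  have hz : (riemannZeta (3 / 2)).re = ∑' n : ℕ, 1 / (n : ℝ) ^ (3 / 2 : ℝ) := by
    rw [zeta_eq_tsum_one_div_nat_cpow (by norm_num)]
    have e : ∀ n : ℕ, 1 / (n : ℂ) ^ (3 / 2 : ℂ) = ((1 / (n : ℝ) ^ (3 / 2 : ℝ) : ℝ) : ℂ) := by
      intro n
      rw [Complex.ofReal_div, Complex.ofReal_cpow (Nat.cast_nonneg n)]
      push_cast
      rfl
    simp only [e]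
    rw [← Complex.ofReal_tsum, Complex.ofReal_re]
  have hc : (2 * Real.pi * s) ^ (3 / 2 : ℝ) =
      8 * Real.pi ^ (3 / 2 : ℝ) * ((s : ℝ) / 2) ^ (3 / 2 : ℝ) := by
    have h8 : (8 : ℝ) = 4 ^ (3 / 2 : ℝ) := by
      rw [show (4 : ℝ) = 2 ^ (2 : ℝ) by norm_num, ← Real.rpow_mul (by norm_num)]
      norm_num
    rw [h8, ← Real.mul_rpow (by norm_num) Real.pi_pos.le,
      ← Real.mul_rpow (by positivity) (by positivity)]
    congr 1
    ring
  have ht := (hsum.hasSum.tendsto_sum_nat.comp (Filter.tendsto_add_atTop_nat 1)).const_mul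
    (1 / (2 * Real.pi * s) ^ (3 / 2 : ℝ))
  have e1 : blochC s = 1 / (2 * Real.pi * s) ^ (3 / 2 : ℝ) * ∑' n : ℕ, 1 / (n : ℝ) ^ (3 / 2 : ℝ) := by
    rw [blochC, hz, hc]
    ring
  rw [e1]
  refine ht.congr fun k => ?_
  simp only [Function.comp]
  rw [Finset.range_eq_Ico, Finset.sum_eq_sum_Ico_succ_bot (Nat.succ_pos k),
    ← Finset.Ico_add_one_right_eq_Icc, Nat.cast_zero, Real.zero_rpow (by norm_num), div_zero,
    zero_add, Finset.mul_sum]
  exact Finset.sum_congr rfl fun j _ => by ring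

lemma final_sq (s : ℕ) (j : Fin (s + 1)) :
    ((Real.sqrt ((j : ℝ) * ((s : ℝ) + 1 - (j : ℝ))) : ℝ) : ℂ) *
      ((Real.sqrt ((j : ℝ) * ((s : ℝ) + 1 - (j : ℝ))) : ℝ) : ℂ) =
      ((j : ℕ) : ℂ) * ((s : ℂ) + 1 - ((j : ℕ) : ℂ)) := by
  have hj : ((j : ℕ) : ℝ) ≤ (s : ℝ) + 1 := by exact_mod_cast j.2.le
  rw [← Complex.ofReal_mul, Real.mul_self_sqrt (mul_nonneg (Nat.cast_nonneg _) (by linarith))]
  push_cast
  rfl

lemma final_PQ (s : ℕ) : spinPlus s * (spinPlus s)ᴴ =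
    Matrix.diagonal fun i : Fin (s + 1) => (((i : ℕ) : ℂ) + 1) * ((s : ℂ) - ((i : ℕ) : ℂ)) := by
  ext i k
  simp only [Matrix.mul_apply, conjTranspose_apply, spinPlus, of_apply, apply_ite star, star_zero,
    Complex.star_def, Complex.conj_ofReal]
  by_cases hik : i = k
  · subst hik
    rw [Matrix.diagonal_apply_eq]
    by_cases hi : (i : ℕ) < s
    · rw [Finset.sum_eq_single (⟨i + 1, by omega⟩ : Fin (s + 1))]
      · rw [if_pos rfl, final_sq]
        push_cast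
        ring
      · intro j _ hj
        rw [if_neg (fun h => hj (Fin.ext h)), zero_mul]
      · simp
    · have e : (i : ℕ) = s := by have := i.2; omega
      rw [e, sub_self, mul_zero]
      refine Finset.sum_eq_zero fun j _ => ?_
      rw [if_neg (by have := j.2; omega), zero_mul]
  · rw [Matrix.diagonal_apply_ne _ hik]
    refine Finset.sum_eq_zero fun j _ => ?_
    by_cases h1 : (j : ℕ) = i + 1
    · rw [if_neg (fun h2 : (j : ℕ) = k + 1 => hik (Fin.ext (by omega))), mul_zero]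
    · rw [if_neg h1, zero_mul]

lemma final_QP (s : ℕ) : (spinPlus s)ᴴ * spinPlus s =
    Matrix.diagonal fun i : Fin (s + 1) => ((i : ℕ) : ℂ) * ((s : ℂ) + 1 - ((i : ℕ) : ℂ)) := by
  ext i k
  simp only [Matrix.mul_apply, conjTranspose_apply, spinPlus, of_apply, apply_ite star, star_zero,
    Complex.star_def, Complex.conj_ofReal]
  by_cases hik : i = k
  · subst hik
    rw [Matrix.diagonal_apply_eq]
    by_cases hi : 0 < (i : ℕ)
    · rw [Finset.sum_eq_single (⟨i - 1, by omega⟩ : Fin (s + 1))]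
      · rw [if_pos (by simp only; omega), final_sq]
      · intro j _ hj
        rw [if_neg (fun h => hj (Fin.ext (by simp only; omega))), zero_mul]
      · simp
    · have e : (i : ℕ) = 0 := by omega
      rw [Finset.sum_eq_zero fun j _ => by rw [if_neg (by omega), zero_mul], e, Nat.cast_zero,
        zero_mul]
  · rw [Matrix.diagonal_apply_ne _ hik]
    refine Finset.sum_eq_zero fun j _ => ?_
    by_cases h1 : (i : ℕ) = j + 1
    · rw [if_neg (fun h2 : (k : ℕ) = j + 1 => hik (Fin.ext (by omega))), mul_zero]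
    · rw [if_neg h1, zero_mul]

lemma final_ZP (s : ℕ) : spin s 2 * spinPlus s = spinPlus s * spin s 2 + spinPlus s := by
  have e2 : spin s 2 = Matrix.diagonal fun i : Fin (s + 1) => (s : ℂ) / 2 - ((i : ℕ) : ℂ) := rfl
  ext i k
  simp only [e2, Matrix.diagonal_mul, Matrix.mul_diagonal, Matrix.add_apply, spinPlus, of_apply]
  split_ifs with h
  · rw [h]
    push_cast
    ring
  · simp

lemma final_QZ (s : ℕ) : (spinPlus s)ᴴ * spin s 2 = spin s 2 * (spinPlus s)ᴴ + (spinPlus s)ᴴ := by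
  have := congrArg conjTranspose (final_ZP s)
  rwa [conjTranspose_add, conjTranspose_mul, conjTranspose_mul, pei_spin] at this

theorem spin_rel (s : ℕ) :
    (∀ a, (spin s a).IsHermitian) ∧
    spin s 0 * spin s 1 - spin s 1 * spin s 0 = Complex.I • spin s 2 ∧
    spin s 1 * spin s 2 - spin s 2 * spin s 1 = Complex.I • spin s 0 ∧
    spin s 2 * spin s 0 - spin s 0 * spin s 2 = Complex.I • spin s 1 ∧
    ∑ a, spin s a * spin s a = ((s : ℂ) / 2 * ((s : ℂ) / 2 + 1)) • (1 : Matrix _ _ ℂ) := by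
  have e0 : spin s 0 = (1 / 2 : ℂ) • (spinPlus s + (spinPlus s)ᴴ) := rfl
  have hI : (1 / (2 * Complex.I) : ℂ) = -(Complex.I / 2) := by
    rw [div_eq_iff (by simp)]
    linear_combination Complex.I_mul_I
  have e1 : spin s 1 = (-(Complex.I / 2)) • (spinPlus s - (spinPlus s)ᴴ) := by
    rw [← hI]; rfl
  have e2 : spin s 2 = Matrix.diagonal fun i : Fin (s + 1) => (s : ℂ) / 2 - ((i : ℕ) : ℂ) := rfl
  have hc : spinPlus s * (spinPlus s)ᴴ = (spinPlus s)ᴴ * spinPlus s + (2 : ℂ) • spin s 2 := by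
    rw [final_PQ, final_QP, e2, ← Matrix.diagonal_smul, Matrix.diagonal_add]
    congr 1
    funext i
    simp only [Pi.smul_apply, smul_eq_mul]
    ring
  have hcas : (spinPlus s)ᴴ * spinPlus s + spin s 2 + spin s 2 * spin s 2 =
      ((s : ℂ) / 2 * ((s : ℂ) / 2 + 1)) • (1 : Matrix _ _ ℂ) := by
    rw [final_QP, e2, Matrix.diagonal_mul_diagonal, Matrix.diagonal_add, Matrix.diagonal_add,
      Matrix.smul_one_eq_diagonal]
    congr 1
    funext i
    ring
  have h1 := final_ZP s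
  have h2 := final_QZ s
  refine ⟨pei_spin s, ?_, ?_, ?_, ?_⟩
  · rw [e0, e1]
    simp only [Matrix.smul_mul, Matrix.mul_smul, Matrix.add_mul, Matrix.mul_add, Matrix.sub_mul,
      Matrix.mul_sub, hc]
    module
  · rw [e0, e1]
    simp only [Matrix.smul_mul, Matrix.mul_smul, Matrix.sub_mul, Matrix.mul_sub, h1, h2]
    module
  · rw [e0, e1]
    simp only [Matrix.smul_mul, Matrix.mul_smul, Matrix.add_mul, Matrix.mul_add, h1, h2, smul_smul]
    rw [show Complex.I * -(Complex.I / 2) = 1 / 2 by linear_combination (-1 / 2) * Complex.I_mul_I]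
    module
  · rw [Fin.sum_univ_three, ← hcas, e0, e1]
    simp only [Matrix.smul_mul, Matrix.mul_smul, smul_smul]
    rw [show -(Complex.I / 2) * -(Complex.I / 2) = -(1 / 4) by
      linear_combination (1 / 4) * Complex.I_mul_I]
    simp only [Matrix.add_mul, Matrix.mul_add, Matrix.sub_mul, Matrix.mul_sub, hc]
    module

end Vale.Agent.P361
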