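import Vale.Agent.P361.Basic

namespace Vale.Agent.P361

open Matrix Finset

lemma lower_sum_dvd {n : ℕ} (hn : 1 ≤ n) (k0 : ℕ) (f : ℕ → ℝ) :
    ∑ k ∈ Icc 1 (k0 * n), (if n ∣ k then f k else 0) = ∑ j ∈ Icc 1 k0, f (j * n) := by
  rw [← Finset.sum_filter]
  symm
  refine Finset.sum_bij (fun j _ => j * n) ?_ ?_ ?_ (fun _ _ => rfl)
  · intro j hj
    rw [Finset.mem_Icc] at hj
    rw [Finset.mem_filter, Finset.mem_Icc]
    exact ⟨⟨Nat.mul_pos hj.1 hn, Nat.mul_le_mul_right n hj.2⟩, Dvd.intro_left j rfl⟩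
  · intro i _ j _ h
    exact Nat.eq_of_mul_eq_mul_right hn h
  · intro k hk
    rw [Finset.mem_filter, Finset.mem_Icc] at hk
    obtain ⟨⟨h1, h2⟩, j, rfl⟩ := hk
    refine ⟨j, Finset.mem_Icc.2 ⟨?_, ?_⟩, mul_comm _ _⟩
    · exact Nat.pos_of_ne_zero fun h => by simp [h] at h1
    · rw [mul_comm] at h2
      exact Nat.le_of_mul_le_mul_right h2 hn

lemma lower_row_anti {Y : Type} [Fintype Y] [DecidableEq Y] {Kb Kf : ℕ → Matrix Y Y ℝ}
    (hKb0 : ∀ k v w, 0 ≤ Kb k v w) (hKf : ∀ k v w, Kb k v w ≤ Kf k v w) (hf : ∀ k, DStoch (Kf k))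
    (a : Y) {T N : ℕ} (h : T ≤ N) : ∑ v, kp Kb 0 N a v ≤ ∑ v, kp Kb 0 T a v := by
  obtain ⟨i, rfl⟩ := Nat.exists_eq_add_of_le h
  rw [kp_add]
  simp only [Matrix.mul_apply]
  rw [Finset.sum_comm]
  refine Finset.sum_le_sum fun x _ => ?_
  rw [← Finset.mul_sum]
  refine mul_le_of_le_one_right (kp_nonneg hKb0 _ _ _ _) ?_
  rw [← (kp_dstoch hf (0 + T) i).2.1 x]
  exact Finset.sum_le_sum fun v _ => kp_mono hKb0 hKf _ _ _ _

lemma lower_diff {Y : Type} [Fintype Y] [DecidableEq Y] {Kb Kf : ℕ → Matrix Y Y ℝ}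
    (hKb0 : ∀ k v w, 0 ≤ Kb k v w) (hKf : ∀ k v w, Kb k v w ≤ Kf k v w) (hf : ∀ k, DStoch (Kf k))
    (a : Y) {T t : ℕ} {σ : ℝ} (h1 : ∀ v, kp Kf 0 T a v ≤ σ) (h2 : ∀ v, kp Kf T t v a ≤ σ) :
    kp Kf 0 (T + t) a a - σ * ((1 - ∑ v, kp Kb 0 T a v) + (1 - ∑ v, kp Kb T t v a)) ≤
      kp Kb 0 (T + t) a a := by
  rw [kp_add, kp_add, zero_add, Matrix.mul_apply, Matrix.mul_apply,
    ← (kp_dstoch hf 0 T).2.1 a]
  nth_rewrite 2 [(kp_dstoch hf 0 T).2.1 a]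
  rw [← (kp_dstoch hf T t).2.2 a, ← Finset.sum_sub_distrib, ← Finset.sum_sub_distrib,
    ← Finset.sum_add_distrib, Finset.mul_sum, ← Finset.sum_sub_distrib]
  refine Finset.sum_le_sum fun v _ => ?_
  have e1 := kp_mono hKb0 hKf 0 T a v
  have e2 := kp_mono hKb0 hKf T t v a
  nlinarith [mul_le_mul_of_nonneg_left (h2 v) (sub_nonneg.2 e1),
    mul_le_mul_of_nonneg_left (e1.trans (h1 v)) (sub_nonneg.2 e2)]

theorem lower_det {Y : Type} [Fintype Y] [DecidableEq Y] (K Kb Kf : ℕ → Matrix Y Y ℝ)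
    (h : ℕ → Y → ℝ) (a : Y) {n k0 t : ℕ} {ξ σ r : ℝ} (hn : 1 ≤ n) (ht : t ≤ n)
    (hKb0 : ∀ k v w, 0 ≤ Kb k v w) (hKb : ∀ k v w, Kb k v w ≤ K k v w)
    (hKf : ∀ k v w, Kb k v w ≤ Kf k v w) (hf : ∀ k, DStoch (Kf k)) (hξ0 : 0 ≤ ξ) (hξ1 : ξ ≤ 1)
    (hh0 : ∀ k v, 0 ≤ h k v)
    (hh : ∀ k v, 1 ≤ k → h k v = (if n ∣ k ∧ v = a then 1 else 0) +
      (if n ∣ k ∧ v = a then 0 else ξ) * (K k *ᵥ h (k + 1)) v)
    (hr : ∀ j, (K (j * n) *ᵥ h (j * n + 1)) a = r)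
    (hσ1 : ∀ j v, 1 ≤ j → j ≤ k0 → kp Kf 0 (j * n - t) a v ≤ σ)
    (hσ2 : ∀ j v, 1 ≤ j → j ≤ k0 → kp Kf (j * n - t) t v a ≤ σ) :
    ξ ^ (k0 * n) * ∑ j ∈ Icc 1 k0, (kp Kf 0 (j * n) a a -
        σ * ((1 - ∑ v, kp Kb 0 (k0 * n) a v) + (1 - ∑ v, kp Kb (j * n - t) t v a))) ≤
      r * (1 + ∑ j ∈ Icc 1 k0, kp Kf 0 (j * n) a a) := by
  have hP : ∀ k v, 0 ≤ kp Kb 0 k a v := fun k v => kp_nonneg hKb0 _ _ _ _
  have hKK : ∀ k v, (Kb k *ᵥ h (k + 1)) v ≤ (K k *ᵥ h (k + 1)) v := fun k v =>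
    Finset.sum_le_sum fun w _ => mul_le_mul_of_nonneg_right (hKb k v w) (hh0 _ w)
  set A : ℕ → ℝ := fun k => ξ ^ k * (kp Kb 0 (k + 1) *ᵥ h (k + 1)) a with hA
  have hA0 : ∀ k, 0 ≤ A k := fun k => mul_nonneg (pow_nonneg hξ0 k)
    (Finset.sum_nonneg fun v _ => mul_nonneg (hP _ v) (hh0 _ v))
  have hr0 : A 0 ≤ r := by
    rw [← hr 0, hA]
    simp only [pow_zero, one_mul, zero_add, kp_one, zero_mul]
    exact hKK 0 a
  have hrn : 0 ≤ r := (hA0 0).trans hr0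
  have hstep : ∀ k, (if n ∣ k + 1 then ξ ^ (k + 1 - 1) * kp Kb 0 (k + 1) a a * (1 - ξ * r) else 0) +
      A (k + 1) ≤ A k := by
    intro k
    have h1 : (kp Kb 0 (k + 1 + 1) *ᵥ h (k + 1 + 1)) a ≤
        ∑ v, kp Kb 0 (k + 1) a v * (K (k + 1) *ᵥ h (k + 1 + 1)) v := by
      rw [kp_succ _ _ (k + 1), zero_add, ← Matrix.mulVec_mulVec]
      exact Finset.sum_le_sum fun v _ => mul_le_mul_of_nonneg_left (hKK _ v) (hP _ v)
    have h2 : (kp Kb 0 (k + 1) *ᵥ h (k + 1)) a =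
        (if n ∣ k + 1 then kp Kb 0 (k + 1) a a * (1 - ξ * r) else 0) +
          ξ * ∑ v, kp Kb 0 (k + 1) a v * (K (k + 1) *ᵥ h (k + 1 + 1)) v := by
      have h3 : ∀ v, kp Kb 0 (k + 1) a v * h (k + 1) v =
          (if v = a then (if n ∣ k + 1 then kp Kb 0 (k + 1) a a * (1 - ξ * r) else 0) else 0) +
            ξ * (kp Kb 0 (k + 1) a v * (K (k + 1) *ᵥ h (k + 1 + 1)) v) := by
        intro v
        rw [hh (k + 1) v (by omega)]
        by_cases hd : n ∣ k + 1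
        · by_cases hv : v = a
          · subst hv
            obtain ⟨j, hj⟩ := hd
            have h4 := hr j
            rw [mul_comm j n, ← hj] at h4
            have hd' : n ∣ k + 1 := ⟨j, hj⟩
            simp only [hd', and_self, if_true, h4]
            ring
          · simp only [hv, and_false, if_false]
            ring
        · simp only [hd, false_and, if_false, ite_self]
          ring
      rw [Finset.mul_sum, Matrix.mulVec, dotProduct]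
      simp only [h3, Finset.sum_add_distrib, Finset.sum_ite_eq', Finset.mem_univ, if_true]
    simp only [hA]
    rw [h2, Nat.add_sub_cancel, mul_add, pow_succ]
    have h5 := mul_le_mul_of_nonneg_left h1 (mul_nonneg (pow_nonneg hξ0 k) hξ0)
    refine add_le_add (le_of_eq ?_) (by linarith)
    split_ifs
    · ring
    · ring
  have htel : ∀ m, ∑ k ∈ Icc 1 m,
      (if n ∣ k then ξ ^ (k - 1) * kp Kb 0 k a a * (1 - ξ * r) else 0) + A m ≤ r := by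
    intro m
    induction m with
    | zero => simpa using hr0
    | succ m ih =>
      rw [Finset.sum_Icc_succ_top (by omega)]
      linarith [hstep m]
  have h1 := htel (k0 * n)
  rw [lower_sum_dvd hn k0 fun k => ξ ^ (k - 1) * kp Kb 0 k a a * (1 - ξ * r)] at h1
  have h2 : ∀ j ∈ Icc 1 k0, ξ ^ (k0 * n) * (kp Kf 0 (j * n) a a -
        σ * ((1 - ∑ v, kp Kb 0 (k0 * n) a v) + (1 - ∑ v, kp Kb (j * n - t) t v a))) -
        r * kp Kf 0 (j * n) a a ≤ ξ ^ (j * n - 1) * kp Kb 0 (j * n) a a * (1 - ξ * r) := by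
    intro j hj
    rw [Finset.mem_Icc] at hj
    have hjn : n ≤ j * n := Nat.le_mul_of_pos_left n hj.1
    have hjk : j * n ≤ k0 * n := Nat.mul_le_mul_right n hj.2
    have h3 := lower_diff hKb0 hKf hf a (fun v => hσ1 j v hj.1 hj.2) (fun v => hσ2 j v hj.1 hj.2)
    rw [Nat.sub_add_cancel (ht.trans hjn)] at h3
    have hσ : 0 ≤ σ := ((kp_dstoch hf _ _).1 a a).trans (hσ1 j a hj.1 hj.2)
    have h4 := lower_row_anti hKb0 hKf hf a (T := j * n - t) (N := k0 * n) (by omega)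
    have h5 : kp Kf 0 (j * n) a a -
        σ * ((1 - ∑ v, kp Kb 0 (k0 * n) a v) + (1 - ∑ v, kp Kb (j * n - t) t v a)) ≤
        kp Kb 0 (j * n) a a := by nlinarith
    have h6 : ξ ^ (k0 * n) ≤ ξ ^ (j * n - 1) := pow_le_pow_of_le_one hξ0 hξ1 (by omega)
    have h7 := mul_le_mul_of_nonneg_left h5 (pow_nonneg hξ0 (k0 * n))
    have h8 := mul_le_mul_of_nonneg_right h6 (hP (j * n) a)
    have h9 : ξ ^ (j * n - 1) * ξ ≤ 1 := by
      rw [← pow_succ]; exact pow_le_one₀ hξ0 hξ1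
    have h10 := kp_mono hKb0 hKf 0 (j * n) a a
    have h11 : ξ ^ (j * n - 1) * ξ * kp Kb 0 (j * n) a a ≤ kp Kf 0 (j * n) a a :=
      (mul_le_of_le_one_left (hP _ a) h9).trans h10
    nlinarith [mul_le_mul_of_nonneg_left h11 hrn]
  have h3 := Finset.sum_le_sum h2
  rw [Finset.sum_sub_distrib, ← Finset.mul_sum, ← Finset.mul_sum] at h3
  linarith [hA0 (k0 * n)]

end Vale.Agent.P361
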