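import Vale.Agent.P361.UpA
import Vale.Agent.P361.Lower

namespace Vale.Agent.P361

open Matrix Finset

theorem lower_sharp {L s : ℕ} [NeZero L] {g : GD (XX L s)} {n u l w nw K R r Kc k0 : ℕ} [NeZero n]
    [NeZero (n * g.M)] {ζ ξ ε1 ε2 q : ℝ} {σ : ℕ → ℝ}
    (hP : Par g n u l w nw K R r Kc k0 ζ ξ ε1 ε2 q σ) (k : ZMod n) (a : XX L s) :
    (ζ ^ g.M) ^ (k0 * n + 1) * ∑ j ∈ Icc 1 k0, (kp g.Kfs 0 (j * n) a a -
        2 * σ (7 * l) * Real.sqrt (lostB s nw K (2 * s * ε2) σ)) ≤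
      ζ * g.rB n ζ ∅ k {a} a * (1 + ∑ j ∈ Icc 1 k0, kp g.Kfs 0 (j * n) a a) := by
  obtain ⟨hu, -, hN⟩ := hP.up_nat
  have hn := hP.hn
  have e2 : 7 * l * w = 7 * u := by rw [hP.hu]; ring
  have hx0 := pow_nonneg hP.hζ0 g.M
  rw [hP.up_rB, ← mul_assoc, ← pow_succ', Nat.sub_add_cancel hP.ok.M_pos, pow_succ',
    mul_assoc (ζ ^ g.M) (_ ^ _), mul_assoc (ζ ^ g.M) (Ex _ _)]
  refine mul_le_mul_of_nonneg_left ?_ hx0
  obtain ⟨P', hP'⟩ : ∃ P', P' = (∅ : Finset (ZMod n × XX L s)) ∪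
    ({a} : Finset (XX L s)).image fun x => (k, x) := ⟨_, rfl⟩
  rw [← hP', ← Ex_mul_const]
  have hT := hP.up_fwd P' k
  have hw := (hT.sl 0).wt_nonneg
  have hw1 := (hT.sl 0).wt_sum
  set T := g.fwd n (dP n g.M ζ P') k with hT'
  have hjn : ∀ j, 1 ≤ j → j ≤ k0 → n ≤ j * n ∧ j * n ≤ k0 * n := fun j h1 h2 =>
    ⟨Nat.le_mul_of_pos_left _ h1, Nat.mul_le_mul_right _ h2⟩
  refine le_trans ?_ (Ex_mono hw (f := fun o => (ζ ^ g.M) ^ (k0 * n) * ∑ j ∈ Icc 1 k0,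
    (kp g.Kfs 0 (j * n) a a - σ (7 * l) * (T.g.lost (T.om o) (T.U o) a (k0 * n) +
      T.g.cdef (T.om o) (T.U o) (j * n - 7 * u) (7 * u) a))) fun o ho => ?_)
  · rw [Ex_const_mul, Ex_sum]
    refine mul_le_mul_of_nonneg_left (sum_le_sum fun j hj => ?_) (pow_nonneg hx0 _)
    obtain ⟨j1, j2⟩ := hjn j (mem_Icc.1 hj).1 (mem_Icc.1 hj).2
    rw [Ex_sub, Ex_const hw1, Ex_const_mul, Ex_add]
    have h1 := (Ex_le_sqrt hw hw1 _).trans (Real.sqrt_le_sqrt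
      (ex_lost_sq hT hP.hp hP.hσ hP.free K a (N := k0 * n) (by omega)))
    have h2 := hP.up_cdef P' k a (T := j * n - 7 * u) (t := 7 * u) (j := j) (by omega) (by omega)
    have h3 := mul_le_mul_of_nonneg_left (add_le_add h1 h2) (hP.hσ (7 * l))
    linarith
  · refine lower_det (T.g.Ks (T.om o) (T.U o)) (T.g.Kbs (T.om o) (T.U o)) g.Kfs
      (fun j => upH g n ζ P' k {a} o (k + j)) a (by omega) (by omega) (hP.ok.Kbs_nonneg _ _)
      (hP.ok.Kbs_le_Ks _ _) (hP.ok.Kbs_le_Kfs _ _) hP.ok.Kfs_dstoch hx0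
      (pow_le_one₀ hP.hζ0 hP.hζ1.le) (fun j v => hP.up_H_nonneg P' k _ o _ v) (fun j v _ => ?_)
      (fun j => ?_) (fun j v h1 h2 => ?_) (fun j v h1 h2 => ?_)
    · have h1 : k + j = k ↔ n ∣ j := by rw [add_eq_left, ZMod.natCast_eq_zero_iff]
      have h2 : (k + j, v) ∈ P' ↔ n ∣ j ∧ v = a := by simp [hP', ← h1]
      have h3 := hit_sweep hP.ok hP.hζ0 hP.hζ1 P' k {a} o (k + j) v
      simp only [h1, h2, mem_singleton] at h3
      rw [Ks_fwd hP.ok, Nat.cast_succ, ← add_assoc]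
      exact h3
    · rw [Ks_fwd hP.ok]
      simp
    · obtain ⟨j1, j2⟩ := hjn j h1 h2
      exact hP.free _ _ _ (by omega) (by omega) _ _
    · exact hP.free _ _ _ (by omega) (by omega) _ _

end Vale.Agent.P361
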