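import Vale.Agent.P361.Psi

namespace Vale.Agent.P361

open Matrix Finset

section Aux

variable {L s : ℕ} [NeZero L] {g : GD (XX L s)}

lemma lost_row_Kb (hg : g.Ok) (om : ℕ → Bool) (U : ℕ → Finset (XX L s)) (t len : ℕ)
    (a : XX L s) : ∑ v, kp (g.Kb om U) t len a v ≤ 1 := by
  rw [← (kp_dstoch (hg.Kt_dstoch om U) t len).2.1 a]
  exact Finset.sum_le_sum fun v _ =>
    kp_mono (hg.Kb_nonneg om U) (fun _ _ _ => min_le_left _ _) t len a v

lemma lost_row_Kbs (hg : g.Ok) (om : ℕ → Bool) (U : ℕ → Finset (XX L s)) (t len : ℕ)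
    (a : XX L s) : ∑ v, kp (g.Kbs om U) t len a v ≤ 1 := by
  rw [← (kp_dstoch (hg.Ks_dstoch om U) t len).2.1 a]
  exact Finset.sum_le_sum fun v _ =>
    kp_mono (hg.Kbs_nonneg om U) (hg.Kbs_le_Ks om U) t len a v

lemma lost_add (g : GD (XX L s)) (om : ℕ → Bool) (U : ℕ → Finset (XX L s)) (a : XX L s)
    (N i : ℕ) : g.lost om U a (N + i) = g.lost om U a N +
      ∑ v, kp (g.Kbs om U) 0 N a v * (1 - ∑ x, kp (g.Kbs om U) N i v x) := by
  unfold GD.lost
  rw [kp_add, zero_add]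
  simp only [Matrix.mul_apply, mul_sub, mul_one, Finset.sum_sub_distrib, Finset.mul_sum]
  rw [Finset.sum_comm]
  ring

lemma lost_mono (hg : g.Ok) (om : ℕ → Bool) (U : ℕ → Finset (XX L s)) (a : XX L s)
    {N N' : ℕ} (h : N ≤ N') : g.lost om U a N ≤ g.lost om U a N' := by
  obtain ⟨i, rfl⟩ := Nat.exists_eq_add_of_le h
  rw [lost_add]
  refine le_add_of_nonneg_right (Finset.sum_nonneg fun v _ => mul_nonneg
    (kp_nonneg (hg.Kbs_nonneg om U) _ _ _ _) ?_)
  linarith [lost_row_Kbs hg om U N i v]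

lemma lost_tele (hg : g.Ok) (om : ℕ → Bool) (U : ℕ → Finset (XX L s)) (a : XX L s)
    (w nw : ℕ) : g.lost om U a (nw * w) ≤ ∑ j ∈ range nw, ∑ v, kp g.Kfs 0 (j * w) a v *
      (1 - ∑ x, kp (g.Kb om U) (j * w * g.M) (w * g.M) v x) := by
  induction nw with
  | zero => simp [GD.lost, Matrix.one_apply]
  | succ j ih =>
    rw [Nat.succ_mul, lost_add, Finset.sum_range_succ]
    refine add_le_add ih (Finset.sum_le_sum fun v _ => ?_)
    have e : kp (g.Kbs om U) (j * w) w = kp (g.Kb om U) (j * w * g.M) (w * g.M) :=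
      kp_kp (g.Kb om U) g.M (j * w) w
    rw [e]
    refine mul_le_mul_of_nonneg_right
      (kp_mono (hg.Kbs_nonneg om U) (hg.Kbs_le_Kfs om U) _ _ _ _) ?_
    linarith [lost_row_Kb hg om U (j * w * g.M) (w * g.M) v]

omit [NeZero L] in
lemma lost_row_eq (hg : g.Ok) {om : ℕ → Bool} {U : ℕ → Finset (XX L s)} {t K : ℕ} {y0 : TV L}
    (hfree : ∀ x ∈ U t, x.1 ∉ tball y0 (K + 1)) {z : XX L s} (hz : z.1 ∈ tball y0 K)
    (x : XX L s) : g.Kb om U t z x = g.Kf t z x := by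
  have : g.Kt om U t z x = g.Kf t z x := by
    by_cases h : Equiv.swap (g.ga t) (g.gb t) z = z
    · simp only [GD.Kt, GD.Kf, lz, Matrix.of_apply, h]
      ring
    · have ht : z = g.ga t ∨ z = g.gb t := by
        by_contra hc
        push Not at hc
        exact h (Equiv.swap_apply_of_ne_of_ne hc.1 hc.2)
      have hab : (g.gb t).1 ∈ tball (g.ga t).1 1 := by
        by_cases hab : (g.ga t).1 = (g.gb t).1
        · rw [hab]; exact self_mem_tball _ _
        · exact mem_tball_of_adj (psi_inter hg hab).1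
      have hq : g.qt om U t = g.gp t := by
        unfold GD.qt
        rw [if_pos]
        rcases ht with e | e
        · rw [e] at hz
          exact ⟨fun hc => hfree _ hc (tball_mono y0 (by omega) hz),
            fun hc => hfree _ hc (mem_tball_trans hz hab le_rfl)⟩
        · rw [e] at hz
          exact ⟨fun hc => hfree _ hc (mem_tball_trans hz (mem_tball_symm hab) le_rfl),
            fun hc => hfree _ hc (tball_mono y0 (by omega) hz)⟩
      simp only [GD.Kt, GD.Kf, hq]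
  simp only [GD.Kb, Matrix.of_apply, this, min_self]

omit [NeZero L] in
lemma lost_pi_nonneg (hg : g.Ok) (om : ℕ → Bool) (t : ℕ) : 0 ≤ g.gp t + bit (om t) :=
  add_nonneg (hg.gp_nonneg t) (bit_nonneg _)

lemma lost_back (hg : g.Ok) {om : ℕ → Bool} {U : ℕ → Finset (XX L s)} {K : ℕ} {y0 : TV L}
    (len t : ℕ) (hfree : ∀ τ, t ≤ τ → τ < t + len → ∀ x ∈ U τ, x.1 ∉ tball y0 (K + 1))
    (z : XX L s) : 1 - ∑ x, kp (g.Kb om U) t len z x ≤
      g.psi (fun t => g.gp t + bit (om t)) (fun y => if y ∈ tball y0 (0 + K) then 0 else 1)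
        len t z.1 := by
  have hπ := lost_pi_nonneg hg om
  have hf : ∀ y : TV L, (0 : ℝ) ≤ if y ∈ tball y0 (0 + K) then 0 else 1 := fun y => by
    split_ifs <;> norm_num
  induction len generalizing t z with
  | zero =>
    refine le_trans (le_of_eq ?_) (psi_nonneg hπ hf 0 t z.1)
    simp [Matrix.one_apply]
  | succ len ih =>
    by_cases hz : z.1 ∈ tball y0 K
    · have h1 := psi_super (g := g) hπ hf (hg.gp_nonneg t) (by linarith [hg.gp_le t]) len t
        (by linarith [bit_nonneg (om t)]) z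
      refine le_trans ?_ h1
      have hrow := lost_row_eq hg (om := om) (hfree t le_rfl (by omega)) hz
      have e : 1 - ∑ x, kp (g.Kb om U) t (len + 1) z x =
          ∑ y, g.Kf t z y * (1 - ∑ x, kp (g.Kb om U) (t + 1) len y x) := by
        rw [kp_succ']
        simp only [Matrix.mul_apply, hrow, mul_sub, mul_one, Finset.sum_sub_distrib,
          Finset.mul_sum, (hg.Kf_dstoch t).2.1 z]
        rw [Finset.sum_comm]
      rw [e]
      exact Finset.sum_le_sum fun y _ => mul_le_mul_of_nonneg_left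
        (ih (t + 1) (fun τ a b => hfree τ (by omega) (by omega)) y) ((hg.Kf_dstoch t).1 z y)
    · have h1 := le_psi (g := g) hπ hf (len + 1) t z.1
      rw [zero_add, if_neg hz] at h1
      have h2 : 0 ≤ ∑ x, kp (g.Kb om U) t (len + 1) z x :=
        Finset.sum_nonneg fun x _ => kp_nonneg (hg.Kb_nonneg om U) _ _ _ _
      rw [zero_add]
      linarith

/-- occupation indicator of a site -/
noncomputable def lostOcc (U : Finset (XX L s)) (y : TV L) : ℝ := if ∃ c, (y, c) ∈ U then 1 else 0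

/-- fast part -/
noncomputable def lostFast (g : GD (XX L s)) (om : ℕ → Bool) (K len t : ℕ) (y0 : TV L) : ℝ :=
  g.psi (fun t => g.gp t + bit (om t)) (fun y => if y ∈ tball y0 (0 + K) then 0 else 1) len t y0 +
    ∑ y ∈ tball y0 (K + 1), g.psi (fun t => g.gp t + bit (om t))
      (fun y => if y ∈ tball y0 (K + 1 + K) then 0 else 1) len t y

omit [NeZero L] in
lemma lost_occ_nonneg (U : Finset (XX L s)) (y : TV L) : 0 ≤ lostOcc U y := by
  unfold lostOcc; split_ifs <;> norm_num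

omit [NeZero L] in
lemma lost_fast_nonneg (hg : g.Ok) (om : ℕ → Bool) (K len t : ℕ) (y0 : TV L) :
    0 ≤ lostFast g om K len t y0 :=
  add_nonneg (psi_nonneg (lost_pi_nonneg hg om) (fun y => by split_ifs <;> norm_num) _ _ _)
    (Finset.sum_nonneg fun y _ =>
      psi_nonneg (lost_pi_nonneg hg om) (fun y => by split_ifs <;> norm_num) _ _ _)

lemma lost_point (hg : g.Ok) {om : ℕ → Bool} {U : ℕ → Finset (XX L s)} (hi : g.Inv om U)
    (K len t : ℕ) (v : XX L s) : 1 - ∑ x, kp (g.Kb om U) t len v x ≤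
      (∑ y, lostOcc (U (t + len)) y * if y ∈ tball v.1 (K + 1 + K) then 1 else 0) +
        lostFast g om K len t v.1 := by
  have hπ := lost_pi_nonneg hg om
  have hf : ∀ (r : ℕ) (y : TV L), (0 : ℝ) ≤ if y ∈ tball v.1 r then 0 else 1 := fun r y => by
    split_ifs <;> norm_num
  have hS : ∀ y ∈ (Finset.univ : Finset (TV L)), 0 ≤ lostOcc (U (t + len)) y *
      if y ∈ tball v.1 (K + 1 + K) then 1 else 0 := fun y _ =>
    mul_nonneg (lost_occ_nonneg _ _) (by split_ifs <;> norm_num)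
  have hP : ∀ y ∈ tball v.1 (K + 1), 0 ≤ g.psi (fun t => g.gp t + bit (om t))
      (fun y => if y ∈ tball v.1 (K + 1 + K) then 0 else 1) len t y := fun y _ =>
    psi_nonneg hπ (hf _) _ _ _
  by_cases hfree : ∀ τ, t ≤ τ → τ < t + len → ∀ x ∈ U τ, x.1 ∉ tball v.1 (K + 1)
  · have h1 := lost_back hg (om := om) len t hfree v
    have h2 := Finset.sum_nonneg hS
    have h3 := Finset.sum_nonneg hP
    unfold lostFast
    linarith
  · push Not at hfree
    obtain ⟨τ, h1, h2, x, hx, hxb⟩ := hfree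
    obtain ⟨i, rfl⟩ := Nat.exists_eq_add_of_le h1
    obtain ⟨len', rfl⟩ : ∃ len', len = len' + i := ⟨len - i, by omega⟩
    obtain ⟨x', hx', hle⟩ := psi_obst (g := g) hπ (hf (K + 1 + K)) hi
      (fun t => by linarith [hg.gp_nonneg t]) len' (t + i) hx
    rw [show t + i + len' = t + (len' + i) by ring] at hx'
    have h3 : 0 ≤ ∑ x, kp (g.Kb om U) t (len' + i) v x :=
      Finset.sum_nonneg fun x _ => kp_nonneg (hg.Kb_nonneg om U) _ _ _ _
    by_cases hb : x'.1 ∈ tball v.1 (K + 1 + K)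
    · have h4 := Finset.single_le_sum hS (Finset.mem_univ x'.1)
      have h5 : lostOcc (U (t + (len' + i))) x'.1 = 1 := if_pos ⟨x'.2, hx'⟩
      rw [h5, if_pos hb] at h4
      have h6 := lost_fast_nonneg hg om K (len' + i) t v.1
      linarith
    · rw [if_neg hb] at hle
      have h4 := hle.trans (psi_le_add hπ (hf _) len' i t x.1)
      have h5 := Finset.single_le_sum hP hxb
      have h6 := Finset.sum_nonneg hS
      have h7 := psi_nonneg (g := g) hπ (hf (0 + K)) (len' + i) t v.1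
      unfold lostFast
      linarith

variable {Ω : Type} [Fintype Ω]

omit [NeZero L] in
lemma lost_ex_fast {T : TL Ω (XX L s)} {w : ℕ} {e1 e2 : ℝ} (hT : T.Ok w e1 e2)
    (hp : 28 * T.g.p * T.g.G * w ≤ 1) (K k : ℕ) (y0 : TV L) :
    Ex T.wt (fun o => lostFast T.g (T.om o) K (w * T.g.M) (k * T.g.M) y0) ≤
      (1 + (2 * (K : ℝ) + 3) ^ 3) * (1 / 2) ^ K := by
  unfold lostFast
  rw [Ex_add, Ex_sum]
  have h1 := ex_psi hT hp (self_mem_tball y0 0) K k le_rfl
  have h2 := Finset.sum_le_card_nsmul _ _ _ fun y (hy : y ∈ tball y0 (K + 1)) =>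
    ex_psi hT hp hy K k le_rfl
  have h3 : ((tball y0 (K + 1)).card : ℝ) ≤ (2 * (K : ℝ) + 3) ^ 3 := by
    have := card_tball_le y0 (K + 1)
    rw [show 2 * (K + 1) + 1 = 2 * K + 3 by ring] at this
    exact_mod_cast this
  rw [nsmul_eq_mul] at h2
  have h4 := mul_le_mul_of_nonneg_right h3 (by positivity : (0 : ℝ) ≤ (1 / 2) ^ K)
  linarith

omit [NeZero L] in
lemma lost_pair {wt : Ω → ℝ} {U : Ω → Finset (XX L s)} {e1 e2 : ℝ} (hs : SliceOk wt U e1 e2)
    (y y' : TV L) : Ex wt (fun o => lostOcc (U o) y * lostOcc (U o) y') ≤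
      (if y = y' then e2 else 0) + e2 ^ 2 := by
  have h1 := hs.p1b {y, y'} (Finset.card_le_two.trans (by norm_num))
  have h2 : Ex wt (fun o => lostOcc (U o) y * lostOcc (U o) y') ≤
      Pr wt (fun o => ∀ z ∈ ({y, y'} : Finset (TV L)), ∃ c, (z, c) ∈ U o) := by
    refine Ex_mono hs.wt_nonneg fun o _ => ?_
    unfold lostOcc
    by_cases a : ∃ c, (y, c) ∈ U o
    · by_cases b : ∃ c, (y', c) ∈ U o
      · simp [a, b]
      · simp [b]
    · simp [a]
  refine (h2.trans h1).trans ?_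
  have := hs.e2_nonneg
  by_cases h : y = y'
  · subst h
    simp only [Finset.mem_singleton, Finset.insert_eq_of_mem, Finset.card_singleton, pow_one,
      if_true]
    nlinarith
  · rw [Finset.card_pair h, if_neg h, zero_add]

lemma lost_second {wt : Ω → ℝ} {U : Ω → Finset (XX L s)} {e1 e2 : ℝ} (hs : SliceOk wt U e1 e2)
    {G : TV L → ℝ} (hG0 : ∀ y, 0 ≤ G y) {A B : ℝ} (hA : ∀ y, G y ≤ A) (hA0 : 0 ≤ A)
    (hB : ∑ y, G y ≤ B) :
    Ex wt (fun o => (∑ y, lostOcc (U o) y * G y) ^ 2) ≤ e2 * A * B + e2 ^ 2 * B ^ 2 := by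
  have he := hs.e2_nonneg
  have e : (fun o => (∑ y, lostOcc (U o) y * G y) ^ 2) = fun o => ∑ y, ∑ y',
      G y * G y' * (lostOcc (U o) y * lostOcc (U o) y') := by
    funext o
    rw [sq, Finset.sum_mul_sum]
    exact Finset.sum_congr rfl fun y _ => Finset.sum_congr rfl fun y' _ => by ring
  rw [e, Ex_sum]
  have h1 : ∀ y, Ex wt (fun o => ∑ y', G y * G y' * (lostOcc (U o) y * lostOcc (U o) y')) ≤
      e2 * A * G y + e2 ^ 2 * (G y * ∑ y', G y') := fun y => by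
    rw [Ex_sum]
    refine (Finset.sum_le_sum fun y' _ => (Ex_const_mul _ _).le.trans
      (mul_le_mul_of_nonneg_left (lost_pair hs y y') (mul_nonneg (hG0 y) (hG0 y')))).trans ?_
    simp only [mul_add, Finset.sum_add_distrib, mul_ite, mul_zero, Finset.sum_ite_eq,
      Finset.mem_univ, if_true]
    rw [← Finset.sum_mul, ← Finset.mul_sum]
    have := mul_le_mul_of_nonneg_left (hA y) (mul_nonneg he (hG0 y))
    nlinarith
  refine (Finset.sum_le_sum fun y _ => h1 y).trans ?_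
  rw [Finset.sum_add_distrib, ← Finset.mul_sum, ← Finset.mul_sum, ← Finset.sum_mul]
  have h0 : 0 ≤ ∑ y, G y := Finset.sum_nonneg fun y _ => hG0 y
  have h2 := mul_le_mul_of_nonneg_left hB (mul_nonneg he hA0)
  have h3 := mul_le_mul_of_nonneg_left (mul_self_le_mul_self h0 hB) (sq_nonneg e2)
  nlinarith

/-- smeared weight -/
noncomputable def lostG (γ : XX L s → ℝ) (r : ℕ) (y : TV L) : ℝ :=
  ∑ v, γ v * if y ∈ tball v.1 r then 1 else 0

lemma lost_G_nonneg {γ : XX L s → ℝ} (h0 : ∀ v, 0 ≤ γ v) (r : ℕ) (y : TV L) :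
    0 ≤ lostG γ r y :=
  Finset.sum_nonneg fun v _ => mul_nonneg (h0 v) (by split_ifs <;> norm_num)

lemma lost_G_le {γ : XX L s → ℝ} {σ : ℝ} (hσ : 0 ≤ σ) (h : ∀ v, γ v ≤ σ) (r : ℕ) (y : TV L) :
    lostG γ r y ≤ s * σ * (2 * (r : ℝ) + 1) ^ 3 := by
  unfold lostG
  rw [Fintype.sum_prod_type, Finset.sum_comm]
  have h1 : ((tball y r).card : ℝ) ≤ (2 * (r : ℝ) + 1) ^ 3 := by exact_mod_cast card_tball_le y r
  have h0 : ∀ c : Fin s, (∑ z : TV L, γ (z, c) * if y ∈ tball ((z, c) : XX L s).1 r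
      then 1 else 0) ≤ σ * (2 * (r : ℝ) + 1) ^ 3 := fun c => by
    have h2 : ∀ z : TV L, (γ (z, c) * if y ∈ tball ((z, c) : XX L s).1 r then 1 else 0) ≤
        if z ∈ tball y r then σ else 0 := fun z => by
      by_cases hz : y ∈ tball z r
      · rw [if_pos hz, if_pos (mem_tball_symm hz), mul_one]; exact h _
      · rw [if_neg hz, mul_zero]; split_ifs <;> simp [hσ]
    refine (Finset.sum_le_sum fun z _ => h2 z).trans ?_
    rw [← Finset.sum_filter, Finset.filter_mem_eq_inter, Finset.univ_inter, Finset.sum_const,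
      nsmul_eq_mul, mul_comm]
    exact mul_le_mul_of_nonneg_left h1 hσ
  refine (Finset.sum_le_sum fun c _ => h0 c).trans (le_of_eq ?_)
  simp only [Finset.sum_const, Finset.card_univ, Fintype.card_fin, nsmul_eq_mul]
  ring

lemma lost_G_sum {γ : XX L s → ℝ} (h0 : ∀ v, 0 ≤ γ v) (h1 : ∑ v, γ v = 1) (r : ℕ) :
    ∑ y, lostG γ r y ≤ (2 * (r : ℝ) + 1) ^ 3 := by
  unfold lostG
  rw [Finset.sum_comm]
  have h2 : ∀ v : XX L s, (∑ y : TV L, γ v * if y ∈ tball v.1 r then 1 else 0) ≤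
      γ v * (2 * (r : ℝ) + 1) ^ 3 := fun v => by
    rw [← Finset.mul_sum, ← Finset.sum_filter, Finset.filter_mem_eq_inter, Finset.univ_inter,
      Finset.sum_const, nsmul_eq_mul, mul_one]
    exact mul_le_mul_of_nonneg_left (by exact_mod_cast card_tball_le v.1 r) (h0 v)
  refine (Finset.sum_le_sum fun v _ => h2 v).trans (le_of_eq ?_)
  rw [← Finset.sum_mul, h1, one_mul]

lemma lost_mink {wt : Ω → ℝ} (hw : ∀ o, 0 ≤ wt o) (S : Finset ℕ) (X : ℕ → Ω → ℝ) (b : ℕ → ℝ)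
    (hb : ∀ j ∈ S, 0 ≤ b j) (h : ∀ j ∈ S, Ex wt (fun o => X j o ^ 2) ≤ b j ^ 2) :
    Ex wt (fun o => (∑ j ∈ S, X j o) ^ 2) ≤ (∑ j ∈ S, b j) ^ 2 := by
  have e : (fun o => (∑ j ∈ S, X j o) ^ 2) = fun o => ∑ i ∈ S, ∑ j ∈ S, X i o * X j o := by
    funext o
    rw [sq, Finset.sum_mul_sum]
  rw [e, Ex_sum, sq, Finset.sum_mul_sum]
  refine Finset.sum_le_sum fun i hi => ?_
  rw [Ex_sum]
  refine Finset.sum_le_sum fun j hj => (Ex_mul_le_sqrt hw _ _).trans ?_
  exact mul_le_mul (Real.sqrt_le_iff.2 ⟨hb i hi, h i hi⟩) (Real.sqrt_le_iff.2 ⟨hb j hj, h j hj⟩)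
    (Real.sqrt_nonneg _) (hb i hi)

lemma lost_alg1 {l X F : ℝ} (h2 : 0 ≤ l) (h3 : l ≤ 1) (h5 : 0 ≤ F) (h1 : l ≤ X + F) :
    l ^ 2 ≤ 2 * X ^ 2 + 2 * F := by
  by_cases h6 : F ≤ 1
  · nlinarith [sq_nonneg (X - F), mul_self_le_mul_self h2 h1]
  · nlinarith [sq_nonneg X]

lemma lost_alg2 {e x B : ℝ} (s : ℕ) (he : 0 ≤ e) (hx : 0 ≤ x) :
    e * (s * x * B) * B + e ^ 2 * B ^ 2 ≤ (B * (Real.sqrt (s * e * x) + e)) ^ 2 := by
  have h3 : Real.sqrt (s * e * x) ^ 2 = s * e * x := Real.sq_sqrt (by positivity)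
  have h4 : 0 ≤ Real.sqrt (s * e * x) * e := by positivity
  have h6 := mul_nonneg (sq_nonneg B) h4
  rw [mul_pow, add_sq, h3]
  nlinarith

lemma lost_ex_F {T : TL Ω (XX L s)} {w : ℕ} {e1 e2 : ℝ} (hT : T.Ok w e1 e2)
    (hp : 28 * T.g.p * T.g.G * w ≤ 1) (K k : ℕ) {γ : XX L s → ℝ} (h0 : ∀ v, 0 ≤ γ v)
    (h1 : ∑ v, γ v = 1) :
    Ex T.wt (fun o => ∑ v, γ v * lostFast T.g (T.om o) K (w * T.g.M) (k * T.g.M) v.1) ≤
      (1 + (2 * (K : ℝ) + 3) ^ 3) * (1 / 2) ^ K := by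
  rw [Ex_sum]
  have h2 : ∀ v : XX L s,
      Ex T.wt (fun o => γ v * lostFast T.g (T.om o) K (w * T.g.M) (k * T.g.M) v.1) ≤
        γ v * ((1 + (2 * (K : ℝ) + 3) ^ 3) * (1 / 2) ^ K) := fun v => by
    rw [Ex_const_mul]
    exact mul_le_mul_of_nonneg_left (lost_ex_fast hT hp K k v.1) (h0 v)
  refine (Finset.sum_le_sum fun v _ => h2 v).trans (le_of_eq ?_)
  rw [← Finset.sum_mul, h1, one_mul]

end Aux

theorem lost_nonneg {L s : ℕ} [NeZero L] {g : GD (XX L s)} (hg : g.Ok) (om : ℕ → Bool)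
    (U : ℕ → Finset (XX L s)) (a : XX L s) (N : ℕ) : 0 ≤ g.lost om U a N := by
  unfold GD.lost
  linarith [lost_row_Kbs hg om U 0 N a]

theorem lost_le_one {L s : ℕ} [NeZero L] {g : GD (XX L s)} (hg : g.Ok) (om : ℕ → Bool)
    (U : ℕ → Finset (XX L s)) (a : XX L s) (N : ℕ) : g.lost om U a N ≤ 1 := by
  unfold GD.lost
  have : 0 ≤ ∑ v, kp (g.Kbs om U) 0 N a v :=
    Finset.sum_nonneg fun v _ => kp_nonneg (hg.Kbs_nonneg om U) _ _ _ _
  linarith

theorem ex_lost_sq {Ω : Type} [Fintype Ω] {L s : ℕ} [NeZero L] {T : TL Ω (XX L s)} {w : ℕ}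
    {e1 e2 : ℝ} (hT : T.Ok w e1 e2) (hp : 28 * T.g.p * T.g.G * w ≤ 1) {nw : ℕ} {σ : ℕ → ℝ}
    (hσ : ∀ j, 0 ≤ σ j) (hF : T.g.FreeBd w nw σ) (K : ℕ) (a : XX L s) {N : ℕ} (hN : N ≤ nw * w) :
    Ex T.wt (fun o => T.g.lost (T.om o) (T.U o) a N ^ 2) ≤ lostB s nw K e2 σ := by
  have hg := hT.gd
  have hw0 := (hT.sl 0).wt_nonneg
  have he := (hT.sl 0).e2_nonneg
  set γ : ℕ → XX L s → ℝ := fun j v => kp T.g.Kfs 0 (j * w) a v with hγ
  have hγ0 : ∀ j v, 0 ≤ γ j v := fun j v => (kp_dstoch hg.Kfs_dstoch 0 (j * w)).1 a v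
  have hγ1 : ∀ j, ∑ v, γ j v = 1 := fun j => (kp_dstoch hg.Kfs_dstoch 0 (j * w)).2.1 a
  set X : ℕ → Ω → ℝ := fun j o =>
    ∑ y, lostOcc (T.U o ((j * w + w) * T.g.M)) y * lostG (γ j) (K + 1 + K) y with hX
  set F : ℕ → Ω → ℝ := fun j o =>
    ∑ v, γ j v * lostFast T.g (T.om o) K (w * T.g.M) (j * w * T.g.M) v.1 with hFd
  have hF0 : ∀ j o, 0 ≤ F j o := fun j o => Finset.sum_nonneg fun v _ =>
    mul_nonneg (hγ0 j v) (lost_fast_nonneg hg _ _ _ _ _)
  have hpt : ∀ o, T.wt o ≠ 0 → T.g.lost (T.om o) (T.U o) a N ^ 2 ≤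
      2 * (∑ j ∈ range nw, X j o) ^ 2 + 2 * ∑ j ∈ range nw, F j o := fun o ho => by
    have h1 : T.g.lost (T.om o) (T.U o) a N ≤
        (∑ j ∈ range nw, X j o) + ∑ j ∈ range nw, F j o := by
      refine (lost_mono hg _ _ a hN).trans ((lost_tele hg _ _ a w nw).trans ?_)
      rw [← Finset.sum_add_distrib]
      refine Finset.sum_le_sum fun j _ => ?_
      refine (Finset.sum_le_sum fun v _ => mul_le_mul_of_nonneg_left
        (lost_point hg (hT.inv o ho) K (w * T.g.M) (j * w * T.g.M) v) (hγ0 j v)).trans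
        (le_of_eq ?_)
      simp only [mul_add, Finset.sum_add_distrib, hX, hFd, lostG, Finset.mul_sum, add_mul (j * w)]
      rw [Finset.sum_comm]
      refine congrArg₂ _ ?_ rfl
      exact Finset.sum_congr rfl fun y _ => Finset.sum_congr rfl fun v _ => by ring
    have h2 := lost_nonneg hg (T.om o) (T.U o) a N
    have h3 := lost_le_one hg (T.om o) (T.U o) a N
    exact lost_alg1 h2 h3 (Finset.sum_nonneg fun j _ => hF0 j o) h1
  refine (Ex_mono hw0 hpt).trans ?_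
  rw [Ex_add, Ex_const_mul, Ex_const_mul, Ex_sum]
  unfold lostB
  have hA : Ex T.wt (fun o => (∑ j ∈ range nw, X j o) ^ 2) ≤
      (∑ j ∈ range nw, (4 * (K : ℝ) + 3) ^ 3 * (Real.sqrt (s * e2 * σ j) + e2)) ^ 2 := by
    refine lost_mink hw0 _ X _ (fun j _ => by positivity) fun j hj => ?_
    have hj' := Finset.mem_range.1 hj
    have h1 : ∀ v, γ j v ≤ σ j := fun v =>
      hF 0 (j * w) j le_rfl (Nat.mul_le_mul_right _ hj'.le) a v
    have h2 := lost_second (hT.sl (j * w + w)) (lost_G_nonneg (hγ0 j) (K + 1 + K))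
      (lost_G_le (hσ j) h1 (K + 1 + K)) (by have := hσ j; positivity)
      (lost_G_sum (hγ0 j) (hγ1 j) (K + 1 + K))
    refine h2.trans ?_
    have e : (2 * ((K + 1 + K : ℕ) : ℝ) + 1) = 4 * (K : ℝ) + 3 := by push_cast; ring
    rw [e]
    exact lost_alg2 s he (hσ j)
  have hB : ∀ j ∈ range nw, Ex T.wt (F j) ≤ (1 + (2 * (K : ℝ) + 3) ^ 3) * (1 / 2) ^ K :=
    fun j _ => lost_ex_F hT hp K (j * w) (hγ0 j) (hγ1 j)
  have hB' := Finset.sum_le_card_nsmul _ _ _ hB
  rw [Finset.card_range, nsmul_eq_mul] at hB'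
  nlinarith

end Vale.Agent.P361
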