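import Vale.Agent.P361.RunCrudeA
import Vale.Agent.P361.Lost

namespace Vale.Agent.P361

open Matrix Finset

theorem run_sharp (s G : ℕ) [NeZero s] : ∃ C : ℝ, 0 < C ∧ ∀ {Ω : Type} [Fintype Ω] {L : ℕ}
    [NeZero L] {T : TL Ω (XX L s)} {w : ℕ} {e1 e2 : ℝ}, T.Ok w e1 e2 → T.g.G = G → 1 ≤ w →
    28 * T.g.p * T.g.G * w ≤ 1 → e1 ≤ (1 / 2) ^ 200 →
    ∀ {Kc K R r nw : ℕ}, Geo L Kc K R r nw →
    ∀ {σ : ℕ → ℝ}, (∀ j, 0 ≤ σ j) → T.g.FreeBd w nw σ →
    ∀ (d : ℕ → XX L s → ℝ), (∀ k v, 0 ≤ d k v) → (∀ k v, d k v ≤ 1) →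
    ∀ (a : XX L s) (a' : Z3), prj L a' = a.1 → (∀ o, T.wt o ≠ 0 → a ∉ T.U o 0) →
    ∀ {η : ℝ}, (∀ k, Pr T.wt (fun o => ¬ T.good Kc R a' o k) ≤ η) →
    ∀ {n u J0 k0 ρ j0 j1 : ℕ} {q LM : ℝ}, 1 ≤ u → J0 + 2 * u ≤ n →
    k0 * n + J0 + 2 * u ≤ nw * w → 1 ≤ ρ → j0 * w ≤ k0 * n + J0 → j1 * w ≤ J0 + u →
    0 ≤ q → q ≤ 1 →
    Ex T.wt (fun o => T.g.lost (T.om o) (T.U o) a (k0 * n + J0 + 2 * u) ^ 2) ≤ LM →
    ∃ (mu lam occ : Ω → ℕ → XX L s → ℝ) (al : Ω → ℝ),
      (∀ o, T.wt o ≠ 0 → IsRun (T.g.Ks (T.om o) (T.U o)) d (T.g.p / (r : ℝ) ^ 2) n u J0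
        (k0 * n + J0 + 2 * u) (ind {a}) (mu o) (lam o) (occ o) (al o)) ∧
      Ex T.wt (fun o => al o ^ 2) ≤ alB C (T.g.p * u) (q * u) k0 ρ R (σ j0) LM ∧
      Ex T.wt (fun o => mass (k0 * n + J0 + 2 * u) (lam o)) ≤ lamB s nw K R η (q * u) ∧
      ∀ (j : ℕ) (b : XX L s), 1 ≤ j → j ≤ k0 →
        Ex T.wt (fun o => occ o (j * n) b) ≤
          kp T.g.Kfs 0 (j * n) a b + Real.exp (-(q * u / 2)) + 2 * η +
            σ j1 * Ex T.wt
              (fun o => T.g.cdef (T.om o) (T.U o) ((j - 1) * n + J0 + u) (n - (J0 + u)) b) := by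
  obtain ⟨C1, h1, hs⟩ := runA_slice s G
  obtain ⟨C2, h2, hf⟩ := far_single
  refine ⟨4 * C1 * (1 + C2), by positivity, fun {Ω} _ {L} _ {T w e1 e2} hT hG hw hp he
    {Kc K R r nw} geo {σ} hσ hF d hd0 hd1 a a' haa ha {η} hη {n u J0 k0 ρ j0 j1 q LM}
    hu hJ hN hρ hj0 hj1 hq0 hq1 hLM => ?_⟩
  have hg := hT.gd
  have hp0 := hg.p_pos
  have h0 := (hT.sl 0).wt_nonneg
  have hw1 := (hT.sl 0).wt_sum
  have hu0 : (0 : ℝ) < u := by positivity
  have hR : 1 ≤ R := by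
    have := geo.hr0
    have := aa_pos 3
    unfold r0 at *
    omega
  have hbf := fun o => kp_mono (hg.Kbs_nonneg (T.om o) (T.U o)) (hg.Kbs_le_Kfs _ _)
  obtain ⟨mu0, mu1, lam, occ, hr, hm, ho⟩ := run_one hT hw hp (T.good Kc R a') hη
    (fun o => T.g.Kbs (T.om o) (T.U o)) (fun o => hg.Kbs_nonneg _ _) (fun o => hg.Kbs_le_Ks _ _)
    d hd0 hd1 a ha hu hJ hN geo.hK hq0 hq1
  let fw : Ω → ℕ → ℝ := fun o k => farW (liftE (T.U o (k * T.g.M))) Kc {a'} a' L R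
  let lo : Ω → ℝ := fun o => T.g.lost (T.om o) (T.U o) a (k0 * n + J0 + 2 * u)
  have hfw : ∀ o k, 0 ≤ fw o k := fun o k => runA_far0 _ _ _ _ _ _
  have efw : ∀ k, Ex T.wt (fun o => fw o k) ≤ 2 * (C2 / R) := fun k =>
    (runA_far (hT.sl k) he geo.hKc _ _ R).trans (by simpa using hf _ a' R hR)
  have hl0 : ∀ o, 0 ≤ lo o := fun o => lost_nonneg hg _ _ _ _
  have hLM0 : 0 ≤ LM := (Ex_nonneg h0 fun o _ => sq_nonneg _).trans hLM
  let A0 : Ω → ℕ → ℝ := fun o k => C1 / T.g.p * (((ρ : ℝ) ^ 2 * σ j0 + 1 / ρ + fw o k) / u ^ 2)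
  let A1 : Ω → ℕ → ℝ := fun o k => C1 / T.g.p * (q ^ 2 * (2 * lo o ^ 2 + fw o k))
  have hA0 : ∀ o k, 0 ≤ A0 o k := fun o k => by have := hfw o k; have := hσ j0; positivity
  have hA1 : ∀ o k, 0 ≤ A1 o k := fun o k => by have := hfw o k; positivity
  refine ⟨fun o k => mu0 o k + mu1 o k, lam, occ,
    fun o => √(∑ k ∈ Ico (k0 * n + J0) (k0 * n + J0 + u), A0 o k) +
      ∑ i ∈ range (k0 + 1), √(∑ k ∈ Ico (i * n + J0 + u) (i * n + J0 + u + u), A1 o k),
    fun o h => ?_, ?_, hm, fun j b hj hj' => ?_⟩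
  · have hr := hr o h
    have sl := fun k μ {m σ mb : ℝ} (ρ : ℕ) hρ b0 (b1 : ∀ v, μ v ≠ 0 → T.good Kc R a' o k ∧
      v.1 ∈ tball a.1 R ∧ v ∉ T.U o (k * T.g.M)) b2 b3 b4 => hs hg hG (hT.inv o h) geo (ρ := ρ)
      (nst := 1) (B := {a'}) (c0 := a') hρ (by simp) (fun e => (card_filter_le _ _).trans (by simp))
      k (fun _ => μ) (m := m) (σ := σ) (mb := mb) (fun _ _ => b0) (fun y hy => by rw [mem_singleton.1 hy, haa]; exact b1)
      (fun _ _ => b2) b3 fun _ _ => b4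
    refine ⟨fun k v => add_nonneg (hr.1 k v) (hr.2 k v), hr.3, hr.4, by positivity,
      fun k v hv => ?_, fun H S hH => ?_, fun x Q hx hQ => ?_⟩
    · by_cases h3 : mu1 o k v = 0
      · obtain ⟨b1, b2, -⟩ := hr.6 k v (by simpa [h3] using hv)
        obtain ⟨i, rfl⟩ : ∃ i, k = i + k0 * n := ⟨k - k0 * n, by omega⟩
        rw [Nat.add_mul_mod_self_right, Nat.mod_eq_of_lt (by omega)]
        omega
      · have := hr.8 k v h3
        omega
    · rw [← hr.5 H S hH]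
      simp [dotProduct, ind]
    · have hfm := runA_form (hg.Ks_dstoch (T.om o) (T.U o)) (c := T.g.p / (r : ℝ) ^ 2)
        (by positivity) x
      simp only [add_dotProduct, sum_add_distrib, add_mul]
      refine add_le_add ((runA_win {0} _ (fun _ => k0 * n + J0) (A := A0 o)
        (fun k => dotProduct_nonneg_of_nonneg (hr.1 k) (hx k)) (fun k hk => ?_) (hA0 o)
        hfm (fun k => ?_) hQ).trans_eq (by simp)) (runA_win _ _ (fun i => i * n + J0 + u)
        (fun k => dotProduct_nonneg_of_nonneg (hr.2 k) (hx k)) (fun k hk => ?_) (hA1 o)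
        hfm (fun k => ?_) hQ)
      · obtain ⟨v, -, hv⟩ := exists_ne_zero_of_sum_ne_zero hk
        have := hr.6 k v (left_ne_zero_of_mul hv)
        exact ⟨0, by simp, by omega⟩
      · refine le_of_eq_of_le (by simp) ((sl k (mu0 o k) (m := 1 / u) (σ := σ j0 / u) (mb := 1 / u)
          ρ hρ (hr.1 k) (fun v hv => (hr.6 k v hv).2.2) ?_ le_rfl (fun v => ?_) x hx).trans_eq ?_)
        · rw [← (kp_dstoch hg.Kfs_dstoch 0 k).2.1 a, sum_div]
          exact sum_le_sum fun v _ => (hr.7 k v).trans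
            (div_le_div_of_nonneg_right (hbf o _ _ _ _) hu0.le)
        · by_cases hv : mu0 o k v = 0
          · exact hv.trans_le (div_nonneg (hσ _) hu0.le)
          · have := hr.6 k v hv
            exact (hr.7 k v).trans (div_le_div_of_nonneg_right ((hbf o _ _ _ _).trans
              (hF 0 k j0 (by omega) (by omega) _ _)) hu0.le)
        · congr 3
          simp only [fw, card_singleton]
          push_cast
          ring
      · obtain ⟨v, -, hv⟩ := exists_ne_zero_of_sum_ne_zero hk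
        have := hr.8 k v (left_ne_zero_of_mul hv)
        have := Nat.div_add_mod' k n
        refine ⟨k / n, mem_range.2 ((Nat.div_lt_iff_lt_mul (by omega)).2 ?_), by omega⟩
        rw [add_mul]
        omega
      · refine le_of_eq_of_le (by simp) ((sl k (mu1 o k) (m := q * lo o) (σ := q * lo o) (mb := q)
          1 le_rfl (hr.2 k) (fun v hv => (hr.8 k v hv).2.2.2) (hr.9 k)
          (mul_le_of_le_one_right hq0 (lost_le_one hg _ _ _ _)) (fun v => (single_le_sum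
            (fun v _ => hr.2 k v) (mem_univ v)).trans (hr.9 k)) x hx).trans_eq ?_)
        congr 3
        simp only [fw, card_singleton]
        push_cast
        ring
  · have b0 : ∀ t, Ex T.wt (fun o => ∑ k ∈ Ico t (t + u), A0 o k) ≤
        u * (C1 / T.g.p * (((ρ : ℝ) ^ 2 * σ j0 + 1 / ρ + 2 * (C2 / R)) / u ^ 2)) := fun t => by
      rw [Ex_sum]
      refine (sum_le_card_nsmul _ _ _ fun k _ => ?_).trans_eq
        ((nsmul_eq_mul _ _).trans (congrArg₂ _ (by simp) rfl))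
      simp only [A0]
      rw [Ex_const_mul, Ex_div_const, Ex_add, Ex_const hw1]
      have := efw k
      gcongr
    have b1 : ∀ t, Ex T.wt (fun o => ∑ k ∈ Ico t (t + u), A1 o k) ≤
        u * (C1 / T.g.p * (q ^ 2 * (2 * LM + 2 * (C2 / R)))) := fun t => by
      rw [Ex_sum]
      refine (sum_le_card_nsmul _ _ _ fun k _ => ?_).trans_eq
        ((nsmul_eq_mul _ _).trans (congrArg₂ _ (by simp) rfl))
      simp only [A1]
      rw [Ex_const_mul, Ex_const_mul, Ex_add, Ex_const_mul]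
      have := efw k
      gcongr
    refine (Ex_mono h0 (g := fun o => 2 * (∑ k ∈ Ico (k0 * n + J0) (k0 * n + J0 + u), A0 o k) +
      2 * (k0 + 1) * ∑ i ∈ range (k0 + 1), ∑ k ∈ Ico (i * n + J0 + u) (i * n + J0 + u + u), A1 o k)
      fun o _ => ?_).trans ?_
    · have c1 := sq_sum_le_card_mul_sum_sq (s := range (k0 + 1))
        (f := fun i => √(∑ k ∈ Ico (i * n + J0 + u) (i * n + J0 + u + u), A1 o k))
      simp only [Real.sq_sqrt (sum_nonneg fun k _ => hA1 o k), card_range] at c1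
      push_cast at c1
      have c2 := Real.sq_sqrt (sum_nonneg (s := Ico (k0 * n + J0) (k0 * n + J0 + u))
        fun k _ => hA0 o k)
      nlinarith [sq_nonneg (√(∑ k ∈ Ico (k0 * n + J0) (k0 * n + J0 + u), A0 o k) -
        ∑ i ∈ range (k0 + 1), √(∑ k ∈ Ico (i * n + J0 + u) (i * n + J0 + u + u), A1 o k))]
    · rw [Ex_add, Ex_const_mul, Ex_const_mul, Ex_sum (range _)]
      refine (add_le_add (mul_le_mul_of_nonneg_left (b0 _) zero_le_two) (mul_le_mul_of_nonneg_left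
        (sum_le_card_nsmul _ _ _ fun i _ => b1 _) (by positivity))).trans ?_
      have := hσ j0
      rw [card_range, nsmul_eq_mul, alB, ← sub_nonneg]
      refine le_of_le_of_eq (a := 0) (b := C1 / (T.g.p * u) * ((2 + 4 * C2) *
        ((ρ : ℝ) ^ 2 * σ j0 + 1 / ρ) + 4 / R + 4 * (k0 + 1) ^ 2 * (q * u) ^ 2 * (C2 * LM + 1 / R)))
        (by positivity) ?_
      push_cast
      field_simp
      ring
  · refine (ho j b (σ j1) hj hj' fun o v _ => (hbf o _ _ _ _).trans (hF 0 _ j1 (by omega) ?_ _ _)).trans ?_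
    · have := Nat.mul_le_mul_right n (show j - 1 ≤ k0 by omega)
      omega
    · have := (Ex_mono h0 fun o _ => hbf o 0 (j * n) a b).trans_eq (Ex_const hw1 _)
      simp only [GD.cdef]
      linarith

end Vale.Agent.P361
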