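import Vale.Agent.P361.UpA
import Vale.Agent.P361.RunSharp

namespace Vale.Agent.P361

open Matrix Finset

theorem upSharp_ind {Y : Type} [DecidableEq Y] (B : Finset Y) : ∑ a ∈ B, ind {a} = ind B := by
  funext v
  simp [ind, Finset.sum_apply]

theorem upSharp_mass {Y ι : Type} [Fintype Y] (S : Finset ι) (N : ℕ) (f : ι → ℕ → Y → ℝ) :
    mass N (∑ i ∈ S, f i) = ∑ i ∈ S, mass N (f i) := by
  simp only [mass, Finset.sum_apply]
  rw [Finset.sum_comm (s := S)]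
  exact sum_congr rfl fun k _ => Finset.sum_comm

theorem upSharp_six {ι : Type} {S : Finset ι} (hS : S.card ≤ 6) {f : ι → ℝ} {A : ℝ} (hA : 0 ≤ A)
    (h : ∀ i ∈ S, f i ≤ A) : ∑ i ∈ S, f i ≤ 6 * A := by
  refine (sum_le_card_nsmul S f A h).trans ?_
  rw [nsmul_eq_mul]
  exact mul_le_mul_of_nonneg_right (by exact_mod_cast hS) hA

theorem upSharp_al {Ω ι : Type} [Fintype Ω] {wt : Ω → ℝ} (hw : ∀ o, 0 ≤ wt o) {S : Finset ι}
    (hS : S.card ≤ 6) {f : ι → Ω → ℝ} {A : ℝ} (hA : 0 ≤ A)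
    (h : ∀ i ∈ S, Ex wt (fun o => f i o ^ 2) ≤ A) :
    Real.sqrt (Ex wt fun o => (∑ i ∈ S, f i o) ^ 2) ≤ 6 * Real.sqrt A := by
  have h1 : Ex wt (fun o => (∑ i ∈ S, f i o) ^ 2) ≤ Ex wt fun o => 6 * ∑ i ∈ S, f i o ^ 2 :=
    Ex_mono hw fun o _ => sq_sum_le_card_mul_sum_sq.trans (mul_le_mul_of_nonneg_right
      (by exact_mod_cast hS) (sum_nonneg fun _ _ => sq_nonneg _))
  rw [Ex_const_mul, Ex_sum] at h1
  have h2 := upSharp_six hS hA h
  refine Real.sqrt_le_iff.2 ⟨by positivity, ?_⟩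
  rw [mul_pow, Real.sq_sqrt hA]
  linarith

theorem upper_sharp (s G : ℕ) [NeZero s] : ∃ C : ℝ, 0 < C ∧ ∀ {L : ℕ} [NeZero L]
    {g : GD (XX L s)} {n u l w nw K R r Kc k0 : ℕ} [NeZero n] [NeZero (n * g.M)]
    {ζ ξ ε1 ε2 q : ℝ} {σ : ℕ → ℝ}, Par g n u l w nw K R r Kc k0 ζ ξ ε1 ε2 q σ → g.G = G →
    ∀ (P : Finset (ZMod n × XX L s)) (k : ZMod n) (B : Finset (XX L s)), B.card ≤ 6 →
    ∀ {ρ ρ' : ℕ}, 1 ≤ ρ → 1 ≤ ρ' →
    ∑ a ∈ B, g.rB n ζ P k B a ≤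
      (∑ a ∈ B, ∑ b ∈ B, ∑ j ∈ Icc 1 k0, (kp g.Kfs 0 (j * n) a b + Real.exp (-(q * u / 2)) +
          2 * etaB C g.p g.M L Kc R (2 * s * ε1) (2 * s * ε2) +
          σ (7 * l) * Real.sqrt (lostB s nw K (2 * s * ε2) σ))) +
        12 * lamB s nw K R (etaB C g.p g.M L Kc R (2 * s * ε1) (2 * s * ε2)) (q * u) +
        144 * Real.sqrt (alB C (g.p * u) (q * u) k0 ρ R (σ ((16 * k0 + 8) * l))
            (lostB s nw K (2 * s * ε2) σ)) *
          Real.sqrt (alB C (g.p * u) (q * u) 0 ρ' R (σ l) (lostB s nw K (2 * s * ε2) σ)) := by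
  obtain ⟨C0, hC0, h0⟩ := good_prob
  obtain ⟨C1, hC1, h1⟩ := run_sharp s G
  refine ⟨C0 + C1, by positivity, ?_⟩
  intro L _ g n u l w nw K R r Kc k0 _ _ ζ ξ ε1 ε2 q σ hP hG P k B hB ρ ρ' hρ hρ'
  obtain ⟨hu, -, hN⟩ := hP.up_nat
  have hn := hP.hn
  have hul := hP.hu
  obtain ⟨P', hP'⟩ : ∃ P', P' = P ∪ B.image fun x => (k, x) := ⟨_, rfl⟩
  have hst : ∀ a ∈ B, (k, a) ∈ P' := fun a ha => by
    rw [hP']
    exact mem_union_right _ (mem_image_of_mem _ ha)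
  choose z hz using fun a : XX L s => prj_surj a.1
  have e1 : (16 * k0 + 8) * l * w = k0 * n + 8 * u := by rw [hn, hul]; ring
  have e2 : 7 * l * w = 7 * u := by rw [hul]; ring
  have hf := fun a (ha : a ∈ B) => h1 (hP.up_fwd P' k) hG hP.hw hP.hp hP.he1 hP.geo hP.hσ hP.free _
    (hP.up_d P' fun j => k + j).1 (hP.up_d P' fun j => k + j).2 a (z a) (hz a)
    (fun o ho => (fwd_start (hst a ha) o ho).1)
    (η := etaB (C0 + C1) g.p g.M L Kc R (2 * s * ε1) (2 * s * ε2))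
    (fun j => (h0 (hP.up_fwd P' k) hP.hw hP.he1 hP.geo (z a) j).trans
      (up_etaB_mono (by linarith) _ _ _ _ _ _ _))
    (n := n) (J0 := 8 * u) (k0 := k0) (j0 := (16 * k0 + 8) * l) (j1 := 7 * l) hu (by omega)
    (by omega) hρ e1.le (by omega) hP.hq0 hP.hq1
    (ex_lost_sq (hP.up_fwd P' k) hP.hp hP.hσ hP.free K a (by omega))
  have hb := fun a (ha : a ∈ B) => h1 (hP.up_bwd P' k) hG hP.hw hP.hp hP.he1 hP.geo hP.hσ
    (hP.ok.rev_freeBd hP.free) _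
    (hP.up_d P' fun j => k - j).1 (hP.up_d P' fun j => k - j).2 a (z a) (hz a)
    (fun o ho => (fwd_start (hst a ha) o ho).2)
    (η := etaB (C0 + C1) g.p g.M L Kc R (2 * s * ε1) (2 * s * ε2))
    (fun j => (h0 (hP.up_bwd P' k) hP.hw hP.he1 hP.geo (z a) j).trans
      (up_etaB_mono (by linarith) _ _ _ _ _ _ _))
    (n := n) (J0 := u) (k0 := 0) (j0 := l) (j1 := 0) hu (by omega)
    (by omega) hρ' (by omega) (by omega) hP.hq0 hP.hq1 (hP.up_lost_bwd P' k a (by omega))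
  rw [zero_mul, zero_add] at hb
  choose! mu lam occ al a1 a2 a3 a4 using hf
  choose! mu' lam' occ' al' b1 b2 b3 b4 using hb
  have h2 := hP.up_pair P k B hP' (mu := fun o => ∑ a ∈ B, mu a o) (lam := fun o => ∑ a ∈ B, lam a o)
    (occ := fun o => ∑ a ∈ B, occ a o) (al := fun o => ∑ a ∈ B, al a o)
    (mu' := fun o => ∑ a ∈ B, mu' a o) (lam' := fun o => ∑ a ∈ B, lam' a o)
    (occ' := fun o => ∑ a ∈ B, occ' a o) (al' := fun o => ∑ a ∈ B, al' a o)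
    (fun o ho => upSharp_ind B ▸ IsRun.sum B fun a ha => a1 a ha o ho)
    (fun o ho => upSharp_ind B ▸ IsRun.sum B fun a ha => b1 a ha o ho)
  have e3 : (k0 * n + 8 * u + 2 * u) / n = k0 := by
    rw [add_assoc, add_comm, Nat.add_mul_div_right _ _ (by omega), Nat.div_eq_of_lt (by omega),
      zero_add]
  rw [e3] at h2
  simp only [upSharp_mass, Finset.sum_apply, Ex_sum] at h2
  have hw : ∀ o, 0 ≤ (g.circ n).ew (dP n g.M ζ P') o := ((hP.up_fwd P' k).sl 0).wt_nonneg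
  have hη : 0 ≤ etaB (C0 + C1) g.p g.M L Kc R (2 * s * ε1) (2 * s * ε2) :=
    (Pr_nonneg hw _).trans ((h0 (hP.up_fwd P' k) hP.hw hP.he1 hP.geo 0 0).trans
      (up_etaB_mono (by linarith) _ _ _ _ _ _ _))
  have hpu : 0 ≤ g.p * u := mul_nonneg hP.ok.p_pos.le (Nat.cast_nonneg _)
  have hL := up_lostB_nonneg s nw K (2 * s * ε2) σ
  have hal : ∀ k0 ρ j, 0 ≤ alB (C0 + C1) (g.p * u) (q * u) k0 ρ R (σ j)
      (lostB s nw K (2 * s * ε2) σ) := fun k0 ρ j => by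
    have := hP.hσ j
    unfold alB
    positivity
  have c1 := upSharp_six hB (up_lamB_nonneg s nw K R hη _) a3
  have c2 := upSharp_six hB (up_lamB_nonneg s nw K R hη _) b3
  have c3 := upSharp_al hw hB (hal _ _ _) fun a ha =>
    (a2 a ha).trans (up_alB_mono (le_add_of_nonneg_left hC0.le) hpu (hP.hσ _) hL _ _ _ _)
  have c4 := upSharp_al hw hB (hal _ _ _) fun a ha =>
    (b2 a ha).trans (up_alB_mono (le_add_of_nonneg_left hC0.le) hpu (hP.hσ _) hL _ _ _ _)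
  have c5 := mul_le_mul c3 c4 (Real.sqrt_nonneg _) (by positivity)
  have c6 : ∑ j ∈ Icc 1 k0, ∑ b ∈ B, ∑ a ∈ B,
      Ex ((g.circ n).ew (dP n g.M ζ P')) (fun o => occ a o (j * n) b) ≤
      ∑ a ∈ B, ∑ b ∈ B, ∑ j ∈ Icc 1 k0, (kp g.Kfs 0 (j * n) a b + Real.exp (-(q * u / 2)) +
          2 * etaB (C0 + C1) g.p g.M L Kc R (2 * s * ε1) (2 * s * ε2) +
          σ (7 * l) * Real.sqrt (lostB s nw K (2 * s * ε2) σ)) := by
    rw [sum_comm, sum_congr rfl fun b _ => sum_comm, sum_comm]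
    refine sum_le_sum fun a ha => sum_le_sum fun b _ => sum_le_sum fun j hj => ?_
    obtain ⟨j1, j2⟩ := mem_Icc.1 hj
    refine (a4 a ha j b j1 j2).trans (add_le_add le_rfl
      (mul_le_mul_of_nonneg_left (hP.up_cdef P' k b (j := j) ?_ (by omega)) (hP.hσ _)))
    obtain ⟨i, rfl⟩ : ∃ i, j = i + 1 := ⟨j - 1, by omega⟩
    rw [Nat.add_sub_cancel, add_mul, one_mul]
    omega
  have c7 := add_le_add (add_le_add (add_le_add c6 c1) c2)
    (mul_le_mul_of_nonneg_left c5 (by norm_num : (0 : ℝ) ≤ 4))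
  refine (h2.trans c7).trans (le_of_eq ?_)
  ring

end Vale.Agent.P361
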