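import Vale.Agent.P361.UpCrude
import Vale.Agent.P361.UpSharp
import Vale.Agent.P361.LowSharp
import Vale.Agent.P361.Boot
import Vale.Agent.P361.DensB
import Vale.Agent.P361.Final

namespace Vale.Agent.P361

open Matrix Finset Filter

lemma dens_alg {P Z y Sg e lam η2 A : ℝ} (hZ : 0 < Z) (hy0 : 0 ≤ y) (hP : P * (1 + y) = y * Z)
    (hS0 : 0 ≤ Sg) (he : 0 ≤ e) (hl1 : lam ≤ 1) (hl : 1 - η2 ≤ lam)
    (hlow : lam * (Sg - e) ≤ y * (1 + Sg)) (hyA : y ≤ A) (hSA : Sg ≤ A) (hη2 : 0 ≤ η2) :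
    (Sg - η2 * A - e - 2 * A ^ 2) * Z ≤ P := by
  have h1 : P = y / (1 + y) * Z := by
    rw [div_mul_eq_mul_div, eq_div_iff (by linarith)]; exact hP
  rw [h1]
  gcongr
  rw [le_div_iff₀ (by linarith)]
  have h2 : Sg - η2 * A - e ≤ lam * (Sg - e) := by
    have a1 : (1 - η2) * Sg ≤ lam * Sg := by gcongr
    have a2 : lam * e ≤ e := by nlinarith
    have a3 : η2 * Sg ≤ η2 * A := by gcongr
    nlinarith
  have h3 : y * Sg ≤ A ^ 2 := by nlinarith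
  have h4 : y * y ≤ A ^ 2 := by nlinarith
  have h5 : Sg - η2 * A - e - 2 * A ^ 2 ≤ y - y * y := by nlinarith
  calc _ ≤ (y - y * y) * (1 + y) := by gcongr
    _ = y - y ^ 3 := by ring
    _ ≤ y := by linarith [pow_nonneg hy0 3]

lemma dens_up_alg {P Z y : ℝ} (hZ : 0 < Z) (hy0 : 0 ≤ y) (hP : P * (1 + y) = y * Z) : P ≤ y * Z := by
  have h1 : P = y / (1 + y) * Z := by
    rw [div_mul_eq_mul_div, eq_div_iff (by linarith)]; exact hP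
  rw [h1]
  gcongr
  exact div_le_self hy0 (by linarith)

lemma exp_neg_le_half {y : ℝ} (h0 : 0 ≤ y) (h1 : y ≤ 1) : Real.exp (-y) ≤ 1 - y / 2 := by
  have h2 := Real.add_one_le_exp y
  rw [Real.exp_neg, inv_le_comm₀ (Real.exp_pos _) (by linarith)]
  refine le_trans ?_ h2
  rw [inv_le_iff_one_le_mul₀ (by linarith)]
  nlinarith

lemma sqrt_inv66 {x y : ℝ} (hx : 0 < x) (h : y ≤ 1 / x ^ 66) : Real.sqrt y ≤ 1 / x ^ 33 := by
  apply Real.sqrt_le_iff.2 ⟨by positivity, ?_⟩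
  calc y ≤ 1 / x ^ 66 := h
    _ = _ := by ring

lemma dens_xi {ζ β h : ℝ} {n M : ℕ} (hn : 1 ≤ n) (hζ : 0 < ζ) (hβ : 0 < β) (hh : 0 < h)
    (he : ζ ^ (n * M) = Real.exp (-(β * h))) : ζ ^ M = Real.exp (-(β / n * h)) ∧ ζ ^ M < 1 ∧ ζ < 1 := by
  have hn0 : (0 : ℝ) < n := by exact_mod_cast hn
  have hξ : ζ ^ M = Real.exp (-(β / n * h)) := by
    have e1 : (ζ ^ M) ^ n = Real.exp (-(β / n * h)) ^ n := by
      rw [← pow_mul, mul_comm M n, he, ← Real.exp_nat_mul]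
      congr 1; field_simp
    exact (pow_left_inj₀ (by positivity) (by positivity) (by omega)).1 e1
  have hξ1 : ζ ^ M < 1 := by
    rw [hξ, Real.exp_lt_one_iff]
    have : 0 < β / n * h := by positivity
    linarith
  refine ⟨hξ, hξ1, ?_⟩
  by_contra hc
  exact absurd (one_le_pow₀ (not_lt.1 hc)) (not_le.2 hξ1)

lemma dens_par {L s : ℕ} [NeZero L] {g : GD (XX L s)} {n u l w nw K R r Kc k k0 : ℕ}
    [NeZero (n * g.M)] {β h x ζ ζ' ε1 ε2 : ℝ} {σ : ℕ → ℝ} (hok : g.Ok) (hpe : g.p = β / (4 * n))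
    (hnu : n = 16 * u) (hu : u = l * w) (hl : 1 ≤ l) (hw : 1 ≤ w) (hlG : g.G * β ≤ l)
    (hnw : nw = (k0 + 1) * (16 * l)) (hk : k ≤ k0) (hgeo : Geo L Kc K R r nw) (hx0 : 0 < x)
    (hxw : x ≤ w) (hζ0 : 0 ≤ ζ') (hζ : ζ' ≤ ζ) (hζ1 : ζ < 1) (hβ : 0 < β) (hh : 0 < h)
    (hξ : ζ ^ g.M = Real.exp (-(β / n * h))) (hξ1 : ζ ^ g.M < 1) (hδ : β / n ≤ 1 / (2 * h))
    (hr : 1 / h ≤ r) (h1 : 0 ≤ ε1) (h2 : 0 ≤ ε2) (he1 : 2 * s * ε1 ≤ (1 / 2) ^ 200)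
    (hσ : ∀ j, 0 ≤ σ j) (hF : g.FreeBd w nw σ) (hbh : g.BH n ζ' ε1 ε2) :
    Par g n u l w nw K R r Kc k ζ' (ζ ^ g.M) ε1 ε2 (x / u) σ := by
  have hl0 : (0 : ℝ) < l := by exact_mod_cast hl
  have hw0 : (0 : ℝ) < w := by exact_mod_cast hw
  have hu' : (u : ℝ) = l * w := by rw [hu]; push_cast; ring
  have hn' : (n : ℝ) = 16 * (l * w) := by rw [hnu]; push_cast; rw [hu']
  have hn0 : (0 : ℝ) < n := by rw [hn']; positivity
  set y : ℝ := β / n * h with hy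
  have hy0 : 0 < y := by positivity
  have hy1 : y ≤ 1 / 2 := by
    calc y ≤ 1 / (2 * h) * h := by rw [hy]; gcongr
      _ = 1 / 2 := by field_simp
  refine ⟨hok, hnu, hu, hl, hw, ?_, ?_, hgeo, by positivity, ?_, hζ0, by linarith only [hζ, hζ1],
    by gcongr, ?_, hξ1, ?_, h1, h2, he1, hσ, hF, hbh⟩
  · rw [hpe, hn']
    calc 28 * (β / (4 * (16 * ((l : ℝ) * w)))) * g.G * w = 28 / 64 * ((g.G * β) / l) := by
          field_simp; ring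
      _ ≤ 28 / 64 * 1 := by gcongr; rwa [div_le_one hl0]
      _ ≤ 1 := by norm_num
  · rw [hnw]; exact Nat.mul_le_mul_right _ (by omega)
  · rw [div_le_one (by rw [hu']; positivity), hu']
    have : (1 : ℝ) ≤ l := by exact_mod_cast hl
    nlinarith only [this, hxw, hw0]
  · rw [hξ]; linarith only [Real.add_one_le_exp (-y), hy1]
  · have a2 : (1 : ℝ) ≤ r := by exact_mod_cast hgeo.hr
    have a3 : 1 / (r : ℝ) ^ 2 ≤ h := by
      rw [div_le_iff₀ (by positivity)]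
      rw [div_le_iff₀ hh] at hr
      nlinarith only [hr, a2, hh]
    have a4 := exp_neg_le_half hy0.le (by linarith only [hy1])
    rw [hξ, hpe]
    calc β / (4 * n) / (r : ℝ) ^ 2 = β / n / 4 * (1 / (r : ℝ) ^ 2) := by ring
      _ ≤ β / n / 4 * h := by gcongr
      _ = y / 4 := by rw [hy]; ring
      _ ≤ _ := by linarith only [a4, hy0]

lemma dens_eta {C p β τ e1 e2 : ℝ} {M L Kc R n : ℕ} (hp : p = β / (4 * n)) (hτ : 0 < τ)
    (hδ : β / n ≤ τ / (2 * (M + 1))) (hcat : (L : ℝ) ^ 3 * (1 / 2) ^ (2 ^ Kc) ≤ τ)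
    (hC : C * (6 * (R : ℝ) + 1) ^ 3 * (e2 ^ 6 + e1 ^ 16) ≤ τ) :
    etaB C p M L Kc R e1 e2 ≤ 3 * τ := by
  have a1 : 7 * p * M ≤ τ := by
    have : (0 : ℝ) ≤ M := Nat.cast_nonneg _
    have hp4 : p = β / n / 4 := by rw [hp]; ring
    rw [hp4]
    calc 7 * (β / n / 4) * M ≤ 7 * (τ / (2 * (M + 1)) / 4) * M := by gcongr
      _ ≤ 7 * (τ / (2 * (M + 1)) / 4) * (M + 1) := by gcongr; linarith
      _ = 7 / 8 * τ := by field_simp; norm_num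
      _ ≤ _ := by linarith
  unfold etaB
  linarith

/-- final algebra; `b = β ^ (3/2)`, `τ` the tiny errors, `κ` the lost mass error -/
lemma dens_fin {s k0 : ℕ} (hs : 1 ≤ s) {c η S η1 η2 A b τ κ z D rr Sg P Z ζ lam e E : ℝ}
    (hη : 0 < η) (hb : 0 < b) (hτ : 0 ≤ τ) (hκ : 0 ≤ κ) (hSc : |S - c| ≤ η / 8)
    (hη1 : k0 * η1 ≤ η / 8 / s) (hA : A = |c| + η) (hη2 : η2 = η / 8 / s / A)
    (hD : D ≤ η / 8 / s) (b3 : (8 * k0 + 132) * τ ≤ η / 8 / s / 4 / b)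
    (b4 : 2 * k0 * κ ≤ η / 8 / s / 4 / b) (b5 : 2 * (A / b) ^ 2 ≤ η / 8 / s / 4 / b)
    (hSg : |Sg - S / b / s| ≤ k0 * (η1 / b + τ)) (hS0 : 0 ≤ Sg)
    (hup : rr ≤ Sg + k0 * E + z + D / b) (hE : E ≤ 7 * τ + κ) (hz : z ≤ 132 * τ)
    (hr0 : 0 ≤ rr) (hζ0 : 0 ≤ ζ) (hζ1 : ζ < 1) (hZ : 1 ≤ Z) (hP : P * (1 + ζ * rr) = ζ * rr * Z)
    (he0 : 0 ≤ e) (he : e ≤ 2 * κ) (hl1 : lam ≤ 1)
    (hlow : lam * (Sg - k0 * e) ≤ ζ * rr * (1 + Sg)) :
    P ≤ (c + η) / b / s * Z ∧ (1 - η2 ≤ lam → (c - η) / b / s * Z ≤ P) := by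
  have hs' : (1 : ℝ) ≤ s := by exact_mod_cast hs
  have hk : (0 : ℝ) ≤ k0 := Nat.cast_nonneg _
  have hA0 : 0 < A := by rw [hA]; positivity
  set ε : ℝ := η / 8 / s / b with hεd
  have hε0 : 0 < ε := by positivity
  have e4 : η / 8 / s / 4 / b = ε / 4 := by rw [hεd]; ring
  rw [e4] at b3 b4 b5
  have b1 : k0 * (η1 / b) ≤ ε := by rw [← mul_div_assoc, hεd]; gcongr
  have b2 : D / b ≤ ε := by rw [hεd]; gcongr
  have b6 : |S / b / s - c / b / s| ≤ ε := by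
    rw [← sub_div, ← sub_div, abs_div, abs_div, abs_of_pos hb,
      abs_of_pos (by positivity : (0 : ℝ) < s), hεd, div_right_comm]
    gcongr
  have b7 : 0 ≤ k0 * τ := by positivity
  have b8 : 0 ≤ k0 * κ := by positivity
  have b9 : k0 * E ≤ k0 * (7 * τ + κ) := by gcongr
  have b10 : k0 * e ≤ k0 * (2 * κ) := by gcongr
  obtain ⟨hSg1, hSg2⟩ := abs_le.1 hSg
  obtain ⟨hb61, hb62⟩ := abs_le.1 b6
  have hrr : rr ≤ c / b / s + 8 * ε := by linarith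
  have e8 : (c + η) / b / s = c / b / s + 8 * ε := by rw [hεd]; field_simp
  have e9 : (c - η) / b / s = c / b / s - 8 * ε := by rw [hεd]; field_simp
  have hyr : ζ * rr ≤ rr := by nlinarith only [hr0, hζ1]
  refine ⟨(dens_up_alg (by linarith) (by positivity) hP).trans ?_, fun hl => ?_⟩
  · rw [e8]; gcongr; linarith
  · have hAx : (c + η) / b / s ≤ A / b := by
      calc (c + η) / b / s ≤ A / b / s := by gcongr; rw [hA]; linarith [le_abs_self c]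
        _ ≤ _ := div_le_self (by positivity) hs'
    have := dens_alg (A := A / b) (by linarith) (by positivity) hP hS0 (by positivity) hl1 hl hlow
      (by linarith) (by linarith) (by rw [hη2]; positivity)
    refine le_trans ?_ this
    have c1 : η2 * (A / b) = ε := by rw [hη2, hεd]; field_simp
    rw [e9, c1]
    exact mul_le_mul_of_nonneg_right (by linarith) (by linarith)

lemma dens_inner {L s : ℕ} [NeZero L] {g : GD (XX L s)} {n l w nw K R r Kc k0 m ρA ρB : ℕ}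
    [NeZero n] [NeZero (n * g.M)] {x h ζ η c Cc Cs Cσ D S η1 η2 A : ℝ} (hs : 1 ≤ s) (hη : 0 < η)
    (hcrude : ∀ {u k : ℕ} {ζ' : ℝ},
      Par g n u l w nw K R r Kc k ζ' (ζ ^ g.M) (1 / x ^ 50) (1 / x ^ 140) (x / u) (psig Cσ) →
      ∀ (P : Finset (ZMod n × XX L s)) (k : ZMod n) (B : Finset Z3) (c : Z3 → Fin s), Adm L B →
      (∀ e, (B.filter fun a => nrm (e - a) ≤ 2 * R).card ≤ ⌊x ^ 26⌋₊) →
      ∑ a ∈ B.image fun y => (prj L y, c y), g.rB n ζ' P k (B.image fun y => (prj L y, c y)) a ≤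
        B.card * (2 * lamB s nw K R
          (etaB Cc g.p g.M L Kc R (2 * s * (1 / x ^ 50)) (2 * s * (1 / x ^ 140))) (x / u * u) +
        Cc / (g.p * u) * (x / u * u) ^ 2 * ((⌊x ^ 26⌋₊ : ℕ) + 1)))
    (hsharp : ∀ {u k0 : ℕ} {ζ' : ℝ},
      Par g n u l w nw K R r Kc k0 ζ' (ζ ^ g.M) (1 / x ^ 50) (1 / x ^ 140) (x / u) (psig Cσ) →
      ∀ (P : Finset (ZMod n × XX L s)) (k : ZMod n) (B : Finset (XX L s)), B.card ≤ 6 →
      ∀ {ρ ρ' : ℕ}, 1 ≤ ρ → 1 ≤ ρ' →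
      ∑ a ∈ B, g.rB n ζ' P k B a ≤
      (∑ a ∈ B, ∑ b ∈ B, ∑ j ∈ Icc 1 k0, (kp g.Kfs 0 (j * n) a b + Real.exp (-(x / u * u / 2)) +
          2 * etaB Cs g.p g.M L Kc R (2 * s * (1 / x ^ 50)) (2 * s * (1 / x ^ 140)) +
          psig Cσ (7 * l) * Real.sqrt (lostB s nw K (2 * s * (1 / x ^ 140)) (psig Cσ)))) +
        12 * lamB s nw K R
          (etaB Cs g.p g.M L Kc R (2 * s * (1 / x ^ 50)) (2 * s * (1 / x ^ 140))) (x / u * u) +
        144 * Real.sqrt (alB Cs (g.p * u) (x / u * u) k0 ρ R (psig Cσ ((16 * k0 + 8) * l))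
            (lostB s nw K (2 * s * (1 / x ^ 140)) (psig Cσ))) *
          Real.sqrt (alB Cs (g.p * u) (x / u * u) 0 ρ' R (psig Cσ l)
            (lostB s nw K (2 * s * (1 / x ^ 140)) (psig Cσ))))
    (hCσ : 0 < Cσ) (hD0 : 0 < D) (hm1' : (1 : ℝ) ≤ m) (hmD : 144 * D / m ≤ η / 8 / s)
    (hS : S = ∑ j ∈ Icc 1 k0, 1 / (2 * Real.pi * s) ^ (3 / 2 : ℝ) / (j : ℝ) ^ (3 / 2 : ℝ))
    (hSc : |S - c| ≤ η / 8) (hη1' : k0 * η1 ≤ η / 8 / s) (hA : A = |c| + η)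
    (hη2 : η2 = η / 8 / s / A)
    (hcr : 2 * (11 / x ^ 400) + Cc / (x ^ 100 / 64) * x ^ 2 * ((⌊x ^ 26⌋₊ : ℝ) + 1) ≤ 1 / x ^ 50 / 2)
    (hexp : Real.exp (-(x / 2)) ≤ 1 / x ^ 400) (sm1 : 132 / x ^ 400 ≤ 1 / 4 / x ^ 140)
    (sm2 : 144 * D / x ^ 150 ≤ 1 / 4 / x ^ 140)
    (sm3 : (8 * k0 + 132) / x ^ 400 ≤ η / 8 / s / 4 / x ^ 150)
    (sm4 : 2 * k0 * Cσ / x ^ 183 ≤ η / 8 / s / 4 / x ^ 150)
    (sm5 : 2 * A ^ 2 / x ^ 300 ≤ η / 8 / s / 4 / x ^ 150) (hx0 : 0 < x)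
    (hx200' : 2 * s * (1 / x ^ 50) ≤ (1 / 2) ^ 200) (hl1 : 1 ≤ l)
    (hlG : ((13 * s ^ 2 : ℕ) : ℝ) * x ^ 100 ≤ l) (hnw : nw = (k0 + 1) * (16 * l))
    (hetaC : Cc * (6 * (R : ℝ) + 1) ^ 3 *
      ((2 * s * (1 / x ^ 140)) ^ 6 + (2 * s * (1 / x ^ 50)) ^ 16) ≤ 1 / x ^ 400)
    (hetaS : Cs * (6 * (R : ℝ) + 1) ^ 3 *
      ((2 * s * (1 / x ^ 140)) ^ 6 + (2 * s * (1 / x ^ 50)) ^ 16) ≤ 1 / x ^ 400)
    (hnst : ∀ c : ℕ, c ^ 4 ≤ 16 * (1 + 4 * R) → c ≤ ⌊x ^ 26⌋₊)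
    (hlam : ∀ η ≤ 3 / x ^ 400, lamB s nw K R η x ≤ 11 / x ^ 400) (hRe : R = nw * K + r0)
    (hA1 : alB Cs (x ^ 100 / 64) x k0 ρA R (psig Cσ ((16 * k0 + 8) * l))
      (lostB s nw K (2 * s * (1 / x ^ 140)) (psig Cσ)) ≤ D / ((m : ℝ) ^ 2 * x ^ 150))
    (hB1 : alB Cs (x ^ 100 / 64) x 0 ρB R (psig Cσ l)
      (lostB s nw K (2 * s * (1 / x ^ 140)) (psig Cσ)) ≤ D / x ^ 150)
    (hB8 : alB Cs (x ^ 100 / 64) x 0 ρB R (psig Cσ ((16 * 0 + 8) * l))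
      (lostB s nw K (2 * s * (1 / x ^ 140)) (psig Cσ)) ≤ D / x ^ 150)
    (hρA : 1 ≤ ρA) (hρB : 1 ≤ ρB)
    (hσL : psig Cσ (7 * l) * Real.sqrt (lostB s nw K (2 * s * (1 / x ^ 140)) (psig Cσ)) ≤
      Cσ / x ^ 183)
    (hh : 0 < h) (hr : 1 / h ≤ r) (hr1 : 1 ≤ r) (hLc : 16 * (R + 2 * r + r1) ≤ L)
    (hKc : 8 * aa Kc ≤ L) (hcat : (L : ℝ) ^ 3 * (1 / 2) ^ 2 ^ Kc ≤ 1 / x ^ 400)
    (hn : n = 16 * l * w) (hζ : 0 < ζ) (a : XX L s) (hwd : x ≤ w) (hw1' : 1 ≤ w) (hn1 : 1 ≤ n)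
    (hδ2 : x ^ 100 / n ≤ 1 / (2 * h)) (hζe : ζ ^ (n * g.M) = Real.exp (-(x ^ 100 * h)))
    (hFB : g.FreeBd w nw (psig Cσ))
    (hDG : ∀ j ∈ Icc 1 k0, ∀ a : XX L s, |kp g.Kfs 0 (j * n) a a -
      1 / (2 * Real.pi * s) ^ (3 / 2 : ℝ) / (j : ℝ) ^ (3 / 2 : ℝ) / x ^ 150 / s| ≤
        η1 / x ^ 150 + 1 / x ^ 400)
    (hpe : g.p = x ^ 100 / (4 * n)) (hGe : g.G = 13 * s ^ 2) (hok : g.Ok)
    (hδ3 : x ^ 100 / n ≤ 1 / x ^ 400 / (2 * (g.M + 1))) :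
    (g.circ n).num (fun _ => ζ) {(0, a)} ≤
        (c + η) / x ^ 150 / s * (g.circ n).num (fun _ => ζ) ∅ ∧
      (h ≤ η2 / ((k0 + 1) * x ^ 100) → (c - η) / x ^ 150 / s * (g.circ n).num (fun _ => ζ) ∅ ≤
        (g.circ n).num (fun _ => ζ) {(0, a)}) := by
  have hβpos : 0 < x ^ 100 := by positivity
  have hn0 : (0 : ℝ) < n := by exact_mod_cast hn1
  have hsqD : Real.sqrt (D / x ^ 150) * Real.sqrt (D / x ^ 150) = D / x ^ 150 :=
    Real.mul_self_sqrt (by positivity)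
  have hσL0 : 0 ≤ psig Cσ (7 * l) *
      Real.sqrt (lostB s nw K (2 * s * (1 / x ^ 140)) (psig Cσ)) :=
    mul_nonneg (psig_nonneg hCσ.le _) (Real.sqrt_nonneg _)
  obtain ⟨u, hu⟩ : ∃ u, u = l * w := ⟨_, rfl⟩
  have hnu : n = 16 * u := by rw [hn, hu, mul_assoc]
  have hu0 : (0 : ℝ) < u := by rw [hu]; exact_mod_cast Nat.mul_pos hl1 hw1'
  have hpu : g.p * u = x ^ 100 / 64 := by rw [hpe, hnu]; push_cast; field_simp; norm_num
  have hqu : x / u * u = x := by field_simp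
  obtain ⟨hξ, hξ1, hζ1⟩ := dens_xi hn1 hζ hβpos hh hζe
  have hgeo : Geo L Kc K R r nw :=
    ⟨hRe ▸ Nat.le_add_right _ _, hRe ▸ Nat.le_add_left _ _, hLc, hKc, hr1⟩
  have hPar : ∀ ζ' k, 0 ≤ ζ' → ζ' ≤ ζ → k ≤ k0 → g.BH n ζ' (1 / x ^ 50) (1 / x ^ 140) →
      Par g n u l w nw K R r Kc k ζ' (ζ ^ g.M) (1 / x ^ 50) (1 / x ^ 140) (x / u) (psig Cσ) :=
    fun ζ' k h0 h1' hk hbh => dens_par hok hpe hnu hu hl1 hw1' (hGe ▸ hlG) hnw hk hgeo hx0 hwd h0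
      h1' hζ1 hβpos hh hξ hξ1 hδ2 hr (by positivity) (by positivity) hx200' (psig_nonneg hCσ.le)
      hFB hbh
  have e3 : 3 * (1 / x ^ 400) = 3 / x ^ 400 := by ring
  have hηC := (dens_eta hpe (by positivity) hδ3 hcat hetaC).trans_eq e3
  have hηS := (dens_eta hpe (by positivity) hδ3 hcat hetaS).trans_eq e3
  have hlamC := hlam _ hηC
  have hlamS := hlam _ hηS
  -- the bootstrap
  have hBH : g.BH n ζ (1 / x ^ 50) (1 / x ^ 140) := by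
    refine bh_cont hok hζ.le (by positivity) (by positivity) fun ζ' h0 h1' hbh => ?_
    have hP := hPar ζ' 0 h0 h1' (Nat.zero_le _) hbh
    refine bh_of_sums hok h0 (h1'.trans_lt hζ1) (fun P k B cc hB => ?_) fun P k B hB => ?_
    · refine (hcrude hP P k B cc hB
        (fun e => hnst _ (adm_count hB e R))).trans ?_
      rw [hpu, hqu]
      exact mul_le_mul_of_nonneg_left (by linarith only [hlamC, hcr]) (Nat.cast_nonneg _)
    · refine (hsharp hP P k B hB hρB hρB).trans ?_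
      rw [hpu, hqu]
      simp only [show Icc 1 0 = (∅ : Finset ℕ) by rfl, Finset.sum_empty, Finset.sum_const_zero,
        zero_add]
      calc _ ≤ 12 * (11 / x ^ 400) + 144 * Real.sqrt (D / x ^ 150) * Real.sqrt (D / x ^ 150) := by
            gcongr
        _ = 132 / x ^ 400 + 144 * D / x ^ 150 := by rw [mul_assoc, hsqD]; ring
        _ ≤ 1 / 4 / x ^ 140 + 1 / 4 / x ^ 140 := add_le_add sm1 sm2
        _ = _ := by ring
  have hP := hPar ζ k0 hζ.le le_rfl le_rfl hBH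
  have hup := hsharp hP ∅ 0 {a} (by simp) hρA hρB
  have hlow := lower_sharp hP 0 a
  rw [hpu, hqu] at hup
  rw [Finset.sum_singleton, Finset.sum_singleton, Finset.sum_singleton] at hup
  simp only [add_assoc, Finset.sum_add_distrib, Finset.sum_const,
    Nat.card_Icc, nsmul_eq_mul, Nat.add_sub_cancel] at hup
  simp only [Finset.sum_sub_distrib, Finset.sum_const, Nat.card_Icc, nsmul_eq_mul,
    Nat.add_sub_cancel] at hlow
  have a3 : 144 * Real.sqrt (D / ((m : ℝ) ^ 2 * x ^ 150)) * Real.sqrt (D / x ^ 150) =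
      144 * D / m / x ^ 150 := by
    rw [mul_assoc, ← Real.sqrt_mul (by positivity),
      show D / ((m : ℝ) ^ 2 * x ^ 150) * (D / x ^ 150) =
      (D / m / x ^ 150) ^ 2 by field_simp, Real.sqrt_sq (by positivity)]
    ring
  have key := dens_fin (τ := 1 / x ^ 400) (κ := Cσ / x ^ 183) (b := x ^ 150)
    (Sg := ∑ j ∈ Icc 1 k0, kp g.Kfs 0 (j * n) a a) (rr := g.rB n ζ ∅ 0 {a} a)
    (z := 12 * (11 / x ^ 400)) (E := 7 * (1 / x ^ 400) + Cσ / x ^ 183)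
    hs hη (by positivity) (by positivity) (by positivity) hSc hη1' hA hη2 hmD
    (by rw [mul_one_div]; exact sm3) (by rw [← mul_div_assoc]; exact sm4)
    (by rw [div_pow, ← pow_mul, ← mul_div_assoc]; exact sm5)
    (by
      rw [hS, Finset.sum_div, Finset.sum_div, ← Finset.sum_sub_distrib]
      refine (Finset.abs_sum_le_sum_abs _ _).trans ?_
      refine (Finset.sum_le_sum fun j hj => hDG j hj a).trans ?_
      rw [Finset.sum_const, Nat.card_Icc, nsmul_eq_mul, Nat.add_sub_cancel])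
    (Finset.sum_nonneg fun j _ => (kp_dstoch hok.Kfs_dstoch _ _).1 _ _)
    (by
      refine hup.trans ?_
      rw [← a3]
      calc _ ≤ (∑ j ∈ Icc 1 k0, kp g.Kfs 0 (j * n) a a) + (k0 * (1 / x ^ 400) +
            (k0 * (2 * (3 / x ^ 400)) + (k0 * (Cσ / x ^ 183) + (12 * (11 / x ^ 400) +
            144 * Real.sqrt (D / ((m : ℝ) ^ 2 * x ^ 150)) * Real.sqrt (D / x ^ 150))))) := by
            gcongr
        _ = _ := by ring)
    le_rfl (le_of_eq (by ring))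
    (rr_nonneg (hok.circ n) (dP_nonneg _ _ hζ.le _) (dP_le _ _ hζ.le _) hζ1 _ _) hζ.le hζ1
    (one_le_num (hok.circ n) fun _ => hζ.le) (num_single_rB (n := n) hok hζ.le hζ1 a)
    (by rw [mul_assoc]; positivity) (by rw [mul_assoc]; gcongr)
    (pow_le_one₀ (by positivity) hξ1.le) hlow
  refine ⟨key.1, fun hh0 => key.2 ?_⟩
  calc 1 - η2 ≤ 1 - (k0 + 1) * x ^ 100 * h := by
        rw [le_div_iff₀ (by positivity)] at hh0
        linarith only [hh0]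
    _ ≤ Real.exp (-((k0 + 1) * x ^ 100 * h)) := by
        linarith only [Real.add_one_le_exp (-((k0 + 1) * x ^ 100 * h))]
    _ = (ζ ^ g.M) ^ ((k0 + 1) * n) := by
        rw [hξ, ← Real.exp_nat_mul]; congr 1; push_cast; field_simp
    _ ≤ _ := pow_le_pow_of_le_one (by positivity) hξ1.le (by rw [add_mul, one_mul]; omega)

theorem density_x (s : ℕ) [NeZero s] (η : ℝ) (hη : 0 < η) : ∀ᶠ x : ℝ in atTop,
    ∃ (l : ℕ) (h0 : ℝ), 1 ≤ l ∧ 0 < h0 ∧ ∀ h : ℝ, 0 < h → ∃ L0 : ℕ, ∀ (L : ℕ) [NeZero L], L0 ≤ L →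
    ∃ w0 : ℕ, ∀ (w n : ℕ), w0 ≤ w → n = 16 * l * w →
    ∀ [NeZero (n * (sweepGD L s (x ^ 100 / (4 * n))).M)] (ζ : ℝ), 0 < ζ →
    ζ ^ (n * (sweepGD L s (x ^ 100 / (4 * n))).M) = Real.exp (-(x ^ 100 * h)) → ∀ a : XX L s,
    ((sweepGD L s (x ^ 100 / (4 * n))).circ n).num (fun _ => ζ) {(0, a)} ≤
        (blochC s + η) / x ^ 150 / s *
          ((sweepGD L s (x ^ 100 / (4 * n))).circ n).num (fun _ => ζ) ∅ ∧
      (h ≤ h0 → (blochC s - η) / x ^ 150 / s *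
          ((sweepGD L s (x ^ 100 / (4 * n))).circ n).num (fun _ => ζ) ∅ ≤
        ((sweepGD L s (x ^ 100 / (4 * n))).circ n).num (fun _ => ζ) {(0, a)}) := by
  have hs : 1 ≤ s := Nat.one_le_iff_ne_zero.2 (NeZero.ne s)
  have hs' : (1 : ℝ) ≤ s := by exact_mod_cast hs
  have hG : 1 ≤ 13 * s ^ 2 := by nlinarith
  obtain ⟨Cc, hCc, hcrude⟩ := upper_crude s (13 * s ^ 2)
  obtain ⟨Cs, hCs, hsharp⟩ := upper_sharp s (13 * s ^ 2)
  obtain ⟨Cσ, hCσ, hfree⟩ := dens_free s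
  generalize hc : blochC s = c
  obtain ⟨D, hD⟩ : ∃ D : ℝ, D = 64 * Cs * (4 * Cσ + 2) := ⟨_, rfl⟩
  have hD0 : 0 < D := by rw [hD]; positivity
  -- choice of `m` and `k0`
  obtain ⟨m, hm⟩ := exists_nat_ge (max 1 (144 * D * s / (η / 8)))
  have hm1' : (1 : ℝ) ≤ m := (le_max_left _ _).trans hm
  have hm1 : 1 ≤ m := by exact_mod_cast hm1'
  have hmD : 144 * D / m ≤ η / 8 / s := by
    have := (le_max_right _ _).trans hm
    rw [div_le_iff₀ (by positivity)] at this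
    rw [div_le_div_iff₀ (by positivity) (by positivity)]
    linarith
  obtain ⟨k0, hk0, hkm⟩ := (((zeta_partial s hs).eventually
    (Metric.closedBall_mem_nhds _ (show 0 < η / 8 by positivity))).and
    (eventually_ge_atTop (m ^ 4))).exists
  obtain ⟨S, hS⟩ : ∃ S : ℝ,
    S = ∑ j ∈ Icc 1 k0, 1 / (2 * Real.pi * s) ^ (3 / 2 : ℝ) / (j : ℝ) ^ (3 / 2 : ℝ) := ⟨_, rfl⟩
  have hSc : |S - c| ≤ η / 8 := by rw [hS, ← hc, ← Real.dist_eq]; exact hk0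
  clear hk0
  have hk0' : (0 : ℝ) ≤ k0 := Nat.cast_nonneg _
  obtain ⟨η1, hη1⟩ : ∃ η1 : ℝ, η1 = η / 8 / s / (k0 + 1) := ⟨_, rfl⟩
  have hη1' : k0 * η1 ≤ η / 8 / s := by
    rw [hη1, ← mul_div_assoc, div_le_iff₀ (by positivity)]
    have : 0 < η / 8 / s := by positivity
    nlinarith only [this]
  obtain ⟨A, hA⟩ : ∃ A : ℝ, A = |c| + η := ⟨_, rfl⟩
  have hA0 : 0 < A := by rw [hA]; positivity
  obtain ⟨η2, hη2⟩ : ∃ η2 : ℝ, η2 = η / 8 / s / A := ⟨_, rfl⟩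
  have hη20 : 0 < η2 := by rw [hη2]; positivity
  obtain ⟨β0, hdiag⟩ := dens_diag s (show 0 < η1 by rw [hη1]; positivity) k0
  have hpow : Tendsto (fun x : ℝ => x ^ 100) atTop atTop := tendsto_pow_atTop (by norm_num)
  have hε : 0 < η / 8 / s / 4 := by positivity
  filter_upwards [ev_PB hG k0, ev_eta s hG k0 hCc.le, ev_eta s hG k0 hCs.le, ev_lam s hG k0,
    ev_lost s hG k0 hCσ.le, ev_al hG k0 k0 hm1 hCs.le hCσ.le, ev_al hG k0 0 le_rfl hCs.le hCσ.le,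
    ev_nst hG k0, ev_crude hCc.le, ev_exp 400, hpow.eventually_ge_atTop β0,
    ev_small 132 (show 140 + 1 ≤ 400 by norm_num) (show (0 : ℝ) < 1 / 4 by norm_num),
    ev_small (144 * D) (show 140 + 1 ≤ 150 by norm_num) (show (0 : ℝ) < 1 / 4 by norm_num),
    ev_small (8 * k0 + 132) (show 150 + 1 ≤ 400 by norm_num) hε,
    ev_small (2 * k0 * Cσ) (show 150 + 1 ≤ 183 by norm_num) hε,
    ev_small (2 * A ^ 2) (show 150 + 1 ≤ 300 by norm_num) hε,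
    ev_small (2 * s) (show 0 + 1 ≤ 50 by norm_num) (show (0 : ℝ) < (1 / 2) ^ 200 by positivity)]
    with x hb hetaC hetaS hlam hlost halA halB hnst hcr hexp hβ0 sm1 sm2 sm3 sm4 sm5 hx200
  have h1 : (1 : ℝ) ≤ x := one_le_two.trans hb.x1
  have hx0 : 0 < x := one_pos.trans_le h1
  have hβ1 : 1 ≤ x ^ 100 := one_le_pow₀ h1
  have hβpos : 0 < x ^ 100 := by positivity
  have hx200' : 2 * s * (1 / x ^ 50) ≤ (1 / 2) ^ 200 := by
    rw [← mul_div_assoc, mul_one]; simpa only [pow_zero, div_one] using hx200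
  clear hx200
  have hl1 : 1 ≤ pl (13 * s ^ 2) x := by exact_mod_cast hβ1.trans hb.l1
  have hlG : ((13 * s ^ 2 : ℕ) : ℝ) * x ^ 100 ≤ pl (13 * s ^ 2) x := Nat.le_ceil _
  have hnw : pnw (13 * s ^ 2) k0 x = (k0 + 1) * (16 * pl (13 * s ^ 2) x) := rfl
  have hRe : pR (13 * s ^ 2) k0 x = pnw (13 * s ^ 2) k0 x * pK x + r0 := rfl
  have hl100 := hb.l1
  have hl2 := hb.l2
  clear hb
  generalize pl (13 * s ^ 2) x = l at *
  generalize pnw (13 * s ^ 2) k0 x = nw at *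
  generalize pR (13 * s ^ 2) k0 x = R at *
  generalize pK x = K at *
  have hσ1 : ∀ j : ℕ, 1 ≤ j → psig Cσ (j * l) ≤ Cσ / (((1 : ℕ) : ℝ) ^ 6 * x ^ 150) := by
    intro j hj
    apply psig_le hCσ.le hx0 le_rfl
    have : (1 : ℝ) ≤ j := by exact_mod_cast hj
    push_cast
    calc (1 : ℝ) ^ 4 * x ^ 100 = 1 * x ^ 100 := by rw [one_pow]
      _ ≤ (j : ℝ) * l := by gcongr
  have hB1 := halB.2 _ _ (by simpa only [one_mul] using hσ1 1 le_rfl) hlost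
  have hB8 := halB.2 _ _ (hσ1 (16 * 0 + 8) (by norm_num)) hlost
  have hA1 := halA.2 (psig Cσ ((16 * k0 + 8) * l)) _ (by
    apply psig_le hCσ.le hx0 hm1
    have a1 : ((m : ℝ)) ^ 4 ≤ k0 := by exact_mod_cast hkm
    push_cast
    calc (m : ℝ) ^ 4 * x ^ 100 ≤ (16 * k0 + 8) * x ^ 100 := by gcongr; linarith only [a1, hk0']
      _ ≤ _ := by gcongr) hlost
  rw [← hD] at hB1 hB8 hA1
  simp only [Nat.cast_one, one_pow, one_mul] at hB1 hB8 hσ1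
  have hρA := halA.1
  have hρB := halB.1
  clear halA halB
  have hσL : psig Cσ (7 * l) * Real.sqrt (lostB s nw K (2 * s * (1 / x ^ 140)) (psig Cσ)) ≤
      Cσ / x ^ 183 := by
    have hLM := sqrt_inv66 hx0 hlost
    have hσ7 := hσ1 7 (by norm_num)
    calc _ ≤ Cσ / x ^ 150 * (1 / x ^ 33) := by gcongr
      _ = _ := by field_simp
  have hx150 : (x ^ 100) ^ (3 / 2 : ℝ) = x ^ 150 := by
    rw [rpow_three_half hβpos.le, show x ^ 100 = (x ^ 50) ^ 2 by ring,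
      Real.sqrt_sq (by positivity)]
    ring
  refine ⟨l, η2 / ((k0 + 1) * x ^ 100), hl1, by positivity, fun h hh => ?_⟩
  obtain ⟨r, hr, hr1⟩ : ∃ r : ℕ, 1 / h ≤ r ∧ 1 ≤ r :=
    ⟨⌈1 / h⌉₊ + 1, (Nat.le_ceil _).trans (by exact_mod_cast Nat.le_succ _), Nat.le_add_left _ _⟩
  obtain ⟨L1, hL1⟩ := exists_Kc (show 0 < 1 / x ^ 400 by positivity)
  obtain ⟨L2, hL2⟩ := hdiag _ hβ0
  obtain ⟨L3, hL3'⟩ := exists_nat_ge (nw * x ^ 100)
  refine ⟨max (max L1 L2) (max (16 * (R + 2 * r + r1)) (L3 + 3)), fun L _ hL => ?_⟩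
  have hLa : L1 ≤ L := ((le_max_left _ _).trans (le_max_left _ _)).trans hL
  have hLb : L2 ≤ L := ((le_max_right _ _).trans (le_max_left _ _)).trans hL
  have hLc : 16 * (R + 2 * r + r1) ≤ L := ((le_max_left _ _).trans (le_max_right _ _)).trans hL
  have hLd : L3 + 3 ≤ L := ((le_max_right _ _).trans (le_max_right _ _)).trans hL
  have hL3 : 3 ≤ L := (Nat.le_add_left _ _).trans hLd
  have hLT : nw * x ^ 100 ≤ (L : ℝ) ^ 2 := by
    refine hL3'.trans ?_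
    have : L3 ≤ L ^ 2 := ((Nat.le_add_right _ _).trans hLd).trans (Nat.le_self_pow two_ne_zero _)
    exact_mod_cast this
  obtain ⟨Kc, hKc, hcat⟩ := hL1 L hLa
  obtain ⟨w1, hw1⟩ := hfree (x ^ 100) l nw hβ1 hl1 hl2 L hL3 hLT
  obtain ⟨w2, hw2⟩ := hL2 L hLb (1 / x ^ 400) (by positivity)
  obtain ⟨M0, hM0⟩ : ∃ M0, M0 = (sweepGD L s 0).M := ⟨_, rfl⟩
  obtain ⟨w3, hw3⟩ := exists_w0 hβpos (show 0 < min (min 2 (1 / (2 * h)))
    (1 / x ^ 400 / (2 * (M0 + 1))) by positivity)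
  refine ⟨max (max w1 w2) (max w3 ⌈x⌉₊), fun w n hw hn _ ζ hζ hζe a => ?_⟩
  have hwa : w1 ≤ w := ((le_max_left _ _).trans (le_max_left _ _)).trans hw
  have hwb : w2 ≤ w := ((le_max_right _ _).trans (le_max_left _ _)).trans hw
  have hwc : w3 ≤ w := ((le_max_left _ _).trans (le_max_right _ _)).trans hw
  have hwd : x ≤ w := (Nat.le_ceil x).trans
    (by exact_mod_cast ((le_max_right _ _).trans (le_max_right _ _)).trans hw)
  obtain ⟨hw1', hn1, hδ⟩ := hw3 l w n hl1 hwc hn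
  have hδ1 : x ^ 100 / n ≤ 2 := hδ.trans ((min_le_left _ _).trans (min_le_left _ _))
  have hδ2 : x ^ 100 / n ≤ 1 / (2 * h) := hδ.trans ((min_le_left _ _).trans (min_le_right _ _))
  have hδ3 : x ^ 100 / n ≤ 1 / x ^ 400 / (2 * (M0 + 1)) := hδ.trans (min_le_right _ _)
  have : NeZero n := ⟨Nat.one_le_iff_ne_zero.1 hn1⟩
  have hn0 : (0 : ℝ) < n := by exact_mod_cast hn1
  have hFB := hw1 w n hwa hn
  have hDG := hw2 l w n hl1 hwb hn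
  rw [hx150] at hDG
  have hMe : M0 = (sweepGD L s (x ^ 100 / (4 * n))).M := hM0.trans (sweepGD_M L s _ _)
  have hpe : (sweepGD L s (x ^ 100 / (4 * n))).p = x ^ 100 / (4 * n) := rfl
  have hGe : (sweepGD L s (x ^ 100 / (4 * n))).G = 13 * s ^ 2 := rfl
  have hok : (sweepGD L s (x ^ 100 / (4 * n))).Ok :=
    sweepGD_ok hL3 (by positivity) (by
      rw [show x ^ 100 / (4 * n) = x ^ 100 / n / 4 by ring]; linarith only [hδ1])
  clear hw1 hw2 hw3 hL1 hL2 hM0 hδ hfree hdiag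
  subst hMe
  generalize sweepGD L s (x ^ 100 / (4 * n)) = g at *
  exact dens_inner hs hη (fun hP P k B c hB h => hcrude hP hGe P k B c hB h)
    (fun hP P k B hB _ _ h1 h2 => hsharp hP hGe P k B hB h1 h2) hCσ hD0 hm1' hmD hS hSc hη1' hA hη2
    hcr hexp sm1 sm2 sm3 sm4 sm5 hx0 hx200' hl1 hlG hnw hetaC hetaS hnst hlam hRe hA1 hB1 hB8 hρA
    hρB hσL hh hr hr1 hLc hKc hcat hn hζ a hwd hw1' hn1 hδ2 hζe hFB hDG hpe hGe hok hδ3

theorem density (s : ℕ) [NeZero s] (η : ℝ) (hη : 0 < η) : ∃ β0 : ℝ, ∀ β : ℝ, β0 ≤ β →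
    ∃ (l : ℕ) (h0 : ℝ), 1 ≤ l ∧ 0 < h0 ∧ ∀ h : ℝ, 0 < h → ∃ L0 : ℕ, ∀ (L : ℕ) [NeZero L], L0 ≤ L →
    ∃ w0 : ℕ, ∀ (w n : ℕ), w0 ≤ w → n = 16 * l * w →
    ∀ [NeZero (n * (sweepGD L s (β / (4 * n))).M)] (ζ : ℝ), 0 < ζ →
    ζ ^ (n * (sweepGD L s (β / (4 * n))).M) = Real.exp (-(β * h)) → ∀ x : XX L s,
    ((sweepGD L s (β / (4 * n))).circ n).num (fun _ => ζ) {(0, x)} ≤
        (blochC s + η) / β ^ (3 / 2 : ℝ) / s *
          ((sweepGD L s (β / (4 * n))).circ n).num (fun _ => ζ) ∅ ∧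
      (h ≤ h0 → (blochC s - η) / β ^ (3 / 2 : ℝ) / s *
          ((sweepGD L s (β / (4 * n))).circ n).num (fun _ => ζ) ∅ ≤
        ((sweepGD L s (β / (4 * n))).circ n).num (fun _ => ζ) {(0, x)}) := by
  obtain ⟨x0, hx0⟩ := eventually_atTop.1 (density_x s η hη)
  refine ⟨(max x0 1) ^ 100, fun β hβ => ?_⟩
  have h1 : 0 < max x0 1 := lt_of_lt_of_le one_pos (le_max_right _ _)
  have hβ0 : 0 < β := lt_of_lt_of_le (by positivity) hβ
  obtain ⟨x, hx, rfl⟩ : ∃ x : ℝ, 0 < x ∧ β = x ^ 100 :=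
    ⟨β ^ ((100 : ℕ) : ℝ)⁻¹, by positivity, (Real.rpow_inv_natCast_pow hβ0.le (by norm_num)).symm⟩
  have hxx : max x0 1 ≤ x := (pow_le_pow_iff_left₀ h1.le hx.le (by norm_num)).1 hβ
  have hx150 : (x ^ 100) ^ (3 / 2 : ℝ) = x ^ 150 := by
    rw [rpow_three_half hβ0.le, show x ^ 100 = (x ^ 50) ^ 2 by ring,
      Real.sqrt_sq (by positivity)]
    ring
  rw [hx150]
  exact hx0 x ((le_max_left _ _).trans hxx)

end Vale.Agent.P361
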