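import Vale.Agent.P361.EnvPA

namespace Vale.Agent.P361

open Matrix Finset

section Orb

variable {Y : Type} [Fintype Y] [DecidableEq Y]

omit [Fintype Y] [DecidableEq Y] in
lemma envpb_inv_pow {σ : Equiv.Perm Y} {U : Finset Y} (hU : IsInv σ U) (n : ℕ) (y : Y) :
    (σ ^ n) y ∈ U ↔ y ∈ U := by
  induction n with
  | zero => simp
  | succ n ih => rw [pow_succ', Equiv.Perm.mul_apply, hU, ih]

omit [DecidableEq Y] in
lemma envpb_inv_same {σ : Equiv.Perm Y} {U : Finset Y} (hU : IsInv σ U) {a b : Y}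
    (h : σ.SameCycle a b) : b ∈ U ↔ a ∈ U := by
  obtain ⟨n, -, rfl⟩ := h.exists_pow_eq'
  exact envpb_inv_pow hU n a

/-- invariant closure -/
noncomputable def envpbOrb (σ : Equiv.Perm Y) (B : Finset Y) : Finset Y :=
  Finset.univ.filter fun y => ∃ b ∈ B, σ.SameCycle b y

lemma envpb_mem_orb {σ : Equiv.Perm Y} {B : Finset Y} {y : Y} :
    y ∈ envpbOrb σ B ↔ ∃ b ∈ B, σ.SameCycle b y := by
  simp [envpbOrb]

lemma envpb_orb_inv (σ : Equiv.Perm Y) (B : Finset Y) : IsInv σ (envpbOrb σ B) := by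
  intro y
  simp only [envpb_mem_orb, Equiv.Perm.sameCycle_apply_right]

lemma envpb_subset_orb (σ : Equiv.Perm Y) (B : Finset Y) : B ⊆ envpbOrb σ B :=
  fun b hb => envpb_mem_orb.2 ⟨b, hb, Equiv.Perm.SameCycle.refl _ _⟩

lemma envpb_orb_subset {σ : Equiv.Perm Y} {B U : Finset Y} (hU : IsInv σ U) (h : B ⊆ U) :
    envpbOrb σ B ⊆ U := by
  intro y hy
  obtain ⟨b, hb, hs⟩ := envpb_mem_orb.1 hy
  exact (envpb_inv_same hU hs).2 (h hb)

open Classical in
/-- weight of the invariant sets -/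
noncomputable def envpbZ (σ : Equiv.Perm Y) (d : Y → ℝ) : ℝ :=
  ∑ U : Finset Y, if IsInv σ U then ∏ v ∈ U, d v else 0

lemma envpb_Z_nonneg (σ : Equiv.Perm Y) {d : Y → ℝ} (h0 : ∀ v, 0 ≤ d v) : 0 ≤ envpbZ σ d := by
  refine Finset.sum_nonneg fun U _ => ?_
  split_ifs
  · exact Finset.prod_nonneg fun v _ => h0 v
  · exact le_rfl

omit [Fintype Y] in
lemma envpb_inv_of_swap {σ : Equiv.Perm Y} {a b : Y} {U : Finset Y}
    (hU : IsInv (σ * Equiv.swap a b) U) (hab : a ∈ U ↔ b ∈ U) : IsInv σ U := by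
  intro y
  have h1 := hU (Equiv.swap a b y)
  rw [Equiv.Perm.mul_apply, Equiv.swap_apply_self] at h1
  rw [h1, Equiv.swap_apply_def]
  split_ifs with h2 h3
  · rw [h2]; exact hab.symm
  · rw [h3]; exact hab
  · rfl

open Classical in
lemma envpb_one_side (σ : Equiv.Perm Y) (a b : Y) {d : Y → ℝ} (h0 : ∀ v, 0 ≤ d v)
    (h1 : ∀ v, d v ≤ 1) :
    (∑ U : Finset Y, if IsInv (σ * Equiv.swap a b) U ∧ a ∈ U ∧ b ∉ U then ∏ v ∈ U, d v else 0) ≤
      envpbZ σ d := by
  unfold envpbZ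
  rw [← Finset.sum_filter, ← Finset.sum_filter]
  set O := envpbOrb (σ * Equiv.swap a b) {a} with hO
  have hinj : Set.InjOn (fun U : Finset Y => U \ O)
      (Finset.univ.filter fun U : Finset Y =>
        IsInv (σ * Equiv.swap a b) U ∧ a ∈ U ∧ b ∉ U) := by
    intro U hU V hV h
    have hU' := (Finset.mem_filter.1 hU).2
    have hV' := (Finset.mem_filter.1 hV).2
    have e1 : O ⊆ U := envpb_orb_subset hU'.1 (by simpa using hU'.2.1)
    have e2 : O ⊆ V := envpb_orb_subset hV'.1 (by simpa using hV'.2.1)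
    have h' : U \ O = V \ O := h
    rw [← Finset.sdiff_union_of_subset e1, h', Finset.sdiff_union_of_subset e2]
  calc _ ≤ ∑ U ∈ Finset.univ.filter (fun U : Finset Y =>
          IsInv (σ * Equiv.swap a b) U ∧ a ∈ U ∧ b ∉ U), ∏ v ∈ U \ O, d v := by
        refine Finset.sum_le_sum fun U _ => ?_
        exact Finset.prod_le_prod_of_subset_of_le_one Finset.sdiff_subset (fun v _ => h0 v)
          (fun v _ _ => h1 v)
    _ = ∑ W ∈ (Finset.univ.filter fun U : Finset Y =>
          IsInv (σ * Equiv.swap a b) U ∧ a ∈ U ∧ b ∉ U).image (fun U => U \ O), ∏ v ∈ W, d v :=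
        (Finset.sum_image (f := fun W : Finset Y => ∏ v ∈ W, d v) hinj).symm
    _ ≤ _ := by
        refine Finset.sum_le_sum_of_subset_of_nonneg ?_
          (fun W _ _ => Finset.prod_nonneg fun v _ => h0 v)
        intro W hW
        obtain ⟨U, hU, rfl⟩ := Finset.mem_image.1 hW
        have hU' := (Finset.mem_filter.1 hU).2
        refine Finset.mem_filter.2 ⟨Finset.mem_univ _, ?_⟩
        have hOi := envpb_orb_inv (σ * Equiv.swap a b) {a}
        refine envpb_inv_of_swap (a := a) (b := b) (fun y => ?_) ?_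
        · rw [Finset.mem_sdiff, Finset.mem_sdiff, hU'.1 y, hOi y]
        · have ha : a ∈ O := envpb_subset_orb _ _ (Finset.mem_singleton_self a)
          simp [ha, hU'.2.2]

lemma envpb_Z_swap (σ : Equiv.Perm Y) (a b : Y) {d : Y → ℝ} (h0 : ∀ v, 0 ≤ d v)
    (h1 : ∀ v, d v ≤ 1) : envpbZ (σ * Equiv.swap a b) d ≤ 3 * envpbZ σ d := by
  classical
  have e1 := envpb_one_side σ a b h0 h1
  have e2 := envpb_one_side σ b a h0 h1
  rw [Equiv.swap_comm b a] at e2
  have e3 : envpbZ (σ * Equiv.swap a b) d ≤ envpbZ σ d +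
      (∑ U : Finset Y,
        if IsInv (σ * Equiv.swap a b) U ∧ a ∈ U ∧ b ∉ U then ∏ v ∈ U, d v else 0) +
      (∑ U : Finset Y,
        if IsInv (σ * Equiv.swap a b) U ∧ b ∈ U ∧ a ∉ U then ∏ v ∈ U, d v else 0) := by
    unfold envpbZ
    rw [← Finset.sum_add_distrib, ← Finset.sum_add_distrib]
    refine Finset.sum_le_sum fun U _ => ?_
    have hw : 0 ≤ ∏ v ∈ U, d v := Finset.prod_nonneg fun v _ => h0 v
    by_cases hU : IsInv (σ * Equiv.swap a b) U
    · by_cases ha : a ∈ U <;> by_cases hb : b ∈ U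
      · have := envpb_inv_of_swap hU (iff_of_true ha hb)
        simp [hU, ha, hb, this]
      · simp only [hU, ha, hb, if_true, not_false_eq_true, and_self, not_true_eq_false, and_false,
          if_false]
        split_ifs <;> linarith
      · simp only [hU, ha, hb, if_true, not_false_eq_true, and_self, not_true_eq_false, and_false,
          if_false, false_and]
        split_ifs <;> linarith
      · have := envpb_inv_of_swap hU (iff_of_false ha hb)
        simp [hU, ha, hb, this]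
    · simp only [hU, if_false, false_and]
      split_ifs <;> linarith
  linarith

end Orb

variable {I X : Type} [Fintype I] [DecidableEq I] [Fintype X] [DecidableEq X] {c : Circ I X}
  {d : I × X → ℝ} {ζ : ℝ}

/-- exchange of the two sets on the closure of `B` -/
noncomputable def envpbT (c : Circ I X) (B : Finset (I × X)) (o : Env I X) : Env I X :=
  (o.1, (o.2.1 \ envpbOrb (c.perm o.1) B) ∪ (o.2.2 ∩ envpbOrb (c.perm o.1) B),
    (o.2.2 \ envpbOrb (c.perm o.1) B) ∪ (o.2.1 ∩ envpbOrb (c.perm o.1) B))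

lemma envpb_T_invol (c : Circ I X) (B : Finset (I × X)) : Function.Involutive (envpbT c B) := by
  rintro ⟨ω, U, V⟩
  simp only [envpbT, Prod.mk.injEq, true_and]
  constructor <;> ext y <;> by_cases h : y ∈ envpbOrb (c.perm ω) B <;> simp [h]

lemma envpb_T_ok (c : Circ I X) (B : Finset (I × X)) (o : Env I X)
    (h : IsInv (c.perm o.1) o.2.1 ∧ IsInv (c.perm o.1) o.2.2 ∧ Disjoint o.2.1 o.2.2) :
    IsInv (c.perm (envpbT c B o).1) (envpbT c B o).2.1 ∧
      IsInv (c.perm (envpbT c B o).1) (envpbT c B o).2.2 ∧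
      Disjoint (envpbT c B o).2.1 (envpbT c B o).2.2 := by
  obtain ⟨h1, h2, h3⟩ := h
  have hO := envpb_orb_inv (c.perm o.1) B
  refine ⟨fun y => ?_, fun y => ?_, ?_⟩
  · simp only [envpbT, Finset.mem_union, Finset.mem_sdiff, Finset.mem_inter, h1 y, h2 y, hO y]
  · simp only [envpbT, Finset.mem_union, Finset.mem_sdiff, Finset.mem_inter, h1 y, h2 y, hO y]
  · rw [Finset.disjoint_left] at h3 ⊢
    intro y hy hy'
    simp only [envpbT, Finset.mem_union, Finset.mem_sdiff, Finset.mem_inter] at hy hy'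
    have := @h3 y
    tauto

lemma envpb_T_union (c : Circ I X) (B : Finset (I × X)) (o : Env I X) :
    (envpbT c B o).2.1 ∪ (envpbT c B o).2.2 = o.2.1 ∪ o.2.2 := by
  ext y
  simp only [envpbT, Finset.mem_union, Finset.mem_sdiff, Finset.mem_inter]
  tauto

lemma envpb_T_ew (c : Circ I X) (d : I × X → ℝ) (B : Finset (I × X)) (o : Env I X) :
    c.ew d (envpbT c B o) = c.ew d o := by
  unfold Circ.ew
  by_cases h : IsInv (c.perm o.1) o.2.1 ∧ IsInv (c.perm o.1) o.2.2 ∧ Disjoint o.2.1 o.2.2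
  · have h' := envpb_T_ok c B o h
    rw [if_pos h, if_pos h', envpb_T_union, mul_assoc (c.pw _), mul_assoc (c.pw o.1),
      ← Finset.prod_union h'.2.2, ← Finset.prod_union h.2.2, envpb_T_union]
    rfl
  · rw [if_neg h, if_neg]
    intro h'
    apply h
    have := envpb_T_ok c B _ h'
    rwa [envpb_T_invol c B o] at this

lemma envpb_ew_ok {o : Env I X} (ho : c.ew d o ≠ 0) :
    IsInv (c.perm o.1) o.2.1 ∧ IsInv (c.perm o.1) o.2.2 ∧ Disjoint o.2.1 o.2.2 := by
  by_contra h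
  apply ho
  unfold Circ.ew
  rw [if_neg h, zero_div]

lemma envpb_pr_one (c : Circ I X) (d : I × X → ℝ) (B : Finset (I × X)) :
    Pr (c.ew d) (fun o => B ⊆ o.2.1) = c.num d B / c.num d ∅ := by
  classical
  have := ex_ew_marg c d fun _ U => if B ⊆ U then (1 : ℝ) else 0
  unfold Pr
  refine Eq.trans (Finset.sum_congr rfl fun o _ => ?_) (this.trans ?_)
  · by_cases h : B ⊆ o.2.1 <;> simp [h]
  · congr 1
    unfold Circ.num
    refine Finset.sum_congr rfl fun ω _ => ?_
    congr 1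
    refine Finset.sum_congr rfl fun U _ => ?_
    by_cases h1 : IsInv (c.perm ω) U <;> by_cases h2 : B ⊆ U <;> simp [h1, h2]

theorem pr_subset (hc : c.Ok) (hd0 : ∀ v, 0 ≤ d v) (hd : ∀ v, d v ≤ ζ) (hζ : ζ < 1)
    (B : Finset (I × X)) :
    Pr (c.ew d) (fun o => B ⊆ o.2.1 ∪ o.2.2) ≤ 2 ^ B.card * (c.num d B / c.num d ∅) := by
  have hw := ew_nonneg hc hd0 hd hζ
  have key : ∀ B2 ∈ B.powerset,
      Pr (c.ew d) (fun o => B \ B2 ⊆ o.2.1 ∧ B2 ⊆ o.2.2) ≤ c.num d B / c.num d ∅ := by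
    intro B2 _
    rw [← envpb_pr_one]
    have e : Pr (c.ew d) (fun o => B ⊆ (envpbT c B2 o).2.1) = Pr (c.ew d) (fun o => B ⊆ o.2.1) := by
      unfold Pr Ex
      refine Fintype.sum_bijective (envpbT c B2) (envpb_T_invol c B2).bijective _ _ fun o => ?_
      rw [envpb_T_ew]
    rw [← e]
    refine Pr_mono hw fun o ho h b hb => ?_
    obtain ⟨-, h2, h3⟩ := envpb_ew_ok ho
    simp only [envpbT, Finset.mem_union, Finset.mem_sdiff, Finset.mem_inter]
    by_cases hb2 : b ∈ B2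
    · exact Or.inr ⟨h.2 hb2, envpb_subset_orb _ _ hb2⟩
    · have hb1 : b ∈ o.2.1 := h.1 (Finset.mem_sdiff.2 ⟨hb, hb2⟩)
      exact Or.inl ⟨hb1, fun hO =>
        Finset.disjoint_left.1 h3 hb1 (envpb_orb_subset h2 h.2 hO)⟩
  calc _ ≤ Pr (c.ew d) (fun o => ∃ B2 ∈ B.powerset, B \ B2 ⊆ o.2.1 ∧ B2 ⊆ o.2.2) := by
        refine Pr_mono hw fun o _ h => ⟨B ∩ o.2.2, ?_, ?_, Finset.inter_subset_right⟩
        · exact Finset.mem_powerset.2 Finset.inter_subset_left
        · intro b hb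
          have hb' := Finset.mem_sdiff.1 hb
          rcases Finset.mem_union.1 (h hb'.1) with h1 | h1
          · exact h1
          · exact absurd (Finset.mem_inter.2 ⟨hb'.1, h1⟩) hb'.2
    _ ≤ ∑ B2 ∈ B.powerset, Pr (c.ew d) (fun o => B \ B2 ⊆ o.2.1 ∧ B2 ⊆ o.2.2) :=
        Pr_exists_le hw _ _
    _ ≤ ∑ _B2 ∈ B.powerset, c.num d B / c.num d ∅ := Finset.sum_le_sum key
    _ = _ := by simp [Finset.card_powerset]

omit [Fintype I] [Fintype X] in
lemma envpb_perm_flip (c : Circ I X) (ω : I → Bool) (i : I) (h : ω i = false) :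
    c.perm (Function.update ω i true) = c.perm ω * Equiv.swap (i, c.ga i) (i, c.gb i) := by
  refine Equiv.ext ?_
  rintro ⟨j, x⟩
  rw [Equiv.Perm.mul_apply]
  by_cases hj : j = i
  · subst hj
    have e : Equiv.swap (j, c.ga j) (j, c.gb j) (j, x) = (j, Equiv.swap (c.ga j) (c.gb j) x) := by
      simp only [Equiv.swap_apply_def, Prod.mk.injEq, true_and]
      split_ifs <;> rfl
    rw [e]
    simp [Circ.perm, h]
  · rw [Equiv.swap_apply_of_ne_of_ne (by simp [hj]) (by simp [hj])]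
    simp [Circ.perm, Function.update_of_ne hj]

omit [Fintype X] [DecidableEq X] in
lemma envpb_pw_flip (hc : c.Ok) (ω : I → Bool) (i : I) (h : ω i = false) :
    c.pw (Function.update ω i true) ≤ 2 * c.gp i * c.pw ω := by
  unfold Circ.pw
  rw [← Finset.mul_prod_erase _ _ (Finset.mem_univ i),
    ← Finset.mul_prod_erase _ (fun j => if ω j then c.gp j else 1 - c.gp j) (Finset.mem_univ i)]
  have e : ∏ j ∈ Finset.univ.erase i,
      (if Function.update ω i true j then c.gp j else 1 - c.gp j) =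
      ∏ j ∈ Finset.univ.erase i, (if ω j then c.gp j else 1 - c.gp j) :=
    Finset.prod_congr rfl fun j hj => by rw [Function.update_of_ne (Finset.ne_of_mem_erase hj)]
  rw [e]
  have hP : 0 ≤ ∏ j ∈ Finset.univ.erase i, (if ω j then c.gp j else 1 - c.gp j) :=
    Finset.prod_nonneg fun j _ => by
      split_ifs
      · exact hc.gp_nonneg j
      · linarith [hc.gp_le j]
  simp only [Function.update_self, if_true, h, Bool.false_eq_true, if_false]
  have h1 := hc.gp_nonneg i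
  have h2 := hc.gp_le i
  have : c.gp i ≤ 2 * c.gp i * (1 - c.gp i) := by nlinarith
  calc _ ≤ 2 * c.gp i * (1 - c.gp i) * _ := mul_le_mul_of_nonneg_right this hP
    _ = _ := by ring

lemma envpb_step (hc : c.Ok) (hd0 : ∀ v, 0 ≤ d v) (hd1 : ∀ v, d v ≤ 1) (i : I)
    (Φ : (I → Bool) → ℝ) (h0 : ∀ ω, 0 ≤ Φ ω) (hΦ : ∀ ω b, Φ (Function.update ω i b) = Φ ω) :
    ∑ ω, c.pw ω * envpbZ (c.perm ω) d * ((c.gp i + bit (ω i)) * Φ ω) ≤
      7 * c.gp i * ∑ ω, c.pw ω * envpbZ (c.perm ω) d * Φ ω := by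
  have hinv : Function.Involutive fun ω : I → Bool => Function.update ω i (!ω i) := by
    intro ω
    simp
  have e1 : ∑ ω, c.pw ω * envpbZ (c.perm ω) d * (bit (ω i) * Φ ω) =
      ∑ ω : I → Bool, c.pw (Function.update ω i (!ω i)) *
        envpbZ (c.perm (Function.update ω i (!ω i))) d * (bit (!ω i) * Φ ω) := by
    symm
    refine Fintype.sum_bijective _ hinv.bijective _ _ fun ω => ?_
    simp only [Function.update_self, hΦ]
  have e2 : ∑ ω, c.pw ω * envpbZ (c.perm ω) d * (bit (ω i) * Φ ω) ≤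
      6 * c.gp i * ∑ ω, c.pw ω * envpbZ (c.perm ω) d * Φ ω := by
    rw [e1, Finset.mul_sum]
    refine Finset.sum_le_sum fun ω _ => ?_
    have hZ := envpb_Z_nonneg (c.perm ω) hd0
    have hp := pw_nonneg hc ω
    have hg := hc.gp_nonneg i
    have hf := h0 ω
    cases h : ω i with
    | true =>
      simp only [Bool.not_true, bit, Bool.false_eq_true, if_false, zero_mul, mul_zero]
      positivity
    | false =>
      simp only [Bool.not_false, bit, if_true, one_mul]
      rw [envpb_perm_flip c ω i h]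
      have a1 := envpb_pw_flip hc ω i h
      have a2 := envpb_Z_swap (c.perm ω) (i, c.ga i) (i, c.gb i) hd0 hd1
      have a3 := envpb_Z_nonneg (c.perm ω * Equiv.swap (i, c.ga i) (i, c.gb i)) hd0
      calc _ ≤ (2 * c.gp i * c.pw ω) * (3 * envpbZ (c.perm ω) d) * Φ ω :=
            mul_le_mul_of_nonneg_right (mul_le_mul a1 a2 a3 (by positivity)) hf
        _ = _ := by ring
  have e3 : ∑ ω, c.pw ω * envpbZ (c.perm ω) d * ((c.gp i + bit (ω i)) * Φ ω) =
      c.gp i * ∑ ω, c.pw ω * envpbZ (c.perm ω) d * Φ ω +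
        ∑ ω, c.pw ω * envpbZ (c.perm ω) d * (bit (ω i) * Φ ω) := by
    rw [Finset.mul_sum, ← Finset.sum_add_distrib]
    exact Finset.sum_congr rfl fun ω _ => by ring
  rw [e3]
  linarith

theorem fin_energy (hc : c.Ok) (hd0 : ∀ v, 0 ≤ d v) (hd : ∀ v, d v ≤ ζ) (hζ : ζ < 1)
    (J : Finset I) :
    Ex (c.ew d) (fun o => ∏ i ∈ J, (c.gp i + bit (o.1 i))) ≤ ∏ i ∈ J, 7 * c.gp i := by
  classical
  have hd1 : ∀ v, d v ≤ 1 := fun v => (hd v).trans hζ.le
  have hN : c.num d ∅ = ∑ ω, c.pw ω * envpbZ (c.perm ω) d := by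
    unfold Circ.num envpbZ
    simp only [Finset.empty_subset, and_true]
  have key : ∑ ω, c.pw ω * envpbZ (c.perm ω) d * ∏ i ∈ J, (c.gp i + bit (ω i)) ≤
      (∏ i ∈ J, 7 * c.gp i) * c.num d ∅ := by
    induction J using Finset.induction_on with
    | empty => simp [hN]
    | insert i J hi ih =>
      simp only [Finset.prod_insert hi]
      have hg := hc.gp_nonneg i
      refine (envpb_step hc hd0 hd1 i (fun ω => ∏ j ∈ J, (c.gp j + bit (ω j))) (fun ω => ?_)
        (fun ω b => ?_)).trans ?_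
      · exact Finset.prod_nonneg fun j _ => add_nonneg (hc.gp_nonneg j) (bit_nonneg _)
      · refine Finset.prod_congr rfl fun j hj => ?_
        rw [Function.update_of_ne (by rintro rfl; exact hi hj)]
      · rw [mul_assoc (7 * c.gp i)]
        exact mul_le_mul_of_nonneg_left ih (by positivity)
  have hpos : 0 < c.num d ∅ := lt_of_lt_of_le one_pos (one_le_num hc hd0)
  rw [ex_ew_marg c d fun ω _ => ∏ i ∈ J, (c.gp i + bit (ω i)), div_le_iff₀ hpos]
  refine le_trans (le_of_eq ?_) key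
  refine Finset.sum_congr rfl fun ω _ => ?_
  rw [mul_assoc]
  congr 1
  unfold envpbZ
  rw [Finset.sum_mul]
  refine Finset.sum_congr rfl fun U _ => ?_
  split_ifs <;> simp

end Vale.Agent.P361
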