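import Vale.Agent.P361.Basic

namespace Vale.Agent.P361

open Matrix Finset

section

variable {Y : Type} [Fintype Y] [DecidableEq Y] {K : Matrix Y Y ℝ} {d : Y → ℝ} {ζ : ℝ}

omit [DecidableEq Y] in
/-- minimum principle -/
lemma green_min (hK0 : ∀ v w, 0 ≤ K v w) (hK1 : ∀ v, ∑ w, K v w ≤ 1) (hd0 : ∀ v, 0 ≤ d v)
    (hd : ∀ v, d v ≤ ζ) (hζ : ζ < 1) {h : Y → ℝ} (hh : ∀ v, d v * (K *ᵥ h) v ≤ h v) (v : Y) :
    0 ≤ h v := by
  obtain ⟨m, -, hm⟩ := Finset.exists_min_image Finset.univ h ⟨v, Finset.mem_univ v⟩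
  refine le_trans ?_ (hm v (Finset.mem_univ v))
  by_contra hneg
  push Not at hneg
  have h1 : (∑ w, K m w) * h m ≤ (K *ᵥ h) m := by
    rw [Finset.sum_mul]
    exact Finset.sum_le_sum fun w _ => mul_le_mul_of_nonneg_left (hm w (Finset.mem_univ w)) (hK0 m w)
  have h2 : h m ≤ (∑ w, K m w) * h m := by nlinarith [hK1 m]
  have h3 := mul_le_mul_of_nonneg_left (h2.trans h1) (hd0 m)
  nlinarith [hh m, hd m]

lemma green_mulVec (h : Y → ℝ) (v : Y) :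
    ((1 - Matrix.diagonal d * K) *ᵥ h) v = h v - d v * (K *ᵥ h) v := by
  rw [Matrix.sub_mulVec, Matrix.one_mulVec, ← Matrix.mulVec_mulVec, Pi.sub_apply,
    Matrix.mulVec_diagonal]

lemma green_det_ne (hK0 : ∀ v w, 0 ≤ K v w) (hK1 : ∀ v, ∑ w, K v w ≤ 1) (hd0 : ∀ v, 0 ≤ d v)
    (hd : ∀ v, d v ≤ ζ) (hζ : ζ < 1) : (1 - Matrix.diagonal d * K).det ≠ 0 := by
  intro h0
  obtain ⟨h, hne, hh⟩ := Matrix.exists_mulVec_eq_zero_iff.2 h0
  have h1 : ∀ v, h v = d v * (K *ᵥ h) v := fun v => by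
    have := congrFun hh v
    rw [green_mulVec] at this
    simp only [Pi.zero_apply] at this
    linarith
  apply hne
  funext v
  have h2 := green_min hK0 hK1 hd0 hd hζ (h := h) (fun v => (h1 v).ge) v
  have h3 := green_min hK0 hK1 hd0 hd hζ (h := -h) (fun v => by
    rw [Matrix.mulVec_neg, Pi.neg_apply, Pi.neg_apply, mul_neg, ← h1 v]) v
  simp only [Pi.neg_apply] at h3
  simp only [Pi.zero_apply]
  linarith

theorem green_det_pos (hK0 : ∀ v w, 0 ≤ K v w) (hK1 : ∀ v, ∑ w, K v w ≤ 1) (hd0 : ∀ v, 0 ≤ d v)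
    (hd : ∀ v, d v ≤ ζ) (hζ : ζ < 1) : 0 < (1 - Matrix.diagonal d * K).det := by
  have hc : Continuous fun t : ℝ => (1 - Matrix.diagonal (fun v => t * d v) * K).det := by
    refine Continuous.matrix_det (continuous_const.sub (Continuous.matrix_mul ?_ continuous_const))
    exact Continuous.matrix_diagonal (by fun_prop)
  have hne : ∀ t ∈ Set.Icc (0 : ℝ) 1, (1 - Matrix.diagonal (fun v => t * d v) * K).det ≠ 0 :=
    fun t ht => green_det_ne hK0 hK1 (fun v => mul_nonneg ht.1 (hd0 v))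
      (fun v => (mul_le_of_le_one_left (hd0 v) ht.2).trans (hd v)) hζ
  by_contra hneg
  push Not at hneg
  have h0 : (0 : ℝ) ∈ Set.Icc ((fun t : ℝ => (1 - Matrix.diagonal (fun v => t * d v) * K).det) 1)
      ((fun t : ℝ => (1 - Matrix.diagonal (fun v => t * d v) * K).det) 0) := by
    constructor
    · simpa using hneg
    · simp
  obtain ⟨t, ht, h1⟩ := intermediate_value_Icc' zero_le_one hc.continuousOn h0
  exact hne t ht h1

theorem green_eq (hK0 : ∀ v w, 0 ≤ K v w) (hK1 : ∀ v, ∑ w, K v w ≤ 1) (hd0 : ∀ v, 0 ≤ d v)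
    (hd : ∀ v, d v ≤ ζ) (hζ : ζ < 1) (f : Y → ℝ) (v : Y) :
    ((1 - Matrix.diagonal d * K)⁻¹ *ᵥ f) v =
      f v + d v * (K *ᵥ ((1 - Matrix.diagonal d * K)⁻¹ *ᵥ f)) v := by
  have h := green_mulVec (K := K) (d := d) ((1 - Matrix.diagonal d * K)⁻¹ *ᵥ f) v
  rw [Matrix.mulVec_mulVec, Matrix.mul_nonsing_inv _ (green_det_ne hK0 hK1 hd0 hd hζ).isUnit,
    Matrix.one_mulVec] at h
  linarith

theorem green_nonneg (hK0 : ∀ v w, 0 ≤ K v w) (hK1 : ∀ v, ∑ w, K v w ≤ 1) (hd0 : ∀ v, 0 ≤ d v)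
    (hd : ∀ v, d v ≤ ζ) (hζ : ζ < 1) (v w : Y) : 0 ≤ (1 - Matrix.diagonal d * K)⁻¹ v w := by
  have h := green_min hK0 hK1 hd0 hd hζ
    (h := (1 - Matrix.diagonal d * K)⁻¹ *ᵥ Pi.single w 1) (fun x => by
      rw [green_eq hK0 hK1 hd0 hd hζ _ x]
      have : (0 : ℝ) ≤ (Pi.single w (1 : ℝ) : Y → ℝ) x := by
        rw [Pi.single_apply]; split_ifs <;> norm_num
      linarith) v
  simpa using h

theorem green_unique (hK0 : ∀ v w, 0 ≤ K v w) (hK1 : ∀ v, ∑ w, K v w ≤ 1) (hd0 : ∀ v, 0 ≤ d v)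
    (hd : ∀ v, d v ≤ ζ) (hζ : ζ < 1) {f h : Y → ℝ} (hh : ∀ v, h v = f v + d v * (K *ᵥ h) v) :
    h = (1 - Matrix.diagonal d * K)⁻¹ *ᵥ f := by
  have h1 : (1 - Matrix.diagonal d * K) *ᵥ h = f := by
    funext v
    rw [green_mulVec]
    linarith [hh v]
  rw [← h1, Matrix.mulVec_mulVec, Matrix.nonsing_inv_mul _ (green_det_ne hK0 hK1 hd0 hd hζ).isUnit,
    Matrix.one_mulVec]

omit [DecidableEq Y] in
theorem green_max (hK0 : ∀ v w, 0 ≤ K v w) (hK1 : ∀ v, ∑ w, K v w ≤ 1) (hd0 : ∀ v, 0 ≤ d v)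
    (hd : ∀ v, d v ≤ ζ) (hζ : ζ < 1) {f h : Y → ℝ} (hh : ∀ v, h v = f v + d v * (K *ᵥ h) v)
    (hf0 : ∀ v, 0 ≤ f v) (hf : ∀ v, f v + d v ≤ 1) (v : Y) : 0 ≤ h v ∧ h v ≤ 1 := by
  refine ⟨green_min hK0 hK1 hd0 hd hζ (fun v => by linarith [hh v, hf0 v]) v, ?_⟩
  have h1 := green_min hK0 hK1 hd0 hd hζ (h := fun v => 1 - h v) (fun x => by
    have h2 : (K *ᵥ fun v => 1 - h v) x = ∑ w, K x w - (K *ᵥ h) x := by
      simp [Matrix.mulVec, dotProduct, mul_sub, Finset.sum_sub_distrib]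
    rw [h2]
    nlinarith [hh x, hf x, hK1 x, hd0 x]) v
  linarith

end

end Vale.Agent.P361
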