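import Vale.Agent.P361.Fermi
import Vale.Agent.P361.Green

namespace Vale.Agent.P361

open Matrix Finset

variable {I X : Type} [Fintype I] [DecidableEq I] [Fintype X] [DecidableEq X] {c : Circ I X}
  {d : I × X → ℝ} {ζ : ℝ}

omit [Fintype I] [DecidableEq I] [Fintype X] in
theorem perm_apply (c : Circ I X) (ω : I → Bool) (i : I) (x : X) :
    c.perm ω (i, x) = (c.nx i, if ω i then Equiv.swap (c.ga i) (c.gb i) x else x) := by
  cases h : ω i <;> simp [Circ.perm, h]

theorem ker_dstoch (c : Circ I X) {q : I → ℝ} (h0 : ∀ i, 0 ≤ q i) (h1 : ∀ i, q i ≤ 1) :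
    DStoch (c.ker q) := by
  have h := fun i => lz_dstoch (Equiv.swap (c.ga i) (c.gb i)) (h0 i) (h1 i)
  refine ⟨fun v w => ?_, fun v => ?_, fun w => ?_⟩
  · rw [Circ.ker, Matrix.of_apply]
    split_ifs
    · exact (h _).1 _ _
    · exact le_rfl
  · rw [Fintype.sum_prod_type, Finset.sum_eq_single (c.nx v.1)]
    · simpa [Circ.ker] using (h v.1).2.1 v.2
    · intro j _ hj
      simp [Circ.ker, hj]
    · exact fun h => absurd (mem_univ _) h
  · rw [Fintype.sum_prod_type, Finset.sum_eq_single (c.nx.symm w.1)]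
    · simpa [Circ.ker] using (h _).2.2 w.2
    · intro j _ hj
      have : w.1 ≠ c.nx j := fun e => hj (by rw [e, Equiv.symm_apply_apply])
      simp [Circ.ker, this]
    · exact fun h => absurd (mem_univ _) h

theorem kE_dstoch (hc : c.Ok) (o : Env I X) : DStoch (c.kE o) := by
  refine ker_dstoch c (fun i => ?_) fun i => ?_
  · unfold Circ.qt
    split_ifs
    · exact hc.gp_nonneg i
    · exact bit_nonneg _
  · unfold Circ.qt
    split_ifs
    · linarith [hc.gp_le i]
    · exact bit_le_one _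

omit [DecidableEq I] [Fintype X] [DecidableEq X] in
theorem pw_nonneg (hc : c.Ok) (ω : I → Bool) : 0 ≤ c.pw ω := by
  refine Finset.prod_nonneg fun i _ => ?_
  split_ifs
  · exact hc.gp_nonneg i
  · linarith [hc.gp_le i]

omit [Fintype X] [DecidableEq X] in
theorem pw_sum (c : Circ I X) : ∑ ω, c.pw ω = 1 := by
  have := Finset.prod_univ_sum (fun _ : I => (univ : Finset Bool))
    fun i b => if b then c.gp i else 1 - c.gp i
  rw [Fintype.piFinset_univ] at this
  refine this.symm.trans (Finset.prod_eq_one fun i _ => ?_)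
  simp

theorem num_nonneg (hc : c.Ok) (hd0 : ∀ v, 0 ≤ d v) (B : Finset (I × X)) : 0 ≤ c.num d B := by
  refine Finset.sum_nonneg fun ω _ => mul_nonneg (pw_nonneg hc ω) (Finset.sum_nonneg fun U _ => ?_)
  split_ifs
  · exact Finset.prod_nonneg fun v _ => hd0 v
  · exact le_rfl

theorem one_le_num (hc : c.Ok) (hd0 : ∀ v, 0 ≤ d v) : 1 ≤ c.num d ∅ := by
  rw [← pw_sum c]
  refine Finset.sum_le_sum fun ω _ => le_mul_of_one_le_right (pw_nonneg hc ω) ?_
  refine le_trans (le_of_eq ?_) (Finset.single_le_sum (fun U _ => ?_) (mem_univ ∅))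
  · simp [IsInv]
  · split_ifs
    · exact Finset.prod_nonneg fun v _ => hd0 v
    · exact le_rfl

theorem ew_nonneg (hc : c.Ok) (hd0 : ∀ v, 0 ≤ d v) (hd : ∀ v, d v ≤ ζ) (hζ : ζ < 1)
    (o : Env I X) : 0 ≤ c.ew d o := by
  refine div_nonneg ?_ (num_nonneg hc hd0 _)
  split_ifs
  · have h := ker_dstoch c (fun i => bit_nonneg (o.1 i)) fun i => bit_le_one (o.1 i)
    refine mul_nonneg (mul_nonneg (mul_nonneg (pw_nonneg hc _)
      (Finset.prod_nonneg fun v _ => hd0 v)) (Finset.prod_nonneg fun v _ => hd0 v))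
      (green_det_pos h.1 (fun v => (h.2.1 v).le) (fun v => ?_) (fun v => ?_) hζ).le
    · unfold pin
      split_ifs
      · exact le_rfl
      · exact hd0 v
    · unfold pin
      split_ifs
      · exact (hd0 v).trans (hd v)
      · exact hd v
  · exact le_rfl

theorem ew_support {o : Env I X} (ho : c.ew d o ≠ 0) :
    IsInv (c.perm o.1) (o.2.1 ∪ o.2.2) ∧ ∀ v ∈ o.2.1 ∪ o.2.2, d v ≠ 0 := by
  have h := (div_ne_zero_iff.1 ho).1
  split_ifs at h with h1
  · refine ⟨h1.1.union h1.2.1, fun v hv => ?_⟩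
    have h2 := left_ne_zero_of_mul h
    rcases mem_union.1 hv with hv | hv
    · exact Finset.prod_ne_zero_iff.1 (right_ne_zero_of_mul (left_ne_zero_of_mul h2)) v hv
    · exact Finset.prod_ne_zero_iff.1 (right_ne_zero_of_mul h2) v hv
  · exact absurd rfl h

open Classical in
theorem ex_ew_marg (c : Circ I X) (d : I × X → ℝ) (Φ : (I → Bool) → Finset (I × X) → ℝ) :
    Ex (c.ew d) (fun o => Φ o.1 o.2.1) =
      (∑ ω : I → Bool, c.pw ω * ∑ U : Finset (I × X),
        if IsInv (c.perm ω) U then (∏ v ∈ U, d v) * Φ ω U else 0) / c.num d ∅ := by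
  rw [Ex, Fintype.sum_prod_type, Finset.sum_div]
  refine Finset.sum_congr rfl fun ω _ => ?_
  rw [Fintype.sum_prod_type, Finset.mul_sum, Finset.sum_div]
  refine Finset.sum_congr rfl fun U _ => ?_
  split_ifs with h
  · rw [← mul_one (c.pw ω * _ / _), ← fermi_id c d ω h, Finset.mul_sum]
    refine Finset.sum_congr rfl fun W _ => ?_
    simp only [Circ.ew, h, true_and]
    split_ifs
    · ring
    · simp
  · simp [Circ.ew, h]

theorem ew_sum (hc : c.Ok) (hd0 : ∀ v, 0 ≤ d v) : ∑ o, c.ew d o = 1 := by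
  have h := ex_ew_marg c d fun _ _ => 1
  simp only [Ex, mul_one] at h
  rw [h, div_eq_one_iff_eq (by linarith [one_le_num hc hd0])]
  refine Finset.sum_congr rfl fun ω _ => congrArg _ (Finset.sum_congr rfl fun U _ => ?_)
  by_cases hU : IsInv (c.perm ω) U
  · rw [if_pos hU, if_pos ⟨hU, empty_subset U⟩]
  · rw [if_neg hU, if_neg fun h => hU h.1]

end Vale.Agent.P361
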