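import Vale.Agent.P361.Basic

namespace Vale.Agent.P361

open Matrix Finset

variable {I X : Type} [Fintype I] [DecidableEq I] [Fintype X] [DecidableEq X] {c : Circ I X}
  {d : I × X → ℝ} {ζ : ℝ}

section Gen

variable {Y : Type} [Fintype Y] [DecidableEq Y]

/-- the orbit of a point -/
def fermiOrb (σ : Equiv.Perm Y) (a : Y) : Finset Y := univ.filter fun y => σ.SameCycle a y

theorem mem_fermiOrb {σ : Equiv.Perm Y} {a y : Y} : y ∈ fermiOrb σ a ↔ σ.SameCycle a y := by
  simp [fermiOrb]

theorem fermiOrb_inv (σ : Equiv.Perm Y) (a : Y) : IsInv σ (fermiOrb σ a) := fun y => by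
  rw [mem_fermiOrb, mem_fermiOrb, Equiv.Perm.sameCycle_apply_right]

omit [DecidableEq Y] in
theorem IsInv.sameCycle {σ : Equiv.Perm Y} {U : Finset Y} (h : IsInv σ U) {a y : Y}
    (hy : σ.SameCycle a y) : y ∈ U ↔ a ∈ U := by
  obtain ⟨n, rfl⟩ := hy.exists_nat_pow_eq
  clear hy
  induction n with
  | zero => rfl
  | succ n ih => rw [pow_succ', Equiv.Perm.mul_apply, h, ih]

omit [Fintype Y] in
theorem IsInv.union {σ : Equiv.Perm Y} {U W : Finset Y} (h : IsInv σ U) (h' : IsInv σ W) :
    IsInv σ (U ∪ W) := fun y => by rw [mem_union, mem_union, h, h']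

omit [Fintype Y] in
theorem IsInv.sdiff {σ : Equiv.Perm Y} {U W : Finset Y} (h : IsInv σ U) (h' : IsInv σ W) :
    IsInv σ (U \ W) := fun y => by rw [mem_sdiff, mem_sdiff, h, h']

omit [Fintype Y] in
theorem IsInv.inter {σ : Equiv.Perm Y} {U W : Finset Y} (h : IsInv σ U) (h' : IsInv σ W) :
    IsInv σ (U ∩ W) := fun y => by rw [mem_inter, mem_inter, h, h']

theorem fermi_entry (σ : Equiv.Perm Y) (e : Y → ℝ) (v w : Y) :
    (Matrix.diagonal e * lz σ 1) v w = if w = σ v then e v else 0 := by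
  simp [lz]

theorem fermi_orb (σ : Equiv.Perm Y) (d : Y → ℝ) (a : Y) :
    (1 - Matrix.diagonal (pin d (fermiOrb σ a)ᶜ) * lz σ 1).det = 1 - ∏ v ∈ fermiOrb σ a, d v := by
  have hM : ∀ v w, (1 - Matrix.diagonal (pin d (fermiOrb σ a)ᶜ) * lz σ 1) v w =
      (if v = w then 1 else 0) - if w = σ v ∧ σ.SameCycle a v then d v else 0 := fun v w => by
    rw [Matrix.sub_apply, fermi_entry, Matrix.one_apply]
    simp only [pin, mem_compl, mem_fermiOrb, ite_not, ite_and]
  by_cases ha : σ a = a
  · have h1 : ∀ v, σ.SameCycle a v ↔ v = a := fun v =>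
      ⟨fun h => (h.eq_of_left ha).symm, fun h => h ▸ Equiv.Perm.SameCycle.refl _ _⟩
    have h2 : fermiOrb σ a = {a} := by
      ext v
      rw [mem_fermiOrb, h1, mem_singleton]
    have h3 : 1 - Matrix.diagonal (pin d (fermiOrb σ a)ᶜ) * lz σ 1 =
        Matrix.diagonal fun v => if v = a then 1 - d a else 1 := by
      ext v w
      rw [hM, Matrix.diagonal_apply]
      simp only [h1]
      by_cases e : v = a
      · subst e
        simp only [ha, and_true, if_true, eq_comm (a := w)]
        split_ifs <;> simp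
      · simp [e]
    rw [h3, Matrix.det_diagonal, h2, prod_singleton]
    simp
  · have hne : ∀ v, σ.SameCycle a v → σ v ≠ v := fun v h e => ha (h.apply_eq_self_iff.2 e)
    rw [← Matrix.det_transpose, Matrix.det_apply,
      Fintype.sum_eq_add 1 (σ.cycleOf a) (Equiv.Perm.isCycle_cycleOf σ ha).ne_one.symm]
    · have h1 : ∏ i, (1 - Matrix.diagonal (pin d (fermiOrb σ a)ᶜ) * lz σ 1)ᵀ
          ((1 : Equiv.Perm Y) i) i = 1 := by
        refine Finset.prod_eq_one fun v _ => ?_
        rw [Matrix.transpose_apply, hM, Equiv.Perm.one_apply, if_pos rfl,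
          if_neg fun h => hne v h.2 h.1.symm, sub_zero]
      have h2 : ∏ i, (1 - Matrix.diagonal (pin d (fermiOrb σ a)ᶜ) * lz σ 1)ᵀ (σ.cycleOf a i) i =
          ∏ v ∈ fermiOrb σ a, -d v := by
        refine (Finset.prod_congr rfl fun v _ => ?_).trans (Finset.prod_filter _ _).symm
        rw [Matrix.transpose_apply, hM, Equiv.Perm.cycleOf_apply]
        by_cases h : σ.SameCycle a v
        · simp [h, (hne v h).symm]
        · simp [h]
      have h3 : (σ.cycleOf a).support = fermiOrb σ a := by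
        ext v
        rw [Equiv.Perm.mem_support_cycleOf_iff, mem_fermiOrb, Equiv.Perm.mem_support]
        exact and_iff_left ha
      rw [h1, h2, (Equiv.Perm.isCycle_cycleOf σ ha).sign, h3, Finset.prod_neg]
      simp [Units.smul_def, ← mul_assoc, ← mul_pow, sub_eq_add_neg]
    · rintro τ ⟨h1, h2⟩
      by_contra hc
      have h3 : ∀ v, τ v = v ∨ (τ v = σ v ∧ σ.SameCycle a v) := fun v => by
        by_contra h
        rw [not_or] at h
        refine hc (smul_eq_zero_of_right _ (Finset.prod_eq_zero (mem_univ v) ?_))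
        rw [Matrix.transpose_apply, hM, if_neg (Ne.symm h.1), if_neg h.2, sub_zero]
      obtain ⟨v0, hv0⟩ : ∃ v, τ v ≠ v := not_forall.1 fun h => h1 (Equiv.ext h)
      obtain ⟨b1, b2⟩ := (h3 v0).resolve_left hv0
      have h4 : ∀ n : ℕ, τ ((σ ^ n) v0) = σ ((σ ^ n) v0) := fun n => by
        induction n with
        | zero => exact b1
        | succ n ih =>
          rw [pow_succ', Equiv.Perm.mul_apply]
          refine ((h3 _).resolve_left fun h => ?_).1
          exact hne _ (b2.trans ⟨n, rfl⟩) (τ.injective (h.trans ih.symm))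
      refine h2 (Equiv.ext fun v => ?_)
      rw [Equiv.Perm.cycleOf_apply]
      split_ifs with h
      · obtain ⟨n, rfl⟩ := (b2.symm.trans h).exists_nat_pow_eq
        exact h4 n
      · exact (h3 v).resolve_right fun h' => h h'.2

theorem fermi_mul (σ : Equiv.Perm Y) (d : Y → ℝ) {U O : Finset Y} (hO : IsInv σ O)
    (h : Disjoint U O) : (1 - Matrix.diagonal (pin d U) * lz σ 1).det =
      (1 - Matrix.diagonal (pin d (U ∪ O)) * lz σ 1).det *
        (1 - Matrix.diagonal (pin d Oᶜ) * lz σ 1).det := by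
  have h1 : Matrix.diagonal (pin d (U ∪ O)) * lz σ 1 * (Matrix.diagonal (pin d Oᶜ) * lz σ 1) =
      0 := by
    ext v w
    rw [Matrix.mul_apply, Finset.sum_eq_single (σ v)]
    · rw [fermi_entry, fermi_entry, if_pos rfl]
      by_cases hv : v ∈ O
      · simp [pin, hv]
      · simp [pin, hv, hO v]
    · intro x _ hx
      rw [fermi_entry, if_neg hx, zero_mul]
    · exact fun h => absurd (mem_univ _) h
  have h2 : pin d U = fun v => pin d (U ∪ O) v + pin d Oᶜ v := by
    funext v
    by_cases hv : v ∈ O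
    · simp [pin, hv, Finset.disjoint_right.1 h hv]
    · simp [pin, hv]
  rw [← Matrix.det_mul, sub_mul, mul_sub, mul_sub, h1, h2, ← Matrix.diagonal_add, add_mul]
  simp only [one_mul, mul_one, sub_zero, sub_sub, add_comm]

open Classical in
theorem fermi_gen (σ : Equiv.Perm Y) (d : Y → ℝ) (U1 : Finset Y) (h1 : IsInv σ U1) :
    ∑ U2 : Finset Y, (if IsInv σ U2 ∧ Disjoint U1 U2 then
      (∏ v ∈ U2, d v) * (1 - Matrix.diagonal (pin d (U1 ∪ U2)) * lz σ 1).det else 0) = 1 := by
  induction U1 using WellFoundedGT.induction with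
  | _ U1 ih =>
  by_cases hU : U1 = univ
  · subst hU
    rw [Finset.sum_eq_single ∅]
    · have : pin d univ = fun _ => 0 := funext fun v => if_pos (mem_univ v)
      simp [IsInv, this]
    · intro U _ hU
      exact if_neg fun h => hU (disjoint_top.1 h.2.symm)
    · exact fun h => absurd (mem_univ _) h
  obtain ⟨a, ha⟩ : ∃ a, a ∉ U1 := not_forall.1 fun h => hU (eq_univ_of_forall h)
  have hO := fermiOrb_inv σ a
  have haO : a ∈ fermiOrb σ a := mem_fermiOrb.2 (Equiv.Perm.SameCycle.refl _ _)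
  have hdis : ∀ U, IsInv σ U → a ∉ U → Disjoint U (fermiOrb σ a) := fun U hU h =>
    Finset.disjoint_right.2 fun y hy hy' => h ((hU.sameCycle (mem_fermiOrb.1 hy)).1 hy')
  have h2 := ih (U1 ∪ fermiOrb σ a) (lt_of_le_of_ne subset_union_left fun e =>
    ha (e ▸ mem_union_right _ haO)) (h1.union hO)
  have hdet := fermi_orb σ d a
  have hsub : ∀ U, IsInv σ U → a ∈ U → fermiOrb σ a ⊆ U := fun U hU h y hy =>
    (hU.sameCycle (mem_fermiOrb.1 hy)).2 h
  generalize fermiOrb σ a = O at hO haO hdis h2 hdet hsub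
  let f : Finset Y → ℝ := fun U2 => if IsInv σ U2 ∧ Disjoint U1 U2 then
    (∏ v ∈ U2, d v) * (1 - Matrix.diagonal (pin d (U1 ∪ U2)) * lz σ 1).det else 0
  let g : Finset Y → ℝ := fun U2 => if IsInv σ U2 ∧ Disjoint (U1 ∪ O) U2 then
    (∏ v ∈ U2, d v) * (1 - Matrix.diagonal (pin d (U1 ∪ O ∪ U2)) * lz σ 1).det else 0
  have h3 : ∀ U, (if a ∈ U then 0 else f U) = (1 - ∏ v ∈ O, d v) * g U := fun U => by
    simp only [f, g]
    by_cases h : IsInv σ U ∧ Disjoint (U1 ∪ O) U
    · obtain ⟨b1, b2⟩ := disjoint_union_left.1 h.2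
      rw [if_pos h, if_neg (Finset.disjoint_left.1 b2 haO), if_pos ⟨h.1, b1⟩,
        fermi_mul σ d hO (disjoint_union_left.2 ⟨hdis U1 h1 ha, b2.symm⟩), hdet,
        union_right_comm]
      ring
    · rw [if_neg h, mul_zero]
      split_ifs with b1 b2
      · rfl
      · exact absurd ⟨b2.1, disjoint_union_left.2 ⟨b2.2, (hdis U b2.1 b1).symm⟩⟩ h
      · rfl
  have h4 : ∀ U, (if a ∈ symmDiff U O then f (symmDiff U O) else 0) = (∏ v ∈ O, d v) * g U :=
    fun U => by
    simp only [f, g]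
    by_cases h : IsInv σ U ∧ Disjoint (U1 ∪ O) U
    · obtain ⟨b1, b2⟩ := disjoint_union_left.1 h.2
      have e : symmDiff U O = U ∪ O := b2.symm.symmDiff_eq_sup
      rw [if_pos h, e, if_pos (mem_union_right _ haO),
        if_pos ⟨h.1.union hO, disjoint_union_right.2 ⟨b1, hdis U1 h1 ha⟩⟩, prod_union b2.symm,
        union_right_comm, union_assoc]
      ring
    · rw [if_neg h, mul_zero]
      split_ifs with b1 b2
      · have b3 : Disjoint U O := Finset.disjoint_right.2 fun y hy hy' => by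
          have := mem_symmDiff.1 (hsub _ b2.1 b1 hy)
          tauto
        have e : symmDiff U O = U ∪ O := b3.symmDiff_eq_sup
        rw [e] at b2
        refine absurd ⟨?_, disjoint_union_left.2 ⟨(disjoint_union_right.1 b2.2).1, b3.symm⟩⟩ h
        rw [← union_sdiff_cancel_right b3]
        exact b2.1.sdiff hO
      · rfl
      · rfl
  have h5 : ∑ U, f U = ∑ U, (if a ∈ U then f U else 0) + ∑ U, (if a ∈ U then 0 else f U) := by
    rw [← Finset.sum_add_distrib]
    exact Finset.sum_congr rfl fun U _ => by split_ifs <;> simp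
  have h6 : ∑ U, (if a ∈ U then f U else 0) = ∑ U, (∏ v ∈ O, d v) * g U :=
    (Equiv.sum_comp (symmDiff_left_involutive O).toPerm fun U =>
      if a ∈ U then f U else 0).symm.trans (Finset.sum_congr rfl fun U _ => h4 U)
  refine h5.trans ?_
  rw [h6]
  simp only [h3, ← Finset.mul_sum]
  rw [show ∑ U, g U = 1 from h2]
  ring

end Gen

omit [Fintype I] [Fintype X] in
theorem fermi_ker (c : Circ I X) (ω : I → Bool) :
    c.ker (fun i => bit (ω i)) = lz (c.perm ω) 1 := by
  ext ⟨i, x⟩ ⟨j, y⟩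
  cases h : ω i <;> simp [Circ.ker, Circ.perm, lz, bit, h, ite_and, Prod.ext_iff]

open Classical in
theorem fermi_id (c : Circ I X) (d : I × X → ℝ) (ω : I → Bool) {U1 : Finset (I × X)}
    (h1 : IsInv (c.perm ω) U1) :
    ∑ U2 : Finset (I × X), (if IsInv (c.perm ω) U2 ∧ Disjoint U1 U2 then
      (∏ v ∈ U2, d v) * c.fdet d ω (U1 ∪ U2) else 0) = 1 := by
  simp only [Circ.fdet, fermi_ker]
  exact fermi_gen _ d U1 h1

end Vale.Agent.P361
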