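import Vale.Agent.P361.Basic

namespace Vale.Agent.P361

open Matrix Finset

/-! ## Connection calculus -/

lemma Conn.refl {S : Set Z3} {a : Z3} (h : a ∈ S) : Conn S a a := ⟨h, Relation.ReflTransGen.refl⟩

lemma Conn.left_mem {S : Set Z3} {a b : Z3} (h : Conn S a b) : a ∈ S := h.1

lemma Conn.right_mem {S : Set Z3} {a b : Z3} (h : Conn S a b) : b ∈ S := by
  obtain ⟨ha, h⟩ := h
  induction h with
  | refl => exact ha
  | tail _ h2 _ => exact h2.2

lemma Conn.trans {S : Set Z3} {a b c : Z3} (h : Conn S a b) (h' : Conn S b c) : Conn S a c :=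
  ⟨h.1, h.2.trans h'.2⟩

lemma Conn.single {S : Set Z3} {a b : Z3} (ha : a ∈ S) (hb : b ∈ S) (h : zadj a b) :
    Conn S a b := ⟨ha, Relation.ReflTransGen.single ⟨h, hb⟩⟩

lemma Conn.step {S : Set Z3} {a b : Z3} (ha : a ∈ S) (hb : b ∈ S) (h : b = a ∨ zadj a b) :
    Conn S a b := by
  rcases h with rfl | h
  · exact Conn.refl ha
  · exact Conn.single ha hb h

lemma Conn.symm {S : Set Z3} {a b : Z3} (h : Conn S a b) : Conn S b a := by
  obtain ⟨ha, h⟩ := h
  induction h with
  | refl => exact Conn.refl ha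
  | @tail x z h1 h2 ih =>
    exact (Conn.single h2.2 ih.1 (zadj_symm h2.1)).trans ih

lemma Conn.mono {S T : Set Z3} {a b : Z3} (h : Conn S a b) (hST : S ⊆ T) : Conn T a b := by
  obtain ⟨ha, h⟩ := h
  induction h with
  | refl => exact Conn.refl (hST ha)
  | @tail x z h1 h2 ih => exact ih.trans (Conn.single ih.right_mem (hST h2.2) h2.1)

/-- lift a connection through a map which sends steps to connections -/
lemma Conn.lift {S T : Set Z3} {f : Z3 → Z3} {a b : Z3} (h : Conn S a b)
    (hf : ∀ w ∈ S, ∀ w', (w' = w ∨ zadj w w') → Conn T (f w) (f w')) : Conn T (f a) (f b) := by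
  obtain ⟨ha, h⟩ := h
  induction h with
  | refl => exact hf a ha a (Or.inl rfl)
  | @tail x z h1 h2 ih =>
    exact ih.trans (hf x (Conn.right_mem ⟨ha, h1⟩) z (Or.inr h2.1))

lemma fill_nrm_step {y y' : Z3} (h : y' = y ∨ zadj y y') : nrm (y' - y) ≤ 1 := by
  rcases h with rfl | h
  · simp
  · exact (nrm_of_zadj h).le

/-- moving along a ray -/
lemma fill_ray {S : Set Z3} (w d : Z3) (hd : ∀ x, zadj x (x + d)) (n : ℕ)
    (h : ∀ t : ℕ, t ≤ n → w + (t : ℤ) • d ∈ S) : Conn S w (w + (n : ℤ) • d) := by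
  induction n with
  | zero =>
    have := h 0 le_rfl
    simp only [Nat.cast_zero, zero_smul, add_zero] at this ⊢
    exact Conn.refl this
  | succ n ih =>
    have h1 := ih fun t ht => h t (by omega)
    refine h1.trans (Conn.single h1.right_mem (h _ le_rfl) ?_)
    have e : w + ((n + 1 : ℕ) : ℤ) • d = w + (n : ℤ) • d + d := by
      push_cast
      rw [add_smul, one_smul, add_assoc]
    rw [e]
    exact hd _

/-! ## Spheres are connected -/

lemma fill_sph_iff {w c : Z3} {r : ℕ} :
    nrm (w - c) = r ↔ (∀ l, |w l - c l| ≤ r) ∧ ∃ j, |w j - c j| = r := by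
  constructor
  · intro h
    refine ⟨fun l => ?_, ?_⟩
    · simpa using nrm_le_iff_abs.1 h.le l
    · obtain ⟨j, -, hj⟩ := Finset.exists_mem_eq_sup (Finset.univ : Finset (Fin 3))
        Finset.univ_nonempty (fun i => ((w - c) i).natAbs)
      refine ⟨j, ?_⟩
      have h2 : nrm (w - c) = ((w - c) j).natAbs := hj
      rw [h, Pi.sub_apply] at h2
      rw [h2, Int.natCast_natAbs]
  · rintro ⟨h1, j, hj⟩
    apply le_antisymm
    · exact nrm_le_iff_abs.2 fun l => by simpa using h1 l
    · have h2 := le_nrm (w - c) j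
      rw [Pi.sub_apply] at h2
      rw [← Int.natCast_natAbs] at hj
      omega

lemma fill_raise {w c : Z3} {r : ℕ} (hw : ∀ l, |w l - c l| ≤ r) {i j : Fin 3} (hij : j ≠ i)
    (hj : |w j - c j| = r) :
    Conn {x | nrm (x - c) = r} w (Function.update w i (c i + r)) := by
  have hi := abs_le.1 (hw i)
  have h := fill_ray (S := {x | nrm (x - c) = r}) w (ev i) (fun x => ⟨i, Or.inl rfl⟩)
    (c i + r - w i).toNat (fun t ht => by
      show nrm (w + (t : ℤ) • ev i - c) = r
      rw [fill_sph_iff]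
      refine ⟨fun l => ?_, j, ?_⟩
      · by_cases hl : l = i
        · subst hl
          simp only [ev, Pi.add_apply, Pi.smul_apply, Pi.single_eq_same, smul_eq_mul, mul_one]
          rw [abs_le]
          constructor <;> omega
        · simpa [ev, Pi.single_eq_of_ne hl] using hw l
      · simpa [ev, Pi.single_eq_of_ne hij] using hj)
  have e : w + (((c i + r - w i).toNat : ℕ) : ℤ) • ev i = Function.update w i (c i + r) := by
    funext l
    by_cases hl : l = i
    · subst hl
      simp only [ev, Pi.add_apply, Pi.smul_apply, Pi.single_eq_same, smul_eq_mul, mul_one,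
        Function.update_self]
      omega
    · simp [ev, Pi.single_eq_of_ne hl, Function.update_of_ne hl]
  rwa [e] at h

lemma fill_corner {w c : Z3} {r : ℕ} (hw : nrm (w - c) = r) :
    Conn {x | nrm (x - c) = r} w (fun l => c l + r) := by
  obtain ⟨h1, j, hj⟩ := fill_sph_iff.1 hw
  have n1 : ∀ i : Fin 3, i ≠ i + 1 := by decide
  have n2 : ∀ i : Fin 3, i ≠ i + 2 := by decide
  have hc : ∀ i l : Fin 3, l = i ∨ l = i + 1 ∨ l = i + 2 := by decide
  have n3 : ∀ i : Fin 3, i + 1 ≠ i + 2 := by decide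
  obtain ⟨i, hi⟩ : ∃ i, j ≠ i := ⟨j + 1, n1 j⟩
  have c1 := fill_raise h1 hi hj
  obtain ⟨h2, -⟩ := fill_sph_iff.1 c1.right_mem
  have c2 := fill_raise h2 (n1 i) (by simp)
  obtain ⟨h3, -⟩ := fill_sph_iff.1 c2.right_mem
  have c3 := fill_raise h3 (n2 i) (by simp)
  have e : Function.update (Function.update (Function.update w i (c i + r)) (i + 1)
      (c (i + 1) + r)) (i + 2) (c (i + 2) + r) = fun l => c l + r := by
    funext l
    rcases hc i l with rfl | rfl | rfl
    · rw [Function.update_of_ne (n2 _), Function.update_of_ne (n1 _), Function.update_self]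
    · rw [Function.update_of_ne (n3 _), Function.update_self]
    · rw [Function.update_self]
  rw [e] at c3
  exact c1.trans (c2.trans c3)

lemma fill_sph_conn {w w' c : Z3} {r : ℕ} (hw : nrm (w - c) = r) (hw' : nrm (w' - c) = r) :
    Conn {x | nrm (x - c) = r} w w' :=
  (fill_corner hw).trans (fill_corner hw').symm

/-! ## Representatives and the one-scale detour -/

lemma fill_reps (R : Set Z3) (a : ℕ)
    (h : ∀ x ∈ R, ∀ x' ∈ R, nrm (x' - x) ≤ a ∨ 4 * a < nrm (x' - x)) :
    ∃ C : Set Z3, C ⊆ R ∧ (∀ x ∈ R, ∃ c ∈ C, nrm (x - c) ≤ a) ∧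
      ∀ c ∈ C, ∀ c' ∈ C, nrm (c' - c) ≤ 4 * a → c' = c := by
  classical
  let P : Z3 → Z3 → Prop := fun x c => c ∈ R ∧ nrm (c - x) ≤ a
  let rep : Z3 → Z3 := fun x => Classical.epsilon (P x)
  have hrep : ∀ x ∈ R, P x (rep x) := fun x hx =>
    Classical.epsilon_spec (p := P x) ⟨x, hx, by simp⟩
  have htr : ∀ x ∈ R, ∀ y ∈ R, ∀ z ∈ R, nrm (y - x) ≤ a → nrm (z - y) ≤ a → nrm (z - x) ≤ a := by
    intro x hx y _ z hz h1 h2
    have := nrm_triangle z y x
    rcases h x hx z hz with h3 | h3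
    · exact h3
    · omega
  refine ⟨rep '' R, ?_, ?_, ?_⟩
  · rintro _ ⟨x, hx, rfl⟩
    exact (hrep x hx).1
  · intro x hx
    exact ⟨rep x, ⟨x, hx, rfl⟩, by rw [nrm_sub_comm]; exact (hrep x hx).2⟩
  · rintro _ ⟨x, hx, rfl⟩ _ ⟨x', hx', rfl⟩ hd
    have h1 : nrm (rep x' - rep x) ≤ a := by
      rcases h _ (hrep x hx).1 _ (hrep x' hx').1 with h3 | h3
      · exact h3
      · omega
    have h2 : nrm (rep x' - x) ≤ a := htr x hx _ (hrep x hx).1 _ (hrep x' hx').1 (hrep x hx).2 h1
    have h3 : nrm (x' - x) ≤ a := htr x hx _ (hrep x' hx').1 _ hx' h2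
      (by rw [nrm_sub_comm]; exact (hrep x' hx').2)
    have e : P x' = P x := by
      funext c
      apply propext
      constructor
      · rintro ⟨hc, h4⟩
        exact ⟨hc, htr x hx x' hx' c hc h3 h4⟩
      · rintro ⟨hc, h4⟩
        exact ⟨hc, htr x' hx' x hx c hc (by rw [nrm_sub_comm]; exact h3) h4⟩
    show Classical.epsilon (P x') = Classical.epsilon (P x)
    rw [e]

/-- push every point out of a family of well separated cubes -/
lemma fill_push (C : Set Z3) (ρ : ℕ)
    (hC : ∀ c ∈ C, ∀ c' ∈ C, nrm (c' - c) ≤ 2 * ρ + 1 → c' = c) :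
    ∃ ψ : Z3 → Z3, (∀ y, (∀ c ∈ C, ρ < nrm (y - c)) → ψ y = y) ∧
      ∀ y y', (y' = y ∨ zadj y y') →
        Conn {w | (∀ c ∈ C, ρ < nrm (w - c)) ∧ nrm (w - y) ≤ 2 * ρ + 2} (ψ y) (ψ y') := by
  classical
  let ψ : Z3 → Z3 := fun y =>
    if h : ∃ c ∈ C, nrm (y - c) ≤ ρ then fun l => h.choose l + ((ρ + 1 : ℕ) : ℤ) else y
  have hout : ∀ y, (∀ c ∈ C, ρ < nrm (y - c)) → ψ y = y := by
    intro y hy
    have : ¬ ∃ c ∈ C, nrm (y - c) ≤ ρ := by
      rintro ⟨c, hc, h⟩
      have := hy c hc
      omega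
    simp only [ψ, dif_neg this]
  have hsph : ∀ y, ∀ c ∈ C, nrm (y - c) ≤ ρ + 1 → nrm (ψ y - c) = ρ + 1 := by
    intro y c hc hy
    by_cases h : ∃ c ∈ C, nrm (y - c) ≤ ρ
    · have h1 := h.choose_spec
      have e : h.choose = c := by
        refine hC c hc _ h1.1 ?_
        have := nrm_triangle h.choose y c
        rw [nrm_sub_comm h.choose y] at this
        have := h1.2
        omega
      simp only [ψ, dif_pos h, e]
      rw [fill_sph_iff]
      refine ⟨fun l => ?_, 0, ?_⟩
      · rw [add_sub_cancel_left, abs_of_nonneg (Int.natCast_nonneg _)]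
      · rw [add_sub_cancel_left, abs_of_nonneg (Int.natCast_nonneg _)]
    · simp only [ψ, dif_neg h]
      have : ¬ nrm (y - c) ≤ ρ := fun h' => h ⟨c, hc, h'⟩
      omega
  refine ⟨ψ, hout, fun y y' hyy => ?_⟩
  have h1 := fill_nrm_step hyy
  by_cases h : ∃ c ∈ C, nrm (y - c) ≤ ρ + 1 ∧ nrm (y' - c) ≤ ρ + 1
  · obtain ⟨c, hc, h2, h3⟩ := h
    refine (fill_sph_conn (hsph y c hc h2) (hsph y' c hc h3)).mono fun w hw => ?_
    have hw' : nrm (w - c) = ρ + 1 := hw
    refine ⟨fun c' hc' => ?_, ?_⟩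
    · by_contra hn
      have e : c' = c := by
        refine hC c hc c' hc' ?_
        have := nrm_triangle c' w c
        rw [nrm_sub_comm c' w] at this
        omega
      rw [e] at hn
      omega
    · have := nrm_triangle w c y
      rw [nrm_sub_comm c y] at this
      omega
  · have o1 : ∀ c ∈ C, ρ < nrm (y - c) := by
      intro c hc
      by_contra hn
      have := nrm_triangle y' y c
      exact h ⟨c, hc, by omega, by omega⟩
    have o2 : ∀ c ∈ C, ρ < nrm (y' - c) := by
      intro c hc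
      by_contra hn
      have := nrm_triangle y y' c
      rw [nrm_sub_comm y y'] at this
      exact h ⟨c, hc, by omega, by omega⟩
    rw [hout y o1, hout y' o2]
    exact Conn.step ⟨o1, by simp⟩ ⟨o2, by omega⟩ hyy

theorem fill (E : Set Z3) (Kc : ℕ) : ∃ φ : Z3 → Z3, (∀ y, Far E Kc y 0 → φ y = y) ∧
    ∀ y y' k, (y' = y ∨ zadj y y') → Far E Kc y k →
      Conn ((cube y (cc k) : Set Z3) \ (E \ hier E Kc)) (φ y) (φ y') := by
  induction Kc with
  | zero =>
    refine ⟨id, fun _ _ => rfl, fun y y' k hyy _ => ?_⟩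
    have h1 := fill_nrm_step hyy
    have h2 := cc_pos k
    refine Conn.step ⟨?_, fun h => h.2 h.1⟩ ⟨?_, fun h => h.2 h.1⟩ hyy
    · exact Finset.mem_coe.2 (self_mem_cube _ _)
    · exact Finset.mem_coe.2 (mem_cube.2 (by simp only [id]; omega))
  | succ K ih =>
    obtain ⟨φ, hφ0, hφ⟩ := ih
    have ha := two_cc_le K
    have hcp := cc_pos K
    obtain ⟨C, hCR, hcov, hsep⟩ := fill_reps (hier E K \ hier E (K + 1)) (aa K) (by
      intro x hx x' hx'
      by_contra hn
      exact hx.2 ⟨hx.1, x', hx'.1, by omega, by omega⟩)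
    obtain ⟨ψ, hout, hψ⟩ := fill_push C (aa K + cc K)
      (fun c hc c' hc' h => hsep c hc c' hc' (by omega))
    have hfar : ∀ y k, Far E (K + 1) y k → Far E K y k :=
      fun y k h j h1 h2 => h j h1 (by omega)
    have hfix : ∀ y y' k, k ≤ K → (y' = y ∨ zadj y y') → Far E (K + 1) y k → ψ y' = y' := by
      intro y y' k hk hyy h
      refine hout y' fun c hc => ?_
      have h1 := h K hk (by omega) c (hCR hc).1
      have h2 := fill_nrm_step hyy
      have h3 := nrm_triangle c y' y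
      rw [nrm_sub_comm c y'] at h3
      omega
    refine ⟨fun y => φ (ψ y), fun y hy => ?_, fun y y' k hyy hy => ?_⟩
    · show φ (ψ y) = y
      rw [hfix y y 0 (Nat.zero_le _) (Or.inl rfl) hy]
      exact hφ0 y (hfar y 0 hy)
    · show Conn _ (φ (ψ y)) (φ (ψ y'))
      by_cases hk : k ≤ K
      · rw [hfix y y k hk (Or.inl rfl) hy, hfix y y' k hk hyy hy]
        refine (hφ y y' k hyy (hfar y k hy)).mono fun z hz => ⟨hz.1, fun hE => ?_⟩
        have h1 : z ∈ hier E K := by
          by_contra hn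
          exact hz.2 ⟨hE.1, hn⟩
        have h2 := hy K hk (by omega) z h1
        have h3 := mem_cube.1 (Finset.mem_coe.1 hz.1)
        have h4 := cc_mono hk
        omega
      · refine (hψ y y' hyy).lift fun w hw w' hww => ?_
        refine (hφ w w' K hww (fun j h1 h2 => by omega)).mono fun z hz => ⟨?_, fun hE => ?_⟩
        · have h3 := mem_cube.1 (Finset.mem_coe.1 hz.1)
          have h4 : cc (K + 1) ≤ cc k := cc_mono (by omega)
          have h5 : cc (K + 1) = 5 * aa K := rfl
          have h6 := nrm_triangle z w y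
          have h7 := hw.2
          exact Finset.mem_coe.2 (mem_cube.2 (by omega))
        · have h1 : z ∈ hier E K := by
            by_contra hn
            exact hz.2 ⟨hE.1, hn⟩
          obtain ⟨c, hc, h2⟩ := hcov z ⟨h1, hE.2⟩
          have h3 := mem_cube.1 (Finset.mem_coe.1 hz.1)
          have h4 := hw.1 c hc
          have h5 := nrm_triangle w z c
          rw [nrm_sub_comm w z] at h5
          omega

end Vale.Agent.P361
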