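import Vale.Agent.P361.Basic

/-! Fourier expansion of the heat kernel on the torus. -/

namespace Vale.Agent.P361

open Matrix Finset Real

theorem heatA_eig {V : Type} [Fintype V] [DecidableEq V] {A : Matrix V V ℝ} {v : V → ℝ} {μ : ℝ}
    (h : A *ᵥ v = μ • v) (x : V) : (NormedSpace.exp A *ᵥ v) x = Real.exp μ * v x := by
  have h1 : HasSum (fun n : ℕ => ((n.factorial : ℝ)⁻¹) • A ^ n) (NormedSpace.exp A) := by
    open scoped Matrix.Norms.Operator in exact NormedSpace.exp_series_hasSum_exp' A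
  have h2 : ∀ n : ℕ, (A ^ n) *ᵥ v = μ ^ n • v := fun n => by
    induction n with
    | zero => simp
    | succ n ih => rw [pow_succ, ← mulVec_mulVec, h, mulVec_smul, ih, smul_smul, pow_succ']
  have h3 := hasSum_sum (s := Finset.univ)
    fun y _ => (Pi.hasSum.1 (Pi.hasSum.1 h1 x) y).mul_right (v y)
  have h4 := (NormedSpace.exp_series_hasSum_exp' (𝕂 := ℝ) μ).mul_right (v x)
  rw [← Real.exp_eq_exp_ℝ] at h4
  refine h3.unique (h4.congr_fun fun n => ?_)
  change ((((n.factorial : ℝ)⁻¹) • A ^ n) *ᵥ v) x = _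
  rw [smul_mulVec, h2, smul_smul, Pi.smul_apply, smul_eq_mul, smul_eq_mul]

variable {L : ℕ} [NeZero L]

omit [NeZero L] in
theorem heatA_prj (i : Fin 3) : prj L (ev i) = Pi.single i 1 := by
  funext j
  by_cases h : j = i <;> simp [prj, ev, h]

theorem heatA_nb (hL : 3 ≤ L) (x : TV L) (g : TV L → ℝ) :
    ∑ u ∈ (torus L).neighborFinset x, g u =
      ∑ i, (g (x + Pi.single i 1) + g (x - Pi.single i 1)) := by
  have : Fact (2 < L) := ⟨hL⟩
  have : Fact (1 < L) := ⟨by omega⟩
  have h1 : ∀ i : Fin 3, (Pi.single i 1 : TV L) ≠ 0 := fun i e => by simpa using congrFun e i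
  have h2 : Function.Injective fun i : Fin 3 => (Pi.single i 1 : TV L) := fun i j e => by
    by_contra h
    simpa [h] using congrFun e i
  have h3 : (torus L).neighborFinset x = (univ.image fun i => x + Pi.single i 1) ∪
      univ.image fun i => x - Pi.single i 1 := by
    ext y
    simp only [SimpleGraph.mem_neighborFinset, torus_adj, heatA_prj, mem_union, mem_image,
      mem_univ, true_and, ← exists_or]
    constructor
    · rintro ⟨-, i, rfl | rfl⟩
      · exact ⟨i, Or.inl rfl⟩
      · exact ⟨i, Or.inr (add_sub_cancel_right _ _)⟩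
    · rintro ⟨i, rfl | rfl⟩
      · exact ⟨fun e => h1 i (left_eq_add.1 e), i, Or.inl rfl⟩
      · exact ⟨fun e => h1 i (sub_eq_self.1 e.symm), i, Or.inr (sub_add_cancel _ _).symm⟩
  rw [h3, sum_union, sum_image fun i _ j _ e => h2 (add_left_cancel e),
    sum_image fun i _ j _ e => h2 (sub_right_injective e), sum_add_distrib]
  refine disjoint_left.2 fun y a b => ?_
  obtain ⟨i, -, rfl⟩ := mem_image.1 a
  obtain ⟨j, -, e⟩ := mem_image.1 b
  have h4 := congrFun (add_left_cancel ((sub_eq_add_neg _ _).symm.trans e)) i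
  by_cases h : i = j
  · subst h
    exact ZMod.neg_one_ne_one (by simpa using h4)
  · simp [h] at h4

/-- characters of the torus -/
noncomputable def heatChi (k z : TV L) : ℂ := ZMod.stdAddChar (∑ i, k i * z i)

theorem heatA_re (a : ZMod L) : (ZMod.stdAddChar a).re = Real.cos (2 * π * a.val / L) := by
  rw [ZMod.stdAddChar_apply, ZMod.toCircle_eq_circleExp, Circle.coe_exp,
    Complex.exp_ofReal_mul_I_re, mul_div_assoc]

theorem heatA_lap (hL : 3 ≤ L) (k y : TV L) :
    (torus L).lapMatrix ℝ *ᵥ (fun x => (heatChi k (x - y)).re) =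
      (∑ i, 2 * (1 - Real.cos (2 * π * (k i).val / L))) • fun x => (heatChi k (x - y)).re := by
  funext x
  have h1 : ∀ z w : TV L, heatChi k (z + w) = heatChi k z * heatChi k w := fun z w => by
    simp only [heatChi, Pi.add_apply, mul_add, sum_add_distrib, AddChar.map_add_eq_mul]
  have h2 : ∀ (i : Fin 3) (a : ZMod L), heatChi k (Pi.single i a) = ZMod.stdAddChar (k i * a) :=
    fun i a => by simp [heatChi, Pi.single_apply]
  have h3 : ∀ i : Fin 3, (heatChi k (x + Pi.single i 1 - y)).re +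
      (heatChi k (x - Pi.single i 1 - y)).re =
        2 * Real.cos (2 * π * (k i).val / L) * (heatChi k (x - y)).re := fun i => by
    rw [add_sub_right_comm, sub_right_comm, sub_eq_add_neg (x - y), ← Pi.single_neg, h1, h1, h2, h2,
      mul_neg, mul_one, AddChar.map_neg_eq_conj, ← Complex.add_re, ← mul_add, Complex.add_conj,
      Complex.re_mul_ofReal, heatA_re, mul_comm]
  have h4 := heatA_nb hL x fun _ => 1
  rw [sum_const, SimpleGraph.card_neighborFinset_eq_degree, nsmul_one] at h4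
  rw [SimpleGraph.lapMatrix_mulVec_apply, heatA_nb hL, h4, Pi.smul_apply, smul_eq_mul, sum_mul,
    sum_mul, ← sum_sub_distrib]
  refine sum_congr rfl fun i _ => ?_
  rw [h3]
  ring

theorem heatA_delta (x y : TV L) :
    ∑ k, (heatChi k (x - y)).re = (L : ℝ) ^ 3 * (Pi.single y 1 : TV L → ℝ) x := by
  have h1 : ∑ k, heatChi k (x - y) = ∏ i, ∑ a : ZMod L, ZMod.stdAddChar (a * (x - y) i) := by
    rw [Fintype.prod_sum]
    refine sum_congr rfl fun k _ => ?_
    simp only [heatChi, Fin.sum_univ_three, Fin.prod_univ_three, AddChar.map_add_eq_mul]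
  rw [← Complex.re_sum, h1]
  simp only [AddChar.sum_mulShift _ (ZMod.isPrimitive_stdAddChar L), ZMod.card]
  by_cases h : x = y
  · simp [h, ← Complex.ofReal_natCast, ← Complex.ofReal_pow]
  · obtain ⟨i, hi⟩ := Function.ne_iff.1 (sub_ne_zero.2 h)
    rw [prod_eq_zero (mem_univ i) (by rw [if_neg (show ¬ (x - y) i = 0 from hi), Nat.cast_zero])]
    simp [h]

/-- the one dimensional return probability -/
noncomputable def heatH (c : ℝ) (L : ℕ) : ℝ :=
  (∑ k ∈ range L, Real.exp (-(c * (1 - Real.cos (2 * π * k / L))))) / L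

theorem heatA_formula (hL : 3 ≤ L) (s : ℕ) (t : ℝ) (x y : TV L) :
    heat (torus L) s t x y = (∑ k : TV L, (∏ i, Real.exp (-(t * s *
      (1 - Real.cos (2 * π * (k i).val / L))))) * (heatChi k (x - y)).re) / (L : ℝ) ^ 3 := by
  have h0 : (0 : ℝ) < (L : ℝ) ^ 3 := by have := NeZero.pos L; positivity
  have h1 : (∑ k : TV L, fun x => (heatChi k (x - y)).re) =
      (L : ℝ) ^ 3 • (Pi.single y 1 : TV L → ℝ) := funext fun x => by
    rw [Finset.sum_apply, heatA_delta, Pi.smul_apply, smul_eq_mul]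
  have h2 := congrFun (congrArg (heat (torus L) s t *ᵥ ·) h1) x
  simp only [mulVec_smul, mulVec_single_one, mulVec_sum, Finset.sum_apply, Pi.smul_apply,
    col_apply, smul_eq_mul] at h2
  rw [eq_div_iff h0.ne', mul_comm, ← h2]
  refine sum_congr rfl fun k _ => ?_
  rw [heat, heatA_eig (by rw [smul_mulVec, heatA_lap hL, smul_smul]), ← Real.exp_sum, mul_sum]
  congr 2
  exact sum_congr rfl fun i _ => by ring

theorem heatA_cube (c : ℝ) : (∑ k : TV L, ∏ i, Real.exp (-(c *
    (1 - Real.cos (2 * π * (k i).val / L))))) / (L : ℝ) ^ 3 = heatH c L ^ 3 := by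
  rw [heatH, div_pow, ← Fintype.sum_pow fun a : ZMod L => Real.exp (-(c *
    (1 - Real.cos (2 * π * a.val / L))))]
  obtain ⟨n, rfl⟩ := Nat.exists_eq_succ_of_ne_zero (NeZero.ne L)
  rw [← Fin.sum_univ_eq_sum_range]
  rfl

theorem heatA_le (hL : 3 ≤ L) (s : ℕ) (t : ℝ) (x y : TV L) :
    heat (torus L) s t x y ≤ heatH (t * s) L ^ 3 := by
  rw [heatA_formula hL, ← heatA_cube]
  refine div_le_div_of_nonneg_right (sum_le_sum fun k _ => mul_le_of_le_one_right
    (by positivity) ?_) (by positivity)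
  rw [heatChi, heatA_re]
  exact Real.cos_le_one _

theorem heatA_diag (hL : 3 ≤ L) (s : ℕ) (t : ℝ) (x : TV L) :
    heat (torus L) s t x x = heatH (t * s) L ^ 3 := by
  rw [heatA_formula hL, ← heatA_cube]
  simp [heatChi]

end Vale.Agent.P361
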