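import Vale.Agent.P361.EnvP
import Vale.Agent.P361.SweepOk

namespace Vale.Agent.P361

open Matrix Finset

theorem linesA_sl_nat (n M : ℕ) (a : ℕ) :
    sl n M (a : ZMod n) = ((a * M : ℕ) : ZMod (n * M)) := by
  rw [sl, ZMod.val_natCast, ← Nat.mul_mod_mul_right, ZMod.natCast_mod]

theorem sl_add (n M : ℕ) [NeZero n] (k : ZMod n) (j : ℕ) :
    sl n M (k + j) = sl n M k + ((j * M : ℕ) : ZMod (n * M)) := by
  conv_lhs => rw [← ZMod.natCast_zmod_val k, ← Nat.cast_add, linesA_sl_nat]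
  rw [sl, add_mul, Nat.cast_add]

theorem sl_sub (n M : ℕ) [NeZero n] (k : ZMod n) (j : ℕ) :
    sl n M (k - j) = sl n M k - ((j * M : ℕ) : ZMod (n * M)) := by
  rw [eq_sub_iff_add_eq, ← sl_add, sub_add_cancel]

theorem sl_injective (n M : ℕ) [NeZero n] (hM : 0 < M) : Function.Injective (sl n M) := by
  intro k k' h
  rw [sl, sl, ZMod.natCast_eq_natCast_iff',
    Nat.mod_eq_of_lt (Nat.mul_lt_mul_of_pos_right (ZMod.val_lt k) hM),
    Nat.mod_eq_of_lt (Nat.mul_lt_mul_of_pos_right (ZMod.val_lt k') hM)] at h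
  exact ZMod.val_injective n (Nat.eq_of_mul_eq_mul_right hM h)

theorem val_fwd (n M : ℕ) [NeZero (n * M)] (k : ZMod n) (t : ℕ) :
    (sl n M k + t).val % M = t % M := by
  rw [sl, ← Nat.cast_add, ZMod.val_natCast, Nat.mod_mul_left_mod, Nat.mul_add_mod_self_right]

theorem val_bwd (n M : ℕ) [NeZero (n * M)] (k : ZMod n) (t : ℕ) :
    (sl n M k - 1 - t).val % M = M - 1 - t % M := by
  have hM : 0 < M := Nat.pos_of_ne_zero fun h => NeZero.ne (n * M) (by rw [h, mul_zero])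
  have h1 := val_fwd n M k 0
  have h2 : sl n M k + ((0 : ℕ) : ZMod (n * M)) =
      (((sl n M k - 1 - t).val + (1 + t) : ℕ) : ZMod (n * M)) := by
    rw [Nat.cast_add, ZMod.natCast_zmod_val]
    push_cast
    ring
  rw [h2, ZMod.val_natCast, Nat.mod_mul_left_mod, Nat.zero_mod] at h1
  generalize (sl n M k - 1 - t).val = x at h1
  have h3 : (x % M + (1 + t % M)) % M = 0 := by
    rw [← h1, Nat.mod_add_mod, ← add_assoc, ← add_assoc, Nat.add_mod_mod]
  have h4 := Nat.mod_lt x hM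
  have h5 := Nat.mod_lt t hM
  obtain ⟨c, hc⟩ := Nat.dvd_of_mod_eq_zero h3
  have : c = 1 := by
    rcases c with _ | _ | c
    · omega
    · rfl
    · rw [mul_add, mul_add] at hc
      omega
  subst this
  omega

theorem dP_nonneg {X : Type} [DecidableEq X] (n M : ℕ) {ζ : ℝ} (hζ : 0 ≤ ζ)
    (P : Finset (ZMod n × X)) (v : ZMod (n * M) × X) : 0 ≤ dP n M ζ P v := by
  unfold dP pin
  split_ifs
  · exact le_rfl
  · exact hζ

theorem dP_le {X : Type} [DecidableEq X] (n M : ℕ) {ζ : ℝ} (hζ : 0 ≤ ζ)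
    (P : Finset (ZMod n × X)) (v : ZMod (n * M) × X) : dP n M ζ P v ≤ ζ := by
  unfold dP pin
  split_ifs
  · exact hζ
  · exact le_rfl

theorem pin_dP {X : Type} [DecidableEq X] (n M : ℕ) (ζ : ℝ) (P : Finset (ZMod n × X)) (k : ZMod n)
    (B : Finset X) :
    pin (dP n M ζ P) (atS n M k B) = dP n M ζ (P ∪ B.image fun x => (k, x)) := by
  funext v
  simp only [dP, pin, atS, image_union, image_image, mem_union, Function.comp_def]
  by_cases h : v ∈ B.image fun x => (sl n M k, x) <;> simp only [h, or_true, or_false, if_true,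
    if_false]

variable {L s : ℕ} [NeZero L] {g : GD (XX L s)} {n : ℕ} [NeZero n] [NeZero (n * g.M)]

theorem linesA_mem_slice {I X : Type} [Fintype X] [DecidableEq I] [DecidableEq X]
    {U : Finset (I × X)} {i : I} {x : X} : x ∈ slice U i ↔ (i, x) ∈ U := by
  simp [slice]

omit [NeZero L] [NeZero n] in
theorem linesA_fwd (hg : g.Ok) (k : ZMod n) (t : ℕ) :
    (g.circ n).ga (sl n g.M k + t) = g.ga t ∧ (g.circ n).gb (sl n g.M k + t) = g.gb t ∧
      (g.circ n).gp (sl n g.M k + t) = g.gp t :=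
  ⟨(hg.ga_per _).trans (val_fwd n g.M k t ▸ (hg.ga_per t).symm),
    (hg.gb_per _).trans (val_fwd n g.M k t ▸ (hg.gb_per t).symm),
    (hg.gp_per _).trans (val_fwd n g.M k t ▸ (hg.gp_per t).symm)⟩

omit [NeZero L] [NeZero n] in
theorem linesA_bwd (hg : g.Ok) (k : ZMod n) (t : ℕ) :
    (g.circ n).ga (sl n g.M k - 1 - t) = g.rev.ga t ∧
      (g.circ n).gb (sl n g.M k - 1 - t) = g.rev.gb t ∧
      (g.circ n).gp (sl n g.M k - 1 - t) = g.rev.gp t :=
  ⟨(hg.ga_per _).trans (congrArg g.ga (val_bwd n g.M k t)),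
    (hg.gb_per _).trans (congrArg g.gb (val_bwd n g.M k t)),
    (hg.gp_per _).trans (congrArg g.gp (val_bwd n g.M k t))⟩

omit [NeZero n] in
theorem linesA_pr (hg : g.Ok) {d : ZMod (n * g.M) × XX L s → ℝ} {ζ ε : ℝ} (hd0 : ∀ v, 0 ≤ d v)
    (hd : ∀ v, d v ≤ ζ) (hζ : ζ < 1) (κ : ZMod n) {α : Type} (B : Finset α)
    (π : α → TV L) (h : ∀ c : α → Fin s, (g.circ n).num d
      (atS n g.M κ (B.image fun y => (π y, c y))) ≤ ε ^ B.card * (g.circ n).num d ∅) :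
    Pr ((g.circ n).ew d) (fun o => ∀ y ∈ B, ∃ c, (π y, c) ∈ slice (o.2.1 ∪ o.2.2) (sl n g.M κ)) ≤
      (2 * s * ε) ^ B.card := by
  classical
  have hc := hg.circ n
  have hw := ew_nonneg hc hd0 hd hζ
  have hZ := one_le_num hc hd0
  rcases B.eq_empty_or_nonempty with rfl | ⟨b, hb⟩
  · simp [Pr, Ex, ew_sum hc hd0]
  let ext : (B → Fin s) → α → Fin s := fun c y => if h : y ∈ B then c ⟨y, h⟩ else c ⟨b, hb⟩
  refine (Pr_mono hw (Q := fun o => ∃ c ∈ (univ : Finset (B → Fin s)),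
    atS n g.M κ (B.image fun y => (π y, ext c y)) ⊆ o.2.1 ∪ o.2.2) fun o _ ho => ?_).trans
    ((Pr_exists_le hw _ _).trans ?_)
  · choose c hc using ho
    refine ⟨fun y => c y.1 y.2, mem_univ _, fun v hv => ?_⟩
    obtain ⟨_, hx, rfl⟩ := mem_image.1 hv
    obtain ⟨y, hy, rfl⟩ := mem_image.1 hx
    simp only [ext, hy, dif_pos]
    exact linesA_mem_slice.1 (hc y hy)
  · refine (Finset.sum_le_sum (g := fun _ => 2 ^ B.card * ε ^ B.card) fun c _ => ?_).trans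
      (le_of_eq ?_)
    · refine (pr_subset hc hd0 hd hζ _).trans (mul_le_mul ?_ ?_ ?_ (by positivity))
      · exact pow_le_pow_right₀ one_le_two (card_image_le.trans card_image_le)
      · exact (div_le_iff₀ (by linarith)).2 (h _)
      · exact div_nonneg (num_nonneg hc hd0 _) (by linarith)
    · simp only [sum_const, card_univ, Fintype.card_pi, Fintype.card_fin, prod_const,
        Fintype.card_coe, nsmul_eq_mul, mul_pow]
      push_cast
      ring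

omit [NeZero n] in
theorem linesA_slice (hg : g.Ok) {ζ ε1 ε2 : ℝ} (hζ0 : 0 ≤ ζ) (hζ1 : ζ < 1) (h1 : 0 ≤ ε1)
    (h2 : 0 ≤ ε2) (hb : g.BH n ζ ε1 ε2) (P : Finset (ZMod n × XX L s)) (κ : ZMod n) :
    SliceOk ((g.circ n).ew (dP n g.M ζ P)) (fun o => slice (o.2.1 ∪ o.2.2) (sl n g.M κ))
      (2 * s * ε1) (2 * s * ε2) := by
  have hd0 := dP_nonneg n g.M hζ0 P
  have hd := dP_le n g.M hζ0 P
  refine ⟨ew_nonneg (hg.circ n) hd0 hd hζ1, ew_sum (hg.circ n) hd0, by positivity, by positivity,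
    fun B hB => linesA_pr hg hd0 hd hζ1 κ B (prj L) fun c => (hb P κ).1 B c hB,
    fun B hB => linesA_pr hg hd0 hd hζ1 κ B id fun c => ?_⟩
  have e : (B.image fun y => (id y, c y)).card = B.card :=
    card_image_of_injective _ fun y y' h => congrArg Prod.fst h
  rw [← e]
  exact (hb P κ).2 _ (e ▸ hB)

omit [NeZero n] in
theorem linesA_p2 (hg : g.Ok) {d : ZMod (n * g.M) × XX L s → ℝ} {ζ : ℝ} (hd0 : ∀ v, 0 ≤ d v)
    (hd : ∀ v, d v ≤ ζ) (hζ : ζ < 1) {w : ℕ} (hw : w ≤ n) (φ : ℕ → ZMod (n * g.M))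
    (hφ : ∀ t t', φ t = φ t' → (t : ZMod (n * g.M)) = t') (gp : ℕ → ℝ)
    (hgp : ∀ t, (g.circ n).gp (φ t) = gp t) (k : ℕ) (I : Finset ℕ)
    (hI : I ⊆ Ico (k * g.M) ((k + w) * g.M)) :
    Ex ((g.circ n).ew d) (fun o => ∏ t ∈ I, (gp t + bit (o.1 (φ t)))) ≤ ∏ t ∈ I, 7 * gp t := by
  have hinj : Set.InjOn φ I := fun t ht t' ht' e => by
    obtain ⟨a1, a2⟩ := mem_Ico.1 (hI ht)
    obtain ⟨b1, b2⟩ := mem_Ico.1 (hI ht')
    have h1 : w * g.M ≤ n * g.M := Nat.mul_le_mul_right _ hw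
    rw [add_mul] at a2 b2
    refine ((ZMod.natCast_eq_natCast_iff _ _ _).1 (hφ t t' e)).eq_of_abs_lt (abs_lt.2 ⟨?_, ?_⟩)
    · omega
    · omega
  have := fin_energy (hg.circ n) hd0 hd hζ (I.image φ)
  simpa only [Finset.prod_image hinj, hgp] using this

theorem fwd_ok (hg : g.Ok) {ζ ε1 ε2 : ℝ} (hζ0 : 0 ≤ ζ) (hζ1 : ζ < 1) (h1 : 0 ≤ ε1) (h2 : 0 ≤ ε2)
    (hb : g.BH n ζ ε1 ε2) {w : ℕ} (hw : w ≤ n) (P : Finset (ZMod n × XX L s)) (k : ZMod n) :
    (g.fwd n (dP n g.M ζ P) k).Ok w (2 * s * ε1) (2 * s * ε2) := by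
  refine ⟨hg, fun o ho t x => ?_, fun j => ?_, fun j I hI =>
    linesA_p2 hg (dP_nonneg n g.M hζ0 P) (dP_le n g.M hζ0 P) hζ1 hw (fun t => sl n g.M k + t)
      (fun t t' => add_left_cancel) g.gp (fun t => (linesA_fwd hg k t).2.2) j I hI⟩
  · have h := (ew_support ho).1 (sl n g.M k + t, x)
    rw [perm_apply, (linesA_fwd hg k t).1, (linesA_fwd hg k t).2.1] at h
    simp only [GD.fwd, linesA_mem_slice, Nat.cast_succ, ← add_assoc]
    exact h
  · have h := linesA_slice hg hζ0 hζ1 h1 h2 hb P (k + j)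
    rw [sl_add] at h
    exact h

theorem bwd_ok (hg : g.Ok) {ζ ε1 ε2 : ℝ} (hζ0 : 0 ≤ ζ) (hζ1 : ζ < 1) (h1 : 0 ≤ ε1) (h2 : 0 ≤ ε2)
    (hb : g.BH n ζ ε1 ε2) {w : ℕ} (hw : w ≤ n) (P : Finset (ZMod n × XX L s)) (k : ZMod n) :
    (g.bwd n (dP n g.M ζ P) k).Ok w (2 * s * ε1) (2 * s * ε2) := by
  refine ⟨hg.rev, fun o ho t x => ?_, fun j => ?_, fun j I hI =>
    linesA_p2 hg (dP_nonneg n g.M hζ0 P) (dP_le n g.M hζ0 P) hζ1 hw
      (fun t => sl n g.M k - 1 - t) (fun t t' => sub_right_injective.eq_iff.1) g.rev.gp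
      (fun t => (linesA_bwd hg k t).2.2) j I hI⟩
  · have h := (ew_support ho).1 (sl n g.M k - 1 - t,
      if o.1 (sl n g.M k - 1 - t) then Equiv.swap (g.rev.ga t) (g.rev.gb t) x else x)
    rw [perm_apply, (linesA_bwd hg k t).1, (linesA_bwd hg k t).2.1] at h
    have e1 : (g.circ n).nx (sl n g.M k - 1 - t) = sl n g.M k - t := by
      simp only [GD.circ, Equiv.coe_addRight]
      ring
    have e2 : sl n g.M k - ((t + 1 : ℕ) : ZMod (n * g.M)) = sl n g.M k - 1 - t := by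
      push_cast
      ring
    simp only [GD.bwd, linesA_mem_slice, e2]
    refine h.symm.trans ?_
    rw [e1]
    cases o.1 (sl n g.M k - 1 - t) <;> simp
  · have h := linesA_slice hg hζ0 hζ1 h1 h2 hb P (k - j)
    rw [sl_sub] at h
    exact h

theorem fwd_start {ζ : ℝ} {P : Finset (ZMod n × XX L s)} {k : ZMod n} {a : XX L s}
    (ha : (k, a) ∈ P) (o : Env (ZMod (n * g.M)) (XX L s))
    (ho : (g.circ n).ew (dP n g.M ζ P) o ≠ 0) :
    a ∉ (g.fwd n (dP n g.M ζ P) k).U o 0 ∧ a ∉ (g.bwd n (dP n g.M ζ P) k).U o 0 := by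
  have h : (sl n g.M k, a) ∉ o.2.1 ∪ o.2.2 := fun h =>
    (ew_support ho).2 _ h (if_pos (mem_image.2 ⟨(k, a), ha, rfl⟩))
  simpa only [GD.fwd, GD.bwd, linesA_mem_slice, Nat.cast_zero, add_zero, sub_zero, and_self]
    using h

end Vale.Agent.P361
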