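import Vale.Agent.P361.LinesA
import Vale.Agent.P361.Cut

namespace Vale.Agent.P361

open Matrix Finset

variable {L s : ℕ} [NeZero L] {g : GD (XX L s)} {n : ℕ} [NeZero n] [NeZero (n * g.M)]

section Gates

variable {I X : Type} [DecidableEq I] [DecidableEq X]

/-- the gate kernel at a circuit index -/
noncomputable def linesBGt (c : Circ I X) (o : Env I X) (i : I) : Matrix X X ℝ :=
  lz (Equiv.swap (c.ga i) (c.gb i)) (c.qt o.1 (o.2.1 ∪ o.2.2) i)

/-- the common gate kernel at a circuit index -/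
noncomputable def linesBGb (c : Circ I X) (o : Env I X) (i : I) : Matrix X X ℝ :=
  Matrix.of fun v w => min (linesBGt c o i v w) (lz (Equiv.swap (c.ga i) (c.gb i)) (c.gp i) v w)

theorem linesBGt_transpose (c : Circ I X) (o : Env I X) (i : I) :
    (linesBGt c o i)ᵀ = linesBGt c o i := lz_swap_transpose _ _ _

theorem linesBGb_transpose (c : Circ I X) (o : Env I X) (i : I) :
    (linesBGb c o i)ᵀ = linesBGb c o i := by
  ext v w
  exact congrArg₂ min (congrFun (congrFun (linesBGt_transpose c o i) v) w)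
    (congrFun (congrFun (lz_swap_transpose _ _ _) v) w)

theorem linesB_kE [Fintype I] [Fintype X] (c : Circ I X) (o : Env I X) (h : I × X → ℝ) (i : I)
    (x : X) : (c.kE o *ᵥ h) (i, x) = (linesBGt c o i *ᵥ fun y => h (c.nx i, y)) x := by
  simp only [Matrix.mulVec, dotProduct]
  rw [Fintype.sum_prod_type, Finset.sum_eq_single (c.nx i)]
  · simp [Circ.kE, Circ.ker, linesBGt]
  · intro j _ hj
    simp [Circ.kE, Circ.ker, hj]
  · exact fun h => absurd (mem_univ _) h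

end Gates

omit [NeZero n] in
theorem linesB_Kt_fwd (hg : g.Ok) (k : ZMod n) (o : Env (ZMod (n * g.M)) (XX L s)) (t : ℕ) :
    g.Kt (fun t => o.1 (sl n g.M k + t)) (fun t => slice (o.2.1 ∪ o.2.2) (sl n g.M k + t)) t =
      linesBGt (g.circ n) o (sl n g.M k + t) := by
  obtain ⟨h1, h2, h3⟩ := linesA_fwd hg k t
  simp only [GD.Kt, GD.qt, linesBGt, Circ.qt, h1, h2, h3, linesA_mem_slice]

omit [NeZero n] in
theorem linesB_Kb_fwd (hg : g.Ok) (k : ZMod n) (o : Env (ZMod (n * g.M)) (XX L s)) (t : ℕ) :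
    g.Kb (fun t => o.1 (sl n g.M k + t)) (fun t => slice (o.2.1 ∪ o.2.2) (sl n g.M k + t)) t =
      linesBGb (g.circ n) o (sl n g.M k + t) := by
  obtain ⟨h1, h2, h3⟩ := linesA_fwd hg k t
  simp only [GD.Kb, GD.Kf, linesBGb, linesB_Kt_fwd hg, h1, h2, h3]

omit [NeZero n] in
theorem linesB_Kt_bwd (hg : g.Ok) {d : ZMod (n * g.M) × XX L s → ℝ} (k : ZMod n)
    {o : Env (ZMod (n * g.M)) (XX L s)} (ho : (g.circ n).ew d o ≠ 0) (t : ℕ) :
    g.rev.Kt (fun t => o.1 (sl n g.M k - 1 - t))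
      (fun t => slice (o.2.1 ∪ o.2.2) (sl n g.M k - t)) t =
      linesBGt (g.circ n) o (sl n g.M k - 1 - t) := by
  obtain ⟨h1, h2, h3⟩ := linesA_bwd hg k t
  have a1 := (ew_support ho).1 (sl n g.M k - 1 - t, g.rev.ga t)
  have a2 := (ew_support ho).1 (sl n g.M k - 1 - t, g.rev.gb t)
  have e1 : (g.circ n).nx (sl n g.M k - 1 - t) = sl n g.M k - t := by
    simp only [GD.circ, Equiv.coe_addRight]
    ring
  rw [perm_apply, h1, h2, e1] at a1 a2
  have h4 : ((sl n g.M k - t, g.rev.ga t) ∉ o.2.1 ∪ o.2.2 ∧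
      (sl n g.M k - t, g.rev.gb t) ∉ o.2.1 ∪ o.2.2) ↔
      ((sl n g.M k - 1 - t, g.rev.ga t) ∉ o.2.1 ∪ o.2.2 ∧
        (sl n g.M k - 1 - t, g.rev.gb t) ∉ o.2.1 ∪ o.2.2) := by
    rw [← a1, ← a2]
    cases o.1 (sl n g.M k - 1 - t)
    · simp only [Bool.false_eq_true, if_false]
    · simp only [if_true, Equiv.swap_apply_left, Equiv.swap_apply_right, and_comm]
  simp only [GD.Kt, GD.qt, linesBGt, Circ.qt, h1, h2, h3, linesA_mem_slice, h4]

omit [NeZero n] in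
theorem linesB_Kb_bwd (hg : g.Ok) {d : ZMod (n * g.M) × XX L s → ℝ} (k : ZMod n)
    {o : Env (ZMod (n * g.M)) (XX L s)} (ho : (g.circ n).ew d o ≠ 0) (t : ℕ) :
    g.rev.Kb (fun t => o.1 (sl n g.M k - 1 - t))
      (fun t => slice (o.2.1 ∪ o.2.2) (sl n g.M k - t)) t =
      linesBGb (g.circ n) o (sl n g.M k - 1 - t) := by
  obtain ⟨h1, h2, h3⟩ := linesA_bwd hg k t
  simp only [GD.Kb, GD.Kf, linesBGb, linesB_Kt_bwd hg k ho, h1, h2, h3]

theorem Kz_dstoch (hg : g.Ok) (o : Env (ZMod (n * g.M)) (XX L s)) (κ : ZMod n) :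
    DStoch (g.Kz n o κ) := by
  exact hg.Ks_dstoch _ _ 0

theorem Ks_fwd (hg : g.Ok) (d : ZMod (n * g.M) × XX L s → ℝ) (k : ZMod n)
    (o : Env (ZMod (n * g.M)) (XX L s)) (j : ℕ) :
    (g.fwd n d k).g.Ks ((g.fwd n d k).om o) ((g.fwd n d k).U o) j = g.Kz n o (k + j) := by
  refine kp_congr fun i _ => (linesB_Kt_fwd hg k o _).trans ?_
  rw [linesB_Kt_fwd hg, sl_add]
  refine congrArg _ ?_
  simp only [GD.fwd]
  push_cast
  ring

theorem Ks_bwd (hg : g.Ok) (d : ZMod (n * g.M) × XX L s → ℝ) (k : ZMod n)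
    (o : Env (ZMod (n * g.M)) (XX L s)) (ho : (g.circ n).ew d o ≠ 0) (j : ℕ) :
    (g.bwd n d k).g.Ks ((g.bwd n d k).om o) ((g.bwd n d k).U o) j = (g.Kz n o (k - 1 - j))ᵀ := by
  refine kp_transpose fun i hi => (linesB_Kt_bwd hg k ho _).trans ?_
  rw [linesB_Kt_fwd hg, linesBGt_transpose, sub_sub k, ← Nat.cast_one (R := ZMod n),
    ← Nat.cast_add, sl_sub]
  refine congrArg _ ?_
  simp only [GD.bwd, GD.rev] at hi ⊢
  obtain ⟨r, hr⟩ := Nat.exists_eq_add_of_lt hi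
  have e : (g.M : ZMod (n * g.M)) = i + r + 1 := by exact_mod_cast congrArg Nat.cast hr
  rw [show g.M - 1 - i = r by omega]
  push_cast
  rw [e]
  ring

theorem cdef_eq_lost (hg : g.Ok) (d : ZMod (n * g.M) × XX L s → ℝ) (k : ZMod n)
    (o : Env (ZMod (n * g.M)) (XX L s)) (ho : (g.circ n).ew d o ≠ 0) {T t j : ℕ}
    (hT : T + t = j * n) (b : XX L s) :
    (g.fwd n d k).g.cdef ((g.fwd n d k).om o) ((g.fwd n d k).U o) T t b =
      (g.bwd n d k).g.lost ((g.bwd n d k).om o) ((g.bwd n d k).U o) b t := by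
  have h : kp ((g.bwd n d k).g.Kbs ((g.bwd n d k).om o) ((g.bwd n d k).U o)) 0 t =
      (kp ((g.fwd n d k).g.Kbs ((g.fwd n d k).om o) ((g.fwd n d k).U o)) T t)ᵀ := by
    refine (kp_kp _ _ 0 t).trans ((kp_transpose fun i hi => (linesB_Kb_bwd hg k ho _).trans
      ?_).trans (congrArg _ (kp_kp _ _ T t).symm))
    refine Eq.trans ?_ (congrArg _ (linesB_Kb_fwd hg k o _).symm)
    rw [linesBGb_transpose]
    refine congrArg _ ?_
    simp only [GD.bwd, GD.rev] at hi ⊢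
    obtain ⟨r, hr⟩ := Nat.exists_eq_add_of_lt hi
    have e : ((T * g.M + (i + r + 1) : ℕ) : ZMod (n * g.M)) = 0 := by
      rw [← hr, ← add_mul, hT, mul_assoc, Nat.cast_mul, ZMod.natCast_self, mul_zero]
    rw [show t * g.M - 1 - i = r by omega]
    push_cast at e ⊢
    linear_combination -e
  rw [GD.cdef, GD.lost, h]
  rfl

theorem linesB_inner (hg : g.Ok) {ζ : ℝ} (hζ0 : 0 ≤ ζ) (hζ1 : ζ < 1)
    (P : Finset (ZMod n × XX L s)) (k : ZMod n) (B : Finset (XX L s))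
    (o : Env (ZMod (n * g.M)) (XX L s)) (κ : ZMod n) (r t : ℕ) (h : t + r = g.M) (ht : 1 ≤ t) :
    (fun x => (g.circ n).hit (dP n g.M ζ P) (atS n g.M k B) o (sl n g.M κ + t, x)) =
      ζ ^ r • (kp (fun t => linesBGt (g.circ n) o (sl n g.M κ + t)) t r *ᵥ fun x =>
        (g.circ n).hit (dP n g.M ζ P) (atS n g.M k B) o (sl n g.M (κ + 1), x)) := by
  induction r generalizing t with
  | zero =>
    have e := sl_add n g.M κ 1
    rw [Nat.cast_one, one_mul] at e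
    rw [pow_zero, one_smul, kp_zero, Matrix.one_mulVec, e, show t = g.M from h]
  | succ r ih =>
    funext x
    have h1 : ∀ k', sl n g.M k' ≠ sl n g.M κ + t := fun k' e => by
      have h2 := val_fwd n g.M k' 0
      rw [Nat.cast_zero, add_zero, e, val_fwd, Nat.zero_mod, Nat.mod_eq_of_lt (by omega)] at h2
      omega
    have h2 : ind (atS n g.M k B) (sl n g.M κ + t, x) = 0 := if_neg fun h => by
      obtain ⟨y, -, e⟩ := mem_image.1 h
      exact h1 k (congrArg Prod.fst e)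
    have h3 : dP n g.M ζ P (sl n g.M κ + t, x) = ζ := if_neg fun h => by
      obtain ⟨y, -, e⟩ := mem_image.1 h
      exact h1 y.1 (congrArg Prod.fst e)
    have e1 : (g.circ n).nx (sl n g.M κ + t) = sl n g.M κ + (t + 1 : ℕ) := by
      simp only [GD.circ, Equiv.coe_addRight, Nat.cast_succ, add_assoc]
    rw [hit_eq (hg.circ n) (dP_nonneg n g.M hζ0 P) (dP_le n g.M hζ0 P) hζ1, h2, h3, zero_add,
      linesB_kE, e1, ih (t + 1) (by omega) (by omega), kp_succ', Matrix.mulVec_smul,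
      Matrix.mulVec_mulVec, Pi.smul_apply, Pi.smul_apply, smul_eq_mul, smul_eq_mul, pow_succ',
      mul_assoc]

theorem linesB_kE_hit (hg : g.Ok) {ζ : ℝ} (hζ0 : 0 ≤ ζ) (hζ1 : ζ < 1)
    (P : Finset (ZMod n × XX L s)) (k : ZMod n) (B : Finset (XX L s))
    (o : Env (ZMod (n * g.M)) (XX L s)) (κ : ZMod n) (v : XX L s) :
    ((g.circ n).kE o *ᵥ (g.circ n).hit (dP n g.M ζ P) (atS n g.M k B) o) (sl n g.M κ, v) =
      ζ ^ (g.M - 1) * (g.Kz n o κ *ᵥ fun x =>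
          (g.circ n).hit (dP n g.M ζ P) (atS n g.M k B) o (sl n g.M (κ + 1), x)) v := by
  have hM := hg.M_pos
  have e1 : (g.circ n).nx (sl n g.M κ) = sl n g.M κ + (1 : ℕ) := by
    simp only [GD.circ, Equiv.coe_addRight, Nat.cast_one]
  have e2 : g.Kz n o κ = linesBGt (g.circ n) o (sl n g.M κ) *
      kp (fun t => linesBGt (g.circ n) o (sl n g.M κ + t)) 1 (g.M - 1) := by
    have e3 := kp_succ' (fun t => linesBGt (g.circ n) o (sl n g.M κ + t)) 0 (g.M - 1)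
    rw [Nat.sub_add_cancel hM, Nat.cast_zero, add_zero, zero_add] at e3
    rw [← e3]
    exact kp_congr fun i _ => by rw [linesB_Kt_fwd hg, zero_mul]
  rw [linesB_kE, e1, linesB_inner hg hζ0 hζ1 P k B o κ (g.M - 1) 1 (by omega) le_rfl, e2,
    Matrix.mulVec_smul, Matrix.mulVec_mulVec, Pi.smul_apply, smul_eq_mul]

theorem hit_sweep (hg : g.Ok) {ζ : ℝ} (hζ0 : 0 ≤ ζ) (hζ1 : ζ < 1) (P : Finset (ZMod n × XX L s))
    (k : ZMod n) (B : Finset (XX L s)) (o : Env (ZMod (n * g.M)) (XX L s)) (κ : ZMod n)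
    (v : XX L s) :
    (g.circ n).hit (dP n g.M ζ P) (atS n g.M k B) o (sl n g.M κ, v) =
      (if κ = k ∧ v ∈ B then 1 else 0) + (if (κ, v) ∈ P then 0 else ζ ^ g.M) *
        (g.Kz n o κ *ᵥ fun x =>
          (g.circ n).hit (dP n g.M ζ P) (atS n g.M k B) o (sl n g.M (κ + 1), x)) v := by
  have hinj := sl_injective n g.M hg.M_pos
  have h1 : (sl n g.M κ, v) ∈ atS n g.M k B ↔ κ = k ∧ v ∈ B := by
    simp only [atS, mem_image, Prod.mk.injEq, hinj.eq_iff]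
    exact ⟨fun ⟨x, hx, e1, e2⟩ => ⟨e1.symm, e2 ▸ hx⟩, fun ⟨e1, e2⟩ => ⟨v, e2, e1.symm, rfl⟩⟩
  have h2 : (sl n g.M κ, v) ∈ P.image (fun q => (sl n g.M q.1, q.2)) ↔ (κ, v) ∈ P := by
    simp only [mem_image, Prod.mk.injEq, hinj.eq_iff]
    exact ⟨fun ⟨x, hx, e1, e2⟩ => e1 ▸ e2 ▸ hx, fun h => ⟨_, h, rfl, rfl⟩⟩
  rw [hit_eq (hg.circ n) (dP_nonneg n g.M hζ0 P) (dP_le n g.M hζ0 P) hζ1,
    linesB_kE_hit hg hζ0 hζ1, ← mul_assoc]
  congr 2
  · simp only [ind, h1]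
  · simp only [dP, pin, h2]
    split_ifs
    · exact zero_mul _
    · rw [← pow_succ', Nat.sub_add_cancel hg.M_pos]

theorem kE_hit_sweep (hg : g.Ok) {ζ : ℝ} (hζ0 : 0 ≤ ζ) (hζ1 : ζ < 1)
    (P : Finset (ZMod n × XX L s)) (k : ZMod n) (B : Finset (XX L s))
    (o : Env (ZMod (n * g.M)) (XX L s)) (κ : ZMod n) (v : XX L s) :
    ((g.circ n).kE o *ᵥ (g.circ n).hit (dP n g.M ζ P) (atS n g.M k B) o) (sl n g.M κ, v) =
      ζ ^ (g.M - 1) * (g.Kz n o κ *ᵥ fun x =>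
          (g.circ n).hit (dP n g.M ζ P) (atS n g.M k B) o (sl n g.M (κ + 1), x)) v := by
  exact linesB_kE_hit hg hζ0 hζ1 P k B o κ v

end Vale.Agent.P361
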