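import Vale.Agent.P361.Peierls

namespace Vale.Agent.P361

open Matrix Finset
open scoped Kronecker

section Kron

variable {n m : Type} [Fintype n] [DecidableEq n] [Fintype m] [DecidableEq m]

/-- tensoring with the identity on the right -/
noncomputable def thL (n m : Type) [Fintype n] [DecidableEq n] [Fintype m] [DecidableEq m] :
    Matrix n n ℂ →ₐ[ℂ] Matrix (n × m) (n × m) ℂ :=
  AlgHom.ofLinearMap ((kroneckerBilinear (R := ℂ)).flip (1 : Matrix m m ℂ)) one_kronecker_one
    fun A B => by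
      change (A * B) ⊗ₖ (1 : Matrix m m ℂ) = A ⊗ₖ (1 : Matrix m m ℂ) * B ⊗ₖ (1 : Matrix m m ℂ)
      rw [← mul_kronecker_mul, mul_one]

/-- tensoring with the identity on the left -/
noncomputable def thR (n m : Type) [Fintype n] [DecidableEq n] [Fintype m] [DecidableEq m] :
    Matrix m m ℂ →ₐ[ℂ] Matrix (n × m) (n × m) ℂ :=
  AlgHom.ofLinearMap (kroneckerBilinear (R := ℂ) (1 : Matrix n n ℂ)) one_kronecker_one
    fun A B => by
      change (1 : Matrix n n ℂ) ⊗ₖ (A * B) = (1 : Matrix n n ℂ) ⊗ₖ A * (1 : Matrix n n ℂ) ⊗ₖ B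
      rw [← mul_kronecker_mul, mul_one]

end Kron

theorem partZ_sum (s : ℕ) {V V' : Type} [Fintype V] [DecidableEq V] [Fintype V'] [DecidableEq V']
    (G : SimpleGraph V) [DecidableRel G.Adj] (G' : SimpleGraph V') [DecidableRel G'.Adj]
    (H : SimpleGraph (V ⊕ V')) [DecidableRel H.Adj]
    (h1 : ∀ x y, H.Adj (Sum.inl x) (Sum.inl y) ↔ G.Adj x y)
    (h2 : ∀ x y, H.Adj (Sum.inr x) (Sum.inr y) ↔ G'.Adj x y)
    (h3 : ∀ x y, ¬ H.Adj (Sum.inl x) (Sum.inr y)) (β h : ℝ) :
    partZ s H β h = partZ s G β h * partZ s G' β h := by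
  have h4 : ∀ x y, ¬ H.Adj (Sum.inr x) (Sum.inl y) := fun x y a => h3 y x a.symm
  set e := Equiv.sumArrowEquivProdArrow V V' (Fin (s + 1)) with he
  have h5 : ∀ (x : V) (A : Matrix (Fin (s + 1)) (Fin (s + 1)) ℂ),
      reindexAlgEquiv ℂ ℂ e (onSite (Sum.inl x) A) = thL _ _ (onSite x A) := by
    rintro x A
    ext ⟨σ, σ'⟩ ⟨τ, τ'⟩
    change _ = onSite x A σ τ * (1 : Matrix _ _ ℂ) σ' τ'
    by_cases a : ∀ y, ¬ y = x → σ y = τ y <;> by_cases b : ∀ y, σ' y = τ' y <;>
      simp [he, onSite, one_apply, funext_iff, a, b]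
  have h6 : ∀ (x : V') (A : Matrix (Fin (s + 1)) (Fin (s + 1)) ℂ),
      reindexAlgEquiv ℂ ℂ e (onSite (Sum.inr x) A) = thR _ _ (onSite x A) := by
    rintro x A
    ext ⟨σ, σ'⟩ ⟨τ, τ'⟩
    change _ = (1 : Matrix _ _ ℂ) σ τ * onSite x A σ' τ'
    by_cases a : ∀ y, ¬ y = x → σ' y = τ' y <;> by_cases b : ∀ y, σ y = τ y <;>
      simp [he, onSite, one_apply, funext_iff, a, b]
  rw [pei_partZ, pei_partZ, pei_partZ, ← (pei_kron (pei_herm s G β h) (pei_herm s G' β h)).2,
    ← pei_reindex (pei_herm s H β h) e, peiE_map]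
  refine congrArg peiZ (Eq.trans ?_ (congrArg₂ (· + ·)
    (peiE_map (thL (V → Fin (s + 1)) (V' → Fin (s + 1))) G β h _)
    (peiE_map (thR (V → Fin (s + 1)) (V' → Fin (s + 1))) G' β h _)).symm)
  simp only [peiE, Fintype.sum_sum_type, h1, h2, h3, h4, h5, h6, if_false, Finset.sum_const_zero,
    add_zero, zero_add]
  module

/-- nearest neighbours of the cubic lattice -/
def thLat : SimpleGraph Z3 where
  Adj x y := ∑ i, |x i - y i| = 1
  symm := ⟨fun x y h => by simpa [abs_sub_comm] using h⟩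
  loopless := ⟨fun x h => by simp at h⟩

/-- logarithm of the partition function of an induced graph -/
noncomputable def thF (s : ℕ) (β h : ℝ) (R : SimpleGraph Z3) (S : Finset Z3) : ℝ :=
  Real.log (@partZ s S _ _ (R.comap Subtype.val) (Classical.decRel _) β h)

section F

variable {s : ℕ} {β h : ℝ}

theorem thF_eq {R R' : SimpleGraph Z3} {S S' : Finset Z3} (φ : Z3 ≃ Z3)
    (hS : ∀ x, x ∈ S ↔ φ x ∈ S') (hR : ∀ x ∈ S, ∀ y ∈ S, R'.Adj (φ x) (φ y) ↔ R.Adj x y) :
    thF s β h R S = thF s β h R' S' :=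
  congrArg Real.log (@partZ_iso s S S' _ _ _ _ _ (Classical.decRel _) _ (Classical.decRel _)
    (φ.subtypeEquiv hS) (fun x y => hR x x.2 y y.2) β h)

theorem thF_union (R : SimpleGraph Z3) {S S' : Finset Z3} (hd : Disjoint S S')
    (hR : ∀ x ∈ S, ∀ y ∈ S', ¬ R.Adj x y) :
    thF s β h R (S ∪ S') = thF s β h R S + thF s β h R S' := by
  classical
  unfold thF
  rw [← Real.log_mul (@partZ_pos s _ _ _ _ (Classical.decRel _) β h).ne'
    (@partZ_pos s _ _ _ _ (Classical.decRel _) β h).ne',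
    ← @partZ_sum s S S' _ _ _ _ _ (Classical.decRel _) _ (Classical.decRel _)
      (R.comap (Sum.elim Subtype.val Subtype.val)) (Classical.decRel _) (fun _ _ => Iff.rfl)
      (fun _ _ => Iff.rfl) (fun x y => hR x x.2 y y.2),
    @partZ_iso s _ _ _ _ _ _ _ (Classical.decRel _) (R.comap Subtype.val) (Classical.decRel _)
      (Equiv.Finset.union S S' hd)]
  rintro (x | x) (y | y) <;> exact Iff.rfl

theorem thF_empty (R : SimpleGraph Z3) : thF s β h R ∅ = 0 := by
  have := thF_union (s := s) (β := β) (h := h) R (Finset.disjoint_empty_left ∅) (by simp)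
  rw [Finset.union_empty] at this
  linarith

theorem thF_biUnion (R : SimpleGraph Z3) (I : Finset Z3) (S : Z3 → Finset Z3)
    (hR : ∀ k k', k ≠ k' → ∀ x ∈ S k, ∀ y ∈ S k', x ≠ y ∧ ¬ R.Adj x y) :
    thF s β h R (I.biUnion S) = ∑ k ∈ I, thF s β h R (S k) := by
  induction I using Finset.induction_on with
  | empty => exact thF_empty R
  | insert k I hk ih =>
    have h1 : ∀ x ∈ S k, ∀ y ∈ I.biUnion S, x ≠ y ∧ ¬ R.Adj x y := fun x hx y hy => by
      obtain ⟨k', a, b⟩ := Finset.mem_biUnion.1 hy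
      exact hR k k' (fun e => hk (e ▸ a)) x hx y b
    rw [Finset.biUnion_insert, Finset.sum_insert hk, thF_union R
      (Finset.disjoint_left.2 fun x hx hy => (h1 x hx x hy).1 rfl)
      (fun x hx y hy => (h1 x hx y hy).2), ih]

theorem thF_shift {S S' : Finset Z3} (v : Z3) (hS : ∀ x, x ∈ S ↔ x + v ∈ S') :
    thF s β h thLat S = thF s β h thLat S' :=
  thF_eq (Equiv.addRight v) hS fun x _ y _ => by simp [thLat]

theorem thF_lip (hβ : 0 ≤ β) : ∃ c : ℝ, ∀ S T : Finset Z3, Disjoint T S →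
    |thF s β h thLat (T ∪ S) - thF s β h thLat S| ≤ c * T.card := by
  classical
  obtain ⟨C, hC, H⟩ := partZ_cmp s
  have key : ∀ (S : Finset Z3) (x : Z3), x ∉ S → |thF s β h thLat (insert x S) -
      thF s β h thLat S| ≤ C * β * (27 * 27) + |thF s β h thLat {0}| := fun S x hx => by
    let R : SimpleGraph Z3 := thLat.deleteIncidenceSet x
    have hR : ∀ y z, R.Adj y z ↔ thLat.Adj y z ∧ y ≠ x ∧ z ≠ x := fun y z =>
      SimpleGraph.deleteIncidenceSet_adj
    have h1 : thF s β h R (insert x S) = thF s β h thLat {0} + thF s β h thLat S := by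
      rw [Finset.insert_eq, thF_union R (Finset.disjoint_singleton_left.2 hx)
        (fun y hy z _ a => ((hR y z).1 a).2.1 (Finset.mem_singleton.1 hy)),
        thF_shift (S := {0}) (S' := {x}) x (by simp),
        thF_eq (R := thLat) (R' := R) (S := {x}) (S' := {x}) (Equiv.refl _) (by simp) (by simp),
        thF_eq (R := thLat) (R' := R) (S := S) (S' := S) (Equiv.refl _) (by simp)
          fun y hy z hz => (hR y z).trans (and_iff_left
            ⟨fun e => hx (e ▸ hy), fun e => hx (e ▸ hz)⟩)]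
    have h2 : |thF s β h thLat (insert x S) - thF s β h R (insert x S)| ≤ C * β * (27 * 27) := by
      refine (@H _ _ _ _ _ (Classical.decRel _) (Classical.decRel _) β h hβ).trans
        (mul_le_mul_of_nonneg_left ?_ (by positivity))
      have h3 : ∀ y z, thLat.Adj y z → z ∈ cube y 1 := fun y z a =>
        mem_cube.2 (nrm_le_iff_abs.2 fun i => by
          rw [Pi.sub_apply, abs_sub_comm]
          exact (Finset.single_le_sum (f := fun i => |y i - z i|) (fun _ _ => abs_nonneg _)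
            (Finset.mem_univ i)).trans_eq a)
      refine le_of_le_of_eq (Nat.cast_le.2 (Finset.card_le_card_of_injOn
        (t := cube x 1 ×ˢ cube x 1) (fun q => (q.1.1, q.2.1)) (fun q hq => ?_)
        fun q _ q' _ e => Prod.ext (Subtype.ext (Prod.ext_iff.1 e).1)
          (Subtype.ext (Prod.ext_iff.1 e).2))) ?_
      · simp only [Finset.coe_filter, Finset.mem_univ, true_and, Set.mem_ofPred_eq,
          SimpleGraph.comap_adj, hR, iff_self_and, Classical.not_imp, not_and_or, not_not] at hq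
        have h4 : ∀ y z, thLat.Adj y z → y = x ∨ z = x → (y, z) ∈ cube x 1 ×ˢ cube x 1 := by
          rintro y z a (rfl | rfl)
          · exact Finset.mem_product.2 ⟨self_mem_cube _ _, h3 _ _ a⟩
          · exact Finset.mem_product.2 ⟨h3 _ _ a.symm, self_mem_cube _ _⟩
        exact h4 _ _ hq.1 hq.2
      · rw [Finset.card_product, card_cube]
        norm_num
    rw [h1] at h2
    linarith [abs_sub_le (thF s β h thLat (insert x S))
      (thF s β h thLat {0} + thF s β h thLat S) (thF s β h thLat S),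
      congrArg abs (add_sub_cancel_right (thF s β h thLat {0}) (thF s β h thLat S))]
  refine ⟨C * β * (27 * 27) + |thF s β h thLat {0}|, fun S T => ?_⟩
  induction T using Finset.induction_on with
  | empty => simp
  | insert x T hx ih =>
    intro hd
    rw [Finset.disjoint_insert_left] at hd
    rw [Finset.insert_union, Finset.card_insert_of_notMem hx, Nat.cast_succ, mul_add, mul_one]
    linarith [abs_sub_le (thF s β h thLat (insert x (T ∪ S))) (thF s β h thLat (T ∪ S))
      (thF s β h thLat S), key (T ∪ S) x (by simp [hx, hd.1]), ih hd.2]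

end F

/-- cube with given corner and side -/
noncomputable def thB (v : Z3) (n : ℕ) : Finset Z3 :=
  Fintype.piFinset fun i => Finset.Ico (v i) (v i + n)

theorem mem_thB {v x : Z3} {n : ℕ} : x ∈ thB v n ↔ ∀ i, v i ≤ x i ∧ x i < v i + n := by
  simp [thB]

theorem card_thB (v : Z3) (n : ℕ) : (thB v n).card = n ^ 3 := by
  simp [thB]

theorem thF_thB (s : ℕ) (β h : ℝ) (v : Z3) (n : ℕ) :
    thF s β h thLat (thB v n) = thF s β h thLat (thB 0 n) :=
  (thF_shift v fun x => by
    simp only [mem_thB, Pi.zero_apply, Pi.add_apply]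
    exact forall_congr' fun i => by omega).symm

theorem th_blocks {s : ℕ} {β h c : ℝ} (hc : ∀ S T : Finset Z3, Disjoint T S →
    |thF s β h thLat (T ∪ S) - thF s β h thLat S| ≤ c * T.card) {n m q : ℕ}
    (hq : q * (m + 1) ≤ n) : |thF s β h thLat (thB 0 n) - q ^ 3 * thF s β h thLat (thB 0 m)| ≤
      c * (n ^ 3 - q ^ 3 * m ^ 3) := by
  have h1 : ∀ k k' : Z3, k ≠ k' → ∀ x ∈ thB (((m : ℤ) + 1) • k) m,
      ∀ y ∈ thB (((m : ℤ) + 1) • k') m, x ≠ y ∧ ¬ thLat.Adj x y := fun k k' hk x hx y hy => by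
    obtain ⟨i, hi⟩ := Function.ne_iff.1 hk
    have a := mem_thB.1 hx i
    have b := mem_thB.1 hy i
    simp only [Pi.smul_apply, smul_eq_mul] at a b
    have e : 2 ≤ |x i - y i| := by
      rcases lt_or_gt_of_ne hi with d | d
      · exact le_abs.2 (Or.inr (by nlinarith))
      · exact le_abs.2 (Or.inl (by nlinarith))
    refine ⟨fun d => by simp [d] at e, fun d => ?_⟩
    have := (Finset.single_le_sum (f := fun i => |x i - y i|) (fun _ _ => abs_nonneg _)
      (Finset.mem_univ i)).trans_eq d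
    omega
  have h2 := thF_biUnion (s := s) (β := β) (h := h) thLat (thB 0 q) _ h1
  have h3 := Finset.card_biUnion (s := thB 0 q) (t := fun k => thB (((m : ℤ) + 1) • k) m)
    fun k _ k' _ hk => Finset.disjoint_left.2 fun x hx hy => (h1 k k' hk x hx x hy).1 rfl
  have h4 : ((thB 0 q).biUnion fun k => thB (((m : ℤ) + 1) • k) m) ⊆ thB 0 n := fun x hx => by
    obtain ⟨k, a, b⟩ := Finset.mem_biUnion.1 hx
    refine mem_thB.2 fun i => ?_
    have a := mem_thB.1 a i
    have b := mem_thB.1 b i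
    have d : (q : ℤ) * (m + 1) ≤ n := by exact_mod_cast hq
    simp only [Pi.smul_apply, smul_eq_mul, Pi.zero_apply, zero_add] at a b ⊢
    constructor <;> nlinarith
  have h5 := hc _ _ (Finset.sdiff_disjoint (s := (thB 0 q).biUnion
    fun k => thB (((m : ℤ) + 1) • k) m) (t := thB 0 n))
  simp only [thF_thB s β h (_ • _), card_thB, Finset.sum_const, nsmul_eq_mul, smul_eq_mul] at h2 h3
  rw [Finset.sdiff_union_of_subset h4, Finset.cast_card_sdiff h4, h2, h3, card_thB] at h5
  exact_mod_cast h5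

theorem th_cauchy {F : ℕ → ℝ} {c : ℝ} (hF : ∀ n m q : ℕ, q * (m + 1) ≤ n →
    |F n - q ^ 3 * F m| ≤ c * (n ^ 3 - q ^ 3 * m ^ 3)) : CauchySeq fun n => F n / n ^ 3 := by
  have hc : 0 ≤ c := by simpa using (abs_nonneg _).trans (hF 1 0 0 (by norm_num))
  have key : ∀ m n : ℕ, 0 < m → 0 < n →
      |F n / n ^ 3 - F m / m ^ 3| ≤ 6 * c * (1 / (m + 1) + m / n) := fun m n hm hn => by
    have hm' : (0 : ℝ) < m := by exact_mod_cast hm
    have hn' : (0 : ℝ) < n := by exact_mod_cast hn
    have h1 := hF n m (n / (m + 1)) (Nat.div_mul_le_self _ _)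
    have h2 : |F m / m ^ 3| ≤ c := by
      rw [abs_div, abs_of_pos (pow_pos hm' 3), div_le_iff₀ (pow_pos hm' 3)]
      simpa using hF m 0 0 (by simp)
    have h3 : ((n / (m + 1) : ℕ) : ℝ) * (m + 1) ≤ n := by
      exact_mod_cast Nat.div_mul_le_self n (m + 1)
    have h4 : (n : ℝ) ≤ ((n / (m + 1) : ℕ) + 1) * (m + 1) := by
      exact_mod_cast ((Nat.div_lt_iff_lt_mul m.succ_pos).1 (Nat.lt_succ_self _)).le
    have h5 := Nat.cast_nonneg (α := ℝ) (n / (m + 1))
    generalize ((n / (m + 1) : ℕ) : ℝ) = q at h1 h3 h4 h5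
    have h6 : q * m / n ≤ 1 := (div_le_one hn').2 (by linarith)
    have h7 : 1 - q * m / n ≤ 1 / (m + 1) + m / n := by
      rw [sub_le_iff_le_add, add_assoc, ← add_div, div_add_div _ _ (by positivity) hn'.ne',
        le_div_iff₀ (by positivity)]
      nlinarith
    have h8 : |F n / n ^ 3 - (q * m / n) ^ 3 * (F m / m ^ 3)| ≤ c * (1 - (q * m / n) ^ 3) := by
      have := div_le_div_of_nonneg_right h1 (pow_pos hn' 3).le
      rw [← abs_of_pos (pow_pos hn' 3), ← abs_div, abs_of_pos (pow_pos hn' 3)] at this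
      refine le_of_eq_of_le (congrArg _ ?_) (this.trans_eq ?_) <;> field_simp
    have h9 : 0 ≤ q * m / n := by positivity
    generalize q * m / n = ρ at h6 h7 h8 h9
    generalize F m / m ^ 3 = a at h2 h8
    have h10 : 1 - ρ ^ 3 ≤ 3 * (1 - ρ) := by
      nlinarith [mul_nonneg (sq_nonneg (1 - ρ)) (show 0 ≤ ρ + 2 by linarith)]
    have h11 : 0 ≤ 1 - ρ ^ 3 := sub_nonneg.2 (pow_le_one₀ h9 h6)
    have h12 : |ρ ^ 3 * a - a| ≤ c * (1 - ρ ^ 3) := by
      rw [abs_sub_comm, ← one_sub_mul, abs_mul, abs_of_nonneg h11, mul_comm]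
      exact mul_le_mul_of_nonneg_right h2 h11
    have h13 := mul_le_mul_of_nonneg_left (h10.trans (mul_le_mul_of_nonneg_left h7 zero_le_three)) hc
    linarith [abs_sub_le (F n / n ^ 3) (ρ ^ 3 * a) a]
  refine Metric.cauchySeq_iff.2 fun ε hε => ?_
  have h1 := ((tendsto_one_div_add_atTop_nhds_zero_nat (𝕜 := ℝ)).const_mul (6 * c)).eventually
    (gt_mem_nhds (show 6 * c * 0 < ε / 2 by linarith))
  obtain ⟨m, h2, hm⟩ := (h1.and (Filter.eventually_gt_atTop 0)).exists
  have h3 := (((tendsto_const_div_atTop_nhds_zero_nat (m : ℝ)).const_add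
    (1 / ((m : ℝ) + 1))).const_mul (6 * c)).eventually
      (gt_mem_nhds (show 6 * c * (1 / ((m : ℝ) + 1) + 0) < ε / 2 by rwa [add_zero]))
  obtain ⟨N, hN⟩ := Filter.eventually_atTop.1 (h3.and (Filter.eventually_gt_atTop 0))
  refine ⟨N, fun a ha b hb => ?_⟩
  rw [Real.dist_eq]
  linarith [abs_sub_le (F a / a ^ 3) (F m / m ^ 3) (F b / b ^ 3), key m a hm (hN a ha).2,
    key m b hm (hN b hb).2, abs_sub_comm (F m / m ^ 3) (F b / b ^ 3), (hN a ha).1, (hN b hb).1]

theorem thermo_limit (s : ℕ) {β : ℝ} (hβ : 0 < β) (h : ℝ) :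
    ∃ p : ℝ, Filter.Tendsto (fun N => pressure s N β h) Filter.atTop (nhds p) := by
  obtain ⟨c, hc⟩ := thF_lip (s := s) (h := h) hβ.le
  obtain ⟨p, hp⟩ := cauchySeq_tendsto_of_complete
    (th_cauchy (F := fun n => thF s β h thLat (thB 0 n)) fun n m q hq => th_blocks hc hq)
  have h1 : Filter.Tendsto (fun N : ℕ => 2 * N + 1) Filter.atTop Filter.atTop :=
    Filter.tendsto_atTop_mono (fun N => by simp only [id]; omega) Filter.tendsto_id
  refine ⟨_, ((hp.comp h1).const_mul (1 / β)).congr fun N => ?_⟩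
  have h2 : thF s β h thLat (thB 0 (2 * N + 1)) = thF s β h thLat (box N) :=
    thF_shift (fun _ => -(N : ℤ)) fun x => by
      simp only [mem_thB, box, Fintype.mem_piFinset, Finset.mem_Icc, Pi.zero_apply, Pi.add_apply]
      exact forall_congr' fun i => by omega
  have h3 : (box N).card = (2 * N + 1) ^ 3 := by
    rw [← card_cube 0 N]
    simp [box, cube]
  have h4 : thF s β h thLat (box N) = Real.log (partZ s (boxGraph N) β h) :=
    congrArg Real.log (@partZ_iso s _ _ _ _ _ _ _ (Classical.decRel _) (boxGraph N) _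
      (Equiv.refl _) (fun _ _ => Iff.rfl) β h)
  simp only [Function.comp, pressure, h2, h3, h4]
  push_cast
  field_simp

end Vale.Agent.P361
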