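import Vale.Agent.P361.Slopes
import Vale.Agent.P361.Thermo

namespace Vale.Agent.P361

open Matrix Finset

theorem bloch_main (s : ℕ) (hs : 1 ≤ s) : ∃ (p : ℝ → ℝ → ℝ) (m : ℝ → ℝ),
    (∀ β, 0 < β → ∀ h, Filter.Tendsto (fun N => pressure s N β h) Filter.atTop (nhds (p β h))) ∧
    (∀ β, 0 < β → HasDerivWithinAt (p β) (m β) (Set.Ici 0) 0) ∧
    Filter.Tendsto (fun β => β ^ (3 / 2 : ℝ) * ((s : ℝ) / 2 - m β)) Filter.atTop
      (nhds (blochC s)) := by
  classical
  have hex : ∀ β h : ℝ, ∃ q : ℝ, 0 < β →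
      Filter.Tendsto (fun N => pressure s N β h) Filter.atTop (nhds q) := by
    intro β h
    by_cases hβ : 0 < β
    · obtain ⟨q, hq⟩ := thermo_limit s hβ h
      exact ⟨q, fun _ => hq⟩
    · exact ⟨0, fun h' => absurd h' hβ⟩
  choose p hp using hex
  have hp' : ∀ β, 0 < β → ∀ h,
      Filter.Tendsto (fun N => pressure s N β h) Filter.atTop (nhds (p β h)) :=
    fun β hβ h => hp β h hβ
  have hconv : ∀ β, 0 < β → ConvexOn ℝ Set.univ (p β) := by
    intro β hβ
    refine ⟨convex_univ, fun x _ y _ a b ha hb hab => ?_⟩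
    have hN : ∀ N, pressure s N β (a • x + b • y) ≤
        a • pressure s N β x + b • pressure s N β y := by
      intro N
      have h1 := (logZ_convex s (boxGraph N) β).2 (Set.mem_univ x) (Set.mem_univ y) ha hb hab
      have h2 : (0 : ℝ) ≤ 1 / (β * ((box N).card : ℝ)) := by positivity
      have h3 := mul_le_mul_of_nonneg_left h1 h2
      simp only [pressure, smul_eq_mul] at h3 ⊢
      linarith
    exact le_of_tendsto_of_tendsto' (hp' β hβ _)
      (((hp' β hβ x).const_smul a).add ((hp' β hβ y).const_smul b)) hN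
  obtain ⟨m, hm1, hm2⟩ := final_analysis (blochC s) ((s : ℝ) / 2) p hconv (slopes s hs p hp')
  exact ⟨p, m, hp', hm1, hm2⟩

end Vale.Agent.P361
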