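import Mathlib

/-!
# P361: the spin-S quantum Heisenberg ferromagnet, `s = 2S`
-/

namespace Vale.Agent.P361

open Matrix

noncomputable section

/-- The raising operator of spin `S = s/2`, in the basis `i = 0, …, s` where `S³ = S - i`. -/
def spinPlus (s : ℕ) : Matrix (Fin (s + 1)) (Fin (s + 1)) ℂ :=
  Matrix.of fun i j =>
    if (j : ℕ) = (i : ℕ) + 1 then ((Real.sqrt ((j : ℝ) * ((s : ℝ) + 1 - (j : ℝ))) : ℝ) : ℂ) else 0

/-- The spin matrices `S¹, S², S³` of spin `S = s/2`. -/
def spin (s : ℕ) : Fin 3 → Matrix (Fin (s + 1)) (Fin (s + 1)) ℂ :=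
  ![(1 / 2 : ℂ) • (spinPlus s + (spinPlus s)ᴴ),
    (1 / (2 * Complex.I) : ℂ) • (spinPlus s - (spinPlus s)ᴴ),
    Matrix.diagonal fun i => (s : ℂ) / 2 - ((i : ℕ) : ℂ)]

/-- A one-site matrix acting at site `x` of the tensor product over the sites `V`. -/
def onSite {V : Type} [Fintype V] [DecidableEq V] {s : ℕ} (x : V)
    (A : Matrix (Fin (s + 1)) (Fin (s + 1)) ℂ) :
    Matrix (V → Fin (s + 1)) (V → Fin (s + 1)) ℂ :=
  Matrix.of fun σ τ => if ∀ y, y ≠ x → σ y = τ y then A (σ x) (τ x) else 0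

/-- The Heisenberg Hamiltonian of a graph: the sum over ordered adjacent pairs with the factor
one half counts every edge once. -/
def ham (s : ℕ) {V : Type} [Fintype V] [DecidableEq V] (G : SimpleGraph V) [DecidableRel G.Adj] :
    Matrix (V → Fin (s + 1)) (V → Fin (s + 1)) ℂ :=
  (-(1 / 2) : ℂ) • ∑ x : V, ∑ y : V,
    if G.Adj x y then ∑ a : Fin 3, onSite x (spin s a) * onSite y (spin s a) else 0

/-- The total magnetization operator. -/
def mag (s : ℕ) (V : Type) [Fintype V] [DecidableEq V] :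
    Matrix (V → Fin (s + 1)) (V → Fin (s + 1)) ℂ :=
  ∑ x : V, onSite x (spin s 2)

/-- The partition function `Tr exp (-β (H - h M))` (a real number). -/
def partZ (s : ℕ) {V : Type} [Fintype V] [DecidableEq V] (G : SimpleGraph V) [DecidableRel G.Adj]
    (β h : ℝ) : ℝ :=
  (Matrix.trace (NormedSpace.exp ((-(β : ℂ)) • (ham s G - (h : ℂ) • mag s V)))).re

/-- The cube `{-N, …, N}³`. -/
def box (N : ℕ) : Finset (Fin 3 → ℤ) :=
  Fintype.piFinset fun _ => Finset.Icc (-(N : ℤ)) (N : ℤ)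

/-- Nearest neighbours of the cube, free boundary conditions. -/
def boxGraph (N : ℕ) : SimpleGraph (box N) where
  Adj x y := ∑ i, |x.1 i - y.1 i| = 1
  symm := ⟨fun x y h => by simpa [abs_sub_comm] using h⟩
  loopless := ⟨fun x h => by simp at h⟩

instance boxGraphDec (N : ℕ) : DecidableRel (boxGraph N).Adj :=
  fun x y => inferInstanceAs (Decidable (∑ i, |x.1 i - y.1 i| = 1))

/-- The finite-volume pressure. -/
def pressure (s N : ℕ) (β h : ℝ) : ℝ :=
  1 / (β * ((box N).card : ℝ)) * Real.log (partZ s (boxGraph N) β h)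

end

end Vale.Agent.P361
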