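import Vale.Agent.P361.PairA

namespace Vale.Agent.P361

open Matrix Finset

theorem IsRun.sum {Y ι : Type} [Fintype Y] {K : ℕ → Matrix Y Y ℝ} {d : ℕ → Y → ℝ} {c : ℝ}
    {n u J0 N : ℕ} (S : Finset ι) {F0 : ι → Y → ℝ} {mu lam occ : ι → ℕ → Y → ℝ} {al : ι → ℝ}
    (h : ∀ i ∈ S, IsRun K d c n u J0 N (F0 i) (mu i) (lam i) (occ i) (al i)) :
    IsRun K d c n u J0 N (∑ i ∈ S, F0 i) (∑ i ∈ S, mu i) (∑ i ∈ S, lam i) (∑ i ∈ S, occ i)
      (∑ i ∈ S, al i) := by
  refine ⟨fun k v => ?_, fun k v => ?_, fun k v => ?_,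
    Finset.sum_nonneg fun i hi => (h i hi).al_nonneg, fun k v hne => ?_, fun hh s hs => ?_,
    fun x Q hx hQ => ?_⟩
  · simp only [Finset.sum_apply]
    exact Finset.sum_nonneg fun i hi => (h i hi).mu_nonneg k v
  · simp only [Finset.sum_apply]
    exact Finset.sum_nonneg fun i hi => (h i hi).lam_nonneg k v
  · simp only [Finset.sum_apply]
    exact Finset.sum_nonneg fun i hi => (h i hi).occ_nonneg k v
  · simp only [Finset.sum_apply] at hne
    obtain ⟨i, hi, h0⟩ := Finset.exists_ne_zero_of_sum_ne_zero hne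
    exact (h i hi).supp k v h0
  · simp only [Finset.sum_apply, sum_dotProduct, ← Finset.sum_add_distrib]
    rw [Finset.sum_comm]
    exact Finset.sum_congr rfl fun i hi => (h i hi).ident hh s hs
  · simp only [Finset.sum_apply, sum_dotProduct]
    rw [Finset.sum_comm, Finset.sum_mul]
    exact Finset.sum_le_sum fun i hi => (h i hi).func x Q hx hQ

section

variable {Y : Type} [Fintype Y] [DecidableEq Y] {n : ℕ} [NeZero n]

lemma pair_ind_dot (B : Finset Y) (x : Y → ℝ) : ind B ⬝ᵥ x = ∑ a ∈ B, x a := by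
  simp [ind, dotProduct, ite_mul, Finset.sum_ite_mem]

lemma pair_indZ_dot (B : Finset Y) (k : ZMod n) (x : ZMod n × Y → ℝ) :
    (fun p : ZMod n × Y => if p.1 = k ∧ p.2 ∈ B then (1 : ℝ) else 0) ⬝ᵥ x = ∑ a ∈ B, x (k, a) := by
  simp only [dotProduct, Fintype.sum_prod_type, ite_mul, one_mul, zero_mul]
  rw [Finset.sum_eq_single k]
  · simp [Finset.sum_ite_mem]
  · intro b _ hb
    simp [hb]
  · simp

/-- unrolling a cyclic solution along a run -/
lemma pair_unroll {K' : ℕ → Matrix Y Y ℝ} {D : ZMod n × Y → ℝ} {c : ℝ} {u J0 N : ℕ}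
    {B : Finset Y} {mu lam occ : ℕ → Y → ℝ} {al : ℝ} (g : ℕ → ZMod n) (hJ : 0 < J0)
    (hA : IsRun K' (fun j v => if j = 0 then 1 else D (g j, v)) c n u J0 N (ind B) mu lam occ al)
    {A : Matrix (ZMod n × Y) (ZMod n × Y) ℝ}
    (hK : ∀ (x : ZMod n × Y → ℝ) j v, (A *ᵥ x) (g j, v) = (K' j *ᵥ fun w => x (g (j + 1), w)) v)
    {X f : ZMod n × Y → ℝ} (hX : ∀ p, X p = f p + D p * (A *ᵥ X) p) :
    ∑ a ∈ B, (A *ᵥ X) (g 0, a) =
      ∑ j ∈ range (N + 1), (occ j ⬝ᵥ fun v => if j = 0 then 0 else f (g j, v)) +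
        pairFold N g mu ⬝ᵥ X +
        ∑ j ∈ range (N + 1), (lam j ⬝ᵥ fun v => if j = 0 then (A *ᵥ X) (g 0, v) else X (g j, v)) := by
  have h1 := hA.ident (fun j v => if j = 0 then (A *ᵥ X) (g 0, v) else X (g j, v))
    (fun j v => if j = 0 then 0 else f (g j, v)) (by
      intro j v
      by_cases hj : j = 0
      · subst hj
        simp only [if_true, zero_add, one_mul, one_ne_zero, if_false]
        exact hK X 0 v
      · simp only [hj, if_false, Nat.succ_ne_zero]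
        rw [hX (g j, v), hK X j v])
  rw [pair_ind_dot] at h1
  simp only [if_true] at h1
  rw [h1, pairFold_dot, Finset.sum_add_distrib, Finset.sum_add_distrib]
  congr 2
  refine Finset.sum_congr rfl fun j _ => ?_
  by_cases hj : j = 0
  · have h0 : mu j = 0 := by
      funext v
      by_contra hne
      have := (hA.supp j v hne).1
      rw [hj, Nat.zero_mod] at this
      omega
    simp [h0]
  · simp only [hj, if_false]

omit [DecidableEq Y] in
lemma pair_lam_le {N : ℕ} {lam : ℕ → Y → ℝ} (h0 : ∀ k v, 0 ≤ lam k v) {x : ℕ → Y → ℝ}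
    (hx : ∀ j v, x j v ≤ 1) : ∑ j ∈ range (N + 1), lam j ⬝ᵥ x j ≤ mass N lam :=
  Finset.sum_le_sum fun j _ => Finset.sum_le_sum fun v _ => mul_le_of_le_one_right (h0 j v) (hx j v)

lemma pair_arrivals (N : ℕ) (occ : ℕ → Y → ℝ) (B : Finset Y) (k : ZMod n) :
    ∑ j ∈ range (N + 1), (occ j ⬝ᵥ fun v => if j = 0 then 0 else
      (if k + (j : ZMod n) = k ∧ v ∈ B then (1 : ℝ) else 0)) =
      ∑ j ∈ Icc 1 (N / n), ∑ b ∈ B, occ (j * n) b := by
  have hn : 0 < n := Nat.pos_of_ne_zero (NeZero.ne n)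
  have h1 : ∀ j : ℕ, (occ j ⬝ᵥ fun v => if j = 0 then 0 else
      (if k + (j : ZMod n) = k ∧ v ∈ B then (1 : ℝ) else 0)) =
      if j ≠ 0 ∧ n ∣ j then ∑ b ∈ B, occ j b else 0 := by
    intro j
    by_cases hj : j = 0
    · simp [hj]
    · by_cases hd : n ∣ j
      · have := (ZMod.natCast_eq_zero_iff j n).2 hd
        simp [hj, hd, this, dotProduct, Finset.sum_ite_mem]
      · have : (j : ZMod n) ≠ 0 := fun h => hd ((ZMod.natCast_eq_zero_iff j n).1 h)
        simp [hj, hd, this]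
  simp only [h1]
  rw [← Finset.sum_filter]
  symm
  refine Finset.sum_bij (fun j _ => j * n) ?_ ?_ ?_ (fun _ _ => rfl)
  · intro j hj
    rw [Finset.mem_Icc] at hj
    rw [Finset.mem_filter, Finset.mem_range]
    exact ⟨Nat.lt_succ_of_le ((Nat.le_div_iff_mul_le hn).1 hj.2),
      (Nat.mul_pos hj.1 hn).ne', Dvd.intro_left j rfl⟩
  · intro i _ j _ h
    exact Nat.eq_of_mul_eq_mul_right hn h
  · intro i hi
    rw [Finset.mem_filter, Finset.mem_range] at hi
    obtain ⟨h1, h2, j, rfl⟩ := hi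
    refine ⟨j, Finset.mem_Icc.2 ⟨?_, ?_⟩, mul_comm _ _⟩
    · exact Nat.pos_of_ne_zero fun h => by simp [h] at h2
    · rw [Nat.le_div_iff_mul_le hn, mul_comm]
      omega

omit [DecidableEq Y] in
lemma pair_energy_split (K : ZMod n → Matrix Y Y ℝ) (X : ZMod n × Y → ℝ) :
    ∑ p, ∑ q, pairK K p q * (X p - X q) ^ 2 =
      ∑ κ, ∑ v, ∑ w, K κ v w * (X (κ, v) - X (κ + 1, w)) ^ 2 := by
  rw [Fintype.sum_prod_type]
  refine Finset.sum_congr rfl fun κ _ => Finset.sum_congr rfl fun v _ => ?_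
  exact pairK_mulVec K (fun q => (X (κ, v) - X q) ^ 2) κ v

end

theorem pair_bound {Y : Type} [Fintype Y] [DecidableEq Y] {n u N : ℕ} [NeZero n] (hn : n = 16 * u)
    (K : ZMod n → Matrix Y Y ℝ) (d h : ZMod n → Y → ℝ) {ξ c : ℝ} (B : Finset Y) (k : ZMod n)
    (hK : ∀ κ, DStoch (K κ)) (hd0 : ∀ κ v, 0 ≤ d κ v) (hd : ∀ κ v, d κ v ≤ ξ) (hξ0 : 1 / 2 ≤ ξ)
    (hξ : ξ < 1) (hc0 : 0 ≤ c) (hc : c ≤ 1 - ξ) (hB : ∀ b ∈ B, d k b = 0)
    (hh : ∀ κ v, h κ v = (if κ = k ∧ v ∈ B then 1 else 0) + d κ v * (K κ *ᵥ h (κ + 1)) v)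
    {mu lam occ mu' lam' occ' : ℕ → Y → ℝ} {al al' : ℝ}
    (hA : IsRun (fun j => K (k + j)) (fun j v => if j = 0 then 1 else d (k + j) v) c n u (8 * u) N
      (ind B) mu lam occ al)
    (hC : IsRun (fun j => (K (k - 1 - j))ᵀ) (fun j v => if j = 0 then 1 else d (k - j) v) c n u u
      (u + 2 * u) (ind B) mu' lam' occ' al') :
    ∑ a ∈ B, (K k *ᵥ h (k + 1)) a ≤
      (∑ j ∈ Icc 1 (N / n), ∑ b ∈ B, occ (j * n) b) + mass N lam + mass (u + 2 * u) lam' +
        4 * al * al' := by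
  have hu : 0 < u := by have := NeZero.ne n; omega
  set A := pairK K with hAdef
  have hS : DStoch A := pairK_dstoch hK
  have hT : DStoch Aᵀ := hS.transpose
  set D : ZMod n × Y → ℝ := fun p => d p.1 p.2 with hD
  have hD0 : ∀ p, 0 ≤ D p := fun p => hd0 _ _
  have hD1 : ∀ p, D p ≤ ξ := fun p => hd _ _
  set I : ZMod n × Y → ℝ := fun p => if p.1 = k ∧ p.2 ∈ B then 1 else 0 with hI
  have hI0 : ∀ p, 0 ≤ I p := fun p => by simp only [hI]; split_ifs <;> norm_num
  have hI1 : ∀ p, I p + D p ≤ 1 := fun p => by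
    simp only [hI, hD]
    split_ifs with hp
    · rw [hp.1, hB _ hp.2]; norm_num
    · linarith [hd p.1 p.2]
  have hKf : ∀ (x : ZMod n × Y → ℝ) (j : ℕ) v, (A *ᵥ x) (k + j, v) =
      (K (k + j) *ᵥ fun w => x (k + ((j + 1 : ℕ) : ZMod n), w)) v := by
    intro x j v
    rw [hAdef, pairK_mulVec, Nat.cast_succ, add_assoc]
  have hKb : ∀ (x : ZMod n × Y → ℝ) (j : ℕ) v, (Aᵀ *ᵥ x) (k - j, v) =
      ((K (k - 1 - j))ᵀ *ᵥ fun w => x (k - ((j + 1 : ℕ) : ZMod n), w)) v := by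
    intro x j v
    rw [hAdef, pairK_T_mulVec, Nat.cast_succ, show k - j - 1 = k - 1 - j by ring,
      show k - (j + 1) = k - 1 - j by ring]
  have hfw := fun {X f : ZMod n × Y → ℝ} (hX : ∀ p, X p = f p + D p * (A *ᵥ X) p) =>
    pair_unroll (D := D) (fun j : ℕ => k + j) (by omega) hA hKf hX
  have hbw := fun {X f : ZMod n × Y → ℝ} (hX : ∀ p, X p = f p + D p * (Aᵀ *ᵥ X) p) =>
    pair_unroll (D := D) (fun j : ℕ => k - j) hu hC hKb hX
  simp only [Nat.cast_zero, add_zero, sub_zero] at hfw hbw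
  set m := pairFold N (fun j : ℕ => k + (j : ZMod n)) mu with hm
  set m' := pairFold (u + 2 * u) (fun j : ℕ => k - (j : ZMod n)) mu' with hm'
  have hm0 : ∀ p, 0 ≤ m p := pairFold_nonneg _ _ hA.mu_nonneg
  have hm0' : ∀ p, 0 ≤ m' p := pairFold_nonneg _ _ hC.mu_nonneg
  -- the hitting function
  set H : ZMod n × Y → ℝ := fun p => h p.1 p.2 with hH
  have hHeq : ∀ p, H p = I p + D p * (A *ᵥ H) p := fun p => by
    rw [hAdef, show p = (p.1, p.2) from rfl, pairK_mulVec]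
    exact hh p.1 p.2
  have hH1 : ∀ p, H p ≤ 1 := fun p =>
    (green_max hS.1 (fun v => (hS.2.1 v).le) hD0 hD1 hξ hHeq hI0 hI1 p).2
  have h1 : ∑ a ∈ B, (K k *ᵥ h (k + 1)) a ≤
      (∑ j ∈ Icc 1 (N / n), ∑ b ∈ B, occ (j * n) b) + m ⬝ᵥ H + mass N lam := by
    have e1 : ∑ a ∈ B, (K k *ᵥ h (k + 1)) a = ∑ a ∈ B, (A *ᵥ H) (k, a) :=
      Finset.sum_congr rfl fun a _ => (pairK_mulVec K H k a).symm
    rw [e1, hfw hHeq, ← pair_arrivals N occ B k]
    refine add_le_add le_rfl (pair_lam_le hA.lam_nonneg fun j v => ?_)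
    split_ifs
    · exact pair_le_one hS hH1 _
    · exact hH1 _
  -- the backward function
  obtain ⟨G, hG, hG0⟩ := pair_exists hT hD0 hD1 hξ (f := fun p => D p * m p)
    fun p => mul_nonneg (hD0 p) (hm0 p)
  set g : ZMod n × Y → ℝ := fun p => m p + (Aᵀ *ᵥ G) p with hg
  have hDg : (fun q => D q * g q) = G := funext fun q => by rw [hG q, hg]; ring
  have hgeq : ∀ p, g p = m p + (Aᵀ *ᵥ fun q => D q * g q) p := fun p => by rw [hDg]
  have hg1 : ∀ p, g p ≤ 1 := by
    intro p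
    obtain ⟨X, hX, hX0⟩ := pair_exists hS hD0 hD1 hξ (f := Pi.single p 1) fun q => by
      rw [Pi.single_apply]; split_ifs <;> norm_num
    obtain ⟨W, hW, -⟩ := pair_exists hT hD0 hD1 hξ hI0
    have hW1 : ∀ q, W q ≤ 1 := fun q =>
      (green_max hT.1 (fun v => (hT.2.1 v).le) hD0 hD1 hξ hW hI0 hI1 q).2
    have e1 := pair_dual hX hgeq
    have e2 := pair_dual (g := Aᵀ *ᵥ W) (g0 := Aᵀ *ᵥ I) hX fun q => by
      rw [← Pi.add_apply (Aᵀ *ᵥ I), ← Matrix.mulVec_add]
      exact congrArg (fun z => (Aᵀ *ᵥ z) q) (funext hW)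
    rw [dotProduct_single, mul_one] at e1 e2
    have e3 : (Aᵀ *ᵥ I) ⬝ᵥ X = ∑ a ∈ B, (A *ᵥ X) (k, a) := by
      rw [Matrix.mulVec_transpose, ← Matrix.dotProduct_mulVec, hI, pair_indZ_dot]
    have e4 : m ⬝ᵥ X ≤ ∑ a ∈ B, (A *ᵥ X) (k, a) := by
      rw [hfw hX]
      refine le_add_of_le_of_nonneg (le_add_of_nonneg_left ?_) ?_
      · refine Finset.sum_nonneg fun j _ => Finset.sum_nonneg fun v _ =>
          mul_nonneg (hA.occ_nonneg _ _) ?_
        dsimp only
        rw [Pi.single_apply]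
        split_ifs <;> norm_num
      · refine Finset.sum_nonneg fun j _ => Finset.sum_nonneg fun v _ =>
          mul_nonneg (hA.lam_nonneg _ _) ?_
        dsimp only
        split_ifs
        · exact pair_nonneg hS hX0 _
        · exact hX0 _
    linarith [pair_le_one hT hW1 p]
  have hmz : ∀ (j : ℕ) v, j ≤ u + 2 * u → m (k - j, v) = 0 := by
    intro j v hj
    refine Finset.sum_eq_zero fun i _ => ?_
    dsimp only
    split_ifs with hij
    · by_contra hne
      have e1 := hA.supp i v hne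
      have e2 : ((i + j : ℕ) : ZMod n) = 0 := by
        push_cast
        linear_combination hij
      rw [ZMod.natCast_eq_zero_iff] at e2
      have e3 : n ∣ i % n + j := by
        rw [← Nat.mod_add_div i n, add_right_comm] at e2
        exact (Nat.dvd_add_left (Dvd.intro _ rfl)).1 e2
      have := Nat.le_of_dvd (by omega) e3
      omega
    · rfl
  have h2 : m ⬝ᵥ H ≤ m' ⬝ᵥ G + mass (u + 2 * u) lam' := by
    rw [pair_dual hHeq hgeq, dotProduct_comm, hI, pair_indZ_dot]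
    have e1 : ∑ a ∈ B, g (k, a) = ∑ a ∈ B, (Aᵀ *ᵥ G) (k, a) :=
      Finset.sum_congr rfl fun a _ => by
        have := hmz 0 a (by omega)
        rw [Nat.cast_zero, sub_zero] at this
        simp only [hg, this, zero_add]
    rw [e1, hbw hG, Finset.sum_eq_zero, zero_add]
    · refine add_le_add le_rfl (pair_lam_le hC.lam_nonneg fun j v => ?_)
      split_ifs
      · have := hg1 (k, v)
        simp only [hg] at this
        linarith [hm0 (k, v)]
      · rw [← hDg]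
        have e2 : 0 ≤ g (k - j, v) := add_nonneg (hm0 _) (pair_nonneg hT hG0 _)
        nlinarith [hg1 (k - j, v), hD1 (k - j, v), hD0 (k - j, v)]
    · intro j hj
      rw [Finset.mem_range] at hj
      refine Finset.sum_eq_zero fun v _ => ?_
      simp [hmz j v (by omega)]
  -- the energy
  obtain ⟨X, hX, hX0⟩ := pair_exists hS hD0 hD1 hξ (f := fun p => D p * m' p)
    fun p => mul_nonneg (hD0 p) (hm0' p)
  have h3 : m' ⬝ᵥ G = m ⬝ᵥ X := by
    rw [pair_dual hX hgeq, ← hDg]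
    exact Finset.sum_congr rfl fun p _ => by ring
  set Q := X ⬝ᵥ fun p => D p * m' p with hQ
  have hQ0 : 0 ≤ Q := Finset.sum_nonneg fun p _ => mul_nonneg (hX0 p) (mul_nonneg (hD0 p) (hm0' p))
  have hE := pair_energy hS hD1 hξ0 hξ hc hX hX0
  rw [hAdef, pair_energy_split, Fintype.sum_prod_type, ← hQ] at hE
  have he0 : ∀ κ, 0 ≤ ∑ v, ∑ w, K κ v w * (X (κ, v) - X (κ + 1, w)) ^ 2 := fun κ =>
    Finset.sum_nonneg fun v _ => Finset.sum_nonneg fun w _ => mul_nonneg ((hK κ).1 v w) (sq_nonneg _)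
  have hn0 : ∀ κ, 0 ≤ ∑ v, X (κ, v) ^ 2 := fun κ => Finset.sum_nonneg fun v _ => sq_nonneg _
  have hsq : Real.sqrt (4 * Q) = 2 * Real.sqrt Q := by
    rw [Real.sqrt_mul (by norm_num), show (4 : ℝ) = 2 ^ 2 by norm_num, Real.sqrt_sq (by norm_num)]
  have h4 : m ⬝ᵥ X ≤ al * (2 * Real.sqrt Q) := by
    rw [hm, pairFold_dot, ← hsq]
    refine hA.func (fun j v => X (k + j, v)) _ (fun j v => hX0 _) fun T => le_trans ?_ hE
    simp only [form, Finset.sum_add_distrib, ← Finset.mul_sum, Nat.cast_succ, ← add_assoc]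
    exact add_le_add (pair_window _ he0 (by omega) T (fun j => k + j) (add_right_injective k))
      (mul_le_mul_of_nonneg_left
        (pair_window _ hn0 (by omega) T (fun j => k + j) (add_right_injective k)) hc0)
  have h5 : m' ⬝ᵥ X ≤ al' * (2 * Real.sqrt Q) := by
    rw [hm', pairFold_dot, ← hsq]
    refine hC.func (fun j v => X (k - j, v)) _ (fun j v => hX0 _) fun T => le_trans ?_ hE
    simp only [form, Finset.sum_add_distrib, ← Finset.mul_sum]
    refine add_le_add (le_trans (le_of_eq ?_)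
      (pair_window _ he0 (by omega : u ≤ n) T (fun j => k - 1 - j) sub_right_injective))
      (mul_le_mul_of_nonneg_left
        (pair_window _ hn0 (by omega) T (fun j => k - j) sub_right_injective) hc0)
    refine Finset.sum_congr rfl fun j _ => ?_
    rw [Finset.sum_comm]
    refine Finset.sum_congr rfl fun v _ => Finset.sum_congr rfl fun w _ => ?_
    rw [Matrix.transpose_apply, Nat.cast_succ, show k - (j + 1) = k - 1 - j by ring,
      show k - 1 - j + 1 = k - j by ring]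
    ring
  have h6 : Q ≤ m' ⬝ᵥ X := Finset.sum_le_sum fun p _ => by
    nlinarith [mul_nonneg (hX0 p) (hm0' p), hD1 p]
  have h7 : Real.sqrt Q ≤ 2 * al' := by
    by_contra hlt
    push Not at hlt
    have e1 := Real.mul_self_sqrt hQ0
    have e2 := hC.al_nonneg
    nlinarith
  nlinarith [hA.al_nonneg, mul_le_mul_of_nonneg_left h7 hA.al_nonneg]

end Vale.Agent.P361
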