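import Vale.Agent.P361.Green

namespace Vale.Agent.P361

open Matrix Finset

section

variable {Y : Type} [Fintype Y] {n : ℕ} [NeZero n]

/-- the cyclic space time kernel -/
def pairK (K : ZMod n → Matrix Y Y ℝ) : Matrix (ZMod n × Y) (ZMod n × Y) ℝ :=
  Matrix.of fun p q => if q.1 = p.1 + 1 then K p.1 p.2 q.2 else 0

lemma pairK_mulVec (K : ZMod n → Matrix Y Y ℝ) (x : ZMod n × Y → ℝ) (κ : ZMod n) (v : Y) :
    (pairK K *ᵥ x) (κ, v) = (K κ *ᵥ fun w => x (κ + 1, w)) v := by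
  simp only [pairK, Matrix.mulVec, dotProduct, Matrix.of_apply, Fintype.sum_prod_type, ite_mul,
    zero_mul]
  rw [Finset.sum_eq_single (κ + 1)]
  · simp
  · intro b _ hb
    simp [hb]
  · simp

lemma pairK_T_mulVec (K : ZMod n → Matrix Y Y ℝ) (x : ZMod n × Y → ℝ) (κ : ZMod n) (w : Y) :
    ((pairK K)ᵀ *ᵥ x) (κ, w) = ((K (κ - 1))ᵀ *ᵥ fun v => x (κ - 1, v)) w := by
  simp only [pairK, Matrix.mulVec, dotProduct, Matrix.of_apply, Fintype.sum_prod_type, ite_mul,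
    zero_mul, Matrix.transpose_apply]
  rw [Finset.sum_eq_single (κ - 1)]
  · simp
  · intro b _ hb
    have : ¬ κ = b + 1 := fun h => hb (by rw [h]; ring)
    simp [this]
  · simp

lemma pairK_dstoch {K : ZMod n → Matrix Y Y ℝ} (hK : ∀ κ, DStoch (K κ)) : DStoch (pairK K) := by
  refine ⟨fun p q => ?_, fun p => ?_, fun q => ?_⟩
  · simp only [pairK, Matrix.of_apply]
    split_ifs
    · exact (hK _).1 _ _
    · exact le_rfl
  · have := pairK_mulVec K (fun _ => 1) p.1 p.2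
    simpa [Matrix.mulVec, dotProduct, (hK _).2.1] using this
  · have := pairK_T_mulVec K (fun _ => 1) q.1 q.2
    simpa [Matrix.mulVec, dotProduct, (hK _).2.2] using this

/-- folding a time dependent vector onto the cycle -/
def pairFold (N : ℕ) (g : ℕ → ZMod n) (mu : ℕ → Y → ℝ) : ZMod n × Y → ℝ :=
  fun p => ∑ j ∈ range (N + 1), if g j = p.1 then mu j p.2 else 0

lemma pairFold_dot (N : ℕ) (g : ℕ → ZMod n) (mu : ℕ → Y → ℝ) (X : ZMod n × Y → ℝ) :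
    pairFold N g mu ⬝ᵥ X = ∑ j ∈ range (N + 1), mu j ⬝ᵥ fun v => X (g j, v) := by
  simp only [pairFold, dotProduct, Finset.sum_mul, Fintype.sum_prod_type, ite_mul, zero_mul]
  rw [Finset.sum_comm]
  simp_rw [Finset.sum_comm (s := Finset.univ) (t := range (N + 1))]
  refine Finset.sum_congr rfl fun j _ => ?_
  simp

omit [Fintype Y] [NeZero n] in
lemma pairFold_nonneg (N : ℕ) (g : ℕ → ZMod n) {mu : ℕ → Y → ℝ} (h : ∀ k v, 0 ≤ mu k v)
    (p : ZMod n × Y) : 0 ≤ pairFold N g mu p :=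
  Finset.sum_nonneg fun j _ => by split_ifs; exacts [h _ _, le_rfl]

lemma pair_window (e : ZMod n → ℝ) (he : ∀ κ, 0 ≤ e κ) {u : ℕ} (hu : u ≤ n) (T : ℕ)
    (g : ZMod n → ZMod n) (hg : Function.Injective g) :
    ∑ j ∈ Ico T (T + u), e (g j) ≤ ∑ κ, e κ := by
  have hinj : Set.InjOn (fun j : ℕ => g j) (Ico T (T + u) : Finset ℕ) := by
    intro i hi j hj hij
    have h1 := (ZMod.natCast_eq_natCast_iff' i j n).1 (hg hij)
    simp only [Finset.coe_Ico, Set.mem_Ico] at hi hj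
    exact Nat.ModEq.eq_of_abs_lt h1 (by rw [abs_lt]; constructor <;> omega)
  rw [← Finset.sum_image (f := e) hinj]
  exact Finset.sum_le_sum_of_subset_of_nonneg (Finset.subset_univ _) fun κ _ _ => he κ

end

section

variable {Z : Type} [Fintype Z] {A : Matrix Z Z ℝ} {D : Z → ℝ}

/-- duality between the forward and the backward equation -/
lemma pair_dual {X f g g0 : Z → ℝ} (hX : ∀ p, X p = f p + D p * (A *ᵥ X) p)
    (hg : ∀ p, g p = g0 p + (Aᵀ *ᵥ fun q => D q * g q) p) : g0 ⬝ᵥ X = g ⬝ᵥ f := by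
  have h1 : (Aᵀ *ᵥ fun q => D q * g q) ⬝ᵥ X = (fun q => D q * g q) ⬝ᵥ (A *ᵥ X) := by
    rw [Matrix.dotProduct_mulVec, Matrix.mulVec_transpose]
  have h2 : g ⬝ᵥ X = g0 ⬝ᵥ X + (Aᵀ *ᵥ fun q => D q * g q) ⬝ᵥ X := by
    rw [← add_dotProduct]
    exact congrArg (· ⬝ᵥ X) (funext hg)
  have h3 : g ⬝ᵥ X = g ⬝ᵥ f + (fun q => D q * g q) ⬝ᵥ (A *ᵥ X) := by
    simp only [dotProduct, ← Finset.sum_add_distrib]
    refine Finset.sum_congr rfl fun p _ => ?_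
    nth_rewrite 1 [hX p]
    ring
  linarith

lemma pair_le_one (hA : DStoch A) {x : Z → ℝ} (hx : ∀ p, x p ≤ 1) (p : Z) : (A *ᵥ x) p ≤ 1 := by
  rw [← hA.2.1 p]
  exact Finset.sum_le_sum fun q _ => mul_le_of_le_one_right (hA.1 p q) (hx q)

lemma pair_nonneg (hA : DStoch A) {x : Z → ℝ} (hx : ∀ p, 0 ≤ x p) (p : Z) : 0 ≤ (A *ᵥ x) p :=
  Finset.sum_nonneg fun q _ => mul_nonneg (hA.1 p q) (hx q)

lemma pair_exists [DecidableEq Z] (hA : DStoch A) {ξ : ℝ} (hd0 : ∀ p, 0 ≤ D p) (hd : ∀ p, D p ≤ ξ)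
    (hξ : ξ < 1) {f : Z → ℝ} (hf : ∀ p, 0 ≤ f p) :
    ∃ X : Z → ℝ, (∀ p, X p = f p + D p * (A *ᵥ X) p) ∧ ∀ p, 0 ≤ X p := by
  have h1 := green_eq hA.1 (fun v => (hA.2.1 v).le) hd0 hd hξ f
  refine ⟨_, h1, green_min hA.1 (fun v => (hA.2.1 v).le) hd0 hd hξ fun p => ?_⟩
  linarith [h1 p, hf p]

/-- energy estimate -/
lemma pair_energy (hA : DStoch A) {ξ c : ℝ} (hd : ∀ p, D p ≤ ξ) (hξ0 : 1 / 2 ≤ ξ) (hξ : ξ < 1)
    (hc : c ≤ 1 - ξ) {X f : Z → ℝ} (hX : ∀ p, X p = f p + D p * (A *ᵥ X) p) (hX0 : ∀ p, 0 ≤ X p) :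
    (∑ p, ∑ q, A p q * (X p - X q) ^ 2) + c * ∑ p, X p ^ 2 ≤ 4 * (X ⬝ᵥ f) := by
  have h1 : ∑ p, ∑ q, A p q * (X p - X q) ^ 2 =
      2 * ∑ p, X p ^ 2 - 2 * ∑ p, X p * (A *ᵥ X) p := by
    have e1 : ∑ p, ∑ q, A p q * X p ^ 2 = ∑ p, X p ^ 2 := by
      simp [← Finset.sum_mul, hA.2.1]
    have e2 : ∑ p, ∑ q, A p q * X q ^ 2 = ∑ p, X p ^ 2 := by
      rw [Finset.sum_comm]
      simp [← Finset.sum_mul, hA.2.2]
    have e3 : ∑ p, X p * (A *ᵥ X) p = ∑ p, ∑ q, X p * (A p q * X q) := by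
      simp [Matrix.mulVec, dotProduct, Finset.mul_sum]
    have e4 : ∑ p, ∑ q, A p q * (X p - X q) ^ 2 = ∑ p, ∑ q, A p q * X p ^ 2 +
        ∑ p, ∑ q, A p q * X q ^ 2 - 2 * ∑ p, ∑ q, X p * (A p q * X q) := by
      simp only [Finset.mul_sum, ← Finset.sum_add_distrib, ← Finset.sum_sub_distrib]
      exact Finset.sum_congr rfl fun p _ => Finset.sum_congr rfl fun q _ => by ring
    rw [e4, e1, e2, e3]
    ring
  have h2 : ∑ p, X p ^ 2 - ξ * ∑ p, X p * (A *ᵥ X) p ≤ X ⬝ᵥ f := by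
    simp only [dotProduct, Finset.mul_sum, ← Finset.sum_sub_distrib]
    refine Finset.sum_le_sum fun p _ => ?_
    have e1 : f p = X p - D p * (A *ᵥ X) p := by linarith [hX p]
    rw [e1]
    nlinarith [mul_le_mul_of_nonneg_right (hd p) (mul_nonneg (hX0 p) (pair_nonneg hA hX0 p))]
  have h3 : 0 ≤ ∑ p, ∑ q, A p q * (X p - X q) ^ 2 :=
    Finset.sum_nonneg fun p _ => Finset.sum_nonneg fun q _ => mul_nonneg (hA.1 p q) (sq_nonneg _)
  have h4 : 0 ≤ ∑ p, X p ^ 2 := Finset.sum_nonneg fun p _ => sq_nonneg _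
  nlinarith [mul_le_mul_of_nonneg_right hc h4, mul_le_mul_of_nonneg_right hξ0 h3,
    mul_nonneg (sub_nonneg.2 hξ.le) h4]

end

end Vale.Agent.P361
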