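import Vale.Agent.P361.PeierlsA

namespace Vale.Agent.P361

open Matrix Finset

/-- the exponent of the partition function, with the local operators as parameters -/
noncomputable def peiE {V R : Type} [Fintype V] [Ring R] [Algebra ℂ R] (G : SimpleGraph V)
    [DecidableRel G.Adj] (β h : ℝ) (X : V → Fin 3 → R) : R :=
  (-(β : ℂ)) • ((-(1 / 2) : ℂ) • (∑ x : V, ∑ y : V,
    if G.Adj x y then ∑ a : Fin 3, X x a * X y a else 0) - (h : ℂ) • ∑ x : V, X x 2)

theorem peiE_map {V R R' F : Type} [Fintype V] [Ring R] [Algebra ℂ R] [Ring R'] [Algebra ℂ R']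
    [FunLike F R R'] [AlgHomClass F ℂ R R'] (f : F) (G : SimpleGraph V) [DecidableRel G.Adj]
    (β h : ℝ) (X : V → Fin 3 → R) : f (peiE G β h X) = peiE G β h fun x a => f (X x a) := by
  simp only [peiE, map_smul, map_sub, map_sum, apply_ite f, map_mul, map_zero]

theorem pei_partZ (s : ℕ) {V : Type} [Fintype V] [DecidableEq V] (G : SimpleGraph V)
    [DecidableRel G.Adj] (β h : ℝ) :
    partZ s G β h = peiZ (peiE G β h fun x a => onSite x (spin s a)) := rfl

theorem pei_spin (s : ℕ) (a : Fin 3) : (spin s a)ᴴ = spin s a := by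
  fin_cases a
  · simp [spin, conjTranspose_smul, add_comm]
  · simp only [spin, Fin.mk_one, cons_val_one, cons_val_zero, conjTranspose_smul,
      conjTranspose_sub, conjTranspose_conjTranspose]
    rw [← neg_sub (spinPlus s), smul_neg, ← neg_smul]
    simp
  · simp [spin, diagonal_conjTranspose, Pi.star_def]

theorem pei_onSite {V : Type} [Fintype V] [DecidableEq V] {s : ℕ} (x : V)
    (A : Matrix (Fin (s + 1)) (Fin (s + 1)) ℂ) : (onSite x A)ᴴ = onSite x Aᴴ := by
  ext σ τ
  simp only [onSite, conjTranspose_apply, of_apply, apply_ite star, star_zero, eq_comm (a := τ _)]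

theorem pei_herm (s : ℕ) {V : Type} [Fintype V] [DecidableEq V] (G : SimpleGraph V)
    [DecidableRel G.Adj] (β h : ℝ) :
    (peiE G β h fun x a => onSite x (spin s a)).IsHermitian := by
  simp only [peiE, IsHermitian, conjTranspose_smul, conjTranspose_sub, conjTranspose_sum,
    apply_ite conjTranspose, conjTranspose_mul, pei_onSite, pei_spin, conjTranspose_zero]
  rw [Finset.sum_comm]
  simp [G.adj_comm]

theorem pei_rb {V : Type} [Fintype V] [DecidableEq V] {s : ℕ} (x : V)
    (A : Matrix (Fin (s + 1)) (Fin (s + 1)) ℂ) : PeiRB (∑ i, ∑ j, ‖A i j‖) (onSite x A) := by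
  intro σ
  simp only [onSite, of_apply, apply_ite norm, norm_zero, ← Finset.sum_filter]
  rw [← Finset.sum_image (f := fun j => ‖A (σ x) j‖) (g := fun τ : V → Fin (s + 1) => τ x)]
  · exact (Finset.sum_le_sum_of_subset_of_nonneg (Finset.subset_univ _)
      fun _ _ _ => norm_nonneg _).trans (Finset.single_le_sum (f := fun i => ∑ j, ‖A i j‖)
        (fun _ _ => Finset.sum_nonneg fun _ _ => norm_nonneg _) (Finset.mem_univ _))
  · intro τ hτ τ' hτ' h
    funext y
    by_cases hy : y = x
    · rw [hy]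
      exact h
    · exact ((Finset.mem_filter.1 hτ).2 y hy).symm.trans ((Finset.mem_filter.1 hτ').2 y hy)

theorem partZ_pos (s : ℕ) {V : Type} [Fintype V] [DecidableEq V] (G : SimpleGraph V)
    [DecidableRel G.Adj] (β h : ℝ) : 0 < partZ s G β h := by
  exact pei_pos (pei_herm s G β h)

theorem partZ_iso (s : ℕ) {V V' : Type} [Fintype V] [DecidableEq V] [Fintype V'] [DecidableEq V']
    (G : SimpleGraph V) [DecidableRel G.Adj] (G' : SimpleGraph V') [DecidableRel G'.Adj]
    (e : V ≃ V') (he : ∀ x y, G'.Adj (e x) (e y) ↔ G.Adj x y) (β h : ℝ) :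
    partZ s G β h = partZ s G' β h := by
  have h1 : ∀ (x : V) (A : Matrix (Fin (s + 1)) (Fin (s + 1)) ℂ),
      reindexAlgEquiv ℂ ℂ (e.arrowCongr (Equiv.refl _)) (onSite x A) = onSite (e x) A := by
    intro x A
    ext σ τ
    simp [onSite, e.surjective.forall]
  rw [pei_partZ, pei_partZ, ← pei_reindex (pei_herm s G β h) (e.arrowCongr (Equiv.refl _)),
    peiE_map]
  simp only [h1, peiE, ← e.sum_comp, he]

theorem partZ_cmp (s : ℕ) : ∃ C : ℝ, 0 < C ∧ ∀ {V : Type} [Fintype V] [DecidableEq V]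
    (G G' : SimpleGraph V) [DecidableRel G.Adj] [DecidableRel G'.Adj] (β h : ℝ), 0 ≤ β →
    |Real.log (partZ s G β h) - Real.log (partZ s G' β h)| ≤
      C * β * ((Finset.univ : Finset (V × V)).filter
        fun q => ¬ (G.Adj q.1 q.2 ↔ G'.Adj q.1 q.2)).card := by
  set c : ℝ := ∑ a, (∑ i, ∑ j, ‖spin s a i j‖) * ∑ i, ∑ j, ‖spin s a i j‖ with hc
  have hc0 : 0 ≤ c := by positivity
  have key : ∀ {V : Type} [Fintype V] [DecidableEq V] (G G' : SimpleGraph V) [DecidableRel G.Adj]
      [DecidableRel G'.Adj] (β h : ℝ), 0 ≤ β → Real.log (partZ s G β h) ≤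
        Real.log (partZ s G' β h) + (c + 1) * β * ((Finset.univ : Finset (V × V)).filter
          fun q => ¬ (G.Adj q.1 q.2 ↔ G'.Adj q.1 q.2)).card := by
    intro V _ _ G G' _ _ β h hβ
    set T : V → V → Matrix (V → Fin (s + 1)) (V → Fin (s + 1)) ℂ :=
      fun x y => ∑ a, onSite x (spin s a) * onSite y (spin s a) with hT
    have h1 : ∀ x y, PeiRB c (T x y) := fun x y =>
      PeiRB.sum _ fun a _ => (pei_rb x _).mul (pei_rb y _)
    have h2 : PeiRB (∑ q : V × V, if ¬ (G.Adj q.1 q.2 ↔ G'.Adj q.1 q.2) then c else 0)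
        (∑ q : V × V, ((if G.Adj q.1 q.2 then T q.1 q.2 else 0) -
          if G'.Adj q.1 q.2 then T q.1 q.2 else 0)) := PeiRB.sum _ fun q _ σ => by
      have := h1 q.1 q.2 σ
      by_cases a : G.Adj q.1 q.2 <;> by_cases b : G'.Adj q.1 q.2 <;> simp [a, b, this]
    have h3 := pei_le (pei_herm s G' β h) (pei_herm s G β h) (r := ‖((β / 2 : ℝ) : ℂ)‖ * _) (by
      refine (congrArg _ ?_).mp (h2.smul ((β / 2 : ℝ) : ℂ))
      simp only [peiE, Finset.sum_sub_distrib, Fintype.sum_prod_type, hT]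
      push_cast
      module)
    refine h3.trans (add_le_add le_rfl ?_)
    rw [← Finset.sum_filter, Finset.sum_const, nsmul_eq_mul, Complex.norm_real,
      Real.norm_of_nonneg (by positivity)]
    have h4 := mul_nonneg hβ (Nat.cast_nonneg (α := ℝ) ((Finset.univ : Finset (V × V)).filter
      fun q => ¬ (G.Adj q.1 q.2 ↔ G'.Adj q.1 q.2)).card)
    linarith [mul_nonneg hc0 h4]
  refine ⟨c + 1, by positivity, fun G G' _ _ β h hβ => abs_sub_le_iff.2 ⟨?_, ?_⟩⟩
  · exact sub_le_iff_le_add'.2 (key G G' β h hβ)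
  · simpa only [sub_le_iff_le_add', iff_comm] using key G' G β h hβ

theorem logZ_convex (s : ℕ) {V : Type} [Fintype V] [DecidableEq V] (G : SimpleGraph V)
    [DecidableRel G.Adj] (β : ℝ) :
    ConvexOn ℝ Set.univ fun h => Real.log (partZ s G β h) := by
  refine ⟨convex_univ, fun x _ y _ a b ha hb hab => ?_⟩
  refine le_of_eq_of_le (congrArg (fun A => Real.log (peiZ A)) ?_)
    (pei_convex (pei_herm s G β x) (pei_herm s G β y) ha hb hab)
  obtain rfl : b = 1 - a := by linarith
  simp only [peiE, ham, mag, smul_eq_mul]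
  push_cast
  module

end Vale.Agent.P361
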