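import Vale.Agent.P361.Basic

/-! Traces of exponentials of Hermitian matrices. -/

namespace Vale.Agent.P361

open Matrix Finset
open scoped Kronecker

noncomputable section

variable {n m : Type} [Fintype n] [DecidableEq n] [Fintype m] [DecidableEq m]

/-- real part of the trace of the exponential -/
def peiZ (A : Matrix n n ℂ) : ℝ := (Matrix.trace (NormedSpace.exp A)).re

theorem pei_spec {A : Matrix n n ℂ} (hA : A.IsHermitian) : ∃ (U : Matrix n n ℂ) (d : n → ℝ),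
    Uᴴ * U = 1 ∧ A = U * diagonal (fun i => (d i : ℂ)) * Uᴴ :=
  ⟨hA.eigenvectorUnitary, hA.eigenvalues, Unitary.coe_star_mul_self _, hA.spectral_theorem⟩

theorem pei_trace {U : Matrix n n ℂ} (hU : Uᴴ * U = 1) (d : n → ℝ) :
    peiZ (U * diagonal (fun i => (d i : ℂ)) * Uᴴ) = ∑ i, Real.exp (d i) := by
  have h1 : U⁻¹ = Uᴴ := Matrix.inv_eq_left_inv hU
  have h2 : IsUnit U := IsUnit.of_mul_eq_one_right _ hU
  rw [peiZ, ← h1, Matrix.exp_conj _ _ h2, h1, Matrix.trace_mul_cycle, hU, one_mul,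
    Matrix.exp_diagonal, Matrix.trace_diagonal, Complex.re_sum]
  refine Finset.sum_congr rfl fun i _ => ?_
  rw [Pi.coe_exp, ← Complex.exp_eq_exp_ℂ, Complex.exp_ofReal_re]

theorem pei_row {Q : Matrix n n ℂ} (hQ : Q * Qᴴ = 1) (i : n) : ∑ j, ‖Q i j‖ ^ 2 = 1 := by
  have h := congrArg (fun M : Matrix n n ℂ => (M i i).re) hQ
  simpa [Matrix.mul_apply, Complex.mul_conj, Complex.normSq_eq_norm_sq, ← Complex.ofReal_pow]
    using h

theorem pei_col {Q : Matrix n n ℂ} (hQ : Qᴴ * Q = 1) (j : n) : ∑ i, ‖Q i j‖ ^ 2 = 1 := by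
  simpa using pei_row (Q := Qᴴ) (by rwa [conjTranspose_conjTranspose]) j

theorem pei_ge {A W : Matrix n n ℂ} (hA : A.IsHermitian) (hW : Wᴴ * W = 1) :
    ∑ i, Real.exp ((Wᴴ * A * W) i i).re ≤ peiZ A := by
  obtain ⟨U, d, hU, rfl⟩ := pei_spec hA
  have h1 : Wᴴ * U * (Wᴴ * U)ᴴ = 1 := by
    rw [conjTranspose_mul, conjTranspose_conjTranspose, mul_assoc, ← mul_assoc U,
      mul_eq_one_comm.1 hU, one_mul, hW]
  have h2 : Wᴴ * (U * diagonal (fun i => (d i : ℂ)) * Uᴴ) * W =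
      Wᴴ * U * diagonal (fun i => (d i : ℂ)) * (Wᴴ * U)ᴴ := by
    simp only [conjTranspose_mul, conjTranspose_conjTranspose, mul_assoc]
  rw [pei_trace hU, h2]
  generalize Wᴴ * U = Q at h1
  have h3 : ∀ i, ((Q * diagonal (fun i => (d i : ℂ)) * Qᴴ) i i).re =
      ∑ j, ‖Q i j‖ ^ 2 • d j := fun i => by
    rw [Matrix.mul_apply, Complex.re_sum]
    refine Finset.sum_congr rfl fun j _ => ?_
    rw [mul_diagonal, conjTranspose_apply, mul_right_comm, Complex.star_def, Complex.mul_conj,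
      ← Complex.ofReal_mul, Complex.ofReal_re, Complex.normSq_eq_norm_sq, smul_eq_mul]
  calc _ ≤ ∑ i, ∑ j, ‖Q i j‖ ^ 2 • Real.exp (d j) := Finset.sum_le_sum fun i _ => by
        rw [h3]
        exact convexOn_exp.map_sum_le (fun _ _ => by positivity) (pei_row h1 i)
          fun _ _ => trivial
    _ = _ := by
        rw [Finset.sum_comm]
        simp only [← Finset.sum_smul, pei_col (mul_eq_one_comm.1 h1), one_smul]

theorem pei_eq {A : Matrix n n ℂ} (hA : A.IsHermitian) : ∃ W : Matrix n n ℂ, Wᴴ * W = 1 ∧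
    peiZ A = ∑ i, Real.exp ((Wᴴ * A * W) i i).re := by
  obtain ⟨U, d, hU, rfl⟩ := pei_spec hA
  refine ⟨U, hU, ?_⟩
  rw [pei_trace hU, mul_assoc, mul_assoc, mul_assoc, hU, mul_one, ← mul_assoc, hU, one_mul]
  simp

theorem pei_pos [Nonempty n] {A : Matrix n n ℂ} (hA : A.IsHermitian) : 0 < peiZ A := by
  obtain ⟨W, -, h⟩ := pei_eq hA
  rw [h]
  exact Finset.sum_pos (fun _ _ => Real.exp_pos _) Finset.univ_nonempty

theorem pei_convex [Nonempty n] {A B : Matrix n n ℂ} (hA : A.IsHermitian) (hB : B.IsHermitian)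
    {a b : ℝ} (ha : 0 ≤ a) (hb : 0 ≤ b) (hab : a + b = 1) :
    Real.log (peiZ ((a : ℂ) • A + (b : ℂ) • B)) ≤ a * Real.log (peiZ A) + b * Real.log (peiZ B) := by
  have hC : ((a : ℂ) • A + (b : ℂ) • B).IsHermitian := by
    simp [IsHermitian, conjTranspose_smul, hA.eq, hB.eq]
  obtain ⟨W, hW, h⟩ := pei_eq hC
  have h1 := pei_ge hA hW
  have h2 := pei_ge hB hW
  have h3 := pei_pos hA
  have h4 := pei_pos hB
  rw [Real.log_le_iff_le_exp (pei_pos hC), h, ← div_le_one (Real.exp_pos _), Finset.sum_div]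
  calc _ ≤ ∑ i, (a * (Real.exp ((Wᴴ * A * W) i i).re / peiZ A) +
        b * (Real.exp ((Wᴴ * B * W) i i).re / peiZ B)) := Finset.sum_le_sum fun i _ => by
        have h5 := convexOn_exp.2 (Set.mem_univ (((Wᴴ * A * W) i i).re - Real.log (peiZ A)))
          (Set.mem_univ (((Wᴴ * B * W) i i).re - Real.log (peiZ B))) ha hb hab
        rw [Real.exp_sub, Real.exp_sub, Real.exp_log h3, Real.exp_log h4] at h5
        rw [← Real.exp_sub]
        refine le_of_eq_of_le (congrArg _ ?_) h5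
        simp [Matrix.mul_add, Matrix.add_mul]
        ring
    _ ≤ a * 1 + b * 1 := by
        rw [Finset.sum_add_distrib, ← Finset.mul_sum, ← Finset.mul_sum, ← Finset.sum_div,
          ← Finset.sum_div]
        exact add_le_add (mul_le_mul_of_nonneg_left ((div_le_one h3).2 h1) ha)
          (mul_le_mul_of_nonneg_left ((div_le_one h4).2 h2) hb)
    _ = 1 := by linarith

/-- bound for the absolute row sums -/
def PeiRB (r : ℝ) (B : Matrix n n ℂ) : Prop := ∀ i, ∑ j, ‖B i j‖ ≤ r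

omit [DecidableEq n] in
theorem PeiRB.mul {r r' : ℝ} {A B : Matrix n n ℂ} (hA : PeiRB r A) (hB : PeiRB r' B) :
    PeiRB (r * r') (A * B) := fun i => by
  have h0 : 0 ≤ r' := (Finset.sum_nonneg fun _ _ => norm_nonneg _).trans (hB i)
  calc _ ≤ ∑ j, ∑ k, ‖A i k‖ * ‖B k j‖ := Finset.sum_le_sum fun j _ => by
        rw [Matrix.mul_apply]
        exact (norm_sum_le _ _).trans_eq (Finset.sum_congr rfl fun k _ => norm_mul _ _)
    _ = ∑ k, ‖A i k‖ * ∑ j, ‖B k j‖ := by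
        rw [Finset.sum_comm]
        simp only [Finset.mul_sum]
    _ ≤ ∑ k, ‖A i k‖ * r' :=
        Finset.sum_le_sum fun k _ => mul_le_mul_of_nonneg_left (hB k) (norm_nonneg _)
    _ ≤ _ := by
        rw [← Finset.sum_mul]
        exact mul_le_mul_of_nonneg_right (hA i) h0

omit [DecidableEq n] in
theorem PeiRB.sum {ι : Type} (s : Finset ι) {r : ι → ℝ} {A : ι → Matrix n n ℂ}
    (h : ∀ k ∈ s, PeiRB (r k) (A k)) : PeiRB (∑ k ∈ s, r k) (∑ k ∈ s, A k) := fun i => by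
  calc _ ≤ ∑ j, ∑ k ∈ s, ‖A k i j‖ := Finset.sum_le_sum fun j _ => by
        rw [Matrix.sum_apply]
        exact norm_sum_le _ _
    _ ≤ _ := by
        rw [Finset.sum_comm]
        exact Finset.sum_le_sum fun k hk => h k hk i

omit [DecidableEq n] in
theorem PeiRB.smul {r : ℝ} {A : Matrix n n ℂ} (h : PeiRB r A) (c : ℂ) :
    PeiRB (‖c‖ * r) (c • A) := fun i => by
  simp only [Matrix.smul_apply, norm_smul, ← Finset.mul_sum]
  exact mul_le_mul_of_nonneg_left (h i) (norm_nonneg _)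

theorem pei_le [Nonempty n] {A A' : Matrix n n ℂ} (hA : A.IsHermitian) (hA' : A'.IsHermitian)
    {r : ℝ} (h : PeiRB r (A' - A)) : Real.log (peiZ A') ≤ Real.log (peiZ A) + r := by
  obtain ⟨W, hW, h1⟩ := pei_eq hA'
  have hB := hA'.sub hA
  rw [Real.log_le_iff_le_exp (pei_pos hA'), Real.exp_add, Real.exp_log (pei_pos hA), h1]
  refine le_trans ?_ (mul_le_mul_of_nonneg_right (pei_ge hA hW) (Real.exp_pos _).le)
  rw [Finset.sum_mul]
  refine Finset.sum_le_sum fun i _ => ?_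
  rw [← Real.exp_add, ← add_sub_cancel A A', Matrix.mul_add, Matrix.add_mul, Matrix.add_apply,
    Complex.add_re]
  generalize A' - A = B at h hB
  refine Real.exp_le_exp.2 (add_le_add le_rfl ((Complex.re_le_norm _).trans ?_))
  have h2 : ∀ k, ∑ j, ‖B j k‖ ≤ r := fun k => by
    refine le_of_eq_of_le (Finset.sum_congr rfl fun j _ => ?_) (h k)
    rw [← hB.apply j k, norm_star]
  calc _ ≤ ∑ k, ∑ j, (‖W j i‖ ^ 2 * ‖B j k‖ / 2 + ‖W k i‖ ^ 2 * ‖B j k‖ / 2) := by
        rw [Matrix.mul_apply]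
        refine (norm_sum_le _ _).trans (Finset.sum_le_sum fun k _ => ?_)
        rw [Matrix.mul_apply, Finset.sum_mul]
        refine (norm_sum_le _ _).trans (Finset.sum_le_sum fun j _ => ?_)
        rw [norm_mul, norm_mul, conjTranspose_apply, norm_star]
        nlinarith [mul_nonneg (norm_nonneg (B j k)) (sq_nonneg (‖W j i‖ - ‖W k i‖))]
    _ = ∑ j, ‖W j i‖ ^ 2 * (∑ k, ‖B j k‖) / 2 + ∑ k, ‖W k i‖ ^ 2 * (∑ j, ‖B j k‖) / 2 := by
        simp only [Finset.sum_add_distrib, Finset.mul_sum, Finset.sum_div]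
        rw [Finset.sum_comm]
    _ ≤ ∑ j, ‖W j i‖ ^ 2 * r / 2 + ∑ k, ‖W k i‖ ^ 2 * r / 2 := by
        have := h
        unfold PeiRB at this
        gcongr <;> apply_assumption
    _ = r := by
        rw [← Finset.sum_div, ← Finset.sum_mul, pei_col hW]
        ring

theorem pei_reindex {A : Matrix n n ℂ} (hA : A.IsHermitian) (e : n ≃ m) :
    peiZ (reindexAlgEquiv ℂ ℂ e A) = peiZ A := by
  obtain ⟨U, d, hU, rfl⟩ := pei_spec hA
  have h1 : reindexAlgEquiv ℂ ℂ e Uᴴ = (reindexAlgEquiv ℂ ℂ e U)ᴴ := rfl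
  have h2 : reindexAlgEquiv ℂ ℂ e (diagonal fun i => (d i : ℂ)) =
      diagonal fun i => ((d (e.symm i) : ℝ) : ℂ) :=
    submatrix_diagonal_equiv (fun i => (d i : ℂ)) e.symm
  rw [pei_trace hU, map_mul, map_mul, h1, h2, pei_trace (by rw [← h1, ← map_mul, hU, map_one])]
  exact e.symm.sum_comp fun i => Real.exp (d i)

theorem pei_kron {A : Matrix n n ℂ} {B : Matrix m m ℂ} (hA : A.IsHermitian) (hB : B.IsHermitian) :
    (A ⊗ₖ (1 : Matrix m m ℂ) + (1 : Matrix n n ℂ) ⊗ₖ B).IsHermitian ∧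
      peiZ (A ⊗ₖ (1 : Matrix m m ℂ) + (1 : Matrix n n ℂ) ⊗ₖ B) = peiZ A * peiZ B := by
  refine ⟨by simp [IsHermitian, conjTranspose_kronecker, hA.eq, hB.eq], ?_⟩
  obtain ⟨U, d, hU, rfl⟩ := pei_spec hA
  obtain ⟨U', d', hU', rfl⟩ := pei_spec hB
  have h1 : (diagonal fun p : n × m => ((d p.1 + d' p.2 : ℝ) : ℂ)) =
      diagonal (fun i => (d i : ℂ)) ⊗ₖ (1 : Matrix m m ℂ) +
        (1 : Matrix n n ℂ) ⊗ₖ diagonal fun i => (d' i : ℂ) := by
    rw [← diagonal_one, ← diagonal_one, diagonal_kronecker_diagonal, diagonal_kronecker_diagonal,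
      diagonal_add]
    simp
  have h2 := pei_trace (U := U ⊗ₖ U') (by
    rw [conjTranspose_kronecker, ← mul_kronecker_mul, hU, hU', one_kronecker_one])
    fun p => d p.1 + d' p.2
  rw [h1, Matrix.mul_add, Matrix.add_mul, conjTranspose_kronecker, ← mul_kronecker_mul,
    ← mul_kronecker_mul, ← mul_kronecker_mul, ← mul_kronecker_mul, mul_one, mul_one,
    mul_eq_one_comm.1 hU, mul_eq_one_comm.1 hU'] at h2
  rw [h2, pei_trace hU, pei_trace hU', Finset.sum_mul_sum, Fintype.sum_prod_type]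
  simp only [Real.exp_add]

end

end Vale.Agent.P361
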