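import Vale.Agent.P361.Basic

namespace Vale.Agent.P361

open Matrix Finset

section Det

variable {V C : Type} [Fintype V] [DecidableEq V] [Fintype C] [DecidableEq C]
  {g : GD (V × C)} {π : ℕ → ℝ} {f : V → ℝ}

omit [Fintype V] [DecidableEq V] [Fintype C] [DecidableEq C] in
theorem psi_nonneg (hπ : ∀ t, 0 ≤ π t) (hf : ∀ y, 0 ≤ f y) (len t : ℕ) (y : V) :
    0 ≤ g.psi π f len t y := by
  induction len generalizing t y with
  | zero => exact hf y
  | succ len ih =>
    simp only [GD.psi]
    have h1 := ih (t + 1) y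
    have h2 := ih (t + 1) (g.gb t).1
    have h3 := ih (t + 1) (g.ga t).1
    have := hπ t
    split_ifs <;> positivity

omit [Fintype V] [DecidableEq V] [Fintype C] [DecidableEq C] in
lemma psi_step_le (hπ : ∀ t, 0 ≤ π t) (hf : ∀ y, 0 ≤ f y) (len t : ℕ) (y : V) :
    g.psi π f len (t + 1) y ≤ g.psi π f (len + 1) t y := by
  simp only [GD.psi]
  have h2 := psi_nonneg (g := g) hπ hf len (t + 1) (g.gb t).1
  have h3 := psi_nonneg (g := g) hπ hf len (t + 1) (g.ga t).1
  have := hπ t
  refine le_add_of_nonneg_right ?_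
  split_ifs <;> positivity

omit [Fintype V] [DecidableEq V] [Fintype C] [DecidableEq C] in
theorem psi_le_add (hπ : ∀ t, 0 ≤ π t) (hf : ∀ y, 0 ≤ f y) (len i t : ℕ) (y : V) :
    g.psi π f len (t + i) y ≤ g.psi π f (len + i) t y := by
  induction i generalizing t with
  | zero => exact le_rfl
  | succ i ih =>
    have h := ih (t + 1)
    rw [show t + 1 + i = t + (i + 1) by ring] at h
    exact h.trans (psi_step_le hπ hf _ _ _)

omit [Fintype V] [DecidableEq V] [Fintype C] [DecidableEq C] in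
theorem le_psi (hπ : ∀ t, 0 ≤ π t) (hf : ∀ y, 0 ≤ f y) (len t : ℕ) (y : V) :
    f y ≤ g.psi π f len t y := by
  have h := psi_le_add (g := g) hπ hf 0 len t y
  rw [zero_add] at h
  exact h

omit [Fintype V] [Fintype C] in
lemma psi_swap (hπ : ∀ t, 0 ≤ π t) (hf : ∀ y, 0 ≤ f y) (len t : ℕ) (v : V × C) :
    (Equiv.swap (g.ga t) (g.gb t) v).1 = v.1 ∨
      g.psi π f len (t + 1) v.1 + π t * g.psi π f len (t + 1) (Equiv.swap (g.ga t) (g.gb t) v).1 ≤
        g.psi π f (len + 1) t v.1 := by
  by_cases hab : (g.ga t).1 = (g.gb t).1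
  · left
    rw [Equiv.swap_apply_def]
    split_ifs with h1 h2
    · rw [h1, hab]
    · rw [h2, hab]
    · rfl
  · by_cases h1 : v = g.ga t
    · right
      subst h1
      simp [GD.psi, hab]
    · by_cases h2 : v = g.gb t
      · right
        subst h2
        have : ¬ (g.gb t).1 = (g.ga t).1 := fun h => hab h.symm
        simp [GD.psi, hab, this]
      · left
        rw [Equiv.swap_apply_of_ne_of_ne h1 h2]

theorem psi_super (hπ : ∀ t, 0 ≤ π t) (hf : ∀ y, 0 ≤ f y) {q : ℝ} (hq0 : 0 ≤ q) (hq1 : q ≤ 1)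
    (len t : ℕ) (hq : q ≤ π t) (v : V × C) :
    (lz (Equiv.swap (g.ga t) (g.gb t)) q *ᵥ fun x => g.psi π f len (t + 1) x.1) v ≤
      g.psi π f (len + 1) t v.1 := by
  rw [lz_mulVec]
  have h0 := psi_nonneg (g := g) hπ hf len (t + 1) v.1
  have h1 := psi_nonneg (g := g) hπ hf len (t + 1) (Equiv.swap (g.ga t) (g.gb t) v).1
  rcases psi_swap (g := g) hπ hf len t v with h | h
  · rw [h]
    have := psi_step_le (g := g) hπ hf len t v.1
    linarith
  · have := mul_le_mul_of_nonneg_right hq h1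
    nlinarith

theorem psi_kp (hπ : ∀ t, 0 ≤ π t) (hf : ∀ y, 0 ≤ f y) {q : ℕ → ℝ} (hq0 : ∀ t, 0 ≤ q t)
    (hq1 : ∀ t, q t ≤ 1) (hq : ∀ t, q t ≤ π t) (len i t : ℕ) (v : V × C) :
    (kp (fun t => lz (Equiv.swap (g.ga t) (g.gb t)) (q t)) t i *ᵥ
        fun x => g.psi π f len (t + i) x.1) v ≤ g.psi π f (len + i) t v.1 := by
  induction i generalizing t v with
  | zero => simp
  | succ i ih =>
    rw [kp_succ', ← Matrix.mulVec_mulVec]
    refine le_trans ?_ (psi_super hπ hf (hq0 t) (hq1 t) (len + i) t (hq t) v)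
    rw [lz_mulVec, lz_mulVec]
    have e : t + (i + 1) = t + 1 + i := by ring
    rw [e]
    have h1 := ih (t + 1) v
    have h2 := ih (t + 1) (Equiv.swap (g.ga t) (g.gb t) v)
    have h3 : 0 ≤ 1 - q t := by linarith [hq1 t]
    exact add_le_add (mul_le_mul_of_nonneg_left h1 h3) (mul_le_mul_of_nonneg_left h2 (hq0 t))

omit [Fintype V] [Fintype C] in
theorem psi_obst (hπ : ∀ t, 0 ≤ π t) (hf : ∀ y, 0 ≤ f y) {om : ℕ → Bool} {U : ℕ → Finset (V × C)}
    (hi : g.Inv om U) (hb : ∀ t, bit (om t) ≤ π t) (len t : ℕ) {v : V × C} (hv : v ∈ U t) :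
    ∃ v' ∈ U (t + len), f v'.1 ≤ g.psi π f len t v.1 := by
  induction len generalizing t v with
  | zero => exact ⟨v, hv, le_rfl⟩
  | succ len ih =>
    have h1 := (hi t v).2 hv
    obtain ⟨v', hv', hle⟩ := ih (t + 1) h1
    rw [show t + 1 + len = t + (len + 1) by ring] at hv'
    refine ⟨v', hv', hle.trans ?_⟩
    cases hom : om t with
    | false => simpa using psi_step_le (g := g) hπ hf len t v.1
    | true =>
      simp only [if_true]
      have hb1 : 1 ≤ π t := by simpa [hom, bit] using hb t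
      have h0 := psi_nonneg (g := g) hπ hf len (t + 1) v.1
      have h2 := psi_nonneg (g := g) hπ hf len (t + 1) (Equiv.swap (g.ga t) (g.gb t) v).1
      rcases psi_swap (g := g) hπ hf len t v with h | h
      · rw [h]; exact psi_step_le hπ hf len t v.1
      · nlinarith

omit [Fintype V] [DecidableEq V] [Fintype C] [DecidableEq C] in
lemma psi_mono_f (hπ : ∀ t, 0 ≤ π t) {f' : V → ℝ} (hf : ∀ y, f y ≤ f' y) (len t : ℕ) (y : V) :
    g.psi π f len t y ≤ g.psi π f' len t y := by
  induction len generalizing t y with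
  | zero => exact hf y
  | succ len ih =>
    simp only [GD.psi]
    have h1 := ih (t + 1) y
    have h2 := ih (t + 1) (g.gb t).1
    have h3 := ih (t + 1) (g.ga t).1
    refine add_le_add h1 (mul_le_mul_of_nonneg_left ?_ (hπ t))
    split_ifs <;> linarith

end Det

section Rand

variable {Ω : Type} [Fintype Ω] {L s : ℕ} {T : TL Ω (XX L s)} {w : ℕ} {e1 e2 : ℝ}

/-- annealing the chain majorant -/
lemma psi_anneal (hT : T.Ok w e1 e2) {f : TV L → ℝ} (hf : ∀ y, 0 ≤ f y) (k len t : ℕ) (y : TV L)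
    (I : Finset ℕ) (hI : I ⊆ Ico (k * T.g.M) t) (ht : k * T.g.M ≤ t)
    (hlen : t + len ≤ (k + w) * T.g.M) :
    Ex T.wt (fun o => (∏ τ ∈ I, (T.g.gp τ + bit (T.om o τ))) *
      T.g.psi (fun t => T.g.gp t + bit (T.om o t)) f len t y) ≤
      (∏ τ ∈ I, 7 * T.g.gp τ) * T.g.psi (fun t => 7 * T.g.gp t) f len t y := by
  induction len generalizing t y I with
  | zero =>
    simp only [GD.psi]
    rw [Ex_mul_const]
    refine mul_le_mul_of_nonneg_right (hT.p2 k I (hI.trans ?_)) (hf y)
    exact Finset.Ico_subset_Ico_right (by omega)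
  | succ len ih =>
    have htI : t ∉ I := fun h => by simpa using (Finset.mem_Ico.1 (hI h)).2
    have hI1 : I ⊆ Ico (k * T.g.M) (t + 1) := hI.trans (Finset.Ico_subset_Ico_right (by omega))
    have hI2 : insert t I ⊆ Ico (k * T.g.M) (t + 1) :=
      Finset.insert_subset (Finset.mem_Ico.2 ⟨ht, by omega⟩) hI1
    have h1 := ih (t + 1) y I hI1 (by omega) (by omega)
    have h2 := ih (t + 1) (T.g.gb t).1 (insert t I) hI2 (by omega) (by omega)
    have h3 := ih (t + 1) (T.g.ga t).1 (insert t I) hI2 (by omega) (by omega)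
    simp only [Finset.prod_insert htI] at h2 h3
    simp only [GD.psi]
    by_cases hab : (T.g.ga t).1 = (T.g.gb t).1
    · simpa [hab] using h1
    · by_cases ha : y = (T.g.ga t).1
      · have hb : ¬ y = (T.g.gb t).1 := fun h => hab (ha.symm.trans h)
        simp only [if_neg hab, if_pos ha, if_neg hb, add_zero]
        refine le_trans (le_of_eq ?_) ((add_le_add h1 h2).trans (le_of_eq (by ring)))
        rw [← Ex_add]
        exact Ex_congr fun o _ => by ring
      · by_cases hb : y = (T.g.gb t).1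
        · simp only [if_neg hab, if_pos hb, if_neg ha, zero_add]
          refine le_trans (le_of_eq ?_) ((add_le_add h1 h3).trans (le_of_eq (by ring)))
          rw [← Ex_add]
          exact Ex_congr fun o _ => by ring
        · simpa [hab, ha, hb] using h1

/-- number of gates touching a site -/
def psiN (g : GD (XX L s)) (t len : ℕ) (z : TV L) : ℕ :=
  ((Ico t (t + len)).filter fun τ => (g.ga τ).1 = z ∨ (g.gb τ).1 = z).card

lemma psi_count {g : GD (XX L s)} (hg : g.Ok) (k w : ℕ) (z : TV L) :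
    psiN g (k * g.M) (w * g.M) z ≤ g.G * w := by
  induction w with
  | zero => simp [psiN]
  | succ w ih =>
    have h := hg.count (k + w) z
    unfold psiN at *
    have e : Ico (k * g.M) (k * g.M + (w + 1) * g.M) =
        Ico (k * g.M) (k * g.M + w * g.M) ∪ Ico ((k + w) * g.M) ((k + w + 1) * g.M) := by
      rw [show k * g.M + w * g.M = (k + w) * g.M by ring,
        show k * g.M + (w + 1) * g.M = (k + w + 1) * g.M by ring]
      refine (Finset.Ico_union_Ico_eq_Ico ?_ ?_).symm
      · exact Nat.mul_le_mul_right _ (by omega)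
      · exact Nat.mul_le_mul_right _ (by omega)
    rw [e, Finset.filter_union]
    refine (Finset.card_union_le _ _).trans ?_
    rw [Nat.mul_succ]
    exact add_le_add ih h

lemma psi_N_le {g : GD (XX L s)} (hg : g.Ok) {k w t len : ℕ} (ht : k * g.M ≤ t)
    (hlen : t + len ≤ (k + w) * g.M) (z : TV L) : psiN g t len z ≤ g.G * w := by
  refine le_trans ?_ (psi_count hg k w z)
  unfold psiN
  refine Finset.card_le_card (Finset.filter_subset_filter _ (Finset.Ico_subset_Ico ht ?_))
  rw [← add_mul]; exact hlen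

lemma psi_N_succ (g : GD (XX L s)) (t len : ℕ) (z : TV L) :
    psiN g t (len + 1) z = psiN g (t + 1) len z +
      if (g.ga t).1 = z ∨ (g.gb t).1 = z then 1 else 0 := by
  unfold psiN
  have e : Ico t (t + (len + 1)) = insert t (Ico (t + 1) (t + 1 + len)) := by
    ext τ; simp only [Finset.mem_Ico, Finset.mem_insert]; omega
  rw [e, Finset.filter_insert]
  split_ifs with h
  · rw [Finset.card_insert_of_notMem (by simp)]
  · rfl

lemma psi_inter {g : GD (XX L s)} (hg : g.Ok) {t : ℕ} (hab : ¬ (g.ga t).1 = (g.gb t).1) :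
    (torus L).Adj (g.ga t).1 (g.gb t).1 ∧ g.gp t = g.p := by
  by_cases h : g.o1 ≤ t % g.M ∧ t % g.M < g.o2
  · exact hg.mid t h.1 h.2
  · exact absurd (hg.out t h) hab

lemma psi_det {g : GD (XX L s)} (hg : g.Ok) {w : ℕ} (hp : 28 * g.p * g.G * w ≤ 1)
    {F : TV L → ℝ} (hF0 : ∀ z, 0 ≤ F z) (hF : ∀ z z', (torus L).Adj z z' → F z' ≤ 2 * F z)
    (k len t : ℕ) (z : TV L) (ht : k * g.M ≤ t) (hlen : t + len ≤ (k + w) * g.M) :
    g.psi (fun t => 7 * g.gp t) F len t z ≤ (1 + 28 * g.p * psiN g t len z) * F z := by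
  have hp0 := hg.p_pos
  induction len generalizing t z with
  | zero => simp [GD.psi, psiN]
  | succ len ih =>
    have h2 : ∀ z', g.psi (fun t => 7 * g.gp t) F len (t + 1) z' ≤ 2 * F z' := fun z' => by
      refine (ih (t + 1) z' (by omega) (by omega)).trans
        (mul_le_mul_of_nonneg_right ?_ (hF0 z'))
      have h3 : (psiN g (t + 1) len z' : ℝ) ≤ g.G * w := by
        exact_mod_cast psi_N_le hg (k := k) (w := w) (by omega) (by omega) z'
      nlinarith
    have h1 := ih (t + 1) z (by omega) (by omega)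
    have hz := hF0 z
    rw [psi_N_succ]
    simp only [GD.psi]
    by_cases hab : (g.ga t).1 = (g.gb t).1
    · simp only [if_pos hab, mul_zero, add_zero]
      refine h1.trans (mul_le_mul_of_nonneg_right ?_ hz)
      push_cast
      split_ifs <;> nlinarith
    · obtain ⟨hadj, hgp⟩ := psi_inter hg hab
      by_cases ha : z = (g.ga t).1
      · have hb : ¬ z = (g.gb t).1 := fun h => hab (ha.symm.trans h)
        have h4 := (h2 (g.gb t).1).trans
          (mul_le_mul_of_nonneg_left (hF _ _ hadj) (by norm_num : (0 : ℝ) ≤ 2))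
        rw [← ha] at h4
        simp only [if_neg hab, if_pos ha, if_neg hb, add_zero, if_pos (Or.inl ha.symm), hgp]
        push_cast
        nlinarith
      · by_cases hb : z = (g.gb t).1
        · have h4 := (h2 (g.ga t).1).trans
            (mul_le_mul_of_nonneg_left (hF _ _ hadj.symm) (by norm_num : (0 : ℝ) ≤ 2))
          rw [← hb] at h4
          simp only [if_neg hab, if_neg ha, if_pos hb, zero_add, if_pos (Or.inr hb.symm), hgp]
          push_cast
          nlinarith
        · simp only [if_neg hab, if_neg ha, if_neg hb, add_zero, mul_zero]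
          refine h1.trans (mul_le_mul_of_nonneg_right ?_ hz)
          push_cast
          split_ifs <;> nlinarith

lemma psi_exists_tball (y0 z : TV L) : ∃ r, z ∈ tball y0 r := by
  obtain ⟨a, ha⟩ := prj_surj (z - y0)
  exact ⟨nrm a, mem_tball.2 ⟨a, le_rfl, by rw [ha]; abel⟩⟩

end Rand

theorem ex_psi {Ω : Type} [Fintype Ω] {L s : ℕ} {T : TL Ω (XX L s)} {w : ℕ} {e1 e2 : ℝ}
    (hT : T.Ok w e1 e2) (hp : 28 * T.g.p * T.g.G * w ≤ 1) {y0 y : TV L} {ρ : ℕ}
    (hy : y ∈ tball y0 ρ) (K k : ℕ) {len : ℕ} (hlen : len ≤ w * T.g.M) :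
    Ex T.wt (fun o => T.g.psi (fun t => T.g.gp t + bit (T.om o t))
      (fun z => if z ∈ tball y0 (ρ + K) then 0 else 1) len (k * T.g.M) y) ≤ (1 / 2) ^ K := by
  have hg := hT.gd
  have hlen' : k * T.g.M + len ≤ (k + w) * T.g.M := by rw [add_mul]; omega
  have h1 := psi_anneal hT (f := fun z => if z ∈ tball y0 (ρ + K) then 0 else 1)
    (fun z => by split_ifs <;> norm_num) k len (k * T.g.M) y ∅ (Finset.empty_subset _) le_rfl hlen'
  simp only [Finset.prod_empty, one_mul] at h1
  refine h1.trans ?_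
  set φ : TV L → ℕ := fun z => Nat.find (psi_exists_tball y0 z) with hφ
  set F : TV L → ℝ := fun z => 2 ^ φ z / 2 ^ (ρ + K + 1) with hF
  have hφ1 : ∀ z, z ∈ tball y0 (φ z) := fun z => Nat.find_spec (psi_exists_tball y0 z)
  have hφ2 : ∀ z r, z ∈ tball y0 r → φ z ≤ r := fun z r h => Nat.find_min' _ h
  have hF0 : ∀ z, 0 ≤ F z := fun z => by simp only [hF]; positivity
  have hFa : ∀ z z', (torus L).Adj z z' → F z' ≤ 2 * F z := fun z z' h => by
    have h3 : φ z' ≤ φ z + 1 := hφ2 _ _ (mem_tball_trans (hφ1 z) (mem_tball_of_adj h) le_rfl)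
    have h4 : (2 : ℝ) ^ φ z' ≤ 2 ^ (φ z + 1) := pow_le_pow_right₀ (by norm_num) h3
    simp only [hF]
    rw [← mul_div_assoc]
    refine div_le_div_of_nonneg_right ?_ (by positivity)
    rw [pow_succ] at h4
    linarith
  have hfF : ∀ z, (if z ∈ tball y0 (ρ + K) then (0 : ℝ) else 1) ≤ F z := fun z => by
    split_ifs with h
    · exact hF0 z
    · have h3 : ρ + K + 1 ≤ φ z := by
        by_contra hc
        exact h (tball_mono y0 (by omega) (hφ1 z))
      simp only [hF]
      rw [le_div_iff₀ (by positivity), one_mul]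
      exact pow_le_pow_right₀ (by norm_num) h3
  have hπ : ∀ t, 0 ≤ 7 * T.g.gp t := fun t => by have := hg.gp_nonneg t; positivity
  refine (psi_mono_f hπ hfF _ _ _).trans ?_
  refine (psi_det hg hp hF0 hFa k len _ y le_rfl hlen').trans ?_
  have h3 : (psiN T.g (k * T.g.M) len y : ℝ) ≤ T.g.G * w := by
    exact_mod_cast psi_N_le hg (k := k) (w := w) le_rfl hlen' y
  have h4 : 1 + 28 * T.g.p * psiN T.g (k * T.g.M) len y ≤ 2 := by
    have := hg.p_pos
    nlinarith
  have h5 : F y ≤ (1 / 2) ^ K / 2 := by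
    have h6 : (2 : ℝ) ^ φ y ≤ 2 ^ ρ := pow_le_pow_right₀ (by norm_num) (hφ2 _ _ hy)
    simp only [hF]
    refine (div_le_div_of_nonneg_right h6 (by positivity)).trans (le_of_eq ?_)
    rw [one_div, inv_pow, pow_succ, pow_add]
    field_simp
  have h6 := hF0 y
  nlinarith

end Vale.Agent.P361
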