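import Vale.Agent.P361.Psi

namespace Vale.Agent.P361

open Matrix Finset

section Aux

variable {L s : ℕ} {g : GD (XX L s)} {om : ℕ → Bool} {U : ℕ → Finset (XX L s)} {k : ℕ}

lemma quiet_free_step (hi : g.Inv om U) (hq : g.Quiet om U k) {t : ℕ} (h1 : k * g.M ≤ t)
    (h2 : t < (k + 1) * g.M) {y : TV L} (hy : ∀ c, (y, c) ∉ U t) (c : Fin s) :
    (y, c) ∉ U (t + 1) := by
  intro hc
  cases hom : om t with
  | false =>
    have := hi t (y, c)
    simp only [hom, Bool.false_eq_true, if_false] at this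
    exact hy c (this.1 hc)
  | true =>
    have := hi t (Equiv.swap (g.ga t) (g.gb t) (y, c))
    simp only [hom, if_true, Equiv.swap_apply_self] at this
    have hx := this.1 hc
    by_cases hab : (g.ga t).1 = (g.gb t).1
    · rw [Equiv.swap_apply_def] at hx
      split_ifs at hx with ha hb
      · have e : g.gb t = (y, (g.gb t).2) := by
          rw [← ha] at hab
          exact Prod.ext hab.symm rfl
        exact hy _ (e ▸ hx)
      · have e : g.ga t = (y, (g.ga t).2) := by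
          rw [← hb] at hab
          exact Prod.ext hab rfl
        exact hy _ (e ▸ hx)
      · exact hy c hx
    · obtain ⟨ha', hb'⟩ := hq t h1 h2 hab hom
      rw [Equiv.swap_apply_def] at hx
      split_ifs at hx
      · exact hb' hx
      · exact ha' hx
      · exact hy c hx

lemma quiet_free (hi : g.Inv om U) (hq : g.Quiet om U k) {y : TV L}
    (hy : ∀ c, (y, c) ∉ U (k * g.M)) {t : ℕ} (h1 : k * g.M ≤ t) (h2 : t ≤ (k + 1) * g.M) :
    ∀ c, (y, c) ∉ U t := by
  induction t, h1 using Nat.le_induction with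
  | base => exact hy
  | succ t ht ih => exact quiet_free_step hi hq ht (by omega) (ih (by omega))

lemma quiet_Kt_self (g : GD (XX L s)) (om : ℕ → Bool) (U : ℕ → Finset (XX L s)) (t : ℕ)
    {v : XX L s} (h : Equiv.swap (g.ga t) (g.gb t) v = v) : g.Kt om U t v v = 1 := by
  simp [GD.Kt, lz, h]

lemma quiet_Kt_stay (g : GD (XX L s)) (om : ℕ → Bool) (U : ℕ → Finset (XX L s)) (t : ℕ)
    {v : XX L s} (h : Equiv.swap (g.ga t) (g.gb t) v ≠ v) :
    g.Kt om U t v v = 1 - g.qt om U t := by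
  have : ¬ v = Equiv.swap (g.ga t) (g.gb t) v := fun e => h e.symm
  simp [GD.Kt, lz, this]

lemma quiet_Kt_cross (g : GD (XX L s)) (om : ℕ → Bool) (U : ℕ → Finset (XX L s)) (t : ℕ)
    {v : XX L s} (h : Equiv.swap (g.ga t) (g.gb t) v ≠ v) :
    g.Kt om U t v (Equiv.swap (g.ga t) (g.gb t) v) = g.qt om U t := by
  simp [GD.Kt, lz, h]

lemma quiet_touch {t : ℕ} {v : XX L s} (h : Equiv.swap (g.ga t) (g.gb t) v ≠ v) :
    v = g.ga t ∨ v = g.gb t := by
  by_contra hc
  push Not at hc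
  exact h (Equiv.swap_apply_of_ne_of_ne hc.1 hc.2)

lemma quiet_N_succ (g : GD (XX L s)) (t len : ℕ) (z : TV L) :
    psiN g t (len + 1) z = psiN g t len z +
      if (g.ga (t + len)).1 = z ∨ (g.gb (t + len)).1 = z then 1 else 0 := by
  unfold psiN
  have e : Ico t (t + (len + 1)) = insert (t + len) (Ico t (t + len)) := by
    ext τ; simp only [Finset.mem_Ico, Finset.mem_insert]; omega
  rw [e, Finset.filter_insert]
  split_ifs with h
  · rw [Finset.card_insert_of_notMem (by simp)]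
  · rfl

lemma quiet_stay (hg : g.Ok) (hq : g.Quiet om U k) {t : ℕ} (h1 : k * g.M ≤ t)
    (h2 : t < (k + 1) * g.M) {v : XX L s}
    (hv : (g.ga t).1 ≠ (g.gb t).1 ∨ ∀ c, (v.1, c) ∉ U t) :
    (1 / 2 : ℝ) ^ (if (g.ga t).1 = v.1 ∨ (g.gb t).1 = v.1 then 1 else 0) ≤ g.Kt om U t v v := by
  by_cases h : Equiv.swap (g.ga t) (g.gb t) v = v
  · rw [quiet_Kt_self g om U t h]
    exact pow_le_one₀ (by norm_num) (by norm_num)
  · have ht := quiet_touch h
    have ht' : (g.ga t).1 = v.1 ∨ (g.gb t).1 = v.1 := by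
      rcases ht with e | e
      · exact Or.inl (by rw [e])
      · exact Or.inr (by rw [e])
    rw [quiet_Kt_stay g om U t h, if_pos ht']
    have : g.qt om U t ≤ 1 / 2 := by
      unfold GD.qt
      split_ifs with hf
      · exact hg.gp_le t
      · by_cases hab : (g.ga t).1 = (g.gb t).1
        · exfalso
          have hfree := hv.resolve_left (not_not.2 hab)
          have ha : (g.ga t).1 = v.1 := ht'.elim id fun e => hab.trans e
          have hb : (g.gb t).1 = v.1 := hab.symm.trans ha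
          refine hf ⟨?_, ?_⟩
          · have := hfree (g.ga t).2
            rwa [← ha] at this
          · have := hfree (g.gb t).2
            rwa [← hb] at this
        · cases hom : om t with
          | false => simp [bit]
          | true => exact absurd (hq t h1 h2 hab hom) hf
    linarith

variable [NeZero L]

lemma quiet_mul_le {A B : Matrix (XX L s) (XX L s) ℝ} (hA : ∀ v w, 0 ≤ A v w)
    (hB : ∀ v w, 0 ≤ B v w) (v x w : XX L s) : A v x * B x w ≤ (A * B) v w := by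
  rw [Matrix.mul_apply]
  exact Finset.single_le_sum (f := fun x => A v x * B x w)
    (fun y _ => mul_nonneg (hA _ _) (hB _ _)) (Finset.mem_univ x)

lemma quiet_kp_nonneg (hg : g.Ok) (om : ℕ → Bool) (U : ℕ → Finset (XX L s)) (t len : ℕ)
    (v w : XX L s) : 0 ≤ kp (g.Kt om U) t len v w :=
  kp_nonneg (fun t => (hg.Kt_dstoch om U t).1) t len v w

lemma quiet_stay_kp (hg : g.Ok) (hq : g.Quiet om U k) {t len : ℕ} (h1 : k * g.M ≤ t)
    (h2 : t + len ≤ (k + 1) * g.M) {v : XX L s}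
    (hv : ∀ τ, t ≤ τ → τ < t + len → (g.ga τ).1 ≠ (g.gb τ).1 ∨ ∀ c, (v.1, c) ∉ U τ) :
    (1 / 2 : ℝ) ^ psiN g t len v.1 ≤ kp (g.Kt om U) t len v v := by
  induction len with
  | zero => simp [psiN]
  | succ len ih =>
    have h3 := ih (by omega) fun τ a b => hv τ a (by omega)
    have h4 := quiet_stay hg hq (t := t + len) (by omega) (by omega)
      (hv (t + len) (by omega) (by omega))
    rw [quiet_N_succ, pow_add, kp_succ]
    refine le_trans ?_ (quiet_mul_le (quiet_kp_nonneg hg om U t len)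
      (hg.Kt_dstoch om U _).1 v v v)
    exact mul_le_mul h3 h4 (by positivity) (quiet_kp_nonneg hg om U t len v v)

lemma quiet_phase1 (hg : g.Ok) {len : ℕ} (hlen : len ≤ g.o1) (v : XX L s) :
    ∃ v' : XX L s, v'.1 = v.1 ∧
      (1 / 2 : ℝ) ^ psiN g (k * g.M) len v.1 ≤ kp (g.Kt om U) (k * g.M) len v v' := by
  induction len with
  | zero => exact ⟨v, rfl, by simp [psiN]⟩
  | succ len ih =>
    obtain ⟨v', hv', h3⟩ := ih (by omega)
    have hM : len < g.M := by have := hg.o12; have := hg.o2M; omega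
    have hmod : (k * g.M + len) % g.M = len := by
      rw [Nat.mul_add_mod_self_right, Nat.mod_eq_of_lt hM]
    have hab := hg.out (k * g.M + len) (by rw [hmod]; omega)
    have key : ∃ v'' : XX L s, v''.1 = v'.1 ∧
        (1 / 2 : ℝ) ^ (if (g.ga (k * g.M + len)).1 = v.1 ∨ (g.gb (k * g.M + len)).1 = v.1
          then 1 else 0) ≤ g.Kt om U (k * g.M + len) v' v'' := by
      by_cases h : Equiv.swap (g.ga (k * g.M + len)) (g.gb (k * g.M + len)) v' = v'
      · refine ⟨v', rfl, ?_⟩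
        rw [quiet_Kt_self g om U _ h]
        exact pow_le_one₀ (by norm_num) (by norm_num)
      · have ht := quiet_touch h
        have ht' : (g.ga (k * g.M + len)).1 = v.1 ∨ (g.gb (k * g.M + len)).1 = v.1 := by
          rcases ht with e | e
          · exact Or.inl (by rw [← e, hv'])
          · exact Or.inr (by rw [← e, hv'])
        rw [if_pos ht', pow_one]
        by_cases hq : g.qt om U (k * g.M + len) ≤ 1 / 2
        · refine ⟨v', rfl, ?_⟩
          rw [quiet_Kt_stay g om U _ h]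
          linarith
        · refine ⟨Equiv.swap (g.ga (k * g.M + len)) (g.gb (k * g.M + len)) v', ?_, ?_⟩
          · rcases ht with e | e
            · rw [e, Equiv.swap_apply_left, hab]
            · rw [e, Equiv.swap_apply_right, hab]
          · rw [quiet_Kt_cross g om U _ h]
            linarith
    obtain ⟨v'', hv'', h4⟩ := key
    refine ⟨v'', hv''.trans hv', ?_⟩
    rw [quiet_N_succ, pow_add, kp_succ]
    refine le_trans ?_ (quiet_mul_le (quiet_kp_nonneg hg om U _ len)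
      (hg.Kt_dstoch om U _).1 v v' v'')
    exact mul_le_mul h3 h4 (by positivity) (quiet_kp_nonneg hg om U _ len v v')

omit [NeZero L] in
lemma quiet_pow_le (hg : g.Ok) {t len : ℕ} (h1 : k * g.M ≤ t) (h2 : t + len ≤ (k + 1) * g.M)
    (z : TV L) : (1 / 2 : ℝ) ^ g.G ≤ (1 / 2) ^ psiN g t len z := by
  have := psi_N_le hg (w := 1) h1 h2 z
  exact pow_le_pow_of_le_one (by norm_num) (by norm_num) (by omega)

lemma quiet_diag (hg : g.Ok) (hi : g.Inv om U) (hq : g.Quiet om U k) {v : XX L s}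
    (hv : ∀ c, (v.1, c) ∉ U (k * g.M)) {t len : ℕ} (h1 : k * g.M ≤ t)
    (h2 : t + len ≤ (k + 1) * g.M) : (1 / 2 : ℝ) ^ g.G ≤ kp (g.Kt om U) t len v v :=
  (quiet_pow_le hg h1 h2 v.1).trans (quiet_stay_kp hg hq h1 h2 fun τ a b =>
    Or.inr (quiet_free hi hq hv (by omega) (by omega)))

lemma quiet_cross (hg : g.Ok) (hi : g.Inv om U) (hq : g.Quiet om U k) {v z : XX L s}
    (hv : v ∉ U (k * g.M)) (hadj : (torus L).Adj v.1 z.1) (hz : ∀ c, (z.1, c) ∉ U (k * g.M)) :
    g.p * (1 / 2 : ℝ) ^ (3 * g.G) ≤ g.Ks om U k v z := by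
  have h12 := hg.o12
  have h2M := hg.o2M
  have hp := hg.p_pos
  have hM : (k + 1) * g.M = k * g.M + g.M := by ring
  obtain ⟨v', hv', h3⟩ := quiet_phase1 (om := om) (U := U) (k := k) hg le_rfl v
  have h3' := (quiet_pow_le hg (k := k) (len := g.o1) le_rfl (by omega) v.1).trans h3
  have hadj' : (torus L).Adj v'.1 z.1 := by rw [hv']; exact hadj
  obtain ⟨t, ht1, ht2, ht3⟩ := hg.cover k v' z hadj'
  obtain ⟨i, rfl⟩ : ∃ i, t = k * g.M + g.o1 + i := ⟨t - (k * g.M + g.o1), by omega⟩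
  have hmid : ∀ τ, k * g.M + g.o1 ≤ τ → τ < k * g.M + g.o2 →
      (torus L).Adj (g.ga τ).1 (g.gb τ).1 ∧ g.gp τ = g.p := fun τ a b => by
    obtain ⟨j, rfl⟩ : ∃ j, τ = k * g.M + j := ⟨τ - k * g.M, by omega⟩
    have hmod : (k * g.M + j) % g.M = j := by
      rw [Nat.mul_add_mod_self_right, Nat.mod_eq_of_lt (by omega)]
    exact hg.mid _ (by omega) (by omega)
  have h4 := (quiet_pow_le hg (k := k) (t := k * g.M + g.o1) (len := i) (by omega)
    (by omega) v'.1).trans (quiet_stay_kp hg hq (by omega) (by omega) fun τ a b =>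
      Or.inl (hmid τ a (by omega)).1.ne)
  have hpos : (0 : ℝ) < (1 / 2) ^ g.G := by positivity
  have hv1 : v' ∉ U (k * g.M + g.o1) := hi.kp_notMem hv (by linarith)
  have hv2 : v' ∉ U (k * g.M + g.o1 + i) := hi.kp_notMem hv1 (by linarith)
  have hz2 : z ∉ U (k * g.M + g.o1 + i) := quiet_free hi hq hz (by omega) (by omega) z.2
  have hne : v' ≠ z := fun e => hadj'.ne (by rw [e])
  have hsw : Equiv.swap (g.ga (k * g.M + g.o1 + i)) (g.gb (k * g.M + g.o1 + i)) v' = z := by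
    rcases ht3 with ⟨a, b⟩ | ⟨a, b⟩
    · rw [a, b, Equiv.swap_apply_left]
    · rw [a, b, Equiv.swap_apply_right]
  have h5 : g.Kt om U (k * g.M + g.o1 + i) v' z = g.p := by
    have h6 := quiet_Kt_cross g om U (k * g.M + g.o1 + i) (v := v') (by rw [hsw]; exact hne.symm)
    rw [hsw] at h6
    rw [h6, ← (hmid _ (by omega) ht2).2]
    unfold GD.qt
    rw [if_pos]
    rcases ht3 with ⟨a, b⟩ | ⟨a, b⟩
    · rw [a, b]; exact ⟨hv2, hz2⟩
    · rw [a, b]; exact ⟨hz2, hv2⟩
  obtain ⟨j, hj⟩ : ∃ j, g.M = g.o1 + i + 1 + j := ⟨g.M - (g.o1 + i + 1), by omega⟩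
  have h7 := quiet_diag hg hi hq hz (t := k * g.M + (g.o1 + i + 1)) (len := j) (by omega) (by omega)
  have e : g.Ks om U k = kp (g.Kt om U) (k * g.M) g.o1 * kp (g.Kt om U) (k * g.M + g.o1) i *
      g.Kt om U (k * g.M + g.o1 + i) * kp (g.Kt om U) (k * g.M + (g.o1 + i + 1)) j := by
    rw [← kp_add, add_assoc (k * g.M), ← kp_succ, ← kp_add, ← hj]
    rfl
  have n1 := quiet_kp_nonneg hg om U (k * g.M) g.o1
  have n2 := quiet_kp_nonneg hg om U (k * g.M + g.o1) i
  have n3 := (hg.Kt_dstoch om U (k * g.M + g.o1 + i)).1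
  have n4 := quiet_kp_nonneg hg om U (k * g.M + (g.o1 + i + 1)) j
  have m12 : ∀ a b, 0 ≤ (kp (g.Kt om U) (k * g.M) g.o1 * kp (g.Kt om U) (k * g.M + g.o1) i) a b :=
    fun a b => Finset.sum_nonneg fun x _ => mul_nonneg (n1 _ _) (n2 _ _)
  have m123 : ∀ a b, 0 ≤ (kp (g.Kt om U) (k * g.M) g.o1 * kp (g.Kt om U) (k * g.M + g.o1) i *
      g.Kt om U (k * g.M + g.o1 + i)) a b :=
    fun a b => Finset.sum_nonneg fun x _ => mul_nonneg (m12 _ _) (n3 _ _)
  have a1 := (mul_le_mul h3' h4 hpos.le (n1 _ _)).trans (quiet_mul_le n1 n2 v v' v')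
  have a2 := (mul_le_mul a1 h5.ge hp.le (m12 _ _)).trans (quiet_mul_le m12 n3 v v' z)
  have a3 := (mul_le_mul a2 h7 hpos.le (m123 _ _)).trans (quiet_mul_le m123 n4 v z z)
  rw [e]
  refine le_trans (le_of_eq ?_) a3
  rw [show 3 * g.G = g.G + g.G + g.G by ring, pow_add, pow_add]
  ring

end Aux

theorem quiet_form (s G : ℕ) [NeZero s] : ∃ C : ℝ, 0 < C ∧ ∀ (L : ℕ) [NeZero L]
    (g : GD (XX L s)), g.Ok → g.G = G → ∀ (om : ℕ → Bool) (U : ℕ → Finset (XX L s)), g.Inv om U →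
    ∀ k, g.Quiet om U k → ∀ (x : ℕ → XX L s → ℝ) (r : ℕ),
    g.p * xen (U (k * g.M)) (x k) r ≤ C * form (g.Ks om U) (g.p / (r : ℝ) ^ 2) x k := by
  refine ⟨2 * 8 ^ G * (1 + 6 * s) + 1, by positivity, ?_⟩
  intro L _ g hg hG om U hi k hq x r
  have hp := hg.p_pos
  have hp1 := hg.p_le
  set D : XX L s → XX L s → ℝ := fun v w => g.Ks om U k v w * (x k v - x (k + 1) w) ^ 2 with hD
  have hD0 : ∀ v w, 0 ≤ D v w := fun v w => mul_nonneg ((hg.Ks_dstoch om U k).1 v w) (sq_nonneg _)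
  set S : ℝ := ∑ v, ∑ w, D v w with hS
  have hS0 : 0 ≤ S := Finset.sum_nonneg fun v _ => Finset.sum_nonneg fun w _ => hD0 v w
  have h8 : (8 : ℝ) ^ G * (1 / 2) ^ (3 * G) = 1 := by
    rw [pow_mul, ← mul_pow]; norm_num
  have h8' : (1 / 2 : ℝ) ^ (3 * G) ≤ (1 / 2) ^ G :=
    pow_le_pow_of_le_one (by norm_num) (by norm_num) (by omega)
  have h80 : (0 : ℝ) < 8 ^ G := by positivity
  have hterm : ∀ (v : XX L s) (y : TV L), g.p * (if v ∉ U (k * g.M) ∧ (torus L).Adj v.1 y ∧
      ∀ c, (y, c) ∉ U (k * g.M) then (x k v - x k (y, 0)) ^ 2 else 0) ≤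
      2 * 8 ^ G * (D v (y, 0) + if (torus L).Adj y v.1 then D (y, 0) (y, 0) else 0) := by
    intro v y
    by_cases hc : v ∉ U (k * g.M) ∧ (torus L).Adj v.1 y ∧ ∀ c, (y, c) ∉ U (k * g.M)
    · rw [if_pos hc, if_pos hc.2.1.symm]
      have h1 := quiet_cross hg hi hq (z := (y, 0)) hc.1 hc.2.1 hc.2.2
      have h2 : (1 / 2 : ℝ) ^ g.G ≤ g.Ks om U k (y, 0) (y, 0) :=
        quiet_diag hg hi hq (v := (y, 0)) hc.2.2 le_rfl (le_of_eq (by ring))
      rw [hG] at h1 h2
      have h3 : g.p ≤ 8 ^ G * g.Ks om U k v (y, 0) := by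
        have := mul_le_mul_of_nonneg_left h1 h80.le
        calc g.p = g.p * (8 ^ G * (1 / 2) ^ (3 * G)) := by rw [h8, mul_one]
          _ = _ := by ring
          _ ≤ _ := this
      have h4 : g.p ≤ 8 ^ G * g.Ks om U k (y, 0) (y, 0) := by
        have := mul_le_mul_of_nonneg_left (h8'.trans h2) h80.le
        linarith
      have h5 := mul_le_mul_of_nonneg_right h3 (sq_nonneg (x k v - x (k + 1) (y, 0)))
      have h6 := mul_le_mul_of_nonneg_right h4 (sq_nonneg (x k (y, 0) - x (k + 1) (y, 0)))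
      have h7 : (x k v - x k (y, 0)) ^ 2 ≤ 2 * (x k v - x (k + 1) (y, 0)) ^ 2 +
          2 * (x k (y, 0) - x (k + 1) (y, 0)) ^ 2 := by
        nlinarith [sq_nonneg (x k v - x (k + 1) (y, 0) + (x k (y, 0) - x (k + 1) (y, 0)))]
      have h9 := mul_le_mul_of_nonneg_left h7 hp.le
      simp only [hD]
      nlinarith
    · rw [if_neg hc, mul_zero]
      have := hD0 v (y, 0)
      have := hD0 (y, 0) (y, 0)
      split_ifs <;> positivity
  have hrow : ∀ (v : XX L s), ∑ y : TV L, D v (y, 0) ≤ ∑ w, D v w := fun v => by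
    rw [Fintype.sum_prod_type]
    exact Finset.sum_le_sum fun y _ => Finset.single_le_sum (f := fun c => D v (y, c))
      (fun c _ => hD0 _ _) (Finset.mem_univ 0)
  have hA : ∑ v : XX L s, ∑ y : TV L, D v (y, 0) ≤ S := Finset.sum_le_sum fun v _ => hrow v
  have hdiag : ∑ y : TV L, D (y, 0) (y, 0) ≤ S := by
    rw [hS, Fintype.sum_prod_type]
    refine Finset.sum_le_sum fun y _ => ?_
    refine le_trans ?_ (Finset.single_le_sum (f := fun c => ∑ w, D (y, c) w)
      (fun c _ => Finset.sum_nonneg fun w _ => hD0 _ _) (Finset.mem_univ 0))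
    exact Finset.single_le_sum (f := fun w => D (y, 0) w) (fun c _ => hD0 _ _) (Finset.mem_univ _)
  have hB : ∑ v : XX L s, ∑ y : TV L, (if (torus L).Adj y v.1 then D (y, 0) (y, 0) else 0) ≤
      6 * s * S := by
    rw [Finset.sum_comm]
    refine le_trans (Finset.sum_le_sum fun y _ => ?_)
      ((Finset.mul_sum _ _ _).symm.le.trans (mul_le_mul_of_nonneg_left hdiag (by positivity)))
    rw [Fintype.sum_prod_type, Finset.sum_comm]
    have h1 : ((Finset.univ.filter fun z => (torus L).Adj y z).card : ℝ) ≤ 6 := by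
      exact_mod_cast card_torus_adj_le y
    have h0 : ∀ c : Fin s, (∑ z : TV L, if (torus L).Adj y ((z, c) : XX L s).1
        then D (y, 0) (y, 0) else 0) ≤ 6 * D (y, 0) (y, 0) := fun c => by
      rw [← Finset.sum_filter, Finset.sum_const, nsmul_eq_mul]
      exact mul_le_mul_of_nonneg_right h1 (hD0 _ _)
    refine (Finset.sum_le_sum fun c _ => h0 c).trans (le_of_eq ?_)
    simp only [Finset.sum_const, Finset.card_univ, Fintype.card_fin, nsmul_eq_mul]
    ring
  have hsum : g.p * (∑ v : XX L s, ∑ y : TV L, if v ∉ U (k * g.M) ∧ (torus L).Adj v.1 y ∧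
      ∀ c, (y, c) ∉ U (k * g.M) then (x k v - x k (y, 0)) ^ 2 else 0) ≤
      2 * 8 ^ G * (1 + 6 * s) * S := by
    rw [Finset.mul_sum]
    simp only [Finset.mul_sum]
    refine (Finset.sum_le_sum fun v _ => Finset.sum_le_sum fun y _ => hterm v y).trans ?_
    simp only [← Finset.mul_sum, Finset.sum_add_distrib]
    have := mul_le_mul_of_nonneg_left (add_le_add hA hB) (by positivity : (0 : ℝ) ≤ 2 * 8 ^ G)
    linarith
  have hQ : 0 ≤ g.p / (r : ℝ) ^ 2 * ∑ v, x k v ^ 2 :=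
    mul_nonneg (by positivity) (Finset.sum_nonneg fun v _ => sq_nonneg _)
  have hC : (0 : ℝ) ≤ 2 * 8 ^ G * (1 + 6 * s) := by positivity
  have e : g.p * ((∑ v, x k v ^ 2) / (r : ℝ) ^ 2) = g.p / (r : ℝ) ^ 2 * ∑ v, x k v ^ 2 := by ring
  unfold xen form
  rw [mul_add, e]
  have h9 := mul_nonneg hC hQ
  change _ ≤ _ * (S + _)
  nlinarith

theorem pr_not_quiet {Ω : Type} [Fintype Ω] {L s : ℕ} {T : TL Ω (XX L s)} {w : ℕ} {e1 e2 : ℝ}
    (hT : T.Ok w e1 e2) (hw : 1 ≤ w) (k : ℕ) :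
    Pr T.wt (fun o => ¬ T.g.Quiet (T.om o) (T.U o) k) ≤ 7 * T.g.p * T.g.M := by
  have hw0 := (hT.sl 0).wt_nonneg
  have hg := hT.gd
  have hp := hg.p_pos
  set S := (Ico (k * T.g.M) ((k + 1) * T.g.M)).filter fun t => ¬ (T.g.ga t).1 = (T.g.gb t).1
    with hS
  have h1 : Pr T.wt (fun o => ¬ T.g.Quiet (T.om o) (T.U o) k) ≤
      Pr T.wt (fun o => ∃ t ∈ S, T.om o t = true) := by
    refine Pr_mono hw0 fun o _ h => ?_
    by_contra hc
    refine h fun t a b c d => ?_
    exact absurd ⟨t, Finset.mem_filter.2 ⟨Finset.mem_Ico.2 ⟨a, b⟩, c⟩, d⟩ hc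
  refine h1.trans ((Pr_exists_le hw0 S _).trans ?_)
  have h2 : ∀ t ∈ S, Pr T.wt (fun o => T.om o t = true) ≤ 7 * T.g.p := fun t ht => by
    obtain ⟨ht1, ht2⟩ := Finset.mem_filter.1 ht
    have h3 := hT.p2 k {t} (by
      rw [Finset.singleton_subset_iff]
      refine Finset.Ico_subset_Ico_right ?_ ht1
      exact Nat.mul_le_mul_right _ (by omega))
    simp only [Finset.prod_singleton] at h3
    rw [(psi_inter hg ht2).2] at h3
    refine le_trans (Ex_mono hw0 fun o _ => ?_) h3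
    unfold bit
    split_ifs <;> linarith
  refine (Finset.sum_le_card_nsmul _ _ _ h2).trans ?_
  have h4 : S.card ≤ T.g.M := by
    refine (Finset.card_filter_le _ _).trans ?_
    rw [Nat.card_Ico, add_mul]
    omega
  have h5 : (S.card : ℝ) ≤ T.g.M := by exact_mod_cast h4
  rw [nsmul_eq_mul]
  nlinarith

end Vale.Agent.P361
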