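import Vale.Agent.P361.RunCrudeA

namespace Vale.Agent.P361

open Matrix Finset

theorem run_crude (s G : ℕ) [NeZero s] : ∃ C : ℝ, 0 < C ∧ ∀ {Ω : Type} [Fintype Ω] {L : ℕ}
    [NeZero L] {T : TL Ω (XX L s)} {w : ℕ} {e1 e2 : ℝ}, T.Ok w e1 e2 → T.g.G = G → 1 ≤ w →
    28 * T.g.p * T.g.G * w ≤ 1 → e1 ≤ (1 / 2) ^ 200 →
    ∀ {Kc K R r nw : ℕ}, Geo L Kc K R r nw →
    ∀ (d : ℕ → XX L s → ℝ), (∀ k v, 0 ≤ d k v) → (∀ k v, d k v ≤ 1) →
    ∀ (B : Finset Z3) (c : Z3 → Fin s), Adm L B →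
    (∀ o, T.wt o ≠ 0 → ∀ y ∈ B, (prj L y, c y) ∉ T.U o 0) →
    ∀ {nst : ℕ}, (∀ e, (B.filter fun a => nrm (e - a) ≤ 2 * R).card ≤ nst) →
    ∀ {η : ℝ}, (∀ y k, Pr T.wt (fun o => ¬ T.good Kc R y o k) ≤ η) →
    ∀ {n u J0 : ℕ} {q : ℝ}, 1 ≤ u → 1 ≤ J0 → J0 + 2 * u ≤ n → J0 + 2 * u ≤ nw * w → 0 ≤ q → q ≤ 1 →
    ∃ (mu lam occ : Ω → ℕ → XX L s → ℝ) (al : Ω → ℝ),
      (∀ o, T.wt o ≠ 0 → IsRun (T.g.Ks (T.om o) (T.U o)) d (T.g.p / (r : ℝ) ^ 2) n u J0
        (J0 + 2 * u) (ind (B.image fun y => (prj L y, c y))) (mu o) (lam o) (occ o) (al o)) ∧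
      Ex T.wt (fun o => al o ^ 2) ≤ C / (T.g.p * u) * (q * u) ^ 2 * (nst + 1) * B.card ∧
      Ex T.wt (fun o => mass (J0 + 2 * u) (lam o)) ≤ B.card * lamB s nw K R η (q * u) := by
  obtain ⟨C1, h1, hs⟩ := runA_slice s G
  obtain ⟨C2, h2, hf⟩ := far_adm
  refine ⟨C1 * (2 + 2 * C2), by positivity, fun {Ω} _ {L} _ {T w e1 e2} hT hG hw hp he
    {Kc K R r nw} geo d hd0 hd1 B c hB ha {nst} hn {η} hη {n u J0 q} hu hJ0 hJ hN hq0 hq1 => ?_⟩
  have hg := hT.gd
  have hp0 := hg.p_pos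
  have key := fun y (hy : y ∈ B) => run_one hT hw hp (T.good Kc R y) (hη y) (fun _ _ => 0)
    (fun _ _ _ _ => le_rfl) (fun o k v v' => (hg.Ks_dstoch _ _ k).1 v v') d hd0 hd1 (prj L y, c y)
    (fun o ho => ha o ho y hy) (k0 := 0) hu hJ (by simpa using hN) geo.hK hq0 hq1
  choose! mu0 mu1 lam occ hr hm ho using key
  simp only [zero_mul, zero_add] at hm
  obtain ⟨c0, hc0⟩ : ∃ c0, ∀ a ∈ B, 8 * nrm (a - c0) ≤ L := by
    rcases B.eq_empty_or_nonempty with rfl | ⟨b, hb⟩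
    exacts [⟨0, by simp⟩, ⟨b, fun a h => hB.2 a h b hb⟩]
  let A : Ω → ℕ → ℝ := fun o k => C1 / T.g.p * (nst * (B.card * (((1 : ℕ) : ℝ) ^ 2 * (q * q) +
    q ^ 2 / (1 : ℕ))) + q ^ 2 * farW (liftE (T.U o (k * T.g.M))) Kc B c0 L R)
  have hA : ∀ o k, 0 ≤ A o k := fun o k => by
    have := runA_far0 (liftE (T.U o (k * T.g.M))) Kc B c0 L R
    positivity
  refine ⟨fun o k => ∑ y ∈ B, mu1 y o k, fun o k => ∑ y ∈ B, lam y o k,
    fun o k => ∑ y ∈ B, occ y o k, fun o => √(∑ k ∈ Ico (J0 + u) (J0 + u + u), A o k),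
    fun o h => ?_, ?_, ?_⟩
  · have hr := fun y hy => hr y hy o h
    have hz : ∀ y ∈ B, ∀ k, mu0 y o k = 0 := fun y hy k => funext fun v => by
      by_contra hv
      obtain ⟨k, rfl⟩ : ∃ j, k = j + 1 := ⟨k - 1, by have := ((hr y hy).6 k v hv).1; omega⟩
      exact hv (le_antisymm (by simpa [kp_succ] using (hr y hy).7 (k + 1) v) ((hr y hy).1 _ v))
    have hsup : ∀ k v, (∑ y ∈ B, mu1 y o k) v ≠ 0 → ∃ y ∈ B, mu1 y o k v ≠ 0 := fun k v hv =>
      exists_ne_zero_of_sum_ne_zero (by simpa only [Finset.sum_apply] using hv)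
    have hq : ∀ y ∈ B, ∀ k, ∑ v, mu1 y o k v ≤ q := fun y hy k => ((hr y hy).9 k).trans
      (mul_le_of_le_one_right hq0 (sub_le_self _ (sum_nonneg fun v _ =>
        kp_nonneg (fun _ _ _ => le_rfl) _ _ _ _)))
    have hmu : ∀ k v, 0 ≤ (∑ y ∈ B, mu1 y o k) v := fun k v => by
      rw [Finset.sum_apply]; exact sum_nonneg fun y hy => (hr y hy).2 k v
    refine ⟨hmu, fun k v => ?_, fun k v => ?_, Real.sqrt_nonneg _, fun k v hv => ?_,
      fun H S hH => ?_, fun x Q hx hQ => ?_⟩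
    · simp only [Finset.sum_apply]; exact sum_nonneg fun y hy => (hr y hy).3 k v
    · simp only [Finset.sum_apply]; exact sum_nonneg fun y hy => (hr y hy).4 k v
    · obtain ⟨y, hy, hv⟩ := hsup k v hv
      have := (hr y hy).8 k v hv
      omega
    · simp only [sum_dotProduct, ← sum_add_distrib]
      rw [sum_comm, ← sum_congr rfl fun y hy => by simpa [hz y hy] using (hr y hy).5 H S hH]
      simp only [dotProduct, ind, ite_mul, one_mul, zero_mul, sum_ite_mem, univ_inter]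
      refine sum_image fun y hy y' hy' e => prj_inj ?_ (congrArg Prod.fst e)
      have := hB.2 y hy y' hy'
      have := NeZero.pos L
      omega
    · refine (runA_win {0} _ (fun _ => J0 + u) (A := A o)
        (fun k => dotProduct_nonneg_of_nonneg (hmu k) (hx k)) (fun k hk => ?_) (hA o)
        (runA_form (hg.Ks_dstoch _ _) (by positivity) x) (fun k => ?_) hQ).trans_eq (by simp)
      · obtain ⟨v, -, hv⟩ := exists_ne_zero_of_sum_ne_zero hk
        obtain ⟨y, hy, hv⟩ := hsup k v (left_ne_zero_of_mul hv)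
        have := (hr y hy).8 k v hv
        have := Nat.mod_le k n
        exact ⟨0, by simp, by omega⟩
      · rw [sum_dotProduct]
        exact hs hg hG (hT.inv o h) geo le_rfl hc0 hn k (fun y => mu1 y o k)
          (fun y hy => (hr y hy).2 k) (fun y hy v hv => ((hr y hy).8 k v hv).2.2.2)
          (fun y hy => hq y hy k) le_rfl (fun y hy v => (single_le_sum
            (fun v _ => (hr y hy).2 k v) (mem_univ v)).trans (hq y hy k)) x hx
  · simp only [Real.sq_sqrt (sum_nonneg fun k _ => hA _ k)]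
    rw [Ex_sum]
    refine (sum_le_card_nsmul _ _ (C1 / T.g.p * (nst * (B.card * (2 * q ^ 2)) +
      q ^ 2 * (2 * (C2 * B.card)))) fun k _ => ?_).trans ?_
    · simp only [A]
      rw [Ex_const_mul, Ex_add, Ex_const (hT.sl 0).wt_sum, Ex_const_mul]
      refine mul_le_mul_of_nonneg_left (add_le_add (le_of_eq (by push_cast; ring))
        (mul_le_mul_of_nonneg_left ((runA_far (hT.sl k) he geo.hKc B c0 R).trans
          (mul_le_mul_of_nonneg_left (le_trans (sum_le_sum fun e _ => ?_) (hf L B _ hB))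
            zero_le_two)) (sq_nonneg q))) (by positivity)
      refine pow_le_pow_left₀ (sum_nonneg fun a _ => ?_) (sum_le_sum fun a _ => ?_) 2 <;> split_ifs
      exacts [(th_pos _).le, le_rfl, le_rfl, (th_pos _).le]
    · have : (0 : ℝ) < u := by positivity
      rw [Nat.card_Ico, Nat.add_sub_cancel_left, nsmul_eq_mul, ← sub_nonneg]
      refine le_of_le_of_eq (a := 0) (b := u * C1 / T.g.p * q ^ 2 * B.card * (2 + 2 * C2 * nst))
        (by positivity) ?_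
      field_simp
      ring
  · simp only [mass, Finset.sum_apply]
    refine le_of_eq_of_le (Ex_congr fun o _ => ?_) ((Ex_sum B _).trans_le
      ((sum_le_card_nsmul _ _ _ hm).trans_eq (nsmul_eq_mul _ _)))
    simp only [mass]
    rw [sum_comm (s := B)]
    exact sum_congr rfl fun k _ => sum_comm

end Vale.Agent.P361
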