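import Vale.Agent.P361.Basic

namespace Vale.Agent.P361

open Matrix Finset

lemma sums_shell_card (T : Finset Z3) (x : Z3) (n : ℕ) :
    ((T.filter fun e => nrm (e - x) = n).card : ℝ) ≤ 26 * (1 + (n : ℝ)) ^ 2 := by
  cases n with
  | zero =>
    have h : (T.filter fun e => nrm (e - x) = 0) ⊆ cube x 0 := by
      intro e he
      rw [mem_cube, (Finset.mem_filter.1 he).2]
    have h2 := Finset.card_le_card h
    rw [card_cube] at h2
    have h3 : ((T.filter fun e => nrm (e - x) = 0).card : ℝ) ≤ 1 := by exact_mod_cast h2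
    push_cast
    linarith
  | succ n =>
    have h : (T.filter fun e => nrm (e - x) = n + 1) ⊆ cube x (n + 1) \ cube x n := by
      intro e he
      have := (Finset.mem_filter.1 he).2
      rw [Finset.mem_sdiff, mem_cube, mem_cube]
      omega
    have h2 := Finset.card_le_card h
    have h4 := Finset.card_sdiff_add_card_eq_card (cube_mono x (Nat.le_succ n))
    rw [card_cube, card_cube] at h4
    have h5 : (T.filter fun e => nrm (e - x) = n + 1).card + (2 * n + 1) ^ 3 ≤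
        (2 * (n + 1) + 1) ^ 3 := by
      simp only [Nat.succ_eq_add_one] at h4
      omega
    have h6 : ((T.filter fun e => nrm (e - x) = n + 1).card : ℝ) + (2 * n + 1) ^ 3 ≤
        (2 * (n + 1) + 1) ^ 3 := by exact_mod_cast h5
    have hn : (0 : ℝ) ≤ n := Nat.cast_nonneg n
    push_cast
    nlinarith

lemma sums_shell (T : Finset Z3) (x : Z3) (g : ℕ → ℝ) (hg : ∀ n, 0 ≤ g n) {B : ℝ}
    (hB : ∀ N, ∑ n ∈ range N, 26 * (1 + (n : ℝ)) ^ 2 * g n ≤ B) :
    ∑ e ∈ T, g (nrm (e - x)) ≤ B := by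
  refine le_trans ?_ (hB (T.sup (fun e => nrm (e - x)) + 1))
  rw [← Finset.sum_fiberwise_of_maps_to (s := T) (t := range (T.sup (fun e => nrm (e - x)) + 1))
    (g := fun e => nrm (e - x)) (fun e he => Finset.mem_range.2 (Nat.lt_succ_of_le
      (Finset.le_sup (f := fun e => nrm (e - x)) he)))]
  refine Finset.sum_le_sum fun n _ => ?_
  rw [Finset.sum_congr rfl (g := fun _ => g n) (fun e he => by rw [(Finset.mem_filter.1 he).2]),
    Finset.sum_const, nsmul_eq_mul]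
  exact mul_le_mul_of_nonneg_right (sums_shell_card T x n) (hg n)

lemma sums_near (T : Finset Z3) (x : Z3) (ρ : ℕ) :
    ∑ e ∈ T, (if nrm (e - x) ≤ ρ then th (e - x) else 0) ≤ 26 * (1 + (ρ : ℝ)) := by
  refine sums_shell T x (fun n => if n ≤ ρ then 1 / (1 + (n : ℝ)) ^ 2 else 0)
    (fun n => by split_ifs <;> positivity) fun N => ?_
  calc ∑ n ∈ range N, 26 * (1 + (n : ℝ)) ^ 2 * (if n ≤ ρ then 1 / (1 + (n : ℝ)) ^ 2 else 0)
      = ∑ n ∈ (range N).filter (fun n => n ≤ ρ), (26 : ℝ) := by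
        rw [Finset.sum_filter]
        refine Finset.sum_congr rfl fun n _ => ?_
        split_ifs
        · field_simp
        · simp
    _ ≤ ∑ _n ∈ range (ρ + 1), (26 : ℝ) := by
        refine Finset.sum_le_sum_of_subset_of_nonneg (fun n hn => ?_) fun _ _ _ => by norm_num
        exact Finset.mem_range.2 (Nat.lt_succ_of_le (Finset.mem_filter.1 hn).2)
    _ = _ := by simp; ring

lemma sums_tail (ρ N : ℕ) :
    ∑ n ∈ range N, (if ρ < n then 1 / (1 + (n : ℝ)) ^ 2 else 0) ≤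
      1 / (1 + (ρ : ℝ)) - 1 / ((max N (ρ + 1) : ℕ) : ℝ) := by
  induction N with
  | zero => simp [add_comm]
  | succ N ih =>
    rw [Finset.sum_range_succ]
    split_ifs with h
    · rw [max_eq_left (by omega)] at ih
      rw [max_eq_left (by omega)]
      have hN : (1 : ℝ) ≤ N := by exact_mod_cast (by omega : 1 ≤ N)
      have : 1 / (1 + (N : ℝ)) ^ 2 ≤ 1 / (N : ℝ) - 1 / ((N + 1 : ℕ) : ℝ) := by
        push_cast
        rw [div_sub_div _ _ (by positivity) (by positivity),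
          div_le_div_iff₀ (by positivity) (by positivity)]
        nlinarith
      linarith
    · rw [max_eq_right (by omega)] at ih
      rw [max_eq_right (by omega)]
      linarith

lemma sums_far (T : Finset Z3) (x : Z3) (ρ : ℕ) :
    ∑ e ∈ T, (if ρ < nrm (e - x) then th (e - x) ^ 2 else 0) ≤ 26 / (1 + (ρ : ℝ)) := by
  refine sums_shell T x (fun n => if ρ < n then (1 / (1 + (n : ℝ)) ^ 2) ^ 2 else 0)
    (fun n => by split_ifs <;> positivity) fun N => ?_
  have h := sums_tail ρ N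
  have h0 : (0 : ℝ) ≤ 1 / ((max N (ρ + 1) : ℕ) : ℝ) := by positivity
  calc ∑ n ∈ range N, 26 * (1 + (n : ℝ)) ^ 2 * (if ρ < n then (1 / (1 + (n : ℝ)) ^ 2) ^ 2 else 0)
      = 26 * ∑ n ∈ range N, (if ρ < n then 1 / (1 + (n : ℝ)) ^ 2 else 0) := by
        rw [Finset.mul_sum]
        refine Finset.sum_congr rfl fun n _ => ?_
        split_ifs
        · field_simp
        · simp
    _ ≤ 26 * (1 / (1 + (ρ : ℝ))) := by linarith
    _ = _ := by ring

lemma sums_th_comm (x y : Z3) : th (x - y) = th (y - x) := by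
  unfold th
  rw [nrm_sub_comm]

theorem sum_th_sq : ∃ C : ℝ, 0 < C ∧ ∀ (T : Finset Z3) (x : Z3), ∑ e ∈ T, th (e - x) ^ 2 ≤ C := by
  refine ⟨52, by norm_num, fun T x => ?_⟩
  have h1 := sums_near T x 0
  have h2 := sums_far T x 0
  have h3 : ∑ e ∈ T, th (e - x) ^ 2 ≤ ∑ e ∈ T, ((if nrm (e - x) ≤ 0 then th (e - x) else 0)
      + if 0 < nrm (e - x) then th (e - x) ^ 2 else 0) := by
    refine Finset.sum_le_sum fun e _ => ?_
    have a1 := th_pos (e - x)
    have a2 := th_le_one (e - x)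
    by_cases h : nrm (e - x) ≤ 0
    · rw [if_pos h, if_neg (by omega)]
      nlinarith
    · rw [if_neg h, if_pos (by omega)]
      linarith
  rw [Finset.sum_add_distrib] at h3
  norm_num at h1 h2 h3 ⊢
  linarith

lemma sums_conv1 (S T : Finset Z3) (ν : Z3 → ℝ) (ρ : ℕ) :
    ∑ e ∈ T, (∑ y ∈ S, ν y * if nrm (e - y) ≤ ρ then th (e - y) else 0) ^ 2 ≤
      (26 * (1 + (ρ : ℝ))) ^ 2 * ∑ y ∈ S, ν y ^ 2 := by
  have hnn : ∀ e y : Z3, 0 ≤ (if nrm (e - y) ≤ ρ then th (e - y) else 0) := fun e y => by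
    split_ifs
    · exact (th_pos _).le
    · exact le_rfl
  have h1 : ∀ e, (∑ y ∈ S, ν y * if nrm (e - y) ≤ ρ then th (e - y) else 0) ^ 2 ≤
      (∑ y ∈ S, ν y ^ 2 * if nrm (e - y) ≤ ρ then th (e - y) else 0) * (26 * (1 + (ρ : ℝ))) := by
    intro e
    refine (Finset.sum_sq_le_sum_mul_sum_of_sq_le_mul S
      (f := fun y => ν y ^ 2 * if nrm (e - y) ≤ ρ then th (e - y) else 0)
      (g := fun y => if nrm (e - y) ≤ ρ then th (e - y) else 0)
      (fun y _ => mul_nonneg (sq_nonneg _) (hnn e y)) (fun y _ => hnn e y)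
      (fun y _ => le_of_eq (by ring))).trans (mul_le_mul_of_nonneg_left ?_
        (Finset.sum_nonneg fun y _ => mul_nonneg (sq_nonneg _) (hnn e y)))
    have := sums_near S e ρ
    simp only [nrm_sub_comm e, sums_th_comm e]
    exact this
  refine (Finset.sum_le_sum fun e _ => h1 e).trans ?_
  have e : (26 * (1 + (ρ : ℝ))) ^ 2 * ∑ y ∈ S, ν y ^ 2 =
      (∑ y ∈ S, ν y ^ 2) * (26 * (1 + (ρ : ℝ))) * (26 * (1 + (ρ : ℝ))) := by ring
  rw [← Finset.sum_mul, Finset.sum_comm, e]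
  refine mul_le_mul_of_nonneg_right ?_ (by positivity)
  rw [Finset.sum_mul]
  refine Finset.sum_le_sum fun y _ => ?_
  rw [← Finset.mul_sum]
  exact mul_le_mul_of_nonneg_left (sums_near T y ρ) (sq_nonneg _)

lemma sums_conv2 (S T : Finset Z3) (ν : Z3 → ℝ) (hν : ∀ y, 0 ≤ ν y) (ρ : ℕ) :
    ∑ e ∈ T, (∑ y ∈ S, ν y * if ρ < nrm (e - y) then th (e - y) else 0) ^ 2 ≤
      (∑ y ∈ S, ν y) ^ 2 * (26 / (1 + (ρ : ℝ))) := by
  have hnn : ∀ e y : Z3, 0 ≤ (if ρ < nrm (e - y) then th (e - y) ^ 2 else 0) := fun e y => by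
    split_ifs <;> positivity
  have h1 : ∀ e, (∑ y ∈ S, ν y * if ρ < nrm (e - y) then th (e - y) else 0) ^ 2 ≤
      (∑ y ∈ S, ν y) * ∑ y ∈ S, ν y * if ρ < nrm (e - y) then th (e - y) ^ 2 else 0 := by
    intro e
    refine Finset.sum_sq_le_sum_mul_sum_of_sq_le_mul S (fun y _ => hν y)
      (fun y _ => mul_nonneg (hν y) (hnn e y)) (fun y _ => le_of_eq ?_)
    split_ifs <;> ring
  refine (Finset.sum_le_sum fun e _ => h1 e).trans ?_
  rw [← Finset.mul_sum, Finset.sum_comm, sq, mul_assoc]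
  refine mul_le_mul_of_nonneg_left ?_ (Finset.sum_nonneg fun y _ => hν y)
  rw [Finset.sum_mul]
  refine Finset.sum_le_sum fun y _ => ?_
  rw [← Finset.mul_sum]
  exact mul_le_mul_of_nonneg_left (sums_far T y ρ) (hν y)

theorem conv_near : ∃ C : ℝ, 0 < C ∧ ∀ (S T : Finset Z3) (ν : Z3 → ℝ) (m σ : ℝ) (ρ : ℕ), 1 ≤ ρ →
    0 ≤ σ → (∀ y, 0 ≤ ν y) → (∀ y ∈ S, ν y ≤ σ) → ∑ y ∈ S, ν y ≤ m →
    ∑ e ∈ T, (∑ y ∈ S, ν y * th (e - y)) ^ 2 ≤ C * ((ρ : ℝ) ^ 2 * (m * σ) + m ^ 2 / ρ) := by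
  refine ⟨5408, by norm_num, fun S T ν m σ ρ hρ hσ hν hνσ hm => ?_⟩
  have h1 := sums_conv1 S T ν ρ
  have h2 := sums_conv2 S T ν hν ρ
  have h3 : ∑ e ∈ T, (∑ y ∈ S, ν y * th (e - y)) ^ 2 ≤
      ∑ e ∈ T, (2 * (∑ y ∈ S, ν y * if nrm (e - y) ≤ ρ then th (e - y) else 0) ^ 2
        + 2 * (∑ y ∈ S, ν y * if ρ < nrm (e - y) then th (e - y) else 0) ^ 2) := by
    refine Finset.sum_le_sum fun e _ => ?_
    have : ∑ y ∈ S, ν y * th (e - y) = (∑ y ∈ S, ν y * if nrm (e - y) ≤ ρ then th (e - y) else 0)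
        + ∑ y ∈ S, ν y * if ρ < nrm (e - y) then th (e - y) else 0 := by
      rw [← Finset.sum_add_distrib]
      refine Finset.sum_congr rfl fun y _ => ?_
      by_cases h : nrm (e - y) ≤ ρ
      · rw [if_pos h, if_neg (by omega)]; ring
      · rw [if_neg h, if_pos (by omega)]; ring
    rw [this]
    nlinarith [sq_nonneg ((∑ y ∈ S, ν y * if nrm (e - y) ≤ ρ then th (e - y) else 0)
      - ∑ y ∈ S, ν y * if ρ < nrm (e - y) then th (e - y) else 0)]
  rw [Finset.sum_add_distrib, ← Finset.mul_sum, ← Finset.mul_sum] at h3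
  have hs0 : 0 ≤ ∑ y ∈ S, ν y := Finset.sum_nonneg fun y _ => hν y
  have hm0 : 0 ≤ m := hs0.trans hm
  have hρ' : (1 : ℝ) ≤ ρ := by exact_mod_cast hρ
  have h4 : ∑ y ∈ S, ν y ^ 2 ≤ m * σ := by
    calc ∑ y ∈ S, ν y ^ 2 ≤ ∑ y ∈ S, ν y * σ := Finset.sum_le_sum fun y hy => by
          rw [sq]; exact mul_le_mul_of_nonneg_left (hνσ y hy) (hν y)
      _ = (∑ y ∈ S, ν y) * σ := by rw [Finset.sum_mul]
      _ ≤ _ := mul_le_mul_of_nonneg_right hm hσ
  have h5 : (26 * (1 + (ρ : ℝ))) ^ 2 * ∑ y ∈ S, ν y ^ 2 ≤ (52 * (ρ : ℝ)) ^ 2 * (m * σ) :=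
    mul_le_mul (pow_le_pow_left₀ (by positivity) (by linarith) 2) h4
      (Finset.sum_nonneg fun y _ => sq_nonneg _) (by positivity)
  have h6 : (∑ y ∈ S, ν y) ^ 2 * (26 / (1 + (ρ : ℝ))) ≤ m ^ 2 * (26 / (ρ : ℝ)) :=
    mul_le_mul (pow_le_pow_left₀ hs0 hm 2)
      (div_le_div_of_nonneg_left (by norm_num) (by linarith) (by linarith)) (by positivity)
      (by positivity)
  have h7 : m ^ 2 * (26 / (ρ : ℝ)) = 26 * (m ^ 2 / ρ) := by ring
  have h8 : 0 ≤ m ^ 2 / (ρ : ℝ) := by positivity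
  nlinarith

theorem far_single : ∃ C : ℝ, 0 < C ∧ ∀ (T : Finset Z3) (a : Z3) (R : ℕ), 1 ≤ R →
    ∑ e ∈ T, (if 2 * R < nrm (e - a) then th (e - a) else 0) ^ 2 ≤ C / R := by
  refine ⟨26, by norm_num, fun T a R hR => ?_⟩
  have h := sums_far T a (2 * R)
  have hR' : (1 : ℝ) ≤ R := by exact_mod_cast hR
  calc _ = ∑ e ∈ T, (if 2 * R < nrm (e - a) then th (e - a) ^ 2 else 0) :=
        Finset.sum_congr rfl fun e _ => by split_ifs <;> simp
    _ ≤ _ := h
    _ ≤ _ := div_le_div_of_nonneg_left (by norm_num) (by linarith) (by push_cast; linarith)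

lemma sums_th_le {x : Z3} {l : ℕ} (h : l ≤ 2 * nrm x) : th x ≤ 4 / (1 + (l : ℝ)) ^ 2 := by
  have h' : (l : ℝ) ≤ 2 * nrm x := by exact_mod_cast h
  have h0 : (0 : ℝ) ≤ l := Nat.cast_nonneg l
  unfold th
  rw [div_le_div_iff₀ (by positivity) (by positivity)]
  nlinarith

lemma sums_pair (T : Finset Z3) (a b : Z3) :
    ∑ e ∈ T, th (e - a) * th (e - b) ≤ 312 / (1 + (nrm (a - b) : ℝ)) := by
  set l := nrm (a - b) with hl
  set ρ := l / 2 with hρ
  have h3 : ∑ e ∈ T, th (e - a) * th (e - b) ≤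
      ∑ e ∈ T, (4 / (1 + (l : ℝ)) ^ 2 * (if nrm (e - a) ≤ ρ then th (e - a) else 0)
        + 4 / (1 + (l : ℝ)) ^ 2 * (if nrm (e - b) ≤ ρ then th (e - b) else 0)
        + (if ρ < nrm (e - a) then th (e - a) ^ 2 else 0)
        + (if ρ < nrm (e - b) then th (e - b) ^ 2 else 0)) := by
    refine Finset.sum_le_sum fun e _ => ?_
    have a1 := th_pos (e - a)
    have a2 := th_pos (e - b)
    have t := nrm_triangle a e b
    rw [nrm_sub_comm a e] at t
    have q : (0 : ℝ) < 4 / (1 + (l : ℝ)) ^ 2 := by positivity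
    by_cases h1 : nrm (e - a) ≤ ρ
    · have := mul_le_mul_of_nonneg_left (sums_th_le (x := e - b) (l := l) (by omega)) a1.le
      rw [if_pos h1, if_neg (not_lt.2 h1)]
      have z1 : 0 ≤ 4 / (1 + (l : ℝ)) ^ 2 * (if nrm (e - b) ≤ ρ then th (e - b) else 0) := by
        split_ifs <;> positivity
      have z2 : 0 ≤ (if ρ < nrm (e - b) then th (e - b) ^ 2 else 0) := by
        split_ifs <;> positivity
      linarith
    · rw [if_neg h1, if_pos (not_le.1 h1)]
      by_cases h2 : nrm (e - b) ≤ ρ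
      · have := mul_le_mul_of_nonneg_right (sums_th_le (x := e - a) (l := l) (by omega)) a2.le
        rw [if_pos h2, if_neg (not_lt.2 h2)]
        nlinarith [sq_nonneg (th (e - a))]
      · rw [if_neg h2, if_pos (not_le.1 h2)]
        nlinarith [sq_nonneg (th (e - a) - th (e - b)), mul_pos a1 a2]
  simp only [Finset.sum_add_distrib, ← Finset.mul_sum] at h3
  have q : (0 : ℝ) ≤ 4 / (1 + (l : ℝ)) ^ 2 := by positivity
  have b1 := mul_le_mul_of_nonneg_left (sums_near T a ρ) q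
  have b2 := mul_le_mul_of_nonneg_left (sums_near T b ρ) q
  have b3 := sums_far T a ρ
  have b4 := sums_far T b ρ
  have r1 : (ρ : ℝ) ≤ l := by exact_mod_cast (by omega : ρ ≤ l)
  have r2 : (l : ℝ) ≤ 2 * ρ + 1 := by exact_mod_cast (by omega : l ≤ 2 * ρ + 1)
  have l0 : (0 : ℝ) ≤ l := Nat.cast_nonneg l
  have ρ0 : (0 : ℝ) ≤ ρ := Nat.cast_nonneg ρ
  have c1 : 4 / (1 + (l : ℝ)) ^ 2 * (26 * (1 + (ρ : ℝ))) ≤ 104 / (1 + (l : ℝ)) := by
    rw [div_mul_eq_mul_div, div_le_div_iff₀ (by positivity) (by positivity)]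
    nlinarith
  have c2 : 26 / (1 + (ρ : ℝ)) ≤ 52 / (1 + (l : ℝ)) := by
    rw [div_le_div_iff₀ (by positivity) (by positivity)]
    nlinarith
  have c3 : (312 : ℝ) / (1 + (l : ℝ)) = 2 * (104 / (1 + (l : ℝ))) + 2 * (52 / (1 + (l : ℝ))) := by
    ring
  linarith

lemma sums_adm_inv {L : ℕ} {B : Finset Z3} (h : Adm L B) {a : Z3} (ha : a ∈ B) :
    ∑ b ∈ B, 1 / (1 + (nrm (a - b) : ℝ)) ≤ 7 := by
  classical
  set N := B.sup (fun b => nrm (a - b)) + 1 with hN
  have h1 : ∀ b ∈ B, 1 / (1 + (nrm (a - b) : ℝ)) ≤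
      ∑ i ∈ range N, if b ∈ cube a (2 ^ (i + 1) - 1) then (1 / 2 : ℝ) ^ i else 0 := by
    intro b hb
    set l := nrm (a - b) with hl
    have hlN : l < N := Nat.lt_succ_of_le (Finset.le_sup (f := fun b => nrm (a - b)) hb)
    have i1 : 2 ^ Nat.log 2 (l + 1) ≤ l + 1 := Nat.pow_log_le_self 2 (by omega)
    have i2 : l + 1 < 2 ^ (Nat.log 2 (l + 1) + 1) := Nat.lt_pow_succ_log_self (by norm_num) _
    have i3 : Nat.log 2 (l + 1) < N := by
      have := Nat.lt_two_pow_self (n := Nat.log 2 (l + 1))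
      omega
    refine le_trans ?_ (Finset.single_le_sum
      (f := fun i => if b ∈ cube a (2 ^ (i + 1) - 1) then (1 / 2 : ℝ) ^ i else 0)
      (fun i _ => by split_ifs <;> positivity) (Finset.mem_range.2 i3))
    have i4 : b ∈ cube a (2 ^ (Nat.log 2 (l + 1) + 1) - 1) := by
      rw [mem_cube, nrm_sub_comm]
      omega
    simp only [if_pos i4]
    rw [_root_.one_div_pow]
    refine one_div_le_one_div_of_le (by positivity) ?_
    have : ((2 ^ Nat.log 2 (l + 1) : ℕ) : ℝ) ≤ ((l + 1 : ℕ) : ℝ) := by exact_mod_cast i1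
    push_cast at this
    linarith
  refine (Finset.sum_le_sum h1).trans ?_
  rw [Finset.sum_comm]
  have h2 : ∀ i ∈ range N, ∑ b ∈ B, (if b ∈ cube a (2 ^ (i + 1) - 1) then (1 / 2 : ℝ) ^ i else 0) ≤
      5 / 2 * (5 / 8 : ℝ) ^ i := by
    intro i _
    rw [← Finset.sum_filter, Finset.sum_const, nsmul_eq_mul]
    have c1 := h.1 a ha (2 ^ (i + 1) - 1)
    have c2 : 1 + (2 ^ (i + 1) - 1) = 2 ^ (i + 1) := by
      have := Nat.one_le_two_pow (n := i + 1)
      omega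
    rw [c2] at c1
    have c3 : ((B.filter fun b => b ∈ cube a (2 ^ (i + 1) - 1)).card : ℝ) ^ 4 ≤
        16 * 2 ^ (i + 1) := by exact_mod_cast c1
    have c4 : (16 : ℝ) * 2 ^ (i + 1) ≤ (2 * (5 / 4) ^ (i + 1)) ^ 4 := by
      rw [mul_pow, ← pow_mul, mul_comm (i + 1) 4, pow_mul]
      have : (2 : ℝ) ^ (i + 1) ≤ ((5 / 4) ^ 4) ^ (i + 1) :=
        pow_le_pow_left₀ (by norm_num) (by norm_num) _
      linarith
    have c5 := le_of_pow_le_pow_left₀ (by norm_num) (by positivity) (c3.trans c4)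
    calc _ ≤ 2 * (5 / 4) ^ (i + 1) * (1 / 2 : ℝ) ^ i :=
          mul_le_mul_of_nonneg_right c5 (by positivity)
      _ = _ := by
          rw [show (5 / 8 : ℝ) = 5 / 4 * (1 / 2) by norm_num, mul_pow]
          ring
  refine (Finset.sum_le_sum h2).trans ?_
  rw [← Finset.mul_sum]
  have h3 := sum_le_hasSum (range N) (fun i _ => by positivity)
    (hasSum_geometric_of_lt_one (r := (5 / 8 : ℝ)) (by norm_num) (by norm_num))
  norm_num at h3 ⊢
  linarith

theorem far_adm : ∃ C : ℝ, 0 < C ∧ ∀ (L : ℕ) (B T : Finset Z3), Adm L B →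
    ∑ e ∈ T, (∑ a ∈ B, th (e - a)) ^ 2 ≤ C * B.card := by
  refine ⟨312 * 7, by norm_num, fun L B T h => ?_⟩
  simp only [sq, Finset.sum_mul_sum]
  rw [Finset.sum_comm]
  calc _ ≤ ∑ _a ∈ B, (312 * 7 : ℝ) := by
        refine Finset.sum_le_sum fun a ha => ?_
        rw [Finset.sum_comm]
        refine (Finset.sum_le_sum fun b _ => sums_pair T a b).trans ?_
        have := mul_le_mul_of_nonneg_left (sums_adm_inv h ha) (by norm_num : (0 : ℝ) ≤ 312)
        rw [Finset.mul_sum] at this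
        simpa only [mul_one_div] using this
    _ = _ := by rw [Finset.sum_const, nsmul_eq_mul, mul_comm]

theorem adm_count {L : ℕ} {B : Finset Z3} (h : Adm L B) (e : Z3) (R : ℕ) :
    (B.filter fun a => nrm (e - a) ≤ 2 * R).card ^ 4 ≤ 16 * (1 + 4 * R) := by
  classical
  rcases (B.filter fun a => nrm (e - a) ≤ 2 * R).eq_empty_or_nonempty with h0 | ⟨a, ha⟩
  · simp [h0]
  · obtain ⟨haB, hae⟩ := Finset.mem_filter.1 ha
    refine le_trans (Nat.pow_le_pow_left (Finset.card_le_card fun b hb => ?_) 4) (h.1 a haB (4 * R))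
    obtain ⟨hbB, hbe⟩ := Finset.mem_filter.1 hb
    refine Finset.mem_filter.2 ⟨hbB, mem_cube.2 ?_⟩
    have := nrm_triangle b e a
    rw [nrm_sub_comm b e] at this
    omega

end Vale.Agent.P361
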