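import Vale.Agent.P361.Static
import Vale.Agent.P361.Sums

namespace Vale.Agent.P361

open Matrix Finset

lemma slice_image {L s : ℕ} [NeZero L] {T : Finset Z3} (hT : Set.InjOn (prj L) T)
    (g : XX L s → ℝ) :
    ∑ y ∈ T, ∑ i, g (prj L y, i) = ∑ x ∈ T.image (prj L), ∑ i, g (x, i) :=
  (sum_image (f := fun x => ∑ i, g (x, i)) hT).symm

lemma slice_inj_le {L s : ℕ} [NeZero L] {T : Finset Z3} (hT : Set.InjOn (prj L) T)
    {g : XX L s → ℝ} (hg : ∀ v, 0 ≤ g v) : ∑ y ∈ T, ∑ i, g (prj L y, i) ≤ ∑ v, g v := by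
  rw [slice_image hT, Fintype.sum_prod_type]
  exact sum_le_univ_sum_of_nonneg fun x => sum_nonneg fun i _ => hg _

lemma slice_inj_eq {L s : ℕ} [NeZero L] {T : Finset Z3} (hT : Set.InjOn (prj L) T)
    {g : XX L s → ℝ} (hg : ∀ v, g v ≠ 0 → ∃ y ∈ T, prj L y = v.1) :
    ∑ v, g v = ∑ y ∈ T, ∑ i, g (prj L y, i) := by
  rw [slice_image hT, Fintype.sum_prod_type]
  exact (sum_subset (subset_univ _) fun x _ hx => sum_eq_zero fun i _ =>
    by_contra fun h => hx (mem_image.2 (hg _ h))).symm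

open Classical in
/-- bond energy on the torus -/
noncomputable def sliceH {L s : ℕ} [NeZero s] (U : Finset (XX L s)) (u : XX L s → ℝ) (v : XX L s)
    (y : TV L) : ℝ :=
  if v ∉ U ∧ (torus L).Adj v.1 y ∧ ∀ c, (y, c) ∉ U then (u v - u (y, 0)) ^ 2 else 0

/-- energy density on the torus -/
noncomputable def sliceG {L s : ℕ} [NeZero L] [NeZero s] (U : Finset (XX L s)) (u : XX L s → ℝ)
    (r : ℕ) (v : XX L s) : ℝ := (∑ y, sliceH U u v y) + u v ^ 2 / (r : ℝ) ^ 2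

lemma slice_xen {L s : ℕ} [NeZero L] [NeZero s] (U : Finset (XX L s)) (u : XX L s → ℝ) (r : ℕ) :
    xen U u r = ∑ v, sliceG U u r v := by
  simp only [sliceG, sum_add_distrib, ← sum_div]
  rfl

lemma sliceH_nonneg {L s : ℕ} [NeZero s] (U : Finset (XX L s)) (u : XX L s → ℝ) (v : XX L s)
    (y : TV L) : 0 ≤ sliceH U u v y := by
  unfold sliceH
  split_ifs <;> positivity

lemma sliceG_nonneg {L s : ℕ} [NeZero L] [NeZero s] (U : Finset (XX L s)) (u : XX L s → ℝ) (r : ℕ)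
    (v : XX L s) : 0 ≤ sliceG U u r v :=
  add_nonneg (sum_nonneg fun y _ => sliceH_nonneg U u v y) (by positivity)

lemma sliceH_eq {L s : ℕ} [NeZero s] {U : Finset (XX L s)} (u : XX L s → ℝ) (hL : 2 ≤ L)
    {x y : Z3} {i : Fin s} (hx : (prj L x, i) ∉ U) (h : zadj x y) (hy : y ∉ liftE U) :
    sliceH U u (prj L x, i) (prj L y) = (u (prj L x, i) - u (prj L y, 0)) ^ 2 :=
  if_pos ⟨hx, torus_adj_prj hL h, fun c hc => hy ⟨c, hc⟩⟩

lemma slice_zen {L s : ℕ} [NeZero L] [NeZero s] (U : Finset (XX L s)) (u : XX L s → ℝ) (r : ℕ)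
    (hL : 2 < L) {S : Finset Z3} (hS : Set.InjOn (prj L) S) :
    zen (liftE U) (fun x => u (prj L x, 0)) r S ≤ xen U u r := by
  rw [slice_xen, static_zen]
  refine (sum_le_sum fun x _ => le_trans ?_ (single_le_sum (f := fun i => sliceG U u r (prj L x, i))
    (fun i _ => sliceG_nonneg U u r _) (mem_univ 0))).trans (slice_inj_le hS (sliceG_nonneg U u r))
  unfold staticZ
  split_ifs with hx
  · exact sliceG_nonneg U u r _
  · refine add_le_add (le_trans (sum_le_sum fun i _ => ?_) (((sum_image (s := univ)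
      (g := fun i => prj L (x + ev i)) (f := sliceH U u (prj L x, 0)) fun i _ j _ e => ?_).ge).trans
      (sum_le_univ_sum_of_nonneg (sliceH_nonneg U u _)))) le_rfl
    · split_ifs with hi
      · exact sliceH_nonneg U u _ _
      · rw [sliceH_eq u hL.le (fun h => hx ⟨0, h⟩) ⟨i, Or.inl rfl⟩ hi, ← neg_sub, neg_sq]
    · have h1 : ∀ k, x + ev k ∈ cube x 1 := fun k => by
        rw [mem_cube, add_sub_cancel_left, nrm_ev]
      have h2 := congrFun (add_left_cancel (prj_inj_cube (by omega) (h1 i) (h1 j) e)) i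
      by_contra h3
      simp [ev, h3] at h2

lemma slice_wgt : ∃ W : ℝ, 0 < W ∧ ∀ E Kc e, Far E Kc e 4 → wgt E Kc e ≤ W := by
  classical
  refine ⟨1 + ∑ j ∈ range 4, ((cc (j + 1) : ℕ) : ℝ) ^ 10, by positivity, fun E Kc e h => ?_⟩
  refine add_le_add le_rfl ?_
  rw [← sum_filter]
  refine sum_le_sum_of_subset_of_nonneg (fun j hj => ?_) fun j _ _ => by positivity
  obtain ⟨h1, x, h2, h3⟩ := mem_filter.1 hj
  by_contra h4
  exact (h j (not_lt.1 (mt mem_range.2 h4)) (mem_range.1 h1) x h2).not_ge h3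

lemma slice_th {a e y : Z3} {R : ℕ} (hy : y ∈ cube a R) (he : 2 * R < nrm (e - a)) :
    th (e - y) ≤ 4 * th (e - a) := by
  have h1 := nrm_triangle e y a
  have h2 := mem_cube.1 hy
  have h3 : (nrm (e - a) : ℝ) ≤ 2 * nrm (e - y) := by exact_mod_cast (by omega)
  rw [th, th, mul_one_div, div_le_div_iff₀ (by positivity) (by positivity), one_mul,
    show 4 * (1 + (nrm (e - y) : ℝ)) ^ 2 = (2 * (1 + nrm (e - y))) ^ 2 by ring]
  gcongr
  linarith

lemma slice_conv : ∃ C : ℝ, 0 < C ∧ ∀ (E : Set Z3) (Kc L R ρ nst : ℕ) (B S T : Finset Z3) (c0 : Z3)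
    (ν : Z3 → Z3 → ℝ) (m σ : Z3 → ℝ) (mb s : ℝ), 1 ≤ ρ → 1 ≤ s → S ⊆ cube c0 L →
    (∀ e, (B.filter fun a => nrm (e - a) ≤ 2 * R).card ≤ nst) → (∀ a y, 0 ≤ ν a y) →
    (∀ a ∈ B, ∀ y ∈ T, ν a y ≠ 0 → y ∈ cube a R ∧ ∀ w ∈ cube a (3 * R), GoodPt E Kc w) →
    (∀ a ∈ B, ∑ y ∈ T, ν a y ≤ m a) → (∀ a ∈ B, m a ≤ mb) → (∀ a ∈ B, 0 ≤ σ a) →
    (∀ a ∈ B, ∀ y, ν a y ≤ s * σ a) →
    ∑ e ∈ S, wgt E Kc e * (∑ y ∈ T, (∑ a ∈ B, ν a y) * th (e - y)) ^ 2 ≤
      C * s * (nst * (∑ a ∈ B, ((ρ : ℝ) ^ 2 * (m a * σ a) + m a ^ 2 / ρ)) +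
        mb ^ 2 * farW E Kc B c0 L R) := by
  obtain ⟨W, hW, HW⟩ := slice_wgt
  obtain ⟨C, hC, HC⟩ := conv_near
  refine ⟨2 * W * C + 32, by positivity, ?_⟩
  intro E Kc L R ρ nst B S T c0 ν m σ mb s hρ hs hS hn hν hg hm hmb hσ hνσ
  have hw : ∀ e, 0 ≤ wgt E Kc e := fun e => zero_le_one.trans (one_le_wgt E Kc e)
  let w : Z3 → Z3 → ℝ := fun e a => ∑ y ∈ T, ν a y * th (e - y)
  have hw0 : ∀ e a, 0 ≤ w e a := fun e a => sum_nonneg fun y _ => mul_nonneg (hν a y) (th_pos _).le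
  have hm0 : ∀ a ∈ B, 0 ≤ m a := fun a ha => (sum_nonneg fun y _ => hν a y).trans (hm a ha)
  have h1 : ∀ e, wgt E Kc e * (∑ y ∈ T, (∑ a ∈ B, ν a y) * th (e - y)) ^ 2 ≤
      2 * W * nst * ∑ a ∈ B, w e a ^ 2 + 32 * mb ^ 2 *
        (wgt E Kc e * (∑ a ∈ B, if 2 * R < nrm (e - a) then th (e - a) else 0) ^ 2) := by
    intro e
    have h2 : wgt E Kc e * (∑ a ∈ B with nrm (e - a) ≤ 2 * R, w e a) ^ 2 ≤
        W * nst * ∑ a ∈ B, w e a ^ 2 := by
      by_cases h3 : ∑ a ∈ B with nrm (e - a) ≤ 2 * R, w e a = 0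
      · rw [h3, zero_pow two_ne_zero, mul_zero]
        positivity
      · obtain ⟨a, ha, h4⟩ := exists_ne_zero_of_sum_ne_zero h3
        obtain ⟨y, hy, h5⟩ := exists_ne_zero_of_sum_ne_zero h4
        obtain ⟨h6, h7⟩ := mem_filter.1 ha
        rw [mul_assoc]
        refine mul_le_mul (HW _ _ _ ((hg a h6 y hy (left_ne_zero_of_mul h5)).2 e
          (mem_cube.2 (by omega))).2) (sq_sum_le_card_mul_sum_sq.trans ?_) (sq_nonneg _) hW.le
        exact mul_le_mul (Nat.cast_le.2 (hn e)) (sum_le_sum_of_subset_of_nonneg (filter_subset _ _)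
          fun _ _ _ => sq_nonneg _) (by positivity) (Nat.cast_nonneg _)
    have h3 : ∑ a ∈ B with ¬ nrm (e - a) ≤ 2 * R, w e a ≤
        4 * mb * ∑ a ∈ B, if 2 * R < nrm (e - a) then th (e - a) else 0 := by
      rw [sum_filter, mul_sum]
      refine sum_le_sum fun a ha => ?_
      simp only [not_le]
      split_ifs with h4
      · refine (sum_le_sum (g := fun y => ν a y * (4 * th (e - a))) fun y hy => ?_).trans ?_
        · by_cases h5 : ν a y = 0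
          · simp [h5]
          · exact mul_le_mul_of_nonneg_left (slice_th (hg a ha y hy h5).1 h4) (hν a y)
        · rw [← sum_mul]
          nlinarith [hm a ha, hmb a ha, th_pos (e - a)]
      · simp
    have h4 : ∑ y ∈ T, (∑ a ∈ B, ν a y) * th (e - y) = ∑ a ∈ B with nrm (e - a) ≤ 2 * R, w e a +
        ∑ a ∈ B with ¬ nrm (e - a) ≤ 2 * R, w e a := by
      simp only [sum_mul]
      rw [sum_comm, sum_filter_add_sum_filter_not]
    have h5 := mul_le_mul_of_nonneg_left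
      (pow_le_pow_left₀ (sum_nonneg fun a _ => hw0 e a) h3 2) (hw e)
    have h6 := mul_le_mul_of_nonneg_left (add_sq_le (a := ∑ a ∈ B with nrm (e - a) ≤ 2 * R, w e a)
      (b := ∑ a ∈ B with ¬ nrm (e - a) ≤ 2 * R, w e a)) (hw e)
    rw [h4]
    linarith
  have h2 : ∑ e ∈ S, ∑ a ∈ B, w e a ^ 2 ≤
      C * s * ∑ a ∈ B, ((ρ : ℝ) ^ 2 * (m a * σ a) + m a ^ 2 / ρ) := by
    rw [sum_comm, mul_sum]
    refine sum_le_sum fun a ha => (HC T S (ν a) (m a) (s * σ a) ρ hρ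
      (mul_nonneg (by linarith) (hσ a ha)) (hν a) (fun y _ => hνσ a ha y) (hm a ha)).trans ?_
    rw [mul_assoc C]
    refine mul_le_mul_of_nonneg_left ?_ hC.le
    have h3 : m a ^ 2 / ρ ≤ s * (m a ^ 2 / ρ) := le_mul_of_one_le_left (by positivity) hs
    linarith
  have h3 : ∑ e ∈ S, wgt E Kc e * (∑ a ∈ B, if 2 * R < nrm (e - a) then th (e - a) else 0) ^ 2 ≤
      farW E Kc B c0 L R :=
    sum_le_sum_of_subset_of_nonneg hS fun e _ _ => mul_nonneg (hw e) (sq_nonneg _)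
  have h4 : 0 ≤ mb ^ 2 * farW E Kc B c0 L R :=
    mul_nonneg (sq_nonneg _) (sum_nonneg fun e _ => mul_nonneg (hw e) (sq_nonneg _))
  have h5 : 0 ≤ (nst : ℝ) * ∑ a ∈ B, ((ρ : ℝ) ^ 2 * (m a * σ a) + m a ^ 2 / ρ) :=
    mul_nonneg (Nat.cast_nonneg _) (sum_nonneg fun a ha => by
      have := hm0 a ha
      have := hσ a ha
      positivity)
  refine (sum_le_sum fun e _ => h1 e).trans ?_
  rw [sum_add_distrib, ← mul_sum, ← mul_sum]
  have h6 := mul_le_mul_of_nonneg_left h2 (show 0 ≤ 2 * W * nst by positivity)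
  have h7 := mul_le_mul_of_nonneg_left h3 (show 0 ≤ 32 * mb ^ 2 by positivity)
  have h8 := le_mul_of_one_le_left h4 hs
  have h9 := mul_nonneg (zero_le_one.trans hs) h5
  have h10 := mul_nonneg (show 0 ≤ 2 * W * C * s by positivity) h4
  linarith

theorem slice_bound (s : ℕ) [NeZero s] : ∃ C : ℝ, 0 < C ∧ ∀ (L : ℕ) [NeZero L]
    (U : Finset (XX L s)) (Kc K R r nw ρ nst : ℕ) (B : Finset Z3) (c0 : Z3)
    (μ : Z3 → XX L s → ℝ) (m σ : Z3 → ℝ) (mb : ℝ) (u : XX L s → ℝ),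
    Geo L Kc K R r nw → 1 ≤ ρ → (∀ a ∈ B, 8 * nrm (a - c0) ≤ L) →
    (∀ e, (B.filter fun a => nrm (e - a) ≤ 2 * R).card ≤ nst) →
    hier (liftE U) Kc = ∅ → (∀ a v, 0 ≤ μ a v) →
    (∀ a ∈ B, ∀ v, μ a v ≠ 0 →
      v ∉ U ∧ v.1 ∈ tball (prj L a) R ∧ ∀ y ∈ cube a (3 * R), GoodPt (liftE U) Kc y) →
    (∀ a ∈ B, ∑ v, μ a v ≤ m a) → (∀ a ∈ B, m a ≤ mb) → (∀ a ∈ B, ∀ v, μ a v ≤ σ a) →
    ∑ a ∈ B, ∑ v, μ a v * |u v| ≤
      C * Real.sqrt (nst * (∑ a ∈ B, ((ρ : ℝ) ^ 2 * (m a * σ a) + m a ^ 2 / ρ)) +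
          mb ^ 2 * farW (liftE U) Kc B c0 L R) * Real.sqrt (xen U u r) := by
  obtain ⟨C1, hC1, H1⟩ := static_bound
  obtain ⟨C2, hC2, H2⟩ := slice_conv
  have hs : (1 : ℝ) ≤ s := by exact_mod_cast NeZero.one_le
  refine ⟨(1 + C1) * √(C2 * s), by positivity, ?_⟩
  intro L _ U Kc K R r nw ρ nst B c0 μ m σ mb u hG hρ hB hn hcat hμ hg hm hmb hσ
  obtain ⟨nb, hnb, H1⟩ := H1 _ Kc hcat
  obtain ⟨-, hr0, hL, hKc, hr⟩ := hG
  have hcc := two_cc_le Kc
  have hinj : ∀ t, t ≤ L / 8 + R + 2 * r + cc Kc + r1 → Set.InjOn (prj L) (cube c0 t) :=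
    fun t ht x hx y hy => prj_inj_cube (by omega) hx hy
  have hT := hinj (L / 8 + R) (by omega)
  have hsub : ∀ a ∈ B, cube a R ⊆ cube c0 (L / 8 + R) := fun a ha =>
    cube_subset (mem_cube.2 (show nrm (a - c0) ≤ L / 8 by have := hB a ha; omega)) le_rfl
  let ν : Z3 → Z3 → ℝ := fun a y => ∑ i, μ a (prj L y, i)
  have hν : ∀ a y, 0 ≤ ν a y := fun a y => sum_nonneg fun i _ => hμ _ _
  have hν' : ∀ y, 0 ≤ ∑ a ∈ B, ν a y := fun y => sum_nonneg fun a _ => hν a y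
  have h1 : ∀ a ∈ B, ∀ y ∈ cube c0 (L / 8 + R), ν a y ≠ 0 →
      y ∈ cube a R ∧ ∀ w ∈ cube a (3 * R), GoodPt (liftE U) Kc w := fun a ha y hy h => by
    obtain ⟨i, -, hi⟩ := exists_ne_zero_of_sum_ne_zero h
    obtain ⟨-, h2, h3⟩ := hg a ha _ hi
    obtain ⟨z, h4, h5⟩ := mem_tball_prj.1 h2
    exact ⟨hT (hsub a ha h4) hy h5 ▸ h4, h3⟩
  have h2 : ∀ y ∈ cube c0 (L / 8 + R), ∑ a ∈ B, ν a y ≠ 0 →
      ∀ w ∈ cube y r0, GoodPt (liftE U) Kc w := fun y hy h w hw => by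
    obtain ⟨a, ha, h3⟩ := exists_ne_zero_of_sum_ne_zero h
    exact (h1 a ha y hy h3).2 w (cube_subset (h1 a ha y hy h3).1 (by omega) hw)
  have h3 := H1 r _ c0 _ (fun x => u (prj L x, 0)) hr hν' h2
  have h4 := H2 _ Kc L R ρ nst B (cube c0 (L / 8 + R + 2 * r)) _ c0 ν m σ mb s hρ hs
    (cube_mono _ (by omega)) hn hν h1 (fun a ha => (slice_inj_le hT (hμ a)).trans (hm a ha)) hmb
    (fun a ha => (hμ a 0).trans (hσ a ha 0)) fun a ha y =>
      (sum_le_card_nsmul _ _ _ fun i _ => hσ a ha _).trans (by simp)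
  have h5 := static_sq_le (E := liftE U) (Kc := Kc)
    (cube_mono c0 (show L / 8 + R ≤ L / 8 + R + 2 * r by omega)) hν'
  set A := ∑ e ∈ cube c0 (L / 8 + R + 2 * r), wgt (liftE U) Kc e *
    (∑ y ∈ cube c0 (L / 8 + R), (∑ a ∈ B, ν a y) * th (e - y)) ^ 2
  have h6 : ∑ y ∈ cube c0 (L / 8 + R), (∑ a ∈ B, ν a y) * √(∑ i, sliceG U u r (prj L y, i)) ≤
      √A * √(xen U u r) := by
    refine (Real.sum_mul_le_sqrt_mul_sqrt _ _ _).trans (mul_le_mul (Real.sqrt_le_sqrt h5)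
      (Real.sqrt_le_sqrt ?_) (Real.sqrt_nonneg _) (Real.sqrt_nonneg _))
    rw [slice_xen]
    exact (sum_congr rfl fun y _ => Real.sq_sqrt (sum_nonneg fun i _ =>
      sliceG_nonneg U u r _)).trans_le (slice_inj_le hT (sliceG_nonneg U u r))
  have h7 : ∑ a ∈ B, ∑ v, μ a v * |u v| ≤
      ∑ y ∈ cube c0 (L / 8 + R), (∑ a ∈ B, ν a y) * √(∑ i, sliceG U u r (prj L y, i)) +
        ∑ y ∈ cube c0 (L / 8 + R), (∑ a ∈ B, ν a y) * |u (prj L (nb y), 0)| := by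
    simp only [← sum_add_distrib, ← mul_add, sum_mul]
    rw [sum_comm (t := B)]
    refine sum_le_sum fun a ha => ?_
    rw [slice_inj_eq hT fun v hv => ?_]
    · refine sum_le_sum fun y hy => ?_
      rw [sum_mul]
      refine sum_le_sum fun i _ => ?_
      by_cases h0 : μ a (prj L y, i) = 0
      · simp [h0]
      · refine mul_le_mul_of_nonneg_left ?_ (hμ _ _)
        obtain ⟨h8, h9⟩ := hnb y (h2 y hy ((sum_pos' (fun a _ => hν a y) ⟨a, ha,
          sum_pos' (fun i _ => hμ _ _) ⟨i, mem_univ _, (hμ _ _).lt_of_ne' h0⟩⟩).ne'))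
        have h10 : |u (prj L y, i) - u (prj L (nb y), 0)| ≤
            √(∑ i, sliceG U u r (prj L y, i)) := by
          refine Real.abs_le_sqrt (le_trans ?_ (single_le_sum
            (f := fun i => sliceG U u r (prj L y, i)) (fun i _ => sliceG_nonneg U u r _)
            (mem_univ i)))
          rw [← sliceH_eq u (by omega) (hg a ha _ h0).1 h8 h9]
          exact le_add_of_le_of_nonneg (single_le_sum (fun x _ => sliceH_nonneg U u _ x)
            (mem_univ _)) (by positivity)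
        linarith [abs_sub_abs_le_abs_sub (u (prj L y, i)) (u (prj L (nb y), 0))]
    · obtain ⟨z, h8, h9⟩ := mem_tball_prj.1 (hg a ha v (left_ne_zero_of_mul hv)).2.1
      exact ⟨z, hsub a ha h8, h9⟩
  have h8 := Real.sqrt_le_sqrt h4
  rw [Real.sqrt_mul (by positivity)] at h8
  have h9 := mul_le_mul_of_nonneg_left (Real.sqrt_le_sqrt
    (slice_zen U u r (by omega) (hinj _ le_rfl))) (mul_nonneg hC1.le (Real.sqrt_nonneg A))
  have h10 := mul_le_mul_of_nonneg_left (mul_le_mul_of_nonneg_right h8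
    (Real.sqrt_nonneg (xen U u r))) (show 0 ≤ 1 + C1 by positivity)
  linarith

end Vale.Agent.P361
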