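import Vale.Agent.P361.RunOne
import Vale.Agent.P361.Slice
import Vale.Agent.P361.Sums

namespace Vale.Agent.P361

open Matrix Finset

theorem runA_win (I S : Finset ℕ) (t : ℕ → ℕ) {F A fm : ℕ → ℝ} {u : ℕ} {Q : ℝ}
    (hF : ∀ k, 0 ≤ F k) (hS : ∀ k, F k ≠ 0 → ∃ i ∈ I, t i ≤ k ∧ k < t i + u) (hA : ∀ k, 0 ≤ A k)
    (hm : ∀ k, 0 ≤ fm k) (hFA : ∀ k, F k ≤ √(A k) * √(fm k))
    (hQ : ∀ T, ∑ k ∈ Ico T (T + u), fm k ≤ Q) :
    ∑ k ∈ S, F k ≤ (∑ i ∈ I, √(∑ k ∈ Ico (t i) (t i + u), A k)) * √Q := by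
  have h1 : ∀ k ∈ S, F k ≤ ∑ i ∈ I, if k ∈ Ico (t i) (t i + u) then F k else 0 := fun k _ => by
    have h2 : ∀ i ∈ I, 0 ≤ if k ∈ Ico (t i) (t i + u) then F k else 0 := fun i _ => by
      split_ifs
      exacts [hF k, le_rfl]
    by_cases h : F k = 0
    · exact h.trans_le (sum_nonneg h2)
    · obtain ⟨i, hi, h3⟩ := hS k h
      exact (if_pos (mem_Ico.2 h3)).symm.trans_le (single_le_sum h2 hi)
  refine (sum_le_sum h1).trans ?_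
  rw [sum_comm, sum_mul]
  refine sum_le_sum fun i _ => ?_
  rw [sum_ite_mem]
  refine (sum_le_sum_of_subset_of_nonneg inter_subset_right fun k _ _ => hF k).trans
    ((sum_le_sum fun k _ => hFA k).trans ((Real.sum_sqrt_mul_sqrt_le _ hA hm).trans ?_))
  exact mul_le_mul_of_nonneg_left (Real.sqrt_le_sqrt (hQ _)) (Real.sqrt_nonneg _)

theorem runA_form {Y : Type} [Fintype Y] {K : ℕ → Matrix Y Y ℝ} (hK : ∀ k, DStoch (K k)) {c : ℝ}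
    (hc : 0 ≤ c) (x : ℕ → Y → ℝ) (k : ℕ) : 0 ≤ form K c x k :=
  add_nonneg (sum_nonneg fun v _ => sum_nonneg fun w _ => mul_nonneg ((hK k).1 v w) (sq_nonneg _))
    (mul_nonneg hc (sum_nonneg fun _ _ => sq_nonneg _))

theorem runA_far0 (E : Set Z3) (Kc : ℕ) (B : Finset Z3) (c0 : Z3) (L R : ℕ) :
    0 ≤ farW E Kc B c0 L R :=
  sum_nonneg fun e _ => mul_nonneg (zero_le_one.trans (one_le_wgt E Kc e)) (sq_nonneg _)

theorem runA_far {Ω : Type} [Fintype Ω] {L s : ℕ} {wt : Ω → ℝ} {U : Ω → Finset (XX L s)}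
    {e1 e2 : ℝ} (h : SliceOk wt U e1 e2) (he : e1 ≤ (1 / 2) ^ 200) {Kc : ℕ} (hKc : 8 * aa Kc ≤ L)
    (B : Finset Z3) (c0 : Z3) (R : ℕ) : Ex wt (fun o => farW (liftE (U o)) Kc B c0 L R) ≤
      2 * ∑ e ∈ cube c0 L, (∑ a ∈ B, if 2 * R < nrm (e - a) then th (e - a) else 0) ^ 2 := by
  simp only [farW]
  rw [Ex_sum, mul_sum]
  refine sum_le_sum fun e _ => ?_
  rw [Ex_mul_const]
  exact mul_le_mul_of_nonneg_right (ex_wgt h he hKc e) (sq_nonneg _)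

theorem runA_slice (s G : ℕ) [NeZero s] : ∃ C : ℝ, 0 < C ∧ ∀ {Ω : Type} {L : ℕ} [NeZero L]
    {T : TL Ω (XX L s)} {o : Ω}, T.g.Ok → T.g.G = G → T.g.Inv (T.om o) (T.U o) →
    ∀ {Kc K R r nw : ℕ}, Geo L Kc K R r nw → ∀ {ρ nst : ℕ} {B : Finset Z3} {c0 : Z3}, 1 ≤ ρ →
    (∀ a ∈ B, 8 * nrm (a - c0) ≤ L) → (∀ e, (B.filter fun a => nrm (e - a) ≤ 2 * R).card ≤ nst) →
    ∀ (k : ℕ) (μ : Z3 → XX L s → ℝ) {m σ mb : ℝ}, (∀ a ∈ B, ∀ v, 0 ≤ μ a v) →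
    (∀ a ∈ B, ∀ v, μ a v ≠ 0 →
      T.good Kc R a o k ∧ v.1 ∈ tball (prj L a) R ∧ v ∉ T.U o (k * T.g.M)) →
    (∀ a ∈ B, ∑ v, μ a v ≤ m) → m ≤ mb → (∀ a ∈ B, ∀ v, μ a v ≤ σ) →
    ∀ x : ℕ → XX L s → ℝ, (∀ k v, 0 ≤ x k v) →
    ∑ a ∈ B, μ a ⬝ᵥ x k ≤ √(C / T.g.p * (nst * (B.card * ((ρ : ℝ) ^ 2 * (m * σ) + m ^ 2 / ρ)) +
        mb ^ 2 * farW (liftE (T.U o (k * T.g.M))) Kc B c0 L R)) *
      √(form (T.g.Ks (T.om o) (T.U o)) (T.g.p / (r : ℝ) ^ 2) x k) := by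
  obtain ⟨C1, h1, hs⟩ := slice_bound s
  obtain ⟨C2, h2, hq⟩ := quiet_form s G
  refine ⟨C1 ^ 2 * C2, by positivity, fun {Ω L} _ {T o} hg hG hi {Kc K R r nw} geo {ρ nst B c0}
    hρ hc hn k μ {m σ mb} h0 hok hm hmb hσ x hx => ?_⟩
  by_cases hz : ∀ a ∈ B, ∀ v, μ a v = 0
  · refine le_of_eq_of_le (sum_eq_zero fun a ha => sum_eq_zero fun v _ => ?_) (by positivity)
    rw [hz a ha, zero_mul]
  push Not at hz
  obtain ⟨a0, ha0, v0, hv0⟩ := hz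
  obtain ⟨⟨g1, g2, -⟩, -⟩ := hok a0 ha0 v0 hv0
  have hp := hg.p_pos
  have h3 := hs L (T.U o (k * T.g.M)) Kc K R r nw ρ nst B c0 (fun a v => if a ∈ B then μ a v else 0)
    (fun _ => m) (fun _ => σ) mb (x k) geo hρ hc hn g2
    (fun a v => by
      split_ifs with h
      exacts [h0 a h v, le_rfl])
    (fun a ha v hv => by
      obtain ⟨b1, b2, b3⟩ := hok a ha v (by simpa [ha] using hv)
      exact ⟨b3, b2, b1.2.2⟩)
    (fun a ha => by simpa [ha] using hm a ha) (fun _ _ => hmb)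
    (fun a ha v => by simpa [ha] using hσ a ha v)
  have h4 := (le_div_iff₀' hp).2 (hq L T.g hg hG _ _ hi k g1 x r)
  rw [sum_const, nsmul_eq_mul] at h3
  refine le_of_eq_of_le (sum_congr rfl fun a ha => ?_) (h3.trans ((mul_le_mul_of_nonneg_left
    (Real.sqrt_le_sqrt h4) (by positivity)).trans (le_of_eq ?_)))
  · simp [ha, dotProduct, abs_of_nonneg (hx k _)]
  · rw [mul_div_right_comm, Real.sqrt_mul (by positivity), mul_div_assoc, mul_assoc (C1 ^ 2),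
      Real.sqrt_mul (by positivity), Real.sqrt_mul (x := C2 / T.g.p) (by positivity),
      Real.sqrt_sq h1.le]
    ring

end Vale.Agent.P361
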