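import Vale.Agent.P361.RunDetA

namespace Vale.Agent.P361

open Matrix Finset

noncomputable def rundetSg (J u k : ℕ) : ℝ :=
  if J ≤ k ∧ k < J + u then 1 / ((J + u - k : ℕ) : ℝ) else 0

lemma rundet_sg_nonneg (J u k : ℕ) : 0 ≤ rundetSg J u k := by
  unfold rundetSg; split_ifs <;> positivity

lemma rundet_sg_le (J u k : ℕ) : rundetSg J u k ≤ 1 := by
  unfold rundetSg
  split_ifs with h
  · have : (1 : ℝ) ≤ ((J + u - k : ℕ) : ℝ) := by exact_mod_cast (by omega : 1 ≤ J + u - k)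
    rw [div_le_one (by linarith)]
    exact this
  · norm_num

lemma rundet_sg_val (J u : ℕ) {i : ℕ} (hi : i < u) : rundetSg J u (J + i) = 1 / ((u : ℝ) - i) := by
  unfold rundetSg
  rw [if_pos ⟨by omega, by omega⟩, show J + u - (J + i) = u - i by omega, Nat.cast_sub hi.le]

lemma rundet_sg_prod (J : ℕ) {u : ℕ} (hu : 1 ≤ u) {i : ℕ} (hi : i ≤ u) :
    ∏ k ∈ range (J + i), (1 - rundetSg J u k) = ((u : ℝ) - i) / u := by
  have hu' : (0 : ℝ) < u := by exact_mod_cast hu
  induction i with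
  | zero =>
    rw [Nat.cast_zero, sub_zero, div_self hu'.ne']
    refine Finset.prod_eq_one fun k hk => ?_
    have := Finset.mem_range.1 hk
    unfold rundetSg
    rw [if_neg (by omega), sub_zero]
  | succ i ih =>
    rw [← add_assoc, Finset.prod_range_succ, ih (by omega), rundet_sg_val J u (by omega)]
    have : (0 : ℝ) < (u : ℝ) - i := by
      have : (i : ℝ) < u := by exact_mod_cast (by omega : i < u)
      linarith
    push_cast
    field_simp
    ring

lemma rundet_sg_mul (J : ℕ) {u : ℕ} (hu : 1 ≤ u) (k : ℕ) :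
    rundetSg J u k * ∏ i ∈ range k, (1 - rundetSg J u i) ≤
      if J ≤ k ∧ k < J + u then 1 / (u : ℝ) else 0 := by
  split_ifs with h
  · obtain ⟨i, rfl⟩ := Nat.exists_eq_add_of_le h.1
    have hi : i < u := by omega
    rw [rundet_sg_prod J hu hi.le, rundet_sg_val J u hi]
    have : (0 : ℝ) < (u : ℝ) - i := by
      have : (i : ℝ) < u := by exact_mod_cast hi
      linarith
    refine le_of_eq ?_
    field_simp
  · unfold rundetSg
    rw [if_neg h, zero_mul]

open Classical in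
lemma rundet_nbad (good : ℕ → Prop) (T u : ℕ) :
    (nbad good T u : ℝ) = ∑ k ∈ range u, if good (T + k) then 0 else 1 := by
  unfold nbad
  rw [Finset.card_filter, Finset.sum_Ico_eq_sum_range, Nat.add_sub_cancel_left]
  push_cast
  refine Finset.sum_congr rfl fun k _ => ?_
  by_cases h : good (T + k) <;> simp [h]

open Classical in
lemma rundet_surv (good : ℕ → Prop) (T : ℕ) {u : ℕ} (hu : 1 ≤ u) {q : ℝ} (hq0 : 0 ≤ q)
    (hq1 : q ≤ 1) {x : ℕ → ℝ} (hx : ∀ k < u, x k = if good (T + k) then q else 0) :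
    ∏ k ∈ range u, (1 - x k) ≤ Real.exp (-(q * u / 2)) + 2 * (nbad good T u : ℝ) / u := by
  have hu' : (0 : ℝ) < u := by exact_mod_cast hu
  have h1 : ∏ k ∈ range u, (1 - x k) ≤ ∏ k ∈ range u, Real.exp (-x k) := by
    refine Finset.prod_le_prod (fun k hk => ?_) fun k _ => ?_
    · rw [hx k (Finset.mem_range.1 hk)]
      split_ifs <;> linarith
    · linarith [Real.add_one_le_exp (-x k)]
  rw [← Real.exp_sum] at h1
  have h2 : ∑ k ∈ range u, -x k = -(q * (u - nbad good T u)) := by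
    rw [rundet_nbad, mul_sub, Finset.mul_sum, neg_sub, eq_sub_iff_add_eq]
    have : q * (u : ℝ) = ∑ k ∈ range u, q := by simp [mul_comm]
    rw [this, ← Finset.sum_add_distrib]
    refine Finset.sum_congr rfl fun k hk => ?_
    rw [hx k (Finset.mem_range.1 hk)]
    split_ifs <;> ring
  rw [h2] at h1
  refine h1.trans ?_
  have hb0 : (0 : ℝ) ≤ nbad good T u := Nat.cast_nonneg _
  by_cases hb : 2 * (nbad good T u : ℝ) ≤ u
  · have h3 : Real.exp (-(q * (u - nbad good T u))) ≤ Real.exp (-(q * u / 2)) :=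
      Real.exp_le_exp.2 (by nlinarith)
    have h4 : 0 ≤ 2 * (nbad good T u : ℝ) / u := by positivity
    linarith
  · have hle : (nbad good T u : ℝ) ≤ u := by
      rw [rundet_nbad]
      refine (Finset.sum_le_card_nsmul _ _ 1 fun k _ => by split_ifs <;> norm_num).trans ?_
      simp
    have h3 : Real.exp (-(q * (u - nbad good T u))) ≤ 1 :=
      Real.exp_le_one_iff.2 (by nlinarith)
    have h4 : 1 ≤ 2 * (nbad good T u : ℝ) / u := by
      rw [le_div_iff₀ hu']
      linarith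
    linarith [Real.exp_pos (-(q * u / 2))]

open Classical in
lemma rundet_bad_sum (good : ℕ → Prop) (J u N : ℕ) :
    ∑ k ∈ range N, (if good k then (0 : ℝ) else if J ≤ k ∧ k < J + u then 1 / (u : ℝ) else 0) ≤
      (nbad good J u : ℝ) / u := by
  have e : ∀ k, (if good k then (0 : ℝ) else if J ≤ k ∧ k < J + u then 1 / (u : ℝ) else 0) =
      if ¬ good k ∧ J ≤ k ∧ k < J + u then 1 / (u : ℝ) else 0 := fun k => by
    by_cases h : good k <;> simp [h]
  simp only [e]
  rw [← Finset.sum_filter, Finset.sum_const, nsmul_eq_mul, mul_one_div]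
  refine div_le_div_of_nonneg_right ?_ (Nat.cast_nonneg _)
  unfold nbad
  refine Nat.cast_le.2 (Finset.card_le_card fun k hk => ?_)
  obtain ⟨-, h1, h2⟩ := Finset.mem_filter.1 hk
  exact Finset.mem_filter.2 ⟨Finset.mem_Ico.2 h2, h1⟩

namespace RunDetD

variable {Y : Type} [Fintype Y] [DecidableEq Y] (D : RunDetD Y)

open Classical in
noncomputable def mu0 (good : ℕ → Prop) (N k : ℕ) (v : Y) : ℝ :=
  if k < N ∧ good k then D.sg k * D.A0 k v else 0

noncomputable def mu1 (N k : ℕ) (v : Y) : ℝ := if k < N then D.qk k * D.A1 k v else 0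

noncomputable def occ (N k : ℕ) (v : Y) : ℝ := if k < N then D.c0 k v + D.c1 k v else 0

open Classical in
noncomputable def lam (good : ℕ → Prop) (N k : ℕ) (v : Y) : ℝ :=
  if k < N then D.kill k v + (if good k then 0 else D.sg k * D.A0 k v)
  else if k = N then D.F0 k v + D.F1 k v else 0

lemma ident' (good : ℕ → Prop) (h s : ℕ → Y → ℝ)
    (hh : ∀ k v, h k v = s k v + D.d k v * (D.K k *ᵥ h (k + 1)) v) (N : ℕ) :
    h 0 D.a = ∑ k ∈ range (N + 1), (D.occ N k ⬝ᵥ s k + (D.mu0 good N k + D.mu1 N k) ⬝ᵥ h k +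
      D.lam good N k ⬝ᵥ h k) := by
  rw [D.ident h s hh N, Finset.sum_range_succ]
  refine congrArg₂ _ (Finset.sum_congr rfl fun k hk => ?_) ?_
  · have hk' := Finset.mem_range.1 hk
    simp only [dotProduct, ← Finset.sum_add_distrib, Pi.add_apply]
    refine Finset.sum_congr rfl fun v _ => ?_
    unfold occ mu0 mu1 lam
    by_cases hg : good k <;> simp only [hk', hg, if_true, if_false, and_true, and_false] <;> ring
  · simp [dotProduct, occ, mu0, mu1, lam]

variable {D}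

lemma Ok.sgA0 (h : D.Ok) {J u : ℕ} (hu : 1 ≤ u) (hsg : D.sg = rundetSg J u) (k : ℕ) (v : Y) :
    D.sg k * D.A0 k v ≤ (if J ≤ k ∧ k < J + u then 1 / (u : ℝ) else 0) * kp D.Kb 0 k D.a v := by
  have h1 := mul_le_mul_of_nonneg_left ((h.A0_le k v).trans (h.F0_le k v)) (h.sg0 k)
  refine h1.trans ?_
  rw [← mul_assoc, hsg]
  exact mul_le_mul_of_nonneg_right (rundet_sg_mul J hu k) (kp_nonneg h.hKb0 _ _ _ _)

lemma Ok.F0_end (h : D.Ok) {J u : ℕ} (hu : 1 ≤ u) (hsg : D.sg = rundetSg J u) :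
    D.F0 (J + u) = 0 := by
  funext v
  refine le_antisymm ((h.F0_le _ v).trans (le_of_eq ?_)) (h.F0_nonneg _ v)
  rw [hsg, rundet_sg_prod J hu le_rfl]
  simp

lemma Ok.mass_le (h : D.Ok) (good : ℕ → Prop) {J u : ℕ} (hu : 1 ≤ u) (hsg : D.sg = rundetSg J u) :
    mass (J + 2 * u) (D.lam good (J + 2 * u)) ≤
      (∑ k ∈ range (J + 2 * u), ∑ v, D.kill k v) + (nbad good J u : ℝ) / u +
        ∏ k ∈ range u, (1 - D.qk (J + u + k)) := by
  classical
  unfold mass
  rw [Finset.sum_range_succ]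
  refine add_le_add ?_ ?_
  · refine le_trans ?_ (add_le_add le_rfl (rundet_bad_sum good J u (J + 2 * u)))
    rw [← Finset.sum_add_distrib]
    refine Finset.sum_le_sum fun k hk => ?_
    have hk' := Finset.mem_range.1 hk
    simp only [lam, hk', if_true, Finset.sum_add_distrib]
    refine add_le_add le_rfl ?_
    by_cases hg : good k
    · simp [hg]
    · simp only [hg, if_false]
      refine (Finset.sum_le_sum fun v _ => h.sgA0 hu hsg k v).trans ?_
      rw [← Finset.mul_sum]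
      exact mul_le_of_le_one_right (by split_ifs <;> positivity) (h.row_le _ _ _)
  · obtain ⟨S, -, hS1, hS2⟩ := h.arrival (J + u) u
    have h0 := h.F0_prop (J + u) u
    rw [h.F0_end hu hsg] at hS2 h0
    simp only [Matrix.zero_vecMul, Pi.zero_apply, sub_zero, add_zero] at hS2 h0
    rw [show J + u + u = J + 2 * u by ring] at hS2 h0
    refine le_trans (Finset.sum_le_sum fun v _ => ?_) hS1
    simp only [lam, lt_irrefl, if_false, if_true]
    linarith [hS2 v, h0 v]

lemma Ok.occ_le (h : D.Ok) (N T m u : ℕ) (hm : u ≤ m) (b : Y) {σ : ℝ}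
    (hσ : ∀ v, kp D.Kb 0 T D.a v ≤ σ) :
    D.occ N (T + m) b ≤ kp D.Kb 0 (T + m) D.a b + ∏ k ∈ range u, (1 - D.qk (T + k)) +
      σ * (1 - ∑ v, kp D.Kb T m v b) := by
  have h1 : D.occ N (T + m) b ≤ D.F0 (T + m) b + D.F1 (T + m) b := by
    unfold occ
    split_ifs
    · exact add_le_add ((h.c0_le _ b).trans (h.A0_le _ b)) ((h.c1_le _ b).trans (h.A1_le _ b))
    · exact add_nonneg (h.F0_nonneg _ b) (h.F1_nonneg _ b)
  obtain ⟨S, hS0, hS1, hS2⟩ := h.arrival T m
  have h2 := Finset.single_le_sum (f := S) (fun x _ => hS0 x) (Finset.mem_univ b)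
  have h3 : ∏ k ∈ range m, (1 - D.qk (T + k)) ≤ ∏ k ∈ range u, (1 - D.qk (T + k)) := by
    obtain ⟨r, rfl⟩ := Nat.exists_eq_add_of_le hm
    rw [Finset.prod_range_add]
    exact mul_le_of_le_one_right (Finset.prod_nonneg fun k _ => sub_nonneg.2 (h.qk1 _))
      (Finset.prod_le_one (fun k _ => sub_nonneg.2 (h.qk1 _)) fun k _ => by
        linarith [h.qk0 (T + (u + k))])
  have h4 : (D.F0 T ᵥ* kp D.K T m) b - (D.F0 T ᵥ* kp D.Kb T m) b ≤
      σ * (1 - ∑ v, kp D.Kb T m v b) := by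
    rw [← (kp_dstoch h.hK T m).2.2 b, ← Finset.sum_sub_distrib, Finset.mul_sum]
    simp only [Matrix.vecMul, dotProduct]
    rw [← Finset.sum_sub_distrib]
    refine Finset.sum_le_sum fun v _ => ?_
    rw [← mul_sub]
    exact mul_le_mul_of_nonneg_right ((h.F0_le' T v).trans (hσ v))
      (sub_nonneg.2 (kp_mono h.hKb0 h.hKb T m v b))
  linarith [h.F0_le' (T + m) b, hS2 b]

end RunDetD

theorem run_det {Y : Type} [Fintype Y] [DecidableEq Y] (K Kb : ℕ → Matrix Y Y ℝ) (d : ℕ → Y → ℝ)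
    (W Reg : ℕ → Finset Y) (good : ℕ → Prop) (Φ : ℕ → ℕ → Y → ℝ) (n u J0 k0 w nw : ℕ) (q : ℝ)
    (a : Y) (hK : ∀ k, DStoch (K k)) (hKb0 : ∀ k v v', 0 ≤ Kb k v v')
    (hKb : ∀ k v v', Kb k v v' ≤ K k v v') (hd0 : ∀ k v, 0 ≤ d k v) (hd1 : ∀ k v, d k v ≤ 1)
    (hW : ∀ k v v', v ∈ W k → K k v v' ≠ 0 → v' ∈ W (k + 1)) (haW : a ∈ W 0) (haR : a ∈ Reg 0)
    (hu : 1 ≤ u) (hJ : J0 + 2 * u ≤ n) (hw : 1 ≤ w) (hN : k0 * n + J0 + 2 * u ≤ nw * w)
    (hq0 : 0 ≤ q) (hq1 : q ≤ 1) (hΦ0 : ∀ j k v, 0 ≤ Φ j k v)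
    (hΦ1 : ∀ j k v, j * w < k → k ≤ (j + 1) * w → v ∉ Reg k → 1 ≤ Φ j k v)
    (hΦ2 : ∀ j k v, j * w ≤ k → k < (j + 1) * w → (K k *ᵥ Φ j (k + 1)) v ≤ Φ j k v) :
    ∃ mu0 mu1 lam occ : ℕ → Y → ℝ,
      RunRaw K Kb d n u J0 k0 q a (fun k v => good k ∧ v ∈ Reg k ∧ v ∈ W k) mu0 mu1 lam occ ∧
      mass (k0 * n + J0 + 2 * u) lam ≤
        (∑ j ∈ range nw, ∑ v ∈ Reg (j * w), Φ j (j * w) v) +
          (nbad good (k0 * n + J0) u : ℝ) / u + Real.exp (-(q * u / 2)) +
          2 * (nbad good (k0 * n + J0 + u) u : ℝ) / u ∧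
      ∀ (j : ℕ) (b : Y) (σ : ℝ), 1 ≤ j → j ≤ k0 →
        (∀ v, kp Kb 0 ((j - 1) * n + J0 + u) a v ≤ σ) →
        occ (j * n) b ≤ kp Kb 0 (j * n) a b + Real.exp (-(q * u / 2)) +
          2 * (nbad good ((j - 1) * n + J0 + u) u : ℝ) / u +
          σ * (1 - ∑ v, kp Kb ((j - 1) * n + J0 + u) (n - (J0 + u)) v b) := by
  classical
  set D : RunDetD Y := ⟨K, Kb, d, Reg, rundetSg (k0 * n + J0) u,
    fun k => if good k ∧ J0 + u ≤ k % n ∧ k % n < J0 + 2 * u then q else 0, a⟩ with hD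
  have h : D.Ok := ⟨hK, hKb0, hKb, hd0, hd1, rundet_sg_nonneg _ _, rundet_sg_le _ _,
    fun k => by simp only [hD]; split_ifs <;> linarith,
    fun k => by simp only [hD]; split_ifs <;> linarith⟩
  have hsg : D.sg = rundetSg (k0 * n + J0) u := rfl
  have hqk : ∀ k, D.qk k = if good k ∧ J0 + u ≤ k % n ∧ k % n < J0 + 2 * u then q else 0 :=
    fun k => rfl
  have hu' : (0 : ℝ) < u := by exact_mod_cast hu
  have hsurv : ∀ m, ∏ k ∈ range u, (1 - D.qk (m * n + J0 + u + k)) ≤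
      Real.exp (-(q * u / 2)) + 2 * (nbad good (m * n + J0 + u) u : ℝ) / u := fun m => by
    refine rundet_surv good _ hu hq0 hq1 fun k hk => ?_
    have hmod : (m * n + J0 + u + k) % n = J0 + u + k := by
      rw [add_assoc, add_assoc, Nat.mul_add_mod_self_right, Nat.mod_eq_of_lt (by omega)]
      ring
    rw [hqk, hmod]
    have h1 : J0 + u ≤ J0 + u + k ∧ J0 + u + k < J0 + 2 * u := by omega
    simp only [h1, and_true]
  have hA0 : ∀ k v, D.A0 k v ≠ 0 → v ∈ Reg k ∧ v ∈ W k := fun k v hv => by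
    have h1 : v ∈ D.Reg k := by
      by_contra hc
      exact hv (if_neg hc)
    refine ⟨h1, h.supp hW haW k v fun hc => hv ?_⟩
    linarith [h.A0_nonneg k v, h.A0_le k v, h.F1_nonneg k v]
  have hA1 : ∀ k v, D.A1 k v ≠ 0 → v ∈ Reg k ∧ v ∈ W k := fun k v hv => by
    have h1 : v ∈ D.Reg k := by
      by_contra hc
      exact hv (if_neg hc)
    refine ⟨h1, h.supp hW haW k v fun hc => hv ?_⟩
    linarith [h.A1_nonneg k v, h.A1_le k v, h.F0_nonneg k v]
  refine ⟨D.mu0 good (k0 * n + J0 + 2 * u), D.mu1 (k0 * n + J0 + 2 * u),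
    D.lam good (k0 * n + J0 + 2 * u), D.occ (k0 * n + J0 + 2 * u),
    ⟨fun k v => ?_, fun k v => ?_, fun k v => ?_, fun k v => ?_, fun f s hf => D.ident' good f s hf _,
      fun k v hv => ?_, fun k v => ?_, fun k v hv => ?_, fun k => ?_⟩, ?_, fun j b σ hj1 hj2 hσ => ?_⟩
  · unfold RunDetD.mu0
    split_ifs
    · exact mul_nonneg (h.sg0 k) (h.A0_nonneg k v)
    · exact le_rfl
  · unfold RunDetD.mu1
    split_ifs
    · exact mul_nonneg (h.qk0 k) (h.A1_nonneg k v)
    · exact le_rfl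
  · unfold RunDetD.lam
    have := h.kill_nonneg k v
    have := mul_nonneg (h.sg0 k) (h.A0_nonneg k v)
    have := h.F0_nonneg k v
    have := h.F1_nonneg k v
    split_ifs <;> linarith
  · unfold RunDetD.occ
    split_ifs
    · exact add_nonneg (h.c0_nonneg k v) (h.c1_nonneg k v)
    · exact le_rfl
  · unfold RunDetD.mu0 at hv
    split_ifs at hv with hc
    · have h1 : k0 * n + J0 ≤ k ∧ k < k0 * n + J0 + u := by
        by_contra hc'
        exact left_ne_zero_of_mul hv (if_neg hc')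
      exact ⟨h1.1, h1.2, hc.2, hA0 k v (right_ne_zero_of_mul hv)⟩
    · exact absurd rfl hv
  · have h0 : 0 ≤ kp Kb 0 k a v := kp_nonneg hKb0 _ _ _ _
    unfold RunDetD.mu0
    split_ifs
    · refine (h.sgA0 hu hsg k v).trans ?_
      split_ifs
      · exact le_of_eq (by ring)
      · rw [zero_mul]; positivity
    · positivity
  · unfold RunDetD.mu1 at hv
    split_ifs at hv with hc
    · have h1 : good k ∧ J0 + u ≤ k % n ∧ k % n < J0 + 2 * u := by
        by_contra hc'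
        exact left_ne_zero_of_mul hv (if_neg hc')
      exact ⟨h1.2.1, h1.2.2, hc, h1.1, hA1 k v (right_ne_zero_of_mul hv)⟩
    · exact absurd rfl hv
  · by_cases hk : k < k0 * n + J0 + 2 * u
    · simp only [RunDetD.mu1, hk, if_true]
      rw [← Finset.mul_sum]
      have h1 : ∑ v, D.A1 k v ≤ ∑ v, D.F1 k v := Finset.sum_le_sum fun v _ => h.A1_le k v
      have h2 := h.F1_mass k
      have h3 := h.row_anti hk.le
      have h4 : D.qk k ≤ q := by rw [hqk]; split_ifs <;> linarith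
      exact mul_le_mul h4 (by linarith) (Finset.sum_nonneg fun v _ => h.A1_nonneg k v) hq0
    · simp only [RunDetD.mu1, hk, if_false, Finset.sum_const_zero]
      exact mul_nonneg hq0 (sub_nonneg.2 (h.row_le _ _ _))
  · have h1 := h.mass_le good hu hsg
    have h2 := h.exit haR hΦ0 hΦ1 hΦ2 nw
    have h3 : ∑ k ∈ range (k0 * n + J0 + 2 * u), ∑ v, D.kill k v ≤
        ∑ k ∈ range (nw * w + 1), ∑ v, D.kill k v :=
      Finset.sum_le_sum_of_subset_of_nonneg (Finset.range_subset_range.2 (by omega))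
        fun k _ _ => Finset.sum_nonneg fun v _ => h.kill_nonneg k v
    have h4 := hsurv k0
    linarith
  · obtain ⟨i, rfl⟩ : ∃ i, j = i + 1 := ⟨j - 1, by omega⟩
    rw [Nat.add_sub_cancel] at hσ ⊢
    have e : (i + 1) * n = i * n + J0 + u + (n - (J0 + u)) := by rw [Nat.succ_mul]; omega
    have h1 := h.occ_le (k0 * n + J0 + 2 * u) (i * n + J0 + u) (n - (J0 + u)) u (by omega) b hσ
    rw [← e] at h1
    have h2 := hsurv i
    linarith

end Vale.Agent.P361
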