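import Vale.Agent.P361.Basic

/-!
# P361: the two component recursion behind the deterministic run
-/

namespace Vale.Agent.P361

open Matrix Finset

structure RunDetD (Y : Type) where
  K : ℕ → Matrix Y Y ℝ
  Kb : ℕ → Matrix Y Y ℝ
  d : ℕ → Y → ℝ
  Reg : ℕ → Finset Y
  sg : ℕ → ℝ
  qk : ℕ → ℝ
  a : Y

namespace RunDetD

variable {Y : Type} [Fintype Y] [DecidableEq Y] (D : RunDetD Y)

noncomputable def F : ℕ → (Y → ℝ) × (Y → ℝ)
  | 0 => (Pi.single D.a 1, 0)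
  | k + 1 =>
    (fun y => ∑ v, (1 - D.sg k) * (if v ∈ D.Reg k then (F k).1 v else 0) * D.d k v * D.Kb k v y,
     fun y => ∑ v, ((1 - D.qk k) * (if v ∈ D.Reg k then (F k).2 v else 0) * D.d k v * D.K k v y +
      (1 - D.sg k) * (if v ∈ D.Reg k then (F k).1 v else 0) * D.d k v *
        (D.K k v y - D.Kb k v y)))

noncomputable def F0 (k : ℕ) : Y → ℝ := (D.F k).1

noncomputable def F1 (k : ℕ) : Y → ℝ := (D.F k).2

noncomputable def A0 (k : ℕ) (v : Y) : ℝ := if v ∈ D.Reg k then D.F0 k v else 0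

noncomputable def A1 (k : ℕ) (v : Y) : ℝ := if v ∈ D.Reg k then D.F1 k v else 0

noncomputable def c0 (k : ℕ) (v : Y) : ℝ := (1 - D.sg k) * D.A0 k v

noncomputable def c1 (k : ℕ) (v : Y) : ℝ := (1 - D.qk k) * D.A1 k v

noncomputable def kill (k : ℕ) (v : Y) : ℝ := if v ∈ D.Reg k then 0 else D.F0 k v + D.F1 k v

lemma F0_zero : D.F0 0 = Pi.single D.a 1 := rfl

lemma F1_zero : D.F1 0 = 0 := rfl

lemma F0_succ (k : ℕ) (y : Y) : D.F0 (k + 1) y = ∑ v, D.c0 k v * D.d k v * D.Kb k v y := rfl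

lemma F1_succ (k : ℕ) (y : Y) : D.F1 (k + 1) y = ∑ v, (D.c1 k v * D.d k v * D.K k v y +
    D.c0 k v * D.d k v * (D.K k v y - D.Kb k v y)) := rfl

lemma F_succ (k : ℕ) (y : Y) : D.F0 (k + 1) y + D.F1 (k + 1) y =
    ∑ v, (D.c0 k v + D.c1 k v) * D.d k v * D.K k v y := by
  rw [F0_succ, F1_succ, ← Finset.sum_add_distrib]
  exact Finset.sum_congr rfl fun v _ => by ring

lemma F_split (k : ℕ) (v : Y) : D.F0 k v + D.F1 k v = D.kill k v + D.A0 k v + D.A1 k v := by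
  unfold kill A0 A1
  split_ifs <;> ring

lemma F_pair (k : ℕ) (h : Y → ℝ) : ∑ y, (D.F0 (k + 1) y + D.F1 (k + 1) y) * h y =
    ∑ v, (D.c0 k v + D.c1 k v) * D.d k v * (D.K k *ᵥ h) v := by
  simp only [F_succ, Finset.sum_mul, Matrix.mulVec, dotProduct, Finset.mul_sum]
  rw [Finset.sum_comm]
  exact Finset.sum_congr rfl fun v _ => Finset.sum_congr rfl fun y _ => by ring

lemma ident (h s : ℕ → Y → ℝ) (hh : ∀ k v, h k v = s k v + D.d k v * (D.K k *ᵥ h (k + 1)) v)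
    (N : ℕ) : h 0 D.a = (∑ k ∈ range N, ∑ v, ((D.c0 k v + D.c1 k v) * s k v +
      (D.sg k * D.A0 k v + D.qk k * D.A1 k v + D.kill k v) * h k v)) +
      ∑ v, (D.F0 N v + D.F1 N v) * h N v := by
  induction N with
  | zero => simp [F0_zero, F1_zero, Pi.single_apply]
  | succ N ih =>
    rw [ih, Finset.sum_range_succ, add_assoc, F_pair, ← Finset.sum_add_distrib]
    refine congrArg₂ _ rfl (Finset.sum_congr rfl fun v _ => ?_)
    have e := hh N v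
    rw [F_split]
    unfold c0 c1
    linear_combination ((1 - D.sg N) * D.A0 N v + (1 - D.qk N) * D.A1 N v) * e

structure Ok : Prop where
  hK : ∀ k, DStoch (D.K k)
  hKb0 : ∀ k v v', 0 ≤ D.Kb k v v'
  hKb : ∀ k v v', D.Kb k v v' ≤ D.K k v v'
  hd0 : ∀ k v, 0 ≤ D.d k v
  hd1 : ∀ k v, D.d k v ≤ 1
  sg0 : ∀ k, 0 ≤ D.sg k
  sg1 : ∀ k, D.sg k ≤ 1
  qk0 : ∀ k, 0 ≤ D.qk k
  qk1 : ∀ k, D.qk k ≤ 1

variable {D}

lemma Ok.F_nonneg (h : D.Ok) (k : ℕ) : (∀ v, 0 ≤ D.F0 k v) ∧ ∀ v, 0 ≤ D.F1 k v := by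
  induction k with
  | zero =>
    refine ⟨fun v => ?_, fun v => le_rfl⟩
    rw [F0_zero, Pi.single_apply]
    split_ifs <;> norm_num
  | succ k ih =>
    have h0 : ∀ v, 0 ≤ D.c0 k v := fun v => mul_nonneg (sub_nonneg.2 (h.sg1 k)) (by
      unfold A0; split_ifs
      · exact ih.1 v
      · exact le_rfl)
    have h1 : ∀ v, 0 ≤ D.c1 k v := fun v => mul_nonneg (sub_nonneg.2 (h.qk1 k)) (by
      unfold A1; split_ifs
      · exact ih.2 v
      · exact le_rfl)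
    refine ⟨fun y => ?_, fun y => ?_⟩
    · rw [F0_succ]
      exact Finset.sum_nonneg fun v _ => mul_nonneg (mul_nonneg (h0 v) (h.hd0 k v)) (h.hKb0 k v y)
    · rw [F1_succ]
      exact Finset.sum_nonneg fun v _ => add_nonneg
        (mul_nonneg (mul_nonneg (h1 v) (h.hd0 k v)) ((h.hK k).1 v y))
        (mul_nonneg (mul_nonneg (h0 v) (h.hd0 k v)) (sub_nonneg.2 (h.hKb k v y)))

lemma Ok.F0_nonneg (h : D.Ok) (k : ℕ) (v : Y) : 0 ≤ D.F0 k v := (h.F_nonneg k).1 v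

lemma Ok.F1_nonneg (h : D.Ok) (k : ℕ) (v : Y) : 0 ≤ D.F1 k v := (h.F_nonneg k).2 v

lemma Ok.A0_nonneg (h : D.Ok) (k : ℕ) (v : Y) : 0 ≤ D.A0 k v := by
  unfold A0; split_ifs
  · exact h.F0_nonneg k v
  · exact le_rfl

lemma Ok.A1_nonneg (h : D.Ok) (k : ℕ) (v : Y) : 0 ≤ D.A1 k v := by
  unfold A1; split_ifs
  · exact h.F1_nonneg k v
  · exact le_rfl

lemma Ok.A0_le (h : D.Ok) (k : ℕ) (v : Y) : D.A0 k v ≤ D.F0 k v := by
  unfold A0; split_ifs
  · exact le_rfl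
  · exact h.F0_nonneg k v

lemma Ok.A1_le (h : D.Ok) (k : ℕ) (v : Y) : D.A1 k v ≤ D.F1 k v := by
  unfold A1; split_ifs
  · exact le_rfl
  · exact h.F1_nonneg k v

lemma Ok.kill_nonneg (h : D.Ok) (k : ℕ) (v : Y) : 0 ≤ D.kill k v := by
  unfold kill; split_ifs
  · exact le_rfl
  · exact add_nonneg (h.F0_nonneg k v) (h.F1_nonneg k v)

lemma Ok.c0_nonneg (h : D.Ok) (k : ℕ) (v : Y) : 0 ≤ D.c0 k v :=
  mul_nonneg (sub_nonneg.2 (h.sg1 k)) (h.A0_nonneg k v)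

lemma Ok.c1_nonneg (h : D.Ok) (k : ℕ) (v : Y) : 0 ≤ D.c1 k v :=
  mul_nonneg (sub_nonneg.2 (h.qk1 k)) (h.A1_nonneg k v)

lemma Ok.c0_le (h : D.Ok) (k : ℕ) (v : Y) : D.c0 k v ≤ D.A0 k v :=
  mul_le_of_le_one_left (h.A0_nonneg k v) (by linarith [h.sg0 k])

lemma Ok.c1_le (h : D.Ok) (k : ℕ) (v : Y) : D.c1 k v ≤ D.A1 k v :=
  mul_le_of_le_one_left (h.A1_nonneg k v) (by linarith [h.qk0 k])

lemma Ok.c0d_le (h : D.Ok) (k : ℕ) (v : Y) : D.c0 k v * D.d k v ≤ (1 - D.sg k) * D.F0 k v :=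
  (mul_le_of_le_one_right (h.c0_nonneg k v) (h.hd1 k v)).trans
    (mul_le_mul_of_nonneg_left (h.A0_le k v) (sub_nonneg.2 (h.sg1 k)))

lemma Ok.c1d_le (h : D.Ok) (k : ℕ) (v : Y) : D.c1 k v * D.d k v ≤ (1 - D.qk k) * D.F1 k v :=
  (mul_le_of_le_one_right (h.c1_nonneg k v) (h.hd1 k v)).trans
    (mul_le_mul_of_nonneg_left (h.A1_le k v) (sub_nonneg.2 (h.qk1 k)))

lemma Ok.c0d_le' (h : D.Ok) (k : ℕ) (v : Y) : D.c0 k v * D.d k v ≤ D.F0 k v :=
  (h.c0d_le k v).trans (mul_le_of_le_one_left (h.F0_nonneg k v) (by linarith [h.sg0 k]))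

lemma Ok.c1d_le' (h : D.Ok) (k : ℕ) (v : Y) : D.c1 k v * D.d k v ≤ D.F1 k v :=
  (h.c1d_le k v).trans (mul_le_of_le_one_left (h.F1_nonneg k v) (by linarith [h.qk0 k]))

lemma Ok.supp (h : D.Ok) {W : ℕ → Finset Y}
    (hW : ∀ k v v', v ∈ W k → D.K k v v' ≠ 0 → v' ∈ W (k + 1)) (haW : D.a ∈ W 0) (k : ℕ) (v : Y)
    (hv : D.F0 k v + D.F1 k v ≠ 0) : v ∈ W k := by
  induction k generalizing v with
  | zero =>
    have : v = D.a := by
      by_contra hc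
      exact hv (by simp [F0_zero, F1_zero, hc])
    rw [this]; exact haW
  | succ k ih =>
    rw [F_succ] at hv
    obtain ⟨x, -, hx⟩ := Finset.exists_ne_zero_of_sum_ne_zero hv
    refine hW k x v (ih x fun hc => ?_) (right_ne_zero_of_mul hx)
    apply left_ne_zero_of_mul (left_ne_zero_of_mul hx)
    linarith [h.c0_nonneg k x, h.c1_nonneg k x, h.c0_le k x, h.c1_le k x, h.A0_le k x,
      h.A1_le k x]

lemma Ok.F0_le (h : D.Ok) (k : ℕ) (v : Y) :
    D.F0 k v ≤ (∏ i ∈ range k, (1 - D.sg i)) * kp D.Kb 0 k D.a v := by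
  induction k generalizing v with
  | zero => simp [F0_zero, Pi.single_apply, Matrix.one_apply, eq_comm]
  | succ k ih =>
    rw [F0_succ, kp_succ, zero_add, Matrix.mul_apply, Finset.prod_range_succ, Finset.mul_sum]
    refine Finset.sum_le_sum fun x _ => ?_
    have h1 := (h.c0d_le k x).trans (mul_le_mul_of_nonneg_left (ih x) (sub_nonneg.2 (h.sg1 k)))
    refine (mul_le_mul_of_nonneg_right h1 (h.hKb0 k x v)).trans (le_of_eq (by ring))

lemma Ok.F0_le' (h : D.Ok) (k : ℕ) (v : Y) : D.F0 k v ≤ kp D.Kb 0 k D.a v :=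
  (h.F0_le k v).trans (mul_le_of_le_one_left (kp_nonneg h.hKb0 _ _ _ _)
    (Finset.prod_le_one (fun i _ => sub_nonneg.2 (h.sg1 i)) fun i _ => by linarith [h.sg0 i]))

lemma Ok.row_le (h : D.Ok) (t len : ℕ) (v : Y) : ∑ x, kp D.Kb t len v x ≤ 1 := by
  rw [← (kp_dstoch h.hK t len).2.1 v]
  exact Finset.sum_le_sum fun x _ => kp_mono h.hKb0 h.hKb t len v x

lemma Ok.row_anti (h : D.Ok) {k N : ℕ} (hk : k ≤ N) :
    ∑ x, kp D.Kb 0 N D.a x ≤ ∑ x, kp D.Kb 0 k D.a x := by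
  obtain ⟨i, rfl⟩ := Nat.exists_eq_add_of_le hk
  rw [kp_add]
  simp only [Matrix.mul_apply]
  rw [Finset.sum_comm]
  refine Finset.sum_le_sum fun v _ => ?_
  rw [← Finset.mul_sum]
  exact mul_le_of_le_one_right (kp_nonneg h.hKb0 _ _ _ _) (h.row_le _ _ _)

lemma Ok.F1_mass (h : D.Ok) (k : ℕ) : ∑ v, D.F1 k v ≤ 1 - ∑ v, kp D.Kb 0 k D.a v := by
  induction k with
  | zero => simp [F1_zero, Matrix.one_apply]
  | succ k ih =>
    simp only [F1_succ, kp_succ, zero_add, Matrix.mul_apply]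
    rw [Finset.sum_comm, Finset.sum_comm (f := fun v x => kp D.Kb 0 k D.a x * D.Kb k x v)]
    have h1 : ∀ x, ∑ y, (D.c1 k x * D.d k x * D.K k x y +
        D.c0 k x * D.d k x * (D.K k x y - D.Kb k x y)) ≤
        D.F1 k x + kp D.Kb 0 k D.a x - ∑ y, kp D.Kb 0 k D.a x * D.Kb k x y := fun x => by
      rw [Finset.sum_add_distrib, ← Finset.mul_sum, ← Finset.mul_sum, ← Finset.mul_sum,
        Finset.sum_sub_distrib, (h.hK k).2.1 x]
      have h2 : ∑ y, D.Kb k x y ≤ 1 := by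
        rw [← (h.hK k).2.1 x]
        exact Finset.sum_le_sum fun y _ => h.hKb k x y
      have h3 := mul_le_mul_of_nonneg_right ((h.c0d_le' k x).trans (h.F0_le' k x))
        (sub_nonneg.2 h2)
      have h4 := h.c1d_le' k x
      linarith
    refine (Finset.sum_le_sum fun x _ => h1 x).trans ?_
    rw [Finset.sum_sub_distrib, Finset.sum_add_distrib]
    linarith

lemma Ok.F1_mass' (h : D.Ok) (k : ℕ) : ∑ v, D.F1 k v ≤ 1 := by
  have h1 := h.F1_mass k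
  have h2 : 0 ≤ ∑ v, kp D.Kb 0 k D.a v := Finset.sum_nonneg fun v _ => kp_nonneg h.hKb0 _ _ _ _
  linarith

lemma Ok.F_le_one (h : D.Ok) (k : ℕ) (v : Y) : D.F0 k v + D.F1 k v ≤ 1 := by
  have h1 := h.F1_mass k
  have h2 : ∑ v, D.F0 k v ≤ ∑ v, kp D.Kb 0 k D.a v := Finset.sum_le_sum fun v _ => h.F0_le' k v
  have h3 := Finset.single_le_sum (f := D.F0 k) (fun x _ => h.F0_nonneg k x) (Finset.mem_univ v)
  have h4 := Finset.single_le_sum (f := D.F1 k) (fun x _ => h.F1_nonneg k x) (Finset.mem_univ v)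
  linarith

lemma Ok.exit_step (h : D.Ok) {Φ Φ' : Y → ℝ} {k : ℕ} (h0 : ∀ v, 0 ≤ Φ' v)
    (h1 : ∀ v, v ∉ D.Reg (k + 1) → 1 ≤ Φ' v) (h2 : ∀ v, (D.K k *ᵥ Φ') v ≤ Φ v) :
    (∑ v, D.kill (k + 1) v) + ∑ v, (D.A0 (k + 1) v + D.A1 (k + 1) v) * Φ' v ≤
      ∑ v, (D.A0 k v + D.A1 k v) * Φ v := by
  have h3 : (∑ v, D.kill (k + 1) v) + ∑ v, (D.A0 (k + 1) v + D.A1 (k + 1) v) * Φ' v ≤
      ∑ y, (D.F0 (k + 1) y + D.F1 (k + 1) y) * Φ' y := by
    rw [← Finset.sum_add_distrib]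
    refine Finset.sum_le_sum fun v _ => ?_
    have h4 : D.kill (k + 1) v ≤ D.kill (k + 1) v * Φ' v := by
      by_cases hv : v ∈ D.Reg (k + 1)
      · simp [kill, hv]
      · exact le_mul_of_one_le_right (h.kill_nonneg _ _) (h1 v hv)
    rw [F_split]
    linarith
  refine h3.trans ?_
  rw [F_pair]
  refine Finset.sum_le_sum fun v _ => ?_
  have h5 : 0 ≤ (D.K k *ᵥ Φ') v :=
    Finset.sum_nonneg fun y _ => mul_nonneg ((h.hK k).1 v y) (h0 y)
  have h6 : (D.c0 k v + D.c1 k v) * D.d k v ≤ D.A0 k v + D.A1 k v :=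
    (mul_le_of_le_one_right (add_nonneg (h.c0_nonneg k v) (h.c1_nonneg k v)) (h.hd1 k v)).trans
      (add_le_add (h.c0_le k v) (h.c1_le k v))
  exact mul_le_mul h6 (h2 v) h5 (add_nonneg (h.A0_nonneg k v) (h.A1_nonneg k v))

lemma Ok.exit_window (h : D.Ok) {Φ : ℕ → Y → ℝ} {T w : ℕ} (h0 : ∀ k v, 0 ≤ Φ k v)
    (h1 : ∀ k v, T < k → k ≤ T + w → v ∉ D.Reg k → 1 ≤ Φ k v)
    (h2 : ∀ k v, T ≤ k → k < T + w → (D.K k *ᵥ Φ (k + 1)) v ≤ Φ k v) :
    ∑ i ∈ range w, ∑ v, D.kill (T + i + 1) v ≤ ∑ v ∈ D.Reg T, Φ T v := by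
  have key : ∀ m, m ≤ w → (∑ i ∈ range m, ∑ v, D.kill (T + i + 1) v) +
      ∑ v, (D.A0 (T + m) v + D.A1 (T + m) v) * Φ (T + m) v ≤
      ∑ v, (D.A0 T v + D.A1 T v) * Φ T v := by
    intro m hm
    induction m with
    | zero => simp
    | succ m ih =>
      have h3 := h.exit_step (k := T + m) (Φ := Φ (T + m)) (h0 (T + m + 1))
        (fun v => h1 _ v (by omega) (by omega)) (fun v => h2 _ v (by omega) (by omega))
      have h4 := ih (by omega)
      rw [Finset.sum_range_succ, ← add_assoc T m 1]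
      linarith
  have h3 := key w le_rfl
  have h4 : 0 ≤ ∑ v, (D.A0 (T + w) v + D.A1 (T + w) v) * Φ (T + w) v :=
    Finset.sum_nonneg fun v _ => mul_nonneg (add_nonneg (h.A0_nonneg _ v) (h.A1_nonneg _ v))
      (h0 _ v)
  have h5 : ∑ v, (D.A0 T v + D.A1 T v) * Φ T v ≤ ∑ v, if v ∈ D.Reg T then Φ T v else 0 := by
    refine Finset.sum_le_sum fun v _ => ?_
    unfold A0 A1
    split_ifs
    · exact mul_le_of_le_one_left (h0 T v) (h.F_le_one T v)
    · simp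
  rw [← Finset.sum_filter, Finset.filter_mem_eq_inter, Finset.univ_inter] at h5
  linarith

lemma Ok.exit (h : D.Ok) {Φ : ℕ → ℕ → Y → ℝ} {w : ℕ} (haR : D.a ∈ D.Reg 0)
    (h0 : ∀ j k v, 0 ≤ Φ j k v)
    (h1 : ∀ j k v, j * w < k → k ≤ (j + 1) * w → v ∉ D.Reg k → 1 ≤ Φ j k v)
    (h2 : ∀ j k v, j * w ≤ k → k < (j + 1) * w → (D.K k *ᵥ Φ j (k + 1)) v ≤ Φ j k v) (nw : ℕ) :
    ∑ k ∈ range (nw * w + 1), ∑ v, D.kill k v ≤
      ∑ j ∈ range nw, ∑ v ∈ D.Reg (j * w), Φ j (j * w) v := by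
  induction nw with
  | zero =>
    simp only [zero_mul, zero_add, Finset.range_one, Finset.sum_singleton, Finset.range_zero,
      Finset.sum_empty]
    refine le_of_eq (Finset.sum_eq_zero fun v _ => ?_)
    unfold kill
    split_ifs with hv
    · rfl
    · have : v ≠ D.a := fun e => hv (e ▸ haR)
      simp [F0_zero, F1_zero, this]
  | succ j ih =>
    have h3 := h.exit_window (Φ := Φ j) (T := j * w) (w := w) (h0 j)
      (fun k v a b => h1 j k v a (by rw [Nat.succ_mul]; exact b))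
      (fun k v a b => h2 j k v a (by rw [Nat.succ_mul]; exact b))
    rw [show (j + 1) * w + 1 = (j * w + 1) + w by ring, Finset.sum_range_add,
      Finset.sum_range_succ _ j]
    refine add_le_add ih (le_trans (le_of_eq ?_) h3)
    exact Finset.sum_congr rfl fun i _ => by rw [show j * w + 1 + i = j * w + i + 1 by ring]

lemma Ok.F0_prop (h : D.Ok) (T i : ℕ) (y : Y) :
    D.F0 (T + i) y ≤ (D.F0 T ᵥ* kp D.Kb T i) y := by
  induction i generalizing y with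
  | zero => simp
  | succ i ih =>
    rw [kp_succ, ← Matrix.vecMul_vecMul, ← add_assoc, F0_succ]
    exact Finset.sum_le_sum fun x _ =>
      mul_le_mul_of_nonneg_right ((h.c0d_le' _ x).trans (ih x)) (h.hKb0 _ x y)

lemma Ok.arrival (h : D.Ok) (T i : ℕ) : ∃ S : Y → ℝ, (∀ y, 0 ≤ S y) ∧
    ∑ y, S y ≤ ∏ k ∈ range i, (1 - D.qk (T + k)) ∧
    ∀ y, D.F1 (T + i) y ≤ S y + ((D.F0 T ᵥ* kp D.K T i) y - (D.F0 T ᵥ* kp D.Kb T i) y) := by
  induction i with
  | zero => exact ⟨D.F1 T, h.F1_nonneg T, by simpa using h.F1_mass' T, fun y => by simp⟩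
  | succ i ih =>
    obtain ⟨S, hS0, hS1, hS2⟩ := ih
    have hq := sub_nonneg.2 (h.qk1 (T + i))
    refine ⟨fun y => ∑ x, (1 - D.qk (T + i)) * S x * D.K (T + i) x y, fun y => ?_, ?_,
      fun y => ?_⟩
    · exact Finset.sum_nonneg fun x _ => mul_nonneg (mul_nonneg hq (hS0 x)) ((h.hK _).1 x y)
    · rw [Finset.sum_comm, Finset.prod_range_succ]
      simp only [← Finset.mul_sum, (h.hK (T + i)).2.1, mul_one]
      rw [mul_comm]
      exact mul_le_mul_of_nonneg_right hS1 hq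
    · rw [kp_succ, kp_succ, ← Matrix.vecMul_vecMul, ← Matrix.vecMul_vecMul, ← add_assoc, F1_succ]
      generalize hZ : D.F0 T ᵥ* kp D.Kb T i = Z at *
      generalize hZK : D.F0 T ᵥ* kp D.K T i = ZK at *
      have hR : ∀ x, 0 ≤ ZK x - Z x := fun x => by
        rw [← hZ, ← hZK, sub_nonneg]
        exact Finset.sum_le_sum fun v _ =>
          mul_le_mul_of_nonneg_left (kp_mono h.hKb0 h.hKb T i v x) (h.F0_nonneg T v)
      simp only [Matrix.vecMul, dotProduct]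
      rw [← Finset.sum_sub_distrib, ← Finset.sum_add_distrib]
      refine Finset.sum_le_sum fun x _ => ?_
      have h1 : D.c1 (T + i) x * D.d (T + i) x ≤ (1 - D.qk (T + i)) * S x + (ZK x - Z x) := by
        have h2 := (h.c1d_le (T + i) x).trans (mul_le_mul_of_nonneg_left (hS2 x) hq)
        have h3 := mul_nonneg (h.qk0 (T + i)) (hR x)
        linarith
      have h2 : D.c0 (T + i) x * D.d (T + i) x ≤ Z x := by
        have := h.F0_prop T i x
        rw [hZ] at this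
        exact (h.c0d_le' _ x).trans this
      have h3 := mul_le_mul_of_nonneg_right h1 ((h.hK (T + i)).1 x y)
      have h4 := mul_le_mul_of_nonneg_right h2 (sub_nonneg.2 (h.hKb (T + i) x y))
      linarith

end RunDetD

end Vale.Agent.P361
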