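import Vale.Agent.P361.Basic

namespace Vale.Agent.P361

open Matrix Finset

lemma trees_aa (j : ℕ) : 16 ^ j + 2 * cc j ≤ aa j + 1 := by
  cases j with
  | zero => simp [cc, aa]
  | succ j =>
    have h1 : 16 ^ j ≤ 1024 ^ j := Nat.pow_le_pow_left (by norm_num) j
    simp only [cc, aa, pow_succ]
    omega

lemma trees_count {j : ℕ} {y y' : Z3} {T T' : Finset Z3} (hy : aa j < nrm (y' - y))
    (h1 : T ⊆ cube y (cc j)) (h2 : T' ⊆ cube y' (cc j)) (h3 : (T ∪ T').card = 2 ^ (j + 1))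
    (h4 : ∀ a ∈ T, ∀ ρ : ℕ, (T.filter fun b => b ∈ cube a ρ).card ^ 4 ≤ 16 * (1 + ρ)) :
    ∀ a ∈ T, ∀ ρ : ℕ, ((T ∪ T').filter fun b => b ∈ cube a ρ).card ^ 4 ≤ 16 * (1 + ρ) := by
  intro a ha ρ
  by_cases h : ρ + 2 * cc j ≤ aa j
  · refine le_trans (Nat.pow_le_pow_left (card_le_card fun b hb => ?_) 4) (h4 a ha ρ)
    obtain ⟨h5, h6⟩ := mem_filter.1 hb
    refine mem_filter.2 ⟨(mem_union.1 h5).resolve_right fun h7 => ?_, h6⟩
    have h8 := mem_cube.1 (cube_subset (cube_subset (h1 ha) le_rfl h6) le_rfl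
      (mem_cube_symm.1 (h2 h7)))
    omega
  · refine (Nat.pow_le_pow_left ((card_filter_le _ _).trans h3.le) 4).trans ?_
    have h5 := trees_aa j
    rw [← pow_mul, mul_comm (j + 1), pow_mul, pow_succ, show 2 ^ 4 = 16 from rfl]
    omega

lemma trees_exists (j : ℕ) : ∃ tr : Z3 → Finset (Finset Z3), ∀ y,
    (tr y).card * 2 ^ (30 * j + 45) ≤ (2 ^ 45) ^ (2 ^ j) ∧
    (∀ T ∈ tr y, T ⊆ cube y (cc j) ∧ T.card = 2 ^ j ∧
      ∀ a ∈ T, ∀ ρ : ℕ, (T.filter fun b => b ∈ cube a ρ).card ^ 4 ≤ 16 * (1 + ρ)) ∧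
    ∀ E : Set Z3, y ∈ hier E j → ∃ T ∈ tr y, ∀ x ∈ T, x ∈ E := by
  induction j with
  | zero =>
    refine ⟨fun y => {{y}}, fun y => ⟨by simp, fun T hT => ?_, fun E hE =>
      ⟨{y}, mem_singleton_self _, fun x hx => mem_singleton.1 hx ▸ hE⟩⟩⟩
    rw [mem_singleton.1 hT]
    refine ⟨singleton_subset_iff.2 (self_mem_cube _ _), rfl, fun a _ ρ => ?_⟩
    have := Nat.pow_le_pow_left (card_filter_le {y} fun b => b ∈ cube a ρ) 4
    rw [card_singleton] at this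
    omega
  | succ j ih =>
    obtain ⟨tr, h⟩ := ih
    refine ⟨fun y => ((cube y (4 * aa j)).filter fun y' => aa j < nrm (y' - y)).biUnion fun y' =>
      image₂ (· ∪ ·) (tr y) (tr y'), fun y => ⟨?_, fun T hT => ?_, fun E hE => ?_⟩⟩
    · have h1 : (2 * (4 * aa j) + 1) ^ 3 ≤ 2 ^ (30 * j + 15) := by
        have h2 : 0 < 1024 ^ j := by positivity
        rw [show 30 * j + 15 = (10 * j + 5) * 3 by ring, pow_mul, pow_add, pow_mul, aa,
          show 2 ^ 10 = 1024 from rfl]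
        exact Nat.pow_le_pow_left (by omega) 3
      refine le_of_mul_le_mul_right ?_ (show 0 < 2 ^ (30 * j + 15) by positivity)
      rw [mul_assoc, ← pow_add, show 30 * (j + 1) + 45 + (30 * j + 15) =
        30 * j + 45 + (30 * j + 45) by ring, pow_add, pow_succ 2 j, pow_mul, sq, mul_comm (_ * _)]
      refine (Nat.mul_le_mul_right _ card_biUnion_le).trans ?_
      rw [sum_mul]
      refine (sum_le_card_nsmul _ _ ((2 ^ 45) ^ 2 ^ j * (2 ^ 45) ^ 2 ^ j) fun y' _ => ?_).trans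
        (Nat.mul_le_mul_right _ ((card_filter_le _ _).trans ((card_cube _ _).trans_le h1)))
      refine (Nat.mul_le_mul_right _ (card_image₂_le _ _ _)).trans ?_
      rw [mul_mul_mul_comm]
      exact Nat.mul_le_mul (h y).1 (h y').1
    · obtain ⟨y', h1, h2⟩ := mem_biUnion.1 hT
      obtain ⟨h3, h4⟩ := mem_filter.1 h1
      obtain ⟨T1, h5, T2, h6, rfl⟩ := mem_image₂.1 h2
      obtain ⟨a1, a2, a3⟩ := (h y).2.1 T1 h5
      obtain ⟨b1, b2, b3⟩ := (h y').2.1 T2 h6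
      have h7 := two_cc_le j
      have h8 : (T1 ∪ T2).card = 2 ^ (j + 1) := by
        rw [card_union_of_disjoint (disjoint_left.2 fun x x1 x2 => ?_), a2, b2, pow_succ, mul_two]
        have := mem_cube.1 (cube_subset (a1 x1) le_rfl (mem_cube_symm.1 (b1 x2)))
        omega
      have h9 : cc (j + 1) = 5 * aa j := rfl
      refine ⟨union_subset (a1.trans (cube_mono _ (by omega)))
        (b1.trans (cube_subset h3 (by omega))), h8, fun a ha => ?_⟩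
      rcases mem_union.1 ha with ha | ha
      · exact trees_count h4 a1 b1 h8 a3 a ha
      · rw [union_comm] at h8 ⊢
        exact trees_count (nrm_sub_comm y y' ▸ h4) b1 a1 h8 b3 a ha
    · obtain ⟨h1, y', h2, h3, h4⟩ := hE
      obtain ⟨T1, a1, a2⟩ := (h y).2.2 E h1
      obtain ⟨T2, b1, b2⟩ := (h y').2.2 E h2
      exact ⟨T1 ∪ T2, mem_biUnion.2 ⟨y', mem_filter.2 ⟨mem_cube.2 h4, h3⟩, mem_image₂_of_mem a1 b1⟩,
        fun x hx => (mem_union.1 hx).elim (a2 x) (b2 x)⟩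

theorem pr_hier {Ω : Type} [Fintype Ω] {L s : ℕ} {wt : Ω → ℝ} {U : Ω → Finset (XX L s)}
    {e1 e2 : ℝ} (h : SliceOk wt U e1 e2) {j : ℕ} (hj : 8 * aa j ≤ L) (y : Z3) :
    Pr wt (fun o => y ∈ hier (liftE (U o)) j) ≤ (2 ^ 45 * e1) ^ (2 ^ j) := by
  obtain ⟨tr, htr⟩ := trees_exists j
  obtain ⟨h1, h2, h3⟩ := htr y
  refine (Pr_mono h.wt_nonneg fun o _ => h3 _).trans ((Pr_exists_le h.wt_nonneg _ _).trans
    ((sum_le_card_nsmul _ _ (e1 ^ 2 ^ j) fun T hT => ?_).trans ?_))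
  · obtain ⟨a1, a2, a3⟩ := h2 T hT
    rw [← a2]
    refine h.p1a T ⟨a3, fun a ha b hb => ?_⟩
    have := mem_cube.1 (cube_subset (mem_cube_symm.1 (a1 hb)) le_rfl (a1 ha))
    have := two_cc_le j
    omega
  · rw [nsmul_eq_mul, mul_pow]
    refine mul_le_mul_of_nonneg_right ?_ (pow_nonneg h.e1_nonneg _)
    exact_mod_cast (Nat.le_mul_of_pos_right _ (by positivity)).trans h1

lemma trees_near {Ω : Type} [Fintype Ω] {L s : ℕ} {wt : Ω → ℝ} {U : Ω → Finset (XX L s)}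
    {e1 e2 : ℝ} (h : SliceOk wt U e1 e2) {j : ℕ} (hj : 8 * aa j ≤ L) (y : Z3) :
    Pr wt (fun o => ∃ x ∈ hier (liftE (U o)) j, nrm (x - y) ≤ 2 * aa j) ≤
      (9 * 1024 ^ j) ^ 3 * (2 ^ 45 * e1) ^ (2 ^ j) := by
  refine (Pr_mono (Q := fun o => ∃ x ∈ cube y (2 * aa j), x ∈ hier (liftE (U o)) j) h.wt_nonneg
    fun o _ ⟨x, h1, h2⟩ => ⟨x, mem_cube.2 h2, h1⟩).trans ((Pr_exists_le h.wt_nonneg _ _).trans
    ((sum_le_card_nsmul _ _ _ fun x _ => pr_hier h hj x).trans ?_))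
  rw [nsmul_eq_mul, card_cube, aa]
  have := h.e1_nonneg
  have h1 : (1 : ℝ) ≤ 1024 ^ j := one_le_pow₀ (by norm_num)
  push_cast
  gcongr
  linarith

lemma trees_small {e1 : ℝ} (he : e1 ≤ (1 / 2) ^ 200) : 2 ^ 45 * e1 ≤ (1 / 2) ^ 155 := by
  refine (mul_le_mul_of_nonneg_left he (by positivity)).trans_eq ?_
  norm_num

theorem ex_wgt {Ω : Type} [Fintype Ω] {L s : ℕ} {wt : Ω → ℝ} {U : Ω → Finset (XX L s)}
    {e1 e2 : ℝ} (h : SliceOk wt U e1 e2) (he : e1 ≤ (1 / 2) ^ 200) {Kc : ℕ} (hKc : 8 * aa Kc ≤ L)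
    (y : Z3) : Ex wt (fun o => wgt (liftE (U o)) Kc y) ≤ 2 := by
  unfold wgt
  rw [Ex_add, Ex_const h.wt_sum, Ex_sum]
  have h1 := sum_geometric_two_le Kc
  have h2 := h.e1_nonneg
  refine (add_le_add le_rfl (sum_le_sum (g := fun j => 1 / 2 * (1 / 2) ^ j) fun j hj => ?_)).trans
    (by rw [← mul_sum]; linarith)
  have h3 := trees_near h ((Nat.mul_le_mul_left 8 (aa_mono (mem_range.1 hj).le)).trans hKc) y
  have h4 : (2 ^ 45 * e1) ^ (2 ^ j) ≤ ((1 / 2) ^ 155) ^ (j + 1) :=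
    (pow_le_pow_left₀ (by positivity) (trees_small he) _).trans
      (pow_le_pow_of_le_one (by positivity) (by norm_num) Nat.lt_two_pow_self)
  have h5 : ((cc (j + 1) : ℕ) : ℝ) = 10 * 1024 ^ j := by
    simp only [cc, aa]
    push_cast
    ring
  calc _ = ((cc (j + 1) : ℕ) : ℝ) ^ 10 *
        Pr wt (fun o => ∃ x ∈ hier (liftE (U o)) j, nrm (x - y) ≤ 2 * aa j) := by
        rw [Pr, ← Ex_const_mul]
        exact Ex_congr fun o _ => by split_ifs <;> simp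
    _ ≤ (10 * 1024 ^ j) ^ 10 * ((9 * 1024 ^ j) ^ 3 * ((1 / 2) ^ 155) ^ (j + 1)) := by
        rw [h5]
        exact mul_le_mul_of_nonneg_left (h3.trans (by gcongr)) (by positivity)
    _ = 10 ^ 10 * 9 ^ 3 * (1 / 2) ^ 155 * (1024 ^ 13 * (1 / 2) ^ 155) ^ j := by
        rw [mul_pow (1024 ^ 13), pow_right_comm 1024 13, pow_succ _ j]
        ring
    _ ≤ _ := by gcongr <;> norm_num

theorem pr_not_goodPt : ∃ C : ℝ, 0 < C ∧ ∀ {Ω : Type} [Fintype Ω] {L s : ℕ} {wt : Ω → ℝ}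
    {U : Ω → Finset (XX L s)} {e1 e2 : ℝ}, SliceOk wt U e1 e2 → e1 ≤ (1 / 2) ^ 200 →
    ∀ {Kc : ℕ}, 8 * aa Kc ≤ L → 2 * r0 < L → ∀ y : Z3,
    Pr wt (fun o => ¬ GoodPt (liftE (U o)) Kc y) ≤ C * (e2 ^ 6 + e1 ^ 16) := by
  classical
  obtain ⟨N, hN⟩ : ∃ N : ℕ, ∀ y, (powersetCard 6 (cube y r0)).card = N :=
    ⟨_, fun y => by rw [card_powersetCard, card_cube]⟩
  refine ⟨N + 2 * (9 ^ 3 * 1024 ^ 12 * (2 ^ 45) ^ 16), by positivity, ?_⟩
  intro Ω _ L s wt U e1 e2 h he Kc hKc hL y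
  have h1 := h.e1_nonneg
  have h2 := h.e2_nonneg
  refine (Pr_mono (Q := fun o => (∃ B ∈ powersetCard 6 (cube y r0),
      ∀ z ∈ B.image (prj L), ∃ c, (z, c) ∈ U o) ∨ ∃ j ∈ Ico 4 Kc,
      ∃ x ∈ hier (liftE (U o)) j, nrm (x - y) ≤ 2 * aa j) h.wt_nonneg fun o _ hg => ?_).trans
    ((Pr_or_le h.wt_nonneg _ _).trans ((add_le_add
      ((Pr_exists_le h.wt_nonneg _ _).trans (sum_le_card_nsmul _ _ (e2 ^ 6) fun B hB => ?_))
      ((Pr_exists_le h.wt_nonneg _ _).trans (?_ :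
        _ ≤ 2 * (9 ^ 3 * 1024 ^ 12 * (2 ^ 45) ^ 16) * e1 ^ 16))).trans ?_))
  · refine (not_and_or.1 hg).imp (fun h3 => ?_) fun h3 => ?_
    · obtain ⟨B, h4, h5⟩ := exists_subset_card_eq (not_le.1 h3)
      refine ⟨B, mem_powersetCard.2 ⟨h4.trans (filter_subset _ _), h5⟩, fun z hz => ?_⟩
      obtain ⟨x, hx, rfl⟩ := mem_image.1 hz
      exact (mem_filter.1 (h4 hx)).2
    · simp only [Far, not_forall, not_lt] at h3
      obtain ⟨j, h4, h5, x, h6, h7⟩ := h3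
      exact ⟨j, mem_Ico.2 ⟨h4, h5⟩, x, h6, h7⟩
  · obtain ⟨h3, h4⟩ := mem_powersetCard.1 hB
    have h5 : (B.image (prj L)).card = 6 := by
      rw [card_image_of_injOn fun a ha b hb => prj_inj_cube hL (h3 ha) (h3 hb), h4]
    rw [← h5]
    exact h.p1b _ h5.le
  · rw [sum_Ico_eq_sum_range]
    have h3 := sum_geometric_two_le (Kc - 4)
    refine (sum_le_sum (g := fun i => (1 / 2) ^ i * (9 ^ 3 * 1024 ^ 12 * (2 ^ 45) ^ 16 * e1 ^ 16))
      fun i hi => ?_).trans (by rw [← sum_mul, mul_assoc 2]; gcongr)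
    refine (trees_near h ((Nat.mul_le_mul_left 8 (aa_mono (by
      have := mem_range.1 hi; omega))).trans hKc) y).trans ?_
    have h4 : (2 ^ 45 * e1) ^ (2 ^ (4 + i)) ≤ (2 ^ 45 * e1) ^ 16 * ((1 / 2) ^ 155) ^ i := by
      refine le_trans (pow_le_pow_of_le_one (m := 16 + i) (by positivity)
        ((trees_small he).trans (by norm_num)) ?_) ?_
      · have := Nat.lt_two_pow_self (n := i)
        rw [pow_add]
        omega
      · rw [pow_add]
        gcongr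
        exact trees_small he
    calc _ ≤ (9 * 1024 ^ (4 + i)) ^ 3 * ((2 ^ 45 * e1) ^ 16 * ((1 / 2) ^ 155) ^ i) := by gcongr
      _ = (1024 ^ 3 * (1 / 2) ^ 155) ^ i * (9 ^ 3 * 1024 ^ 12 * (2 ^ 45) ^ 16 * e1 ^ 16) := by
        rw [mul_pow (1024 ^ 3), pow_right_comm 1024 3, pow_add, mul_pow _ e1]
        generalize ((2 : ℝ) ^ 45) ^ 16 = A
        ring
      _ ≤ _ := by
        gcongr
        norm_num
  · rw [hN, nsmul_eq_mul]
    generalize hA : (2 : ℝ) * (9 ^ 3 * 1024 ^ 12 * (2 ^ 45) ^ 16) = A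
    have h3 : 0 ≤ A := by rw [← hA]; positivity
    have h4 : 0 ≤ A * e2 ^ 6 + N * e1 ^ 16 := by positivity
    linarith

lemma trees_shift {E : Set Z3} {z : Z3} (h : ∀ x ∈ E, x + z ∈ E) (j : ℕ) :
    ∀ x ∈ hier E j, x + z ∈ hier E j := by
  induction j with
  | zero => exact h
  | succ j ih =>
    rintro x ⟨h1, y, h2, h3⟩
    exact ⟨ih x h1, y + z, ih y h2, by rwa [add_sub_add_right_eq_sub]⟩

theorem pr_cat {Ω : Type} [Fintype Ω] {L s : ℕ} {wt : Ω → ℝ} {U : Ω → Finset (XX L s)}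
    {e1 e2 : ℝ} (h : SliceOk wt U e1 e2) (he : e1 ≤ (1 / 2) ^ 200) {Kc : ℕ} (hKc : 8 * aa Kc ≤ L) :
    Pr wt (fun o => hier (liftE (U o)) Kc ≠ ∅) ≤ (L : ℝ) ^ 3 * (1 / 2) ^ (2 ^ Kc) := by
  have hL : (0 : ℤ) < L := by
    have := aa_pos Kc
    omega
  have h1 := h.e1_nonneg
  refine (Pr_mono (Q := fun o => ∃ x ∈ Fintype.piFinset fun _ : Fin 3 => Ico (0 : ℤ) L,
    x ∈ hier (liftE (U o)) Kc) h.wt_nonneg fun o _ h2 => ?_).trans
    ((Pr_exists_le h.wt_nonneg _ _).trans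
      ((sum_le_card_nsmul _ _ _ fun x _ => pr_hier h hKc x).trans ?_))
  · obtain ⟨x, hx⟩ := Set.nonempty_iff_ne_empty.2 h2
    refine ⟨x + fun i => -(L * (x i / L)), Fintype.mem_piFinset.2 fun i => ?_,
      trees_shift (fun w hw => ?_) _ x hx⟩
    · rw [Pi.add_apply, ← sub_eq_add_neg, ← Int.emod_def]
      exact mem_Ico.2 ⟨Int.emod_nonneg _ hL.ne', Int.emod_lt_of_pos _ hL⟩
    · have h3 : prj L (w + fun i => -(L * (x i / L))) = prj L w := by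
        funext i
        simp [prj]
      simpa only [liftE, Set.mem_ofPred_eq, h3] using hw
  · rw [nsmul_eq_mul, Fintype.card_piFinset]
    simp only [Int.card_Ico, sub_zero, Int.toNat_natCast, prod_const, card_univ, Fintype.card_fin,
      Nat.cast_pow]
    gcongr
    exact (trees_small he).trans (by norm_num)

end Vale.Agent.P361
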