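import Vale.Agent.P361.RunDet
import Vale.Agent.P361.Psi
import Vale.Agent.P361.Trees
import Vale.Agent.P361.Quiet

namespace Vale.Agent.P361

open Matrix Finset

theorem good_prob : ∃ C : ℝ, 0 < C ∧ ∀ {Ω : Type} [Fintype Ω] {L s : ℕ} {T : TL Ω (XX L s)}
    {w : ℕ} {e1 e2 : ℝ}, T.Ok w e1 e2 → 1 ≤ w → e1 ≤ (1 / 2) ^ 200 →
    ∀ {Kc K R r nw : ℕ}, Geo L Kc K R r nw → ∀ (a : Z3) (k : ℕ),
    Pr T.wt (fun o => ¬ T.good Kc R a o k) ≤ etaB C T.g.p T.g.M L Kc R e1 e2 := by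
  obtain ⟨C, hC, h⟩ := pr_not_goodPt
  refine ⟨C, hC, fun {Ω} _ {L s T w e1 e2} hT hw he {Kc K R r nw} hG a k => ?_⟩
  have h0 := (hT.sl k).wt_nonneg
  have hr : 2 * r0 < L := by
    have := hG.hL
    have := aa_pos 3
    unfold r0 r1 at *
    omega
  refine (Pr_mono h0 (Q := fun o => (¬ T.g.Quiet (T.om o) (T.U o) k ∨
    hier (liftE (T.U o (k * T.g.M))) Kc ≠ ∅) ∨
      ∃ y ∈ cube a (3 * R), ¬ GoodPt (liftE (T.U o (k * T.g.M))) Kc y) fun o _ ho => ?_).trans ?_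
  · by_contra hc
    push Not at hc
    exact ho ⟨hc.1.1, hc.1.2, hc.2⟩
  · refine (Pr_or_le h0 _ _).trans (add_le_add ((Pr_or_le h0 _ _).trans
      (add_le_add (pr_not_quiet hT hw k) (pr_cat (hT.sl k) he hG.hKc))) ?_)
    refine (Pr_exists_le h0 _ _).trans ((Finset.sum_le_card_nsmul _ _ _
      fun y _ => h (hT.sl k) he hG.hKc hr y).trans (le_of_eq ?_))
    rw [card_cube, nsmul_eq_mul]
    push_cast
    ring

theorem runOne_nbad {Ω : Type} [Fintype Ω] {wt : Ω → ℝ} {good : Ω → ℕ → Prop} {η : ℝ}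
    (hη : ∀ k, Pr wt (fun o => ¬ good o k) ≤ η) (t : ℕ) {u : ℕ} (hu : 1 ≤ u) :
    Ex wt (fun o => (nbad (good o) t u : ℝ) / u) ≤ η := by
  rw [Ex_div_const, div_le_iff₀ (by positivity)]
  simp only [nbad, Finset.card_filter, Nat.cast_sum, Nat.cast_ite, Nat.cast_one, Nat.cast_zero]
  rw [Ex_sum]
  refine (Finset.sum_le_card_nsmul _ _ η fun k _ => le_of_eq_of_le ?_ (hη k)).trans ?_
  · exact Ex_congr fun o _ => by by_cases h : good o k <;> simp [h]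
  · simp [mul_comm]

theorem run_one {Ω : Type} [Fintype Ω] {L s : ℕ} [NeZero L] {T : TL Ω (XX L s)} {w : ℕ}
    {e1 e2 : ℝ} (hT : T.Ok w e1 e2) (hw : 1 ≤ w) (hp : 28 * T.g.p * T.g.G * w ≤ 1)
    (good : Ω → ℕ → Prop) {η : ℝ} (hη : ∀ k, Pr T.wt (fun o => ¬ good o k) ≤ η)
    (Kb : Ω → ℕ → Matrix (XX L s) (XX L s) ℝ) (hKb0 : ∀ o k v v', 0 ≤ Kb o k v v')
    (hKb : ∀ o k v v', Kb o k v v' ≤ T.g.Ks (T.om o) (T.U o) k v v')
    (d : ℕ → XX L s → ℝ) (hd0 : ∀ k v, 0 ≤ d k v) (hd1 : ∀ k v, d k v ≤ 1)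
    (a : XX L s) (ha : ∀ o, T.wt o ≠ 0 → a ∉ T.U o 0) {n u J0 k0 nw K R : ℕ} {q : ℝ}
    (hu : 1 ≤ u) (hJ : J0 + 2 * u ≤ n) (hN : k0 * n + J0 + 2 * u ≤ nw * w) (hK : nw * K ≤ R)
    (hq0 : 0 ≤ q) (hq1 : q ≤ 1) :
    ∃ mu0 mu1 lam occ : Ω → ℕ → XX L s → ℝ,
      (∀ o, T.wt o ≠ 0 → RunRaw (T.g.Ks (T.om o) (T.U o)) (Kb o) d n u J0 k0 q a
        (fun k v => good o k ∧ v.1 ∈ tball a.1 R ∧ v ∉ T.U o (k * T.g.M))
        (mu0 o) (mu1 o) (lam o) (occ o)) ∧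
      Ex T.wt (fun o => mass (k0 * n + J0 + 2 * u) (lam o)) ≤ lamB s nw K R η (q * u) ∧
      ∀ (j : ℕ) (b : XX L s) (σ : ℝ), 1 ≤ j → j ≤ k0 →
        (∀ o v, T.wt o ≠ 0 → kp (Kb o) 0 ((j - 1) * n + J0 + u) a v ≤ σ) →
        Ex T.wt (fun o => occ o (j * n) b) ≤
          Ex T.wt (fun o => kp (Kb o) 0 (j * n) a b) + Real.exp (-(q * u / 2)) + 2 * η +
            σ * Ex T.wt (fun o => 1 - ∑ v, kp (Kb o) ((j - 1) * n + J0 + u) (n - (J0 + u)) v b) := by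
  have h0 := (hT.sl 0).wt_nonneg
  have h1 := (hT.sl 0).wt_sum
  have hg := hT.gd
  let Reg : ℕ → Finset (XX L s) := fun k => tball a.1 ((k + w - 1) / w * K) ×ˢ univ
  let π : Ω → ℕ → ℝ := fun o t => T.g.gp t + bit (T.om o t)
  let f : ℕ → TV L → ℝ := fun j z => if z ∈ tball a.1 (j * K + K) then 0 else 1
  let Φ : Ω → ℕ → ℕ → XX L s → ℝ := fun o j k v =>
    T.g.psi (π o) (f j) (((j + 1) * w - k) * T.g.M) (k * T.g.M) v.1
  have hπ : ∀ o t, 0 ≤ π o t := fun o t => add_nonneg (hg.gp_nonneg t) (bit_nonneg _)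
  have hf : ∀ j z, 0 ≤ f j z := fun j z => by simp only [f]; split_ifs <;> norm_num
  have hR : ∀ k v, v ∈ Reg k ↔ v.1 ∈ tball a.1 ((k + w - 1) / w * K) := fun k v => by simp [Reg]
  have key := fun o (ho : T.wt o ≠ 0) => run_det (T.g.Ks (T.om o) (T.U o)) (Kb o) d
    (fun k => (T.U o (k * T.g.M))ᶜ) Reg (good o) (Φ o) n u J0 k0 w nw q a (hg.Ks_dstoch _ _)
    (hKb0 o) (hKb o) hd0 hd1
    (fun k v v' hv hk => mem_compl.2 ((hT.inv o ho).Ks_notMem (mem_compl.1 hv) hk))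
    (mem_compl.2 (by simpa using ha o ho)) ((hR _ _).2 (self_mem_tball _ _)) hu hJ hw hN hq0 hq1
    (fun j k v => psi_nonneg (hπ o) (hf j) _ _ _)
    (fun j k v h2 h3 hv => by
      rw [hR, Nat.div_eq_of_lt_le (k := j + 1) (by rw [add_mul]; omega)
        (by rw [add_mul]; omega), add_mul, one_mul] at hv
      exact le_of_eq_of_le (by simp [f, hv]) (le_psi (hπ o) (hf j) _ _ v.1))
    (fun j k v h2 h3 => by
      have := psi_kp (g := T.g) (hπ o) (hf j) (hg.qt_nonneg (T.om o) (T.U o))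
        (hg.qt_le_one _ _) (hg.qt_le _ _) (((j + 1) * w - (k + 1)) * T.g.M) T.g.M (k * T.g.M) v
      rw [← Nat.succ_mul k, ← Nat.succ_mul, show ((j + 1) * w - (k + 1)).succ = (j + 1) * w - k
        by omega] at this
      exact this)
  choose! mu0 mu1 lam occ hr hm ho using key
  have hRR : ∀ k v, k ≤ nw * w → v ∈ Reg k → v.1 ∈ tball a.1 R := fun k v hk hv =>
    tball_mono _ ((Nat.mul_le_mul_right K (Nat.le_of_lt_succ ((Nat.div_lt_iff_lt_mul hw).2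
      (by rw [Nat.succ_mul]; omega)))).trans hK) ((hR k v).1 hv)
  refine ⟨mu0, mu1, lam, occ, fun o h => ?_, ?_, fun j b σ hj hj' hσ => ?_⟩
  · have := hr o h
    refine ⟨this.1, this.2, this.3, this.4, this.5, fun k v hv => ?_, this.7, fun k v hv => ?_,
      this.9⟩
    · obtain ⟨a1, a2, a3, a4, a5⟩ := this.6 k v hv
      exact ⟨a1, a2, a3, hRR k v (by omega) a4, mem_compl.1 a5⟩
    · obtain ⟨a1, a2, a6, a3, a4, a5⟩ := this.8 k v hv
      exact ⟨a1, a2, a6, a3, hRR k v (by omega) a4, mem_compl.1 a5⟩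
  · refine (Ex_mono h0 hm).trans ?_
    simp only [mul_div_assoc]
    rw [Ex_add, Ex_add, Ex_add, Ex_const h1, Ex_const_mul, Ex_sum, lamB]
    have b1 := runOne_nbad hη (k0 * n + J0) hu
    have b2 := runOne_nbad hη (k0 * n + J0 + u) hu
    have b3 : ∑ j ∈ range nw, Ex T.wt (fun o => ∑ v ∈ Reg (j * w), Φ o j (j * w) v) ≤
        nw * (s * (2 * (R : ℝ) + 1) ^ 3 * (1 / 2) ^ K) := by
      refine (Finset.sum_le_card_nsmul _ _ (s * (2 * (R : ℝ) + 1) ^ 3 * (1 / 2) ^ K)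
        fun j hj => ?_).trans (by simp)
      have e : (j * w + w - 1) / w = j :=
        Nat.div_eq_of_lt_le (by omega) (by rw [add_mul]; omega)
      rw [Ex_sum]
      refine (Finset.sum_le_card_nsmul _ _ ((1 / 2) ^ K) fun v hv => ?_).trans ?_
      · rw [hR, e] at hv
        exact ex_psi hT hp hv K (j * w) (Nat.mul_le_mul_right _ (by rw [add_mul]; omega))
      · rw [nsmul_eq_mul]
        refine mul_le_mul_of_nonneg_right ?_ (by positivity)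
        have c1 := (card_tball_le a.1 (j * K)).trans (Nat.pow_le_pow_left (Nat.succ_le_succ
          (Nat.mul_le_mul_left 2 ((Nat.mul_le_mul_right K (mem_range.1 hj).le).trans hK))) 3)
        simp only [Reg, e, card_product, card_univ, Fintype.card_fin]
        exact_mod_cast (mul_comm _ _).trans_le (Nat.mul_le_mul_left s c1)
    simp only [mul_div_assoc]
    linarith
  · refine (Ex_mono h0 fun o h => ho o h j b σ hj hj' fun v => hσ o v h).trans ?_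
    simp only [mul_div_assoc]
    rw [Ex_add, Ex_add, Ex_add, Ex_const h1, Ex_const_mul, Ex_const_mul]
    have b1 := runOne_nbad hη ((j - 1) * n + J0 + u) hu
    linarith

end Vale.Agent.P361
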