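import Vale.Agent.P361.EnvP

namespace Vale.Agent.P361

open Matrix Finset

/-- composition of the first `k` selected permutations -/
def trCp {Y : Type} (τ : ℕ → Equiv.Perm Y) (b : ℕ → Bool) : ℕ → Equiv.Perm Y
  | 0 => 1
  | k + 1 => (if b k then τ k else 1) * trCp τ b k

lemma trCp_congr {Y : Type} (τ : ℕ → Equiv.Perm Y) {b b' : ℕ → Bool} {k : ℕ}
    (h : ∀ j < k, b j = b' j) : trCp τ b k = trCp τ b' k := by
  induction k with
  | zero => rfl
  | succ k ih => simp only [trCp]; rw [ih fun j hj => h j (by omega), h k (by omega)]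

lemma tr_indep {I : Type} [Fintype I] [DecidableEq I] (w : I → Bool → ℝ) (i : I)
    (hw : w i true + w i false = 1) (F : (I → Bool) → Bool → ℝ)
    (hF : ∀ ω c b, F (Function.update ω i c) b = F ω b) :
    ∑ ω : I → Bool, (∏ j, w j (ω j)) * F ω (ω i) =
      ∑ ω : I → Bool, (∏ j, w j (ω j)) * (w i true * F ω true + w i false * F ω false) := by
  let φ : (I → Bool) → (I → Bool) := fun ω => Function.update ω i (!ω i)
  have hφ : Function.Involutive φ := fun ω => by simp [φ]
  have half : ∀ f : (I → Bool) → ℝ, ∑ ω, f ω = (∑ ω, (f ω + f (φ ω))) / 2 := fun f => by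
    have e : ∑ ω, f (φ ω) = ∑ ω, f ω := Equiv.sum_comp hφ.toPerm f
    rw [Finset.sum_add_distrib, e]
    ring
  have hsplit : ∀ ω : I → Bool, ∏ j, w j (ω j) = w i (ω i) * ∏ j ∈ univ.erase i, w j (ω j) :=
    fun ω => (Finset.mul_prod_erase univ (fun j => w j (ω j)) (mem_univ i)).symm
  have hrest : ∀ ω : I → Bool, ∏ j ∈ univ.erase i, w j (φ ω j) = ∏ j ∈ univ.erase i, w j (ω j) :=
    fun ω => Finset.prod_congr rfl fun j hj => by
      simp [φ, Function.update_of_ne (Finset.ne_of_mem_erase hj)]
  have hi : ∀ ω : I → Bool, φ ω i = !ω i := fun ω => by simp [φ]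
  rw [half, half (fun ω => (∏ j, w j (ω j)) * (w i true * F ω true + w i false * F ω false))]
  congr 1
  refine Finset.sum_congr rfl fun ω _ => ?_
  have hFφ : ∀ b, F (φ ω) b = F ω b := fun b => hF ω _ b
  simp only [hsplit ω, hsplit (φ ω), hrest, hi, hFφ]
  have hw' : w i false = 1 - w i true := by linarith
  cases ω i <;> simp only [Bool.not_true, Bool.not_false, hw'] <;> ring

lemma tr_kp {Y : Type} [Fintype Y] [DecidableEq Y] (m : ℕ) [NeZero m] (τ : ℕ → Equiv.Perm Y)
    (q : ℕ → ℝ) (len : ℕ) (hlen : len ≤ m) (y y' : Y) :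
    kp (fun t => lz (τ t) (q t)) 0 len y y' =
      ∑ ω : ZMod m → Bool, (∏ i, if ω i then q i.val else 1 - q i.val) *
        if y' = trCp τ (fun t => ω t) len y then 1 else 0 := by
  induction len generalizing y' with
  | zero =>
    have h1 : ∑ ω : ZMod m → Bool, (∏ i, if ω i then q i.val else 1 - q i.val) = 1 := by
      have := Finset.prod_univ_sum (fun _ : ZMod m => (univ : Finset Bool))
        (fun i b => if b then q i.val else 1 - q i.val)
      rw [Fintype.piFinset_univ] at this
      rw [← this]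
      simp
    have h2 : ∑ ω : ZMod m → Bool, (∏ i, if ω i then q i.val else 1 - q i.val) *
        (if y' = y then (1 : ℝ) else 0) = if y' = y then 1 else 0 := by
      rw [← Finset.sum_mul, h1, one_mul]
    refine Eq.trans ?_ h2.symm
    simp [Matrix.one_apply, eq_comm]
  | succ len ih =>
    have hv : ((len : ℕ) : ZMod m).val = len := ZMod.val_cast_of_lt (by omega)
    have key := tr_indep (fun (i : ZMod m) b => if b then q i.val else 1 - q i.val) (len : ZMod m)
      (by simp)
      (fun ω b => if y' = (if b then τ len else 1) (trCp τ (fun t => ω t) len y) then 1 else 0)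
      (fun ω c b => by
        rw [trCp_congr τ (b := fun t => Function.update ω (len : ZMod m) c t) (b' := fun t => ω t)]
        intro j hj
        refine Function.update_of_ne (fun h => ?_) _ _
        have := congrArg ZMod.val h
        rw [hv, ZMod.val_cast_of_lt (by omega)] at this
        omega)
    simp only [trCp, Equiv.Perm.mul_apply]
    refine Eq.trans ?_ key.symm
    rw [kp_succ, Matrix.mul_apply]
    simp only [ih (by omega), Finset.sum_mul]
    rw [Finset.sum_comm]
    refine Finset.sum_congr rfl fun ω _ => ?_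
    simp only [mul_assoc, ← Finset.mul_sum]
    congr 1
    simp [lz, hv, add_comm]

section Slices

variable {X : Type} [Fintype X] [DecidableEq X]

omit [Fintype X] [DecidableEq X] in
lemma tr_mem (σ : Equiv.Perm X) (b : Bool) (η : Finset X) (x : X) :
    (if b then σ x else x) ∈ (if b then σ.finsetCongr else 1 : Equiv.Perm (Finset X)) η ↔
      x ∈ η := by
  cases b <;> simp

omit [Fintype X] [DecidableEq X] in
lemma tr_card (σ : ℕ → Equiv.Perm X) (b : ℕ → Bool) (k : ℕ) (η : Finset X) :
    (trCp (fun t => (σ t).finsetCongr) b k η).card = η.card := by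
  induction k with
  | zero => rfl
  | succ k ih =>
    simp only [trCp, Equiv.Perm.mul_apply]
    split_ifs <;> simp [ih]

variable (g : GD X) (n : ℕ) [NeZero (n * g.M)]

/-- the many body swaps -/
def trT (g : GD X) (t : ℕ) : Equiv.Perm (Finset X) := (Equiv.swap (g.ga t) (g.gb t)).finsetCongr

lemma tr_slice_succ (ω : ZMod (n * g.M) → Bool) {U : Finset (ZMod (n * g.M) × X)}
    (hU : IsInv ((g.circ n).perm ω) U) (i : ZMod (n * g.M)) :
    slice U (i + 1) = (if ω i then trT g i.val else 1 : Equiv.Perm (Finset X)) (slice U i) := by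
  ext x
  obtain ⟨x0, rfl⟩ : ∃ x0, x = if ω i then Equiv.swap (g.ga i.val) (g.gb i.val) x0 else x0 :=
    ⟨if ω i then Equiv.swap (g.ga i.val) (g.gb i.val) x else x, by cases ω i <;> simp⟩
  unfold trT
  rw [tr_mem]
  have h := hU (i, x0)
  rw [perm_apply] at h
  simpa [slice, GD.circ] using h

lemma tr_slice (ω : ZMod (n * g.M) → Bool) {U : Finset (ZMod (n * g.M) × X)}
    (hU : IsInv ((g.circ n).perm ω) U) (k : ℕ) (hk : k ≤ n * g.M) :
    slice U (k : ZMod (n * g.M)) = trCp (trT g) (fun t => ω t) k (slice U 0) := by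
  induction k with
  | zero => simp [trCp]
  | succ k ih =>
    rw [Nat.cast_succ, tr_slice_succ g n ω hU, ih (by omega), ZMod.val_cast_of_lt (by omega)]
    rfl

lemma tr_card_inv (ω : ZMod (n * g.M) → Bool) {U : Finset (ZMod (n * g.M) × X)}
    (hU : IsInv ((g.circ n).perm ω) U) : U.card = n * g.M * (slice U 0).card := by
  have h1 : U.card = ∑ i : ZMod (n * g.M), (slice U i).card := by
    rw [Finset.card_eq_sum_card_fiberwise (f := Prod.fst) (t := univ) fun _ _ => mem_univ _]
    refine Finset.sum_congr rfl fun i _ => ?_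
    refine Finset.card_nbij' (fun v => v.2) (fun x => (i, x)) ?_ ?_ ?_ ?_
    · rintro ⟨j, x⟩ hv
      simp only [coe_filter, Set.mem_ofPred_eq] at hv
      obtain ⟨h1, rfl⟩ := hv
      simpa [slice] using h1
    · intro x hx
      simpa [slice] using hx
    · rintro ⟨j, x⟩ hv
      simp only [coe_filter, Set.mem_ofPred_eq] at hv
      obtain ⟨h1, rfl⟩ := hv
      rfl
    · intro x _
      rfl
  rw [h1, Finset.sum_congr rfl (g := fun _ => (slice U 0).card)]
  · simp [ZMod.card]
  · intro i _
    have := tr_slice g n ω hU i.val i.val_lt.le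
    rw [ZMod.natCast_zmod_val] at this
    rw [this]
    exact tr_card (fun t => Equiv.swap (g.ga t) (g.gb t)) _ _ _

open Classical in
lemma tr_bij (ω : ZMod (n * g.M) → Bool) (f : Finset X → ℝ) :
    (∑ U : Finset (ZMod (n * g.M) × X), if IsInv ((g.circ n).perm ω) U then f (slice U 0) else 0) =
      ∑ η : Finset X, if η = trCp (trT g) (fun t => ω t) (n * g.M) η then f η else 0 := by
  rw [← Finset.sum_filter, ← Finset.sum_filter]
  refine Finset.sum_nbij' (fun U => slice U 0)
    (fun η => univ.filter fun v => v.2 ∈ trCp (trT g) (fun t => ω t) v.1.val η) ?_ ?_ ?_ ?_ ?_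
  · intro U hU
    simp only [mem_filter, mem_univ, true_and] at hU ⊢
    have := tr_slice g n ω hU (n * g.M) le_rfl
    rwa [ZMod.natCast_self] at this
  · intro η hη
    simp only [mem_filter, mem_univ, true_and] at hη ⊢
    rintro ⟨i, x⟩
    rw [perm_apply]
    simp only [mem_filter, mem_univ, true_and]
    have h1 : trCp (trT g) (fun t => ω t) ((g.circ n).nx i).val η =
        trCp (trT g) (fun t => ω t) (i.val + 1) η := by
      have e : (g.circ n).nx i = ((i.val + 1 : ℕ) : ZMod (n * g.M)) := by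
        simp [GD.circ]
      rw [e, ZMod.val_natCast]
      rcases (Nat.succ_le_of_lt i.val_lt).lt_or_eq with h | h
      · rw [Nat.mod_eq_of_lt h]
      · rw [Nat.succ_eq_add_one] at h
        rw [h, Nat.mod_self, ← hη]
        rfl
    rw [h1]
    simp only [trCp, Equiv.Perm.mul_apply, ZMod.natCast_zmod_val]
    exact tr_mem (Equiv.swap (g.ga i.val) (g.gb i.val)) (ω i) _ x
  · intro U hU
    simp only [mem_filter, mem_univ, true_and] at hU
    ext ⟨i, x⟩
    simp only [mem_filter, mem_univ, true_and]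
    rw [← tr_slice g n ω hU i.val i.val_lt.le, ZMod.natCast_zmod_val]
    simp [slice]
  · intro η _
    ext x
    simp [slice, trCp]
  · intro U _
    rfl

end Slices

theorem num_eq_trace {X : Type} [Fintype X] [DecidableEq X] (g : GD X) (n : ℕ) [NeZero (n * g.M)]
    (ζ : ℝ) :
    (g.circ n).num (fun _ => ζ) ∅ = Matrix.trace (fug (ζ ^ (n * g.M)) *
      kp (fun t => lz (Equiv.swap (g.ga t) (g.gb t)).finsetCongr (g.gp t)) 0 (n * g.M)) := by
  classical
  unfold Circ.num
  have h1 : ∀ ω : ZMod (n * g.M) → Bool,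
      (∑ U : Finset (ZMod (n * g.M) × X),
        if IsInv ((g.circ n).perm ω) U ∧ ∅ ⊆ U then ∏ _v ∈ U, ζ else 0) =
      ∑ η : Finset X, if η = trCp (trT g) (fun t => ω t) (n * g.M) η then
        (ζ ^ (n * g.M)) ^ η.card else 0 := by
    intro ω
    rw [← tr_bij g n ω fun η => (ζ ^ (n * g.M)) ^ η.card]
    refine Finset.sum_congr rfl fun U _ => ?_
    by_cases hU : IsInv ((g.circ n).perm ω) U
    · simp only [hU, Finset.empty_subset, and_self, if_true, Finset.prod_const]
      rw [tr_card_inv g n ω hU, pow_mul]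
    · simp [hU]
  simp only [h1]
  simp only [Matrix.trace, Matrix.diag, fug, Matrix.diagonal_mul]
  have h2 := fun η => tr_kp (n * g.M) (trT g) g.gp (n * g.M) le_rfl η η
  unfold trT at h2
  simp only [h2, Finset.mul_sum]
  rw [Finset.sum_comm]
  refine Finset.sum_congr rfl fun η _ => Finset.sum_congr rfl fun ω _ => ?_
  unfold trT
  simp only [Circ.pw, GD.circ]
  split_ifs <;> ring

theorem num_jensen {X : Type} [Fintype X] [DecidableEq X] (g : GD X) (n : ℕ) [NeZero (n * g.M)]
    (hc : (g.circ n).Ok) {ζ1 ζ2 : ℝ} (h1 : 0 < ζ1) (h2 : 0 < ζ2) :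
    ((n * g.M : ℕ) : ℝ) * Real.log (ζ1 / ζ2) *
        ((∑ x : X, (g.circ n).num (fun _ => ζ2) {(0, x)}) / (g.circ n).num (fun _ => ζ2) ∅) ≤
      Real.log ((g.circ n).num (fun _ => ζ1) ∅) - Real.log ((g.circ n).num (fun _ => ζ2) ∅) := by
  classical
  have hZ1 : 1 ≤ (g.circ n).num (fun _ => ζ1) ∅ := one_le_num hc fun _ => h1.le
  have hZ2 : 1 ≤ (g.circ n).num (fun _ => ζ2) ∅ := one_le_num hc fun _ => h2.le
  set Z1 := (g.circ n).num (fun _ => ζ1) ∅ with hZ1d
  set Z2 := (g.circ n).num (fun _ => ζ2) ∅ with hZ2d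
  set lam := Real.log (ζ1 / ζ2) with hlam
  set S := ∑ x : X, (g.circ n).num (fun _ => ζ2) {(0, x)} with hS
  set μ := ((n * g.M : ℕ) : ℝ) * lam * (S / Z2) with hμ
  have hS' : S = ∑ ω : ZMod (n * g.M) → Bool, (g.circ n).pw ω *
      ∑ U : Finset (ZMod (n * g.M) × X), if IsInv ((g.circ n).perm ω) U then
        ζ2 ^ U.card * ((slice U 0).card : ℝ) else 0 := by
    rw [hS]
    unfold Circ.num
    rw [Finset.sum_comm]
    refine Finset.sum_congr rfl fun ω _ => ?_
    rw [← Finset.mul_sum, Finset.sum_comm]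
    congr 1
    refine Finset.sum_congr rfl fun U _ => ?_
    by_cases hU : IsInv ((g.circ n).perm ω) U
    · simp only [hU, true_and, if_true, Finset.singleton_subset_iff, Finset.prod_const]
      rw [← Finset.sum_filter, Finset.sum_const, nsmul_eq_mul, mul_comm]
      rfl
    · simp [hU]
  have key : Real.exp μ * ((1 - μ) * Z2 + ((n * g.M : ℕ) : ℝ) * lam * S) ≤ Z1 := by
    rw [hS', hZ2d, hZ1d]
    unfold Circ.num
    simp only [Finset.mul_sum, ← Finset.sum_add_distrib]
    refine Finset.sum_le_sum fun ω _ => Finset.sum_le_sum fun U _ => ?_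
    have hp := pw_nonneg hc ω
    by_cases hU : IsInv ((g.circ n).perm ω) U
    · simp only [hU, Finset.empty_subset, and_self, if_true, Finset.prod_const]
      have hcard : (U.card : ℝ) = ((n * g.M : ℕ) : ℝ) * ((slice U 0).card : ℝ) := by
        rw [tr_card_inv g n ω hU]; push_cast; ring
      have e1 : ζ1 ^ U.card = ζ2 ^ U.card * Real.exp (U.card * lam) := by
        rw [Real.exp_nat_mul, hlam, Real.exp_log (by positivity), div_pow]
        field_simp
      have e2 : Real.exp μ * (1 + (U.card * lam - μ)) ≤ Real.exp (U.card * lam) := by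
        have h3 := Real.add_one_le_exp (U.card * lam - μ)
        have h4 : Real.exp (U.card * lam) = Real.exp μ * Real.exp (U.card * lam - μ) := by
          rw [← Real.exp_add]; congr 1; ring
        rw [h4]
        exact mul_le_mul_of_nonneg_left (by linarith) (Real.exp_pos μ).le
      have h5 : 0 ≤ (g.circ n).pw ω * ζ2 ^ U.card := by positivity
      have h6 := mul_le_mul_of_nonneg_left e2 h5
      rw [e1]
      rw [hcard] at h6 ⊢
      nlinarith [h6]
    · simp [hU]
  have hZ2p : 0 < Z2 := by linarith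
  have e3 : (1 - μ) * Z2 + ((n * g.M : ℕ) : ℝ) * lam * S = Z2 := by
    rw [hμ]; field_simp; ring
  rw [e3] at key
  have h7 := Real.log_le_log (by positivity) key
  rw [Real.log_mul (Real.exp_pos μ).ne' hZ2p.ne', Real.log_exp] at h7
  linarith

end Vale.Agent.P361
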