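import Vale.Agent.P361.Density
import Vale.Agent.P361.Trace
import Vale.Agent.P361.CmpTorus

namespace Vale.Agent.P361

open Matrix Finset

/-- one sided density hypothesis at the field `b` -/
def SlopeHyp (L s : ℕ) [NeZero L] [NeZero s] (β : ℝ) (l : ℕ) (a b ρ : ℝ) : Prop :=
  ∃ w0 : ℕ, ∀ (w n : ℕ), w0 ≤ w → n = 16 * l * w →
    ∀ [NeZero (n * (sweepGD L s (β / (4 * n))).M)] (ζ : ℝ), 0 < ζ →
    ζ ^ (n * (sweepGD L s (β / (4 * n))).M) = Real.exp (-(β * b)) → ∀ x : XX L s,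
    (b - a) * (ρ * ((sweepGD L s (β / (4 * n))).circ n).num (fun _ => ζ) ∅) ≤
      (b - a) * ((sweepGD L s (β / (4 * n))).circ n).num (fun _ => ζ) {(0, x)}

lemma slopes_circ {X : Type} [Fintype X] [DecidableEq X] (g : GD X) (n : ℕ) [NeZero (n * g.M)]
    (hc : (g.circ n).Ok) {β a b ρ : ℝ} (hβ : 0 ≤ β)
    (h : ∀ ζ : ℝ, 0 < ζ → ζ ^ (n * g.M) = Real.exp (-(β * b)) → ∀ x : X,
      (b - a) * (ρ * (g.circ n).num (fun _ => ζ) ∅) ≤ (b - a) * (g.circ n).num (fun _ => ζ) {(0, x)}) :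
    β * (b - a) * (Fintype.card X * ρ) ≤
      Real.log (Matrix.trace (fug (Real.exp (-(β * a))) *
        kp (fun t => lz (Equiv.swap (g.ga t) (g.gb t)).finsetCongr (g.gp t)) 0 (n * g.M))) -
      Real.log (Matrix.trace (fug (Real.exp (-(β * b))) *
        kp (fun t => lz (Equiv.swap (g.ga t) (g.gb t)).finsetCongr (g.gp t)) 0 (n * g.M))) := by
  have hm : ((n * g.M : ℕ) : ℝ) ≠ 0 := by exact_mod_cast NeZero.ne (n * g.M)
  have hz : ∀ c : ℝ, Real.exp (-(β * c) / ((n * g.M : ℕ) : ℝ)) ^ (n * g.M) =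
      Real.exp (-(β * c)) := fun c => by
    rw [← Real.exp_nat_mul]
    congr 1
    field_simp
  have hj := num_jensen g n hc (Real.exp_pos (-(β * a) / ((n * g.M : ℕ) : ℝ)))
    (Real.exp_pos (-(β * b) / ((n * g.M : ℕ) : ℝ)))
  have e1 : ((n * g.M : ℕ) : ℝ) * Real.log (Real.exp (-(β * a) / ((n * g.M : ℕ) : ℝ)) /
      Real.exp (-(β * b) / ((n * g.M : ℕ) : ℝ))) = β * (b - a) := by
    rw [← Real.exp_sub, Real.log_exp]
    field_simp
    ring
  rw [e1] at hj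
  have hb := h _ (Real.exp_pos (-(β * b) / ((n * g.M : ℕ) : ℝ))) (hz b)
  have hZ : 1 ≤ (g.circ n).num (fun _ => Real.exp (-(β * b) / ((n * g.M : ℕ) : ℝ))) ∅ :=
    one_le_num hc fun _ => (Real.exp_pos _).le
  have hsum := Finset.sum_le_sum fun x (_ : x ∈ (univ : Finset X)) => hb x
  rw [Finset.sum_const, ← Finset.mul_sum, card_univ, nsmul_eq_mul] at hsum
  rw [← hz a, ← hz b, ← num_eq_trace, ← num_eq_trace]
  refine le_trans ?_ hj
  set Z := (g.circ n).num (fun _ => Real.exp (-(β * b) / ((n * g.M : ℕ) : ℝ))) ∅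
  set S := ∑ x : X, (g.circ n).num (fun _ => Real.exp (-(β * b) / ((n * g.M : ℕ) : ℝ))) {(0, x)}
  have hZp : 0 < Z := by linarith
  rw [← mul_div_assoc, le_div_iff₀ hZp]
  have := mul_le_mul_of_nonneg_left hsum hβ
  nlinarith [this]

lemma slopes_torus (L s : ℕ) [NeZero L] [NeZero s] (hL : 3 ≤ L) {β : ℝ} (hβ : 0 < β) {l : ℕ}
    (hl : 1 ≤ l) {a b ρ : ℝ} (h : SlopeHyp L s β l a b ρ) :
    Real.log (partZ s (torus L) β b) - Real.log (partZ s (torus L) β a) ≤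
      β * (b - a) * (L : ℝ) ^ 3 * ((s : ℝ) / 2 - s * ρ) := by
  obtain ⟨w0, h⟩ := h
  have hpos : ∀ c : ℝ, 0 < Matrix.trace (fug (Real.exp (-(β * c))) * symP (TV L) s *
      NormedSpace.exp (β • genM (torus L) s)) := fun c => by
    have h1 := partZ_pos s (torus L) β c
    rw [partZ_eq] at h1
    exact (mul_pos_iff_of_pos_left (Real.exp_pos _)).1 h1
  have hn : Filter.Tendsto (fun w : ℕ => 16 * l * w) Filter.atTop Filter.atTop :=
    Filter.tendsto_atTop_mono (fun w => Nat.le_mul_of_pos_left w (by omega)) Filter.tendsto_id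
  have hlim := (((trotter_many (torus L) s hβ (Real.exp (-(β * a)))).comp hn).log (hpos a).ne').sub
    (((trotter_many (torus L) s hβ (Real.exp (-(β * b)))).comp hn).log (hpos b).ne')
  have key := ge_of_tendsto (b := β * (b - a) * (Fintype.card (XX L s) * ρ)) hlim (by
    filter_upwards [Filter.eventually_ge_atTop w0, Filter.eventually_ge_atTop (⌈β⌉₊ + 1)]
      with w hw0 hw1
    have hw2 : β + 1 ≤ (w : ℝ) := by
      have h1 := Nat.le_ceil β
      have h2 : ((⌈β⌉₊ + 1 : ℕ) : ℝ) ≤ w := by exact_mod_cast hw1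
      push_cast at h2
      linarith
    have hnw : (w : ℝ) ≤ ((16 * l * w : ℕ) : ℝ) := by
      exact_mod_cast Nat.le_mul_of_pos_left w (by omega)
    have hok : (sweepGD L s (β / (4 * ((16 * l * w : ℕ) : ℝ)))).Ok := by
      refine sweepGD_ok hL (div_pos hβ (by linarith)) ?_
      rw [div_le_iff₀ (by linarith)]
      linarith
    have hnz : 16 * l * w ≠ 0 := by
      have : 0 < 16 * l * w := Nat.mul_pos (by omega) (by omega)
      omega
    have : NeZero (16 * l * w * (sweepGD L s (β / (4 * ((16 * l * w : ℕ) : ℝ)))).M) :=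
      ⟨Nat.mul_ne_zero hnz hok.M_pos.ne'⟩
    have h3 := slopes_circ _ (16 * l * w) (hok.circ _) hβ.le (h w (16 * l * w) hw0 rfl)
    rw [sweepGD_many] at h3
    exact h3)
  rw [partZ_eq, partZ_eq, Real.log_mul (Real.exp_pos _).ne' (hpos b).ne',
    Real.log_mul (Real.exp_pos _).ne' (hpos a).ne', Real.log_exp, Real.log_exp]
  have c1 : (Fintype.card (TV L) : ℝ) = (L : ℝ) ^ 3 := by simp [ZMod.card]
  have c2 : (Fintype.card (XX L s) : ℝ) = (L : ℝ) ^ 3 * s := by simp [ZMod.card]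
  rw [c2] at key
  rw [c1]
  nlinarith [key]

lemma slopes_card_box (N : ℕ) : ((box N).card : ℝ) = (2 * (N : ℝ) + 1) ^ 3 := by
  have h : (box N).card = (2 * N + 1) ^ 3 := by
    simp only [box, Fintype.card_piFinset, Int.card_Icc]
    have : ((N : ℤ) + 1 - -(N : ℤ)).toNat = 2 * N + 1 := by omega
    simp only [this]
    simp
  rw [h]; push_cast; ring

lemma slopes_lim (s : ℕ) [NeZero s] {β : ℝ} (hβ : 0 < β) {l : ℕ} (hl : 1 ≤ l) {a b ρ pa pb : ℝ}
    (ha : Filter.Tendsto (fun N => pressure s N β a) Filter.atTop (nhds pa))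
    (hb : Filter.Tendsto (fun N => pressure s N β b) Filter.atTop (nhds pb))
    (L0 : ℕ) (h : ∀ (L : ℕ) [NeZero L], L0 ≤ L → SlopeHyp L s β l a b ρ) :
    pb - pa ≤ (b - a) * ((s : ℝ) / 2 - s * ρ) := by
  obtain ⟨C, hC, hcmp⟩ := cmp_torus s
  have h0 : Filter.Tendsto (fun N : ℕ => 2 * C / (2 * (N : ℝ) + 1)) Filter.atTop (nhds 0) := by
    refine Filter.Tendsto.div_atTop tendsto_const_nhds ?_
    exact Filter.tendsto_atTop_add_const_right _ _
      (tendsto_natCast_atTop_atTop.const_mul_atTop (by norm_num))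
  have h1 := (hb.sub ha).sub h0
  rw [sub_zero] at h1
  refine le_of_tendsto h1 ?_
  filter_upwards [Filter.eventually_ge_atTop L0, Filter.eventually_ge_atTop 1] with N hN0 hN1
  have ht := slopes_torus (2 * N + 1) s (by omega) hβ hl (h (2 * N + 1) (by omega))
  have c1 := abs_le.1 (hcmp N β a hN1 hβ.le)
  have c2 := abs_le.1 (hcmp N β b hN1 hβ.le)
  push_cast at ht
  simp only [pressure, slopes_card_box]
  set D : ℝ := 2 * (N : ℝ) + 1 with hD
  have hDp : 0 < D := by positivity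
  have h3 : Real.log (partZ s (boxGraph N) β b) - Real.log (partZ s (boxGraph N) β a) ≤
      β * (b - a) * D ^ 3 * ((s : ℝ) / 2 - s * ρ) + 2 * (C * β * D ^ 2) := by
    linarith [c1.1, c2.2]
  have h4 := mul_le_mul_of_nonneg_left h3 (by positivity : 0 ≤ 1 / (β * D ^ 3))
  have e : 1 / (β * D ^ 3) * (β * (b - a) * D ^ 3 * ((s : ℝ) / 2 - s * ρ) + 2 * (C * β * D ^ 2)) =
      (b - a) * ((s : ℝ) / 2 - s * ρ) + 2 * C / D := by
    field_simp
  rw [e, mul_sub] at h4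
  linarith

theorem slopes (s : ℕ) (hs : 1 ≤ s) (p : ℝ → ℝ → ℝ)
    (hp : ∀ β, 0 < β → ∀ h, Filter.Tendsto (fun N => pressure s N β h) Filter.atTop (nhds (p β h)))
    (η : ℝ) (hη : 0 < η) : ∃ β0 : ℝ, ∀ β, β0 ≤ β →
      (∀ h1 h2 : ℝ, 0 < h1 → h1 < h2 →
        (s : ℝ) / 2 - (p β h2 - p β h1) / (h2 - h1) ≤ (blochC s + η) / β ^ (3 / 2 : ℝ)) ∧
      ∃ h0 : ℝ, 0 < h0 ∧ ∀ h1 h2 : ℝ, 0 < h1 → h1 < h2 → h2 ≤ h0 →
        (blochC s - η) / β ^ (3 / 2 : ℝ) ≤ (s : ℝ) / 2 - (p β h2 - p β h1) / (h2 - h1) := by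
  have : NeZero s := ⟨by omega⟩
  obtain ⟨β0, hden⟩ := density s η hη
  refine ⟨max β0 1, fun β hβ => ?_⟩
  have hβp : 0 < β := lt_of_lt_of_le one_pos ((le_max_right _ _).trans hβ)
  obtain ⟨l, h0, hl, hh0, hden⟩ := hden β ((le_max_left _ _).trans hβ)
  have hsp : (0 : ℝ) < s := by exact_mod_cast hs
  refine ⟨fun h1 h2 hh1 h12 => ?_, h0, hh0, fun h1 h2 hh1 h12 h20 => ?_⟩
  · obtain ⟨L0, hL⟩ := hden h1 hh1
    have key := slopes_lim s hβp hl (ρ := (blochC s + η) / β ^ (3 / 2 : ℝ) / s)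
      (hp β hβp h2) (hp β hβp h1) L0 (fun L _ hL0 => by
        obtain ⟨w0, hw⟩ := hL L hL0
        refine ⟨w0, fun w n hw0 hn _ ζ hζ hζ' x => ?_⟩
        exact mul_le_mul_of_nonpos_left (hw w n hw0 hn ζ hζ hζ' x).1 (by linarith))
    rw [mul_div_cancel₀ _ hsp.ne'] at key
    have hd : 0 < h2 - h1 := by linarith
    have : (s : ℝ) / 2 - (blochC s + η) / β ^ (3 / 2 : ℝ) ≤ (p β h2 - p β h1) / (h2 - h1) := by
      rw [le_div_iff₀ hd]
      linarith
    linarith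
  · obtain ⟨L0, hL⟩ := hden h2 (by linarith)
    have key := slopes_lim s hβp hl (ρ := (blochC s - η) / β ^ (3 / 2 : ℝ) / s)
      (hp β hβp h1) (hp β hβp h2) L0 (fun L _ hL0 => by
        obtain ⟨w0, hw⟩ := hL L hL0
        refine ⟨w0, fun w n hw0 hn _ ζ hζ hζ' x => ?_⟩
        exact mul_le_mul_of_nonneg_left ((hw w n hw0 hn ζ hζ hζ' x).2 h20) (by linarith))
    rw [mul_div_cancel₀ _ hsp.ne'] at key
    have hd : 0 < h2 - h1 := by linarith
    have : (p β h2 - p β h1) / (h2 - h1) ≤ (s : ℝ) / 2 - (blochC s - η) / β ^ (3 / 2 : ℝ) := by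
      rw [div_le_iff₀ hd]
      linarith
    linarith

end Vale.Agent.P361
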