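import Vale.Agent.P361.Basic

namespace Vale.Agent.P361

open Matrix Finset

lemma sob_tele (g : ℕ → ℝ) (i m : ℕ) :
    |g (m + i) - g i| ≤ ∑ t ∈ Ico i (m + i), |g (t + 1) - g t| := by
  induction m with
  | zero => simp
  | succ m ih =>
    rw [show m + 1 + i = (m + i) + 1 by ring, Finset.sum_Ico_succ_top (by omega)]
    have := abs_sub_le (g (m + i + 1)) (g (m + i)) (g i)
    linarith

lemma sob_double (g : ℕ → ℝ) (m : ℕ) :
    |∑ i ∈ range (2 * m), g i - 2 * ∑ i ∈ range m, g i| ≤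
      m * ∑ t ∈ range (2 * m), |g (t + 1) - g t| := by
  have e : ∑ i ∈ range (2 * m), g i - 2 * ∑ i ∈ range m, g i = ∑ i ∈ range m, (g (m + i) - g i) := by
    rw [two_mul, Finset.sum_range_add, Finset.sum_sub_distrib]
    ring
  rw [e]
  refine (Finset.abs_sum_le_sum_abs _ _).trans ?_
  calc ∑ i ∈ range m, |g (m + i) - g i| ≤ ∑ _i ∈ range m, ∑ t ∈ range (2 * m), |g (t + 1) - g t| := by
        refine Finset.sum_le_sum fun i hi => (sob_tele g i m).trans ?_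
        refine Finset.sum_le_sum_of_subset_of_nonneg (fun t ht => ?_) fun _ _ _ => abs_nonneg _
        have := Finset.mem_range.1 hi
        have := (Finset.mem_Ico.1 ht).2
        exact Finset.mem_range.2 (by omega)
    _ = _ := by simp

/-- points of a box with corner `y` -/
def sobPt (y : Z3) (i j k : ℕ) : Z3 := fun l => y l + ![(i : ℤ), (j : ℤ), (k : ℤ)] l

lemma sob_pt0 (y : Z3) (i j k : ℕ) : sobPt y (i + 1) j k = sobPt y i j k + ev 0 := by
  funext l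
  fin_cases l <;> simp [sobPt, ev, add_assoc]

lemma sob_pt1 (y : Z3) (i j k : ℕ) : sobPt y i (j + 1) k = sobPt y i j k + ev 1 := by
  funext l
  fin_cases l <;> simp [sobPt, ev, add_assoc]

lemma sob_pt2 (y : Z3) (i j k : ℕ) : sobPt y i j (k + 1) = sobPt y i j k + ev 2 := by
  funext l
  fin_cases l <;> simp [sobPt, ev, add_assoc]

lemma sob_box_le (G : Z3 → ℝ) (hG : ∀ e, 0 ≤ G e) (y : Z3) {a b c M : ℕ} (ha : a ≤ M) (hb : b ≤ M)
    (hc : c ≤ M) :
    ∑ i ∈ range a, ∑ j ∈ range b, ∑ k ∈ range c, G (sobPt y i j k) ≤ ∑ e ∈ cube y M, G e := by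
  have e : ∑ i ∈ range a, ∑ j ∈ range b, ∑ k ∈ range c, G (sobPt y i j k) =
      ∑ q ∈ range a ×ˢ range b ×ˢ range c, G (sobPt y q.1 q.2.1 q.2.2) := by
    rw [Finset.sum_product]
    refine Finset.sum_congr rfl fun i _ => ?_
    rw [Finset.sum_product]
  rw [e, ← Finset.sum_image (g := fun q : ℕ × ℕ × ℕ => sobPt y q.1 q.2.1 q.2.2)]
  · refine Finset.sum_le_sum_of_subset_of_nonneg (fun z hz => ?_) fun _ _ _ => hG _
    obtain ⟨q, hq, rfl⟩ := Finset.mem_image.1 hz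
    simp only [Finset.mem_product, Finset.mem_range] at hq
    rw [mem_cube, nrm_le_iff]
    intro l
    fin_cases l <;> simp [sobPt] <;> omega
  · intro q _ q' _ h
    have h0 := congrFun h 0
    have h1 := congrFun h 1
    have h2 := congrFun h 2
    simp [sobPt] at h0 h1 h2
    exact Prod.ext h0 (Prod.ext h1 h2)

/-- sums over boxes -/
def sobS (f : Z3 → ℝ) (y : Z3) (a b c : ℕ) : ℝ :=
  ∑ i ∈ range a, ∑ j ∈ range b, ∑ k ∈ range c, f (sobPt y i j k)

/-- gradient size -/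
def sobG (f : Z3 → ℝ) (e : Z3) : ℝ := ∑ i, |f (e + ev i) - f e|

lemma sobG_nonneg (f : Z3 → ℝ) (e : Z3) : 0 ≤ sobG f e := Finset.sum_nonneg fun _ _ => abs_nonneg _

lemma le_sobG (f : Z3 → ℝ) (e : Z3) (i : Fin 3) : |f (e + ev i) - f e| ≤ sobG f e :=
  Finset.single_le_sum (f := fun i => |f (e + ev i) - f e|) (fun _ _ => abs_nonneg _)
    (Finset.mem_univ i)

lemma sob_abs_sum_sub (s : Finset ℕ) (u w b : ℕ → ℝ) (h : ∀ i ∈ s, |u i - w i| ≤ b i) :
    |∑ i ∈ s, u i - ∑ i ∈ s, w i| ≤ ∑ i ∈ s, b i := by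
  rw [← Finset.sum_sub_distrib]
  exact (Finset.abs_sum_le_sum_abs _ _).trans (Finset.sum_le_sum h)

lemma sob_step0 (f : Z3 → ℝ) (y : Z3) (m : ℕ) :
    |sobS f y (2 * m) m m - 2 * sobS f y m m m| ≤ m * ∑ e ∈ cube y (2 * m), sobG f e := by
  refine (sob_double (fun i => ∑ j ∈ range m, ∑ k ∈ range m, f (sobPt y i j k)) m).trans
    (mul_le_mul_of_nonneg_left (le_trans (Finset.sum_le_sum fun i _ => ?_)
      (sob_box_le (sobG f) (sobG_nonneg f) y (a := 2 * m) (b := m) (c := m) le_rfl (by omega)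
        (by omega))) (Nat.cast_nonneg m))
  refine sob_abs_sum_sub _ _ _ _ fun j _ => sob_abs_sum_sub _ _ _ _ fun k _ => ?_
  rw [sob_pt0]
  exact le_sobG f _ 0

lemma sob_step1 (f : Z3 → ℝ) (y : Z3) (m : ℕ) :
    |sobS f y (2 * m) (2 * m) m - 2 * sobS f y (2 * m) m m| ≤
      m * ∑ e ∈ cube y (2 * m), sobG f e := by
  refine le_trans ?_ (mul_le_mul_of_nonneg_left (sob_box_le (sobG f) (sobG_nonneg f) y
    (a := 2 * m) (b := 2 * m) (c := m) le_rfl le_rfl (by omega)) (Nat.cast_nonneg m))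
  unfold sobS
  rw [Finset.mul_sum, Finset.mul_sum]
  refine sob_abs_sum_sub _ _ _ _ fun i _ => ?_
  refine (sob_double (fun j => ∑ k ∈ range m, f (sobPt y i j k)) m).trans
    (mul_le_mul_of_nonneg_left (Finset.sum_le_sum fun j _ => ?_) (Nat.cast_nonneg m))
  refine sob_abs_sum_sub _ _ _ _ fun k _ => ?_
  rw [sob_pt1]
  exact le_sobG f _ 1

lemma sob_step2 (f : Z3 → ℝ) (y : Z3) (m : ℕ) :
    |sobS f y (2 * m) (2 * m) (2 * m) - 2 * sobS f y (2 * m) (2 * m) m| ≤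
      m * ∑ e ∈ cube y (2 * m), sobG f e := by
  refine le_trans ?_ (mul_le_mul_of_nonneg_left (sob_box_le (sobG f) (sobG_nonneg f) y
    (a := 2 * m) (b := 2 * m) (c := 2 * m) le_rfl le_rfl le_rfl) (Nat.cast_nonneg m))
  unfold sobS
  rw [Finset.mul_sum, Finset.mul_sum]
  refine sob_abs_sum_sub _ _ _ _ fun i _ => ?_
  rw [Finset.mul_sum, Finset.mul_sum]
  refine sob_abs_sum_sub _ _ _ _ fun j _ => ?_
  refine (sob_double (fun k => f (sobPt y i j k)) m).trans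
    (mul_le_mul_of_nonneg_left (Finset.sum_le_sum fun k _ => ?_) (Nat.cast_nonneg m))
  rw [sob_pt2]
  exact le_sobG f _ 2

lemma sob_iter (f : Z3 → ℝ) (y : Z3) (J : ℕ) :
    |f y| ≤ (1 / 8 : ℝ) ^ J * |sobS f y (2 ^ J) (2 ^ J) (2 ^ J)|
      + ∑ j ∈ range J, (1 / 4 : ℝ) ^ j * ∑ e ∈ cube y (2 ^ (j + 1)), sobG f e := by
  induction J with
  | zero =>
    have : sobPt y 0 0 0 = y := by
      funext l
      fin_cases l <;> simp [sobPt]
    simp [sobS, this]
  | succ J ih =>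
    rw [Finset.sum_range_succ]
    have h0 := abs_le.1 (sob_step0 f y (2 ^ J))
    have h1 := abs_le.1 (sob_step1 f y (2 ^ J))
    have h2 := abs_le.1 (sob_step2 f y (2 ^ J))
    rw [← pow_succ'] at h0 h1 h2
    set D := ∑ e ∈ cube y (2 ^ (J + 1)), sobG f e with hD
    have hD0 : 0 ≤ D := Finset.sum_nonneg fun e _ => sobG_nonneg f e
    have h3 : |sobS f y (2 ^ J) (2 ^ J) (2 ^ J)| ≤
        1 / 8 * |sobS f y (2 ^ (J + 1)) (2 ^ (J + 1)) (2 ^ (J + 1))| + ((2 ^ J : ℕ) : ℝ) * D := by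
      have a1 := le_abs_self (sobS f y (2 ^ (J + 1)) (2 ^ (J + 1)) (2 ^ (J + 1)))
      have a2 := neg_abs_le (sobS f y (2 ^ (J + 1)) (2 ^ (J + 1)) (2 ^ (J + 1)))
      have a3 : 0 ≤ ((2 ^ J : ℕ) : ℝ) * D := by positivity
      rw [abs_le]
      constructor <;> linarith [h0.1, h0.2, h1.1, h1.2, h2.1, h2.2]
    have h4 := mul_le_mul_of_nonneg_left h3 (by positivity : 0 ≤ (1 / 8 : ℝ) ^ J)
    have h5 : (1 / 8 : ℝ) ^ J * ((2 ^ J : ℕ) : ℝ) = (1 / 4 : ℝ) ^ J := by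
      push_cast
      rw [← mul_pow]
      norm_num
    rw [mul_add, ← mul_assoc, ← mul_assoc, h5, ← pow_succ] at h4
    linarith

lemma sob_pow_le {n j : ℕ} (h : n ≤ 2 ^ (j + 1)) : (1 / 4 : ℝ) ^ j ≤ 16 * (1 / (1 + (n : ℝ)) ^ 2) := by
  have h1 : (n : ℝ) ≤ 2 * 2 ^ j := by
    rw [← pow_succ']
    exact_mod_cast h
  have h2 : (1 : ℝ) ≤ 2 ^ j := one_le_pow₀ (by norm_num)
  have h3 : (4 : ℝ) ^ j = 2 ^ j * 2 ^ j := by
    rw [← mul_pow]
    norm_num
  have h0 : (0 : ℝ) ≤ n := Nat.cast_nonneg n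
  rw [_root_.one_div_pow, mul_one_div, div_le_div_iff₀ (by positivity) (by positivity), h3]
  nlinarith

lemma sob_geom (n J : ℕ) :
    (¬ n ≤ 2 ^ (J + 1) → ∑ j ∈ range J, (if n ≤ 2 ^ (j + 1) then (1 / 4 : ℝ) ^ j else 0) = 0) ∧
    (n ≤ 2 ^ (J + 1) → ∑ j ∈ range J, (if n ≤ 2 ^ (j + 1) then (1 / 4 : ℝ) ^ j else 0) ≤
      32 * (1 / (1 + (n : ℝ)) ^ 2) - 2 * (1 / 4 : ℝ) ^ J) := by
  induction J with
  | zero =>
    refine ⟨fun _ => by simp, fun h => ?_⟩
    have := sob_pow_le h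
    rw [Finset.sum_range_zero]
    linarith
  | succ J ih =>
    have hm : 2 ^ (J + 1) ≤ 2 ^ (J + 1 + 1) := Nat.pow_le_pow_right (by norm_num) (by omega)
    rw [Finset.sum_range_succ]
    by_cases h : n ≤ 2 ^ (J + 1)
    · refine ⟨fun h' => absurd (h.trans hm) h', fun _ => ?_⟩
      have := ih.2 h
      have h0 : (0 : ℝ) ≤ (1 / 4 : ℝ) ^ J := by positivity
      rw [if_pos h, pow_succ (1 / 4 : ℝ)]
      linarith
    · rw [if_neg h, ih.1 h]
      refine ⟨fun _ => by simp, fun h' => ?_⟩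
      have := sob_pow_le h'
      linarith

lemma sob_geom_le (n J : ℕ) : ∑ j ∈ range J, (if n ≤ 2 ^ (j + 1) then (1 / 4 : ℝ) ^ j else 0) ≤
    32 * (1 / (1 + (n : ℝ)) ^ 2) := by
  by_cases h : n ≤ 2 ^ (J + 1)
  · have := (sob_geom n J).2 h
    have h0 : (0 : ℝ) ≤ (1 / 4 : ℝ) ^ J := by positivity
    linarith
  · rw [(sob_geom n J).1 h]
    positivity

theorem sobolev : ∃ C : ℝ, 0 < C ∧ ∀ (f : Z3 → ℝ) (y : Z3) (r : ℕ), 1 ≤ r →
    |f y| ≤ C * ∑ e ∈ cube y (2 * r),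
      th (e - y) * ((∑ i, |f (e + ev i) - f e|) + |f e| / (r : ℝ)) := by
  refine ⟨32, by norm_num, fun f y r hr => ?_⟩
  set J := Nat.log 2 r with hJ
  have i1 : 2 ^ J ≤ r := Nat.pow_log_le_self 2 (by omega)
  have i2 : r < 2 ^ (J + 1) := Nat.lt_pow_succ_log_self (by norm_num) _
  have hr' : (0 : ℝ) < r := by exact_mod_cast hr
  have a1 : ∑ j ∈ range J, (1 / 4 : ℝ) ^ j * ∑ e ∈ cube y (2 ^ (j + 1)), sobG f e ≤
      ∑ e ∈ cube y (2 * r), 32 * (th (e - y) * sobG f e) := by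
    calc _ = ∑ j ∈ range J, ∑ e ∈ cube y (2 * r),
          (if nrm (e - y) ≤ 2 ^ (j + 1) then (1 / 4 : ℝ) ^ j else 0) * sobG f e := by
          refine Finset.sum_congr rfl fun j hj => ?_
          have hj' : 2 ^ (j + 1) ≤ 2 ^ J :=
            Nat.pow_le_pow_right (by norm_num) (Finset.mem_range.1 hj)
          rw [Finset.mul_sum, ← Finset.sum_subset (cube_mono y (by omega : 2 ^ (j + 1) ≤ 2 * r))]
          · exact Finset.sum_congr rfl fun e he => by rw [if_pos (mem_cube.1 he)]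
          · intro e _ he
            rw [if_neg (fun h => he (mem_cube.2 h)), zero_mul]
      _ ≤ _ := by
          rw [Finset.sum_comm]
          refine Finset.sum_le_sum fun e _ => ?_
          rw [← Finset.sum_mul, ← mul_assoc]
          exact mul_le_mul_of_nonneg_right (sob_geom_le _ J) (sobG_nonneg f e)
  have a2 : |sobS f y (2 ^ J) (2 ^ J) (2 ^ J)| ≤ ∑ e ∈ cube y (2 ^ J), |f e| := by
    refine le_trans ?_ (sob_box_le (fun e => |f e|) (fun _ => abs_nonneg _) y le_rfl le_rfl le_rfl)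
    refine (Finset.abs_sum_le_sum_abs _ _).trans (Finset.sum_le_sum fun i _ => ?_)
    exact (Finset.abs_sum_le_sum_abs _ _).trans
      (Finset.sum_le_sum fun j _ => Finset.abs_sum_le_sum_abs _ _)
  have a3 : (1 / 8 : ℝ) ^ J * ∑ e ∈ cube y (2 ^ J), |f e| ≤
      ∑ e ∈ cube y (2 * r), 32 * (th (e - y) * (|f e| / r)) := by
    rw [Finset.mul_sum]
    refine le_trans (Finset.sum_le_sum fun e he => ?_) (Finset.sum_le_sum_of_subset_of_nonneg
      (cube_mono y (by omega : 2 ^ J ≤ 2 * r)) fun e _ _ => by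
        have := th_pos (e - y)
        positivity)
    have hm : 2 ^ J ≤ 2 ^ (J + 1) := Nat.pow_le_pow_right (by norm_num) (by omega)
    have b1 : (1 / 4 : ℝ) ^ J ≤ 16 * th (e - y) := sob_pow_le ((mem_cube.1 he).trans hm)
    have b2 : (1 / 2 : ℝ) ^ J ≤ 2 / r := by
      have : (r : ℝ) ≤ 2 * 2 ^ J := by
        rw [← pow_succ']
        exact_mod_cast i2.le
      rw [_root_.one_div_pow, div_le_div_iff₀ (by positivity) hr']
      linarith
    have b3 : (1 / 8 : ℝ) ^ J = (1 / 4 : ℝ) ^ J * (1 / 2 : ℝ) ^ J := by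
      rw [← mul_pow]
      norm_num
    have b4 := mul_le_mul b1 b2 (by positivity) (by linarith [th_pos (e - y)])
    calc (1 / 8 : ℝ) ^ J * |f e| ≤ 16 * th (e - y) * (2 / r) * |f e| := by
          rw [b3]
          exact mul_le_mul_of_nonneg_right b4 (abs_nonneg _)
      _ = _ := by ring
  have a4 := mul_le_mul_of_nonneg_left a2 (by positivity : 0 ≤ (1 / 8 : ℝ) ^ J)
  have a5 := sob_iter f y J
  have e : 32 * ∑ e ∈ cube y (2 * r), th (e - y) * ((∑ i, |f (e + ev i) - f e|) + |f e| / (r : ℝ)) =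
      ∑ e ∈ cube y (2 * r), 32 * (th (e - y) * sobG f e)
        + ∑ e ∈ cube y (2 * r), 32 * (th (e - y) * (|f e| / r)) := by
    rw [Finset.mul_sum, ← Finset.sum_add_distrib]
    exact Finset.sum_congr rfl fun e _ => by unfold sobG; ring
  rw [e]
  linarith

end Vale.Agent.P361
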