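import Vale.Agent.P361.Basic

/-! The isometry from spin `S` to symmetric copies of spin one half. -/

set_option linter.all false

namespace Vale.Agent.P361

open Matrix Finset Function

noncomputable section

variable {V : Type} [Fintype V] [DecidableEq V] {s : ℕ}

/-- One site weight. -/
def srw (s k : ℕ) (t : Fin (s + 1)) : ℂ := if k = t then (((√(s.choose k : ℝ))⁻¹ : ℝ) : ℂ) else 0

/-- The isometry. -/
def srJ (V : Type) [Fintype V] [DecidableEq V] (s : ℕ) :
    Matrix (Finset (V × Fin s)) (V → Fin (s + 1)) ℂ :=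
  Matrix.of fun η τ => ∏ x, srw s (cnt η x) (τ x)

lemma sr_cnt_le (η : Finset (V × Fin s)) (x : V) : cnt η x ≤ s :=
  (card_filter_le _ _).trans_eq (by simp)

lemma srw_sum {k : ℕ} (hk : k ≤ s) (f : Fin (s + 1) → ℂ) :
    ∑ t, srw s k t * f t = (((√(s.choose k : ℝ))⁻¹ : ℝ) : ℂ) * f ⟨k, Nat.lt_succ_of_le hk⟩ := by
  rw [sum_eq_single ⟨k, Nat.lt_succ_of_le hk⟩, srw, if_pos rfl]
  · intro t _ ht
    rw [srw, if_neg fun h => ht (Fin.ext h.symm), zero_mul]
  · simp

lemma sr_sq (s k : ℕ) : (((√(s.choose k : ℝ))⁻¹ : ℝ) : ℂ) * (((√(s.choose k : ℝ))⁻¹ : ℝ) : ℂ) =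
    ((1 / (s.choose k : ℝ) : ℝ) : ℂ) := by
  rw [← Complex.ofReal_mul, ← mul_inv, Real.mul_self_sqrt (Nat.cast_nonneg _), one_div]

lemma srJ_mul_transpose : srJ V s * (srJ V s)ᵀ = (symP V s).map (↑) := by
  ext η η'
  simp only [mul_apply, transpose_apply, srJ, of_apply, ← prod_mul_distrib, map_apply, symP,
    Complex.ofReal_prod]
  rw [← Fintype.piFinset_univ, ← prod_univ_sum (fun _ => univ) fun x t =>
    srw s (cnt η x) t * srw s (cnt η' x) t]
  refine prod_congr rfl fun x _ => ?_
  rw [srw_sum (sr_cnt_le η x), srw]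
  by_cases h : cnt η x = cnt η' x
  · rw [if_pos h.symm, if_pos h, ← h, sr_sq]
  · rw [if_neg fun h' => h h'.symm, if_neg h, mul_zero, Complex.ofReal_zero]

lemma transpose_mul_srJ : (srJ V s)ᵀ * srJ V s = 1 := by
  ext σ τ
  let e : Finset (V × Fin s) ≃ (V → Finset (Fin s)) :=
    { toFun := fun η x => univ.filter fun i => (x, i) ∈ η
      invFun := fun A => univ.filter fun v => v.2 ∈ A v.1
      left_inv := fun η => by ext v; simp
      right_inv := fun A => by ext x i; simp }
  simp only [mul_apply, transpose_apply, srJ, of_apply, ← prod_mul_distrib]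
  rw [show ∑ η : Finset (V × Fin s), ∏ x, srw s (cnt η x) (σ x) * srw s (cnt η x) (τ x) =
    ∑ A : V → Finset (Fin s), ∏ x, srw s (A x).card (σ x) * srw s (A x).card (τ x) from
      Fintype.sum_equiv e _ _ fun η => rfl, ← Fintype.piFinset_univ,
    ← prod_univ_sum (fun _ => univ) fun x (A : Finset (Fin s)) =>
      srw s A.card (σ x) * srw s A.card (τ x)]
  have key : ∀ a b : Fin (s + 1), ∑ A : Finset (Fin s), srw s A.card a * srw s A.card b =
      if a = b then 1 else 0 := fun a b => by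
    split_ifs with h
    · subst h
      have e1 : ∀ A : Finset (Fin s), srw s A.card a * srw s A.card a =
          if A.card = a then ((1 / (s.choose a : ℝ) : ℝ) : ℂ) else 0 := fun A => by
        rw [srw]
        split_ifs with h
        · rw [sr_sq, h]
        · exact mul_zero _
      have e2 : ((s.choose a : ℕ) : ℂ) ≠ 0 :=
        Nat.cast_ne_zero.2 (Nat.choose_pos (Nat.le_of_lt_succ a.2)).ne'
      simp only [e1]
      rw [← sum_filter, ← powerset_univ, ← powersetCard_eq_filter, sum_const, card_powersetCard]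
      simp [e2]
    · refine sum_eq_zero fun A _ => ?_
      unfold srw
      split_ifs with h1 h2
      · exact absurd (Fin.ext (h1.symm.trans h2)) h
      all_goals simp
  simp only [key]
  rw [Fintype.prod_boole, one_apply]
  exact if_congr funext_iff.symm rfl rfl

lemma sr_mul_onSite {α : Type} (M : Matrix α (V → Fin (s + 1)) ℂ) (x : V)
    (A : Matrix (Fin (s + 1)) (Fin (s + 1)) ℂ) (η : α) (τ : V → Fin (s + 1)) :
    (M * onSite x A) η τ = ∑ k, M η (update τ x k) * A k (τ x) := by
  rw [mul_apply]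
  refine (sum_of_injOn (update τ x) (update_injective τ x).injOn (fun _ _ => mem_univ _)
    (fun σ _ hσ => ?_) fun k _ => ?_).symm
  · rw [onSite, of_apply, if_neg, mul_zero]
    intro h
    refine hσ ⟨σ x, mem_coe.2 (mem_univ _), funext fun y => ?_⟩
    by_cases hy : y = x
    · rw [hy, update_self]
    · rw [update_of_ne hy, h y hy]
  · rw [onSite, of_apply, if_pos fun y hy => update_of_ne hy _ _, update_self]

lemma srJ_eq {η η' : Finset (V × Fin s)} {τ τ' : V → Fin (s + 1)} (x : V)
    (h1 : ∀ y, y ≠ x → cnt η' y = cnt η y) (h2 : ∀ y, y ≠ x → τ' y = τ y) :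
    srJ V s η' τ' = srw s (cnt η' x) (τ' x) * ∏ y ∈ univ.erase x, srw s (cnt η y) (τ y) := by
  rw [srJ, of_apply, ← mul_prod_erase _ _ (mem_univ x)]
  congr 1
  exact prod_congr rfl fun y hy => by rw [h1 y (ne_of_mem_erase hy), h2 y (ne_of_mem_erase hy)]

lemma srJ_mul_onSite (x : V) (A : Matrix (Fin (s + 1)) (Fin (s + 1)) ℂ) (η : Finset (V × Fin s))
    (τ : V → Fin (s + 1)) :
    (srJ V s * onSite x A) η τ = (((√(s.choose (cnt η x) : ℝ))⁻¹ : ℝ) : ℂ) *
      A ⟨cnt η x, Nat.lt_succ_of_le (sr_cnt_le η x)⟩ (τ x) *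
        ∏ y ∈ univ.erase x, srw s (cnt η y) (τ y) := by
  rw [sr_mul_onSite, ← srw_sum (sr_cnt_le η x) fun k => A k (τ x), sum_mul]
  refine sum_congr rfl fun k _ => ?_
  rw [srJ_eq (η := η) (τ := τ) x (fun _ _ => rfl) fun y hy => update_of_ne hy _ _, update_self]
  ring

/-- Raising operator of one copy. -/
def srP (v : V × Fin s) : Matrix (Finset (V × Fin s)) (Finset (V × Fin s)) ℂ :=
  Matrix.of fun η η' => if η' = insert v η then (if v ∈ η then 0 else 1) else 0

/-- Lowering operator of one copy. -/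
def srM (v : V × Fin s) : Matrix (Finset (V × Fin s)) (Finset (V × Fin s)) ℂ :=
  Matrix.of fun η η' => if η' = η.erase v then (if v ∈ η then 1 else 0) else 0

/-- Third component of one copy. -/
def srZ (v : V × Fin s) : Matrix (Finset (V × Fin s)) (Finset (V × Fin s)) ℂ :=
  diagonal fun η => 1 / 2 - if v ∈ η then 1 else 0

/-- Sum over the copies at a site. -/
def srS (f : V × Fin s → Matrix (Finset (V × Fin s)) (Finset (V × Fin s)) ℂ) (x : V) :
    Matrix (Finset (V × Fin s)) (Finset (V × Fin s)) ℂ := ∑ i, f (x, i)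

/-- The transposition of two copies. -/
def srT (v w : V × Fin s) : Matrix (Finset (V × Fin s)) (Finset (V × Fin s)) ℂ :=
  (lz (Equiv.swap v w).finsetCongr 1).map (↑)

variable {α : Type}

lemma srP_mul (v : V × Fin s) (M : Matrix (Finset (V × Fin s)) α ℂ) (η : Finset (V × Fin s))
    (τ : α) : (srP v * M) η τ = if v ∈ η then 0 else M (insert v η) τ := by
  simp [srP, mul_apply]

lemma srM_mul (v : V × Fin s) (M : Matrix (Finset (V × Fin s)) α ℂ) (η : Finset (V × Fin s))
    (τ : α) : (srM v * M) η τ = if v ∈ η then M (η.erase v) τ else 0 := by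
  simp [srM, mul_apply]

lemma sr_choose (s k : ℕ) (hk : k < s) :
    (√(s.choose k : ℝ))⁻¹ * √(((k + 1 : ℕ) : ℝ) * ((s : ℝ) + 1 - ((k + 1 : ℕ) : ℝ))) =
      (s - k) * (√(s.choose (k + 1) : ℝ))⁻¹ ∧
    (√(s.choose (k + 1) : ℝ))⁻¹ * √(((k + 1 : ℕ) : ℝ) * ((s : ℝ) + 1 - ((k + 1 : ℕ) : ℝ))) =
      (k + 1 : ℕ) * (√(s.choose k : ℝ))⁻¹ := by
  have h1 : (0 : ℝ) < s.choose k := by exact_mod_cast Nat.choose_pos hk.le
  have h2 : (0 : ℝ) < s.choose (k + 1) := by exact_mod_cast Nat.choose_pos hk
  have h3 : (s.choose (k + 1) : ℝ) * (k + 1) = s.choose k * (s - k) := by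
    rw [← Nat.cast_sub hk.le]; exact_mod_cast Nat.choose_succ_right_eq s k
  have h4 : (0 : ℝ) ≤ s - k := by rw [← Nat.cast_sub hk.le]; positivity
  have h5 : (0 : ℝ) ≤ ((k + 1 : ℕ) : ℝ) * ((s : ℝ) + 1 - ((k + 1 : ℕ) : ℝ)) := by
    push_cast; exact mul_nonneg (by positivity) (by linarith)
  constructor <;> refine (sq_eq_sq₀ (by positivity) (by positivity)).1 ?_ <;>
    simp only [mul_pow, inv_pow, Real.sq_sqrt h1.le, Real.sq_sqrt h2.le, Real.sq_sqrt h5] <;>
    push_cast <;> field_simp
  · linear_combination (s - k) * h3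
  · linear_combination (-1 : ℝ) * h3

lemma sr_cnt_insert {η : Finset (V × Fin s)} {x : V} {i : Fin s} (h : (x, i) ∉ η) :
    cnt (insert (x, i) η) x = cnt η x + 1 ∧ ∀ y, y ≠ x → cnt (insert (x, i) η) y = cnt η y := by
  refine ⟨?_, fun y hy => congrArg card (filter_congr fun j _ => by simp [hy])⟩
  rw [cnt, cnt, ← card_insert_of_notMem (a := i) (by simpa using h)]
  congr 1
  ext j
  simp

lemma srP_srJ (x : V) : srS (s := s) srP x * srJ V s = srJ V s * onSite x (spinPlus s) := by
  ext η τ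
  have e : ∀ i, (srP (x, i) * srJ V s) η τ = if (x, i) ∈ η then 0 else
      srw s (cnt η x + 1) (τ x) * ∏ y ∈ univ.erase x, srw s (cnt η y) (τ y) := fun i => by
    rw [srP_mul]
    split_ifs with h
    · rfl
    · rw [srJ_eq (η := η) (τ := τ) x (sr_cnt_insert h).2 fun _ _ => rfl, (sr_cnt_insert h).1]
  have c1 : ((univ.filter fun i => ¬ (x, i) ∈ η).card : ℂ) = s - cnt η x := by
    have := card_filter_add_card_filter_not (s := univ) fun i : Fin s => (x, i) ∈ η
    rw [card_univ, Fintype.card_fin] at this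
    rw [eq_sub_iff_add_eq']
    exact_mod_cast this
  rw [srS, Matrix.sum_mul, Matrix.sum_apply, srJ_mul_onSite]
  simp only [e]
  rw [sum_ite, sum_const_zero, zero_add, sum_const, nsmul_eq_mul, c1, ← mul_assoc, srw, spinPlus,
    of_apply]
  congr 1
  by_cases h : cnt η x + 1 = τ x
  · rw [if_pos h, if_pos h.symm, ← h]
    have := (τ x).2
    exact_mod_cast (sr_choose s (cnt η x) (by omega)).1.symm
  · rw [if_neg h, if_neg fun h' => h h'.symm, mul_zero, mul_zero]

lemma srM_srJ (x : V) : srS (s := s) srM x * srJ V s = srJ V s * onSite x (spinPlus s)ᴴ := by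
  ext η τ
  have e : ∀ i, (srM (x, i) * srJ V s) η τ = if (x, i) ∈ η then
      srw s (cnt η x - 1) (τ x) * ∏ y ∈ univ.erase x, srw s (cnt η y) (τ y) else 0 := fun i => by
    rw [srM_mul]
    split_ifs with h
    · have := sr_cnt_insert (notMem_erase (x, i) η)
      rw [insert_erase h] at this
      rw [srJ_eq (η := η) (τ := τ) x (fun y hy => (this.2 y hy).symm) fun _ _ => rfl, this.1]
      rfl
    · rfl
  rw [srS, Matrix.sum_mul, Matrix.sum_apply, srJ_mul_onSite]
  simp only [e]
  rw [sum_ite, sum_const_zero, add_zero, sum_const, nsmul_eq_mul, ← mul_assoc, srw, spinPlus,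
    conjTranspose_apply, of_apply]
  congr 1
  change (cnt η x : ℂ) * _ = _ * star (if cnt η x = _ then ((√((cnt η x : ℝ) * (_ - cnt η x)) : ℝ) : ℂ)
    else _)
  by_cases h : cnt η x = τ x + 1
  · have := sr_cnt_le η x
    rw [if_pos h, if_pos (by omega), h, Nat.add_sub_cancel, RCLike.star_def, Complex.conj_ofReal]
    exact_mod_cast (sr_choose s (τ x) (by omega)).2.symm
  · rw [if_neg h, star_zero, mul_zero]
    split_ifs with h'
    · rw [show cnt η x = 0 by omega, Nat.cast_zero, zero_mul]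
    · exact mul_zero _

lemma srZ_srJ (x : V) : srS (s := s) srZ x * srJ V s = srJ V s * onSite x (spin s 2) := by
  ext η τ
  rw [srS, Matrix.sum_mul, Matrix.sum_apply, srJ_mul_onSite]
  simp only [srZ, diagonal_mul, ← sum_mul, sum_sub_distrib, sum_boole]
  rw [srJ_eq (η := η) (τ := τ) x (fun _ _ => rfl) fun _ _ => rfl, ← mul_assoc]
  congr 1
  change (_ - (cnt η x : ℂ)) * _ = _ * diagonal _ _ _
  rw [diagonal_apply, srw]
  simp only [Fin.ext_iff, sum_const, card_univ, Fintype.card_fin, nsmul_eq_mul]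
  split_ifs
  · ring
  · simp

lemma sr_swap {v w : V × Fin s} (h : v ≠ w) (M : Matrix (Finset (V × Fin s)) α ℂ) :
    srT v w * M =
      (2 : ℂ) • (srZ v * (srZ w * M)) + srP v * (srM w * M) + srM v * (srP w * M) + (1 / 2 : ℂ) • M := by
  ext η τ
  have e : (srT v w * M) η τ = M ((Equiv.swap v w).finsetCongr η) τ := by
    rw [mul_apply, sum_eq_single ((Equiv.swap v w).finsetCongr η)]
    · simp [srT, lz]
    · intro j _ hj
      simp only [srT, lz, map_apply, of_apply, if_neg hj]
      simp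
    · simp
  simp only [e, Matrix.add_apply, Matrix.smul_apply, srP_mul, srM_mul, srZ, diagonal_mul, mem_insert, mem_erase,
    smul_eq_mul]
  have m : ∀ y, y ∈ (Equiv.swap v w).finsetCongr η ↔ Equiv.swap v w y ∈ η := fun y => by
    simp [mem_map_equiv]
  by_cases h1 : v ∈ η <;> by_cases h2 : w ∈ η
  · rw [show (Equiv.swap v w).finsetCongr η = η from Finset.ext fun y => by
      rw [m, Equiv.swap_apply_def]; grind]
    simp [h1, h2, h.symm]
    ring
  · rw [show (Equiv.swap v w).finsetCongr η = insert w (η.erase v) from Finset.ext fun y => by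
      rw [m, Equiv.swap_apply_def, mem_insert, mem_erase]; grind]
    simp [h1, h2]
    ring
  · rw [show (Equiv.swap v w).finsetCongr η = (insert v η).erase w from Finset.ext fun y => by
      rw [m, Equiv.swap_apply_def, mem_erase, mem_insert]; grind]
    simp [h1, h2]
    ring
  · rw [show (Equiv.swap v w).finsetCongr η = η from Finset.ext fun y => by
      rw [m, Equiv.swap_apply_def]; grind]
    simp [h1, h2, h.symm]
    ring

end

end Vale.Agent.P361
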