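import Vale.Agent.P361.Basic

/-! Non-vanishing of the cut generating function. -/

set_option linter.all false

namespace Vale.Agent.P361

open Finset Function ComplexConjugate

noncomputable section

variable {I X : Type} [Fintype I] [DecidableEq I] [Fintype X] [DecidableEq X]

/-- The generating function with local weights. -/
def stF {R : Type} [CommRing R] (c : Circ I X) (p : (I → Bool) → R)
    (lam : I × X → Bool → Bool → R) : R :=
  ∑ ω, p ω * ∑ σ : Finset (I × X), ∏ v, lam v (decide (v ∈ σ)) (decide ((c.perm ω).symm v ∈ σ))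

lemma stF_add {R : Type} [CommRing R] (c : Circ I X) (p : (I → Bool) → R)
    (lam : I × X → Bool → Bool → R) (v : I × X) (μ ν : Bool → Bool → R) (x : R) :
    stF c p (update lam v fun o i => μ o i + x * ν o i) =
      stF c p (update lam v μ) + x * stF c p (update lam v ν) := by
  have e : ∀ (μ : Bool → Bool → R) (f g : I × X → Bool), ∏ w, update lam v μ w (f w) (g w) =
      μ (f v) (g v) * ∏ w ∈ univ.erase v, lam w (f w) (g w) := fun μ f g => by
    rw [← mul_prod_erase _ _ (mem_univ v), update_self]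
    congr 1
    exact prod_congr rfl fun w hw => by rw [update_of_ne (ne_of_mem_erase hw)]
  simp only [stF, e, mul_sum, ← sum_add_distrib]
  exact sum_congr rfl fun ω _ => sum_congr rfl fun σ _ => by ring

lemma stF_cast (c : Circ I X) (p : (I → Bool) → ℝ) (lam : I × X → Bool → Bool → ℝ) :
    ((stF c p lam : ℝ) : ℂ) = stF c (fun ω => (p ω : ℂ)) fun v o i => (lam v o i : ℂ) := by
  simp only [stF]
  push_cast
  rfl

/-- Evaluation weights. -/
def stE {R : Type} [CommRing R] (κ z w : R) (o i : Bool) : R :=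
  κ * ((if o then z else 1) * if i then 1 else w)

/-- Gluing weights. -/
def stG {R : Type} [CommRing R] (ε d : R) (o i : Bool) : R :=
  ((if o then ε else 1) * if i then 0 else 1) +
    d * ((if o then 1 else 0) * if i then 1 else ε) + ε * stE 1 ε ε o i

lemma stF_eval (c : Circ I X) (κ z w : I × X → ℂ) :
    stF c (fun ω => (c.pw ω : ℂ)) (fun v => stE (κ v) (z v) (w v)) =
      (∏ v, κ v) * ∏ i, ((c.gp i : ℂ) * ∏ x, (z (i, x) + w (c.nx i, Equiv.swap (c.ga i) (c.gb i) x)) +
        (1 - c.gp i) * ∏ x, (z (i, x) + w (c.nx i, x))) := by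
  have e1 : ∀ ω, ∑ σ : Finset (I × X), ∏ v, stE (κ v) (z v) (w v) (decide (v ∈ σ))
      (decide ((c.perm ω).symm v ∈ σ)) = (∏ v, κ v) * ∏ v, (z v + w (c.perm ω v)) := fun ω => by
    rw [Fintype.prod_add, mul_sum]
    refine sum_congr rfl fun σ _ => ?_
    simp only [stE, prod_mul_distrib, decide_eq_true_eq]
    rw [prod_ite_mem, univ_inter,
      ← Equiv.prod_comp (c.perm ω) fun v => if (c.perm ω).symm v ∈ σ then 1 else w v]
    simp only [Equiv.symm_apply_apply]
    congr 2
    rw [← univ_inter σᶜ, ← prod_ite_mem]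
    exact prod_congr rfl fun v _ => by by_cases h : v ∈ σ <;> simp [h]
  have e2 := prod_univ_sum (fun _ : I => (univ : Finset Bool)) fun i b =>
    ((if b then c.gp i else 1 - c.gp i : ℝ) : ℂ) *
      ∏ x, (z (i, x) + w (c.nx i, if b then Equiv.swap (c.ga i) (c.gb i) x else x))
  simp only [Fintype.sum_bool, if_true, Bool.false_eq_true, if_false, Fintype.piFinset_univ,
    Complex.ofReal_sub, Complex.ofReal_one] at e2
  rw [e2, stF, mul_sum]
  refine sum_congr rfl fun ω _ => ?_
  rw [e1, mul_left_comm, prod_mul_distrib, Circ.pw, Complex.ofReal_prod]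
  congr 2
  rw [Fintype.prod_prod_type]
  refine prod_congr rfl fun i _ => prod_congr rfl fun x _ => ?_
  congr 2
  cases h : ω i <;> simp [Circ.perm, h]

lemma st_gate {u za zb wa wb : ℂ} {p : ℝ} (h0 : 0 ≤ p) (h1 : p ≤ 1) (ha : 0 < (conj u * za).re)
    (hb : 0 < (conj u * zb).re) (ha' : 0 < (conj u * wa).re) (hb' : 0 < (conj u * wb).re) :
    (p : ℂ) * ((za + wb) * (zb + wa)) + (1 - p) * ((za + wa) * (zb + wb)) ≠ 0 := by
  intro h
  have h2 : 0 ≤ 1 - p := sub_nonneg.2 h1
  have hm : zb + p * wa + (1 - p) * wb ≠ 0 := fun hm => by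
    have e : conj u * (zb + p * wa + (1 - p) * wb) =
        conj u * zb + p * (conj u * wa) + ((1 - p : ℝ) : ℂ) * (conj u * wb) := by push_cast; ring
    have := congrArg Complex.re e
    rw [hm, mul_zero, Complex.add_re, Complex.add_re, Complex.re_ofReal_mul, Complex.re_ofReal_mul,
      Complex.zero_re] at this
    nlinarith [mul_nonneg h0 ha'.le, mul_nonneg h2 hb'.le]
  have e : conj u * conj (zb + p * wa + (1 - p) * wb) *
      ((p : ℂ) * ((za + wb) * (zb + wa)) + (1 - p) * ((za + wa) * (zb + wb))) =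
      (Complex.normSq (zb + p * wa + (1 - p) * wb) : ℝ) * (conj u * za) +
        ((p * (1 - p) * Complex.normSq (wa - wb) : ℝ) : ℂ) * (conj u * zb) +
        (((1 - p) * Complex.normSq (zb + wb) : ℝ) : ℂ) * (conj u * wa) +
        ((p * Complex.normSq (zb + wa) : ℝ) : ℂ) * (conj u * wb) := by
    push_cast
    simp only [Complex.normSq_eq_conj_mul_self, map_add, map_mul, map_sub, map_one,
      Complex.conj_ofReal]
    ring
  have := congrArg Complex.re e
  simp only [h, mul_zero, Complex.add_re, Complex.re_ofReal_mul, Complex.zero_re] at this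
  have a1 := mul_pos (Complex.normSq_pos.2 hm) ha
  have a2 := mul_nonneg (mul_nonneg (mul_nonneg h0 h2) (Complex.normSq_nonneg (wa - wb))) hb.le
  have a3 := mul_nonneg (mul_nonneg h2 (Complex.normSq_nonneg (zb + wb))) ha'.le
  have a4 := mul_nonneg (mul_nonneg h0 (Complex.normSq_nonneg (zb + wa))) hb'.le
  linarith

lemma st_affine {u α β z : ℂ} (h : ∀ x, 0 < (conj u * x).re → α + x * β ≠ 0)
    (hz : 0 < (conj u * z).re) : 0 ≤ (u * (β / (α + z * β))).re := by
  rcases eq_or_ne β 0 with rfl | hβ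
  · simp
  have h1 : (conj u * (-α / β)).re ≤ 0 := not_lt.1 fun h1 => h _ h1 (by field_simp; ring)
  have h2 : u * (β / (α + z * β)) = u / (z - -α / β) := by
    have := h z hz
    rw [show z - -α / β = (α + z * β) / β by field_simp; ring]
    field_simp
  have h3 : 0 ≤ (conj u * (z - -α / β)).re := by rw [mul_sub, Complex.sub_re]; linarith
  rw [h2, Complex.div_re, ← add_div]
  refine div_nonneg ?_ (Complex.normSq_nonneg _)
  simpa [Complex.mul_re] using h3

/-- Non-vanishing. -/
theorem stF_ne {c : Circ I X} (hc : c.Ok) {u : ℂ} (hu : 0 < u.re) (G : Finset (I × X))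
    (lam : I × X → Bool → Bool → ℂ)
    (h1 : ∀ v, v ∉ G → ∃ κ z w : ℂ, κ ≠ 0 ∧ 0 < (conj u * z).re ∧ 0 < (conj u * w).re ∧
      lam v = stE κ z w)
    (h2 : ∀ v ∈ G, ∃ ε d : ℝ, 0 < ε ∧ 0 ≤ d ∧ lam v = stG (ε : ℂ) d) :
    stF c (fun ω => (c.pw ω : ℂ)) lam ≠ 0 := by
  induction G using Finset.induction_on generalizing lam with
  | empty =>
    choose κ z w a1 a2 a3 a4 using fun v => h1 v (notMem_empty v)
    rw [show lam = fun v => stE (κ v) (z v) (w v) from funext a4, stF_eval]
    refine mul_ne_zero (prod_ne_zero_iff.2 fun v _ => a1 v) (prod_ne_zero_iff.2 fun i _ => ?_)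
    have hne := hc.ne i
    have e : ∀ f : X → ℂ, ∏ x, f x = f (c.ga i) * f (c.gb i) *
        ∏ x ∈ (univ.erase (c.ga i)).erase (c.gb i), f x := fun f => by
      rw [mul_assoc, mul_prod_erase _ _ (mem_erase.2 ⟨hne.symm, mem_univ _⟩),
        mul_prod_erase _ _ (mem_univ _)]
    have e2 : ∏ x ∈ (univ.erase (c.ga i)).erase (c.gb i),
        (z (i, x) + w (c.nx i, Equiv.swap (c.ga i) (c.gb i) x)) =
        ∏ x ∈ (univ.erase (c.ga i)).erase (c.gb i), (z (i, x) + w (c.nx i, x)) :=
      prod_congr rfl fun x hx => by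
        rw [Equiv.swap_apply_of_ne_of_ne (ne_of_mem_erase (mem_of_mem_erase hx)) (ne_of_mem_erase hx)]
    rw [e, e fun x => z (i, x) + w (c.nx i, x), e2, Equiv.swap_apply_left, Equiv.swap_apply_right,
      ← mul_assoc, ← mul_assoc (1 - _), ← add_mul]
    refine mul_ne_zero (st_gate (hc.gp_nonneg i) ((hc.gp_le i).trans (by norm_num)) (a2 _) (a2 _)
      (a3 _) (a3 _)) (prod_ne_zero_iff.2 fun x _ h => ?_)
    have := congrArg (fun t => (conj u * t).re) h
    simp only [mul_add, Complex.add_re, mul_zero, Complex.zero_re] at this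
    linarith [a2 (i, x), a3 (c.nx i, x)]
  | insert v G hv ih =>
    obtain ⟨ε, d, a1, a2, a3⟩ := h2 v (mem_insert_self _ _)
    have key : ∀ z w : ℂ, 0 < (conj u * z).re → 0 < (conj u * w).re →
        stF c (fun ω => (c.pw ω : ℂ)) (update lam v (stE 1 z w)) ≠ 0 := fun z w hz hw => by
      refine ih _ (fun y hy => ?_) fun y hy => ?_
      · by_cases h : y = v
        · exact ⟨1, z, w, one_ne_zero, hz, hw, by rw [h, update_self]⟩
        · rw [update_of_ne h]
          exact h1 y fun h' => (mem_insert.1 h').elim h hy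
      · rw [update_of_ne (ne_of_mem_of_not_mem hy hv)]
        exact h2 y (mem_insert_of_mem hy)
    have hε : 0 < (conj u * (ε : ℂ)).re := by simpa [Complex.mul_re] using mul_pos hu a1
    have e1 : ∀ z : ℂ, stE 1 z (ε : ℂ) = fun o i => stE 1 0 (ε : ℂ) o i +
        z * ((if o then 1 else 0) * if i then 1 else (ε : ℂ)) := fun z => by
      funext o i; cases o <;> simp [stE]
    have e2 : ∀ w : ℂ, stE 1 (ε : ℂ) w = fun o i => stE 1 (ε : ℂ) 0 o i +
        w * ((if o then (ε : ℂ) else 1) * if i then 0 else 1) := fun w => by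
      funext o i; cases i <;> simp [stE, mul_comm]
    have b1 := st_affine (fun z hz => by have := key z ε hz hε; rwa [e1, stF_add] at this) hε
    have b2 := st_affine (fun w hw => by have := key ε w hε hw; rwa [e2, stF_add] at this) hε
    rw [← stF_add, ← e1] at b1
    rw [← stF_add, ← e2] at b2
    have b3 := key ε ε hε hε
    rw [← update_eq_self v lam, a3]
    unfold stG
    rw [stF_add, stF_add]
    intro h
    have b4 := congrArg (fun t => (u * (t / stF c (fun ω => (c.pw ω : ℂ))
      (update lam v (stE 1 (ε : ℂ) ε)))).re) h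
    simp only [add_div, mul_add, mul_div_assoc, div_self b3, mul_one, zero_div, mul_zero,
      Complex.zero_re, Complex.add_re, mul_left_comm u (d : ℂ), mul_comm u (ε : ℂ),
      Complex.re_ofReal_mul] at b4
    nlinarith [mul_nonneg a2 b1, mul_pos a1 hu]

lemma st_rayleigh {α β γ δ : ℝ} (h : ∀ u x y : ℂ, 0 < u.re → 0 < (conj u * x).re →
    0 < (conj u * y).re → (α : ℂ) + x * β + y * (γ + x * δ) ≠ 0) : α * δ ≤ β * γ := by
  by_contra hlt
  rw [not_le] at hlt
  have h0 : (γ : ℂ) + Complex.I * δ ≠ 0 := fun h0 => by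
    have a1 := congrArg Complex.re h0
    have a2 := congrArg Complex.im h0
    simp at a1 a2
    simp [a1, a2] at hlt
  obtain ⟨y, hy⟩ : ∃ y : ℂ, y = -(α + Complex.I * β) / (γ + Complex.I * δ) := ⟨_, rfl⟩
  have h1 : 0 < y.im := by
    rw [hy, Complex.div_im, ← sub_div]
    refine div_pos ?_ (Complex.normSq_pos.2 h0)
    simp
    linarith
  have h2 : 0 < |y.re| + 1 := by positivity
  refine h ⟨y.im / (|y.re| + 1), 1⟩ Complex.I y (div_pos h1 h2) (by simp) ?_ (by rw [hy]; field_simp; ring)
  simp only [Complex.mul_re, Complex.conj_re, Complex.conj_im, neg_mul, one_mul, sub_neg_eq_add]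
  rw [div_mul_eq_mul_div, div_add' _ _ _ h2.ne']
  refine div_pos ?_ h2
  nlinarith [neg_abs_le y.re]

end

end Vale.Agent.P361
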