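import Vale.Agent.P361.Core
import Vale.Agent.P361.Sob
import Vale.Agent.P361.Sums

namespace Vale.Agent.P361

open Matrix Finset

open Classical in
/-- energy density -/
noncomputable def staticZ (E : Set Z3) (u : Z3 → ℝ) (r : ℕ) (x : Z3) : ℝ :=
  if x ∈ E then 0 else
    (∑ i, if x + ev i ∈ E then 0 else (u (x + ev i) - u x) ^ 2) + u x ^ 2 / (r : ℝ) ^ 2

lemma static_zen (E : Set Z3) (u : Z3 → ℝ) (r : ℕ) (S : Finset Z3) :
    zen E u r S = ∑ x ∈ S, staticZ E u r x := rfl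

lemma staticZ_nonneg (E : Set Z3) (u : Z3 → ℝ) (r : ℕ) (x : Z3) : 0 ≤ staticZ E u r x := by
  unfold staticZ
  split_ifs
  · exact le_rfl
  · exact add_nonneg (sum_nonneg fun i _ => by split_ifs <;> positivity) (by positivity)

lemma static_zen_nonneg (E : Set Z3) (u : Z3 → ℝ) (r : ℕ) (S : Finset Z3) : 0 ≤ zen E u r S :=
  sum_nonneg fun x _ => staticZ_nonneg E u r x

lemma static_le_zen {E : Set Z3} (u : Z3 → ℝ) (r : ℕ) {S : Finset Z3} {x : Z3} (hx : x ∈ S) :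
    staticZ E u r x ≤ zen E u r S :=
  single_le_sum (fun x _ => staticZ_nonneg E u r x) hx

lemma static_grad {E : Set Z3} (u : Z3 → ℝ) (r : ℕ) {x : Z3} {i : Fin 3} (hx : x ∉ E)
    (hi : x + ev i ∉ E) : (u (x + ev i) - u x) ^ 2 ≤ staticZ E u r x := by
  classical
  have h1 := single_le_sum (s := univ)
    (f := fun i => if x + ev i ∈ E then 0 else (u (x + ev i) - u x) ^ 2)
    (fun i _ => by split_ifs <;> positivity) (mem_univ i)
  rw [if_neg hi] at h1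
  rw [staticZ, if_neg hx]
  exact le_add_of_le_of_nonneg h1 (by positivity)

lemma static_mass {E : Set Z3} (u : Z3 → ℝ) (r : ℕ) {x : Z3} (hx : x ∉ E) :
    (|u x| / r) ^ 2 ≤ staticZ E u r x := by
  rw [staticZ, if_neg hx, div_pow, sq_abs]
  exact le_add_of_nonneg_left (sum_nonneg fun i _ => by split_ifs <;> positivity)

lemma static_conn {E : Set Z3} (u : Z3 → ℝ) (r : ℕ) {S : Finset Z3} {a b : Z3}
    (h : Conn ((S : Set Z3) \ E) a b) : |u b - u a| ≤ S.card * √(zen E u r S) := by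
  classical
  let G : SimpleGraph Z3 :=
    { Adj := fun x y => x ≠ y ∧ zadj x y ∧ x ∈ (S : Set Z3) \ E ∧ y ∈ (S : Set Z3) \ E
      symm := ⟨fun x y h => ⟨h.1.symm, zadj_symm h.2.1, h.2.2.2, h.2.2.1⟩⟩
      loopless := ⟨fun x h => h.1 rfl⟩ }
  have h1 : G.Reachable a b ∧ b ∈ (S : Set Z3) \ E := by
    obtain ⟨ha, h⟩ := h
    induction h with
    | refl => exact ⟨.refl _, ha⟩
    | @tail x y _ h2 ih =>
      refine ⟨?_, h2.2⟩
      by_cases e : x = y
      · exact e ▸ ih.1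
      · exact ih.1.trans (SimpleGraph.Adj.reachable ⟨e, h2.1, ih.2, h2.2⟩)
  have h2 : ∀ {x y} (p : G.Walk x y), y ∈ S →
      |u y - u x| ≤ p.length * √(zen E u r S) ∧ ∀ z ∈ p.support, z ∈ S := by
    intro x y p hy
    induction p with
    | nil => simpa using hy
    | @cons x z y h3 p ih =>
      obtain ⟨h4, h5⟩ := ih hy
      obtain ⟨-, h6, h7, h8⟩ := h3
      have h9 : |u z - u x| ≤ √(zen E u r S) := by
        refine Real.abs_le_sqrt ?_
        obtain ⟨i, rfl | rfl⟩ := h6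
        · exact (static_grad u r h7.2 h8.2).trans (static_le_zen u r h7.1)
        · rw [← neg_sub, neg_sq]
          exact (static_grad u r h8.2 h7.2).trans (static_le_zen u r h8.1)
      refine ⟨?_, fun w hw => ?_⟩
      · rw [SimpleGraph.Walk.length_cons, Nat.cast_succ]
        linarith [abs_sub_le (u y) (u z) (u x)]
      · rcases List.mem_cons.1 hw with rfl | hw
        exacts [h7.1, h5 w hw]
  refine h1.1.elim_path fun p => ?_
  obtain ⟨h3, h4⟩ := h2 p.1 h1.2.1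
  refine h3.trans (mul_le_mul_of_nonneg_right (Nat.cast_le.2 ?_) (Real.sqrt_nonneg _))
  have h5 := card_le_card (show p.1.support.toFinset ⊆ S from fun z hz =>
    h4 z (List.mem_toFinset.1 hz))
  rw [List.toFinset_card_of_nodup p.2.support_nodup, SimpleGraph.Walk.length_support] at h5
  omega

lemma static_rad (E : Set Z3) (Kc : ℕ) (e : Z3) :
    ∃ k, k ≤ Kc ∧ Far E Kc e k ∧ (cc k : ℝ) ^ 10 ≤ wgt E Kc e := by
  classical
  have h0 : Far E Kc e Kc := fun j h1 h2 => absurd h2 h1.not_gt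
  have hex : ∃ k, Far E Kc e k := ⟨Kc, h0⟩
  refine ⟨Nat.find hex, Nat.find_min' hex h0, Nat.find_spec hex, ?_⟩
  have h1 := Nat.find_spec hex
  have h2 := @Nat.find_min _ _ hex
  generalize Nat.find hex = k at h1 h2
  cases k with
  | zero => simpa [cc] using one_le_wgt E Kc e
  | succ j =>
    have h3 := h2 (Nat.lt_succ_self j)
    simp only [Far, not_forall, not_lt] at h3
    obtain ⟨i, h4, h5, x, h6, h7⟩ := h3
    obtain rfl : j = i := by
      by_contra h8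
      exact (h1 i (by omega) h5 x h6).not_ge h7
    have h8 := single_le_sum (s := range Kc) (f := fun j =>
      if ∃ x ∈ hier E j, nrm (x - e) ≤ 2 * aa j then ((cc (j + 1) : ℕ) : ℝ) ^ 10 else 0)
      (fun i _ => by split_ifs <;> positivity) (mem_range.2 h5)
    rw [if_pos ⟨x, h6, h7⟩] at h8
    exact le_add_of_nonneg_of_le zero_le_one h8

lemma static_X {E : Set Z3} {Kc : ℕ} {φ : Z3 → Z3}
    (hφ : ∀ y y' k, (y' = y ∨ zadj y y') → Far E Kc y k →
      Conn ((cube y (cc k) : Set Z3) \ E) (φ y) (φ y')) (u : Z3 → ℝ) (r : ℕ) (e : Z3)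
    {S : Finset Z3} (hS : cube e (cc Kc) ⊆ S) :
    ((∑ i, |u (φ (e + ev i)) - u (φ e)|) + |u (φ e)| / (r : ℝ)) ^ 2 ≤
      wgt E Kc e * (82 ^ 2 * 16 * ∑ x ∈ S, th (e - x) ^ 2 * staticZ E u r x) := by
  obtain ⟨k, h1, h2, h3⟩ := static_rad E Kc e
  have hD : (1 : ℝ) ≤ cc k := by exact_mod_cast cc_pos k
  have hZ := static_zen_nonneg E u r (cube e (cc k))
  have hs := Real.sqrt_nonneg (zen E u r (cube e (cc k)))
  have h4 : ∀ i, |u (φ (e + ev i)) - u (φ e)| ≤ 27 * (cc k : ℝ) ^ 3 * √(zen E u r (cube e (cc k))) :=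
    fun i => (static_conn u r (hφ e _ k (Or.inr ⟨i, Or.inl rfl⟩) h2)).trans (by
      rw [card_cube, show 27 * (cc k : ℝ) ^ 3 = (3 * cc k) ^ 3 by ring]
      push_cast
      gcongr
      linarith)
  have h5 : |u (φ e)| / (r : ℝ) ≤ (cc k : ℝ) ^ 3 * √(zen E u r (cube e (cc k))) := by
    have h6 := (hφ e e k (Or.inl rfl) h2).1
    exact (Real.le_sqrt_of_sq_le ((static_mass u r h6.2).trans (static_le_zen u r h6.1))).trans
      (le_mul_of_one_le_left hs (one_le_pow₀ hD))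
  have h6 : (∑ i, |u (φ (e + ev i)) - u (φ e)|) + |u (φ e)| / (r : ℝ) ≤
      82 * (cc k : ℝ) ^ 3 * √(zen E u r (cube e (cc k))) := by
    rw [Fin.sum_univ_three]
    linarith [h4 0, h4 1, h4 2]
  have h7 : zen E u r (cube e (cc k)) ≤
      (cc k : ℝ) ^ 4 * (16 * ∑ x ∈ S, th (e - x) ^ 2 * staticZ E u r x) := by
    rw [static_zen, mul_sum, mul_sum]
    refine (sum_le_sum fun x hx => ?_).trans (sum_le_sum_of_subset_of_nonneg
      ((cube_mono e (cc_mono h1)).trans hS) fun x _ _ => by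
        have := staticZ_nonneg E u r x
        positivity)
    rw [← mul_assoc, ← mul_assoc]
    refine le_mul_of_one_le_left (staticZ_nonneg E u r x) ?_
    have h8 : (nrm (e - x) : ℝ) ≤ cc k := by exact_mod_cast mem_cube.1 (mem_cube_symm.1 hx)
    rw [th, div_pow, one_pow, ← mul_div_assoc, mul_one, one_le_div (by positivity), ← pow_mul,
      show (cc k : ℝ) ^ 4 * 16 = (2 * cc k) ^ (2 * 2) by ring]
    gcongr
    linarith
  refine (pow_le_pow_left₀ (by positivity) h6 2).trans ?_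
  rw [mul_pow, Real.sq_sqrt hZ]
  have h8 : 0 ≤ ∑ x ∈ S, th (e - x) ^ 2 * staticZ E u r x :=
    sum_nonneg fun x _ => mul_nonneg (sq_nonneg _) (staticZ_nonneg E u r x)
  calc _ ≤ (82 * (cc k : ℝ) ^ 3) ^ 2 *
        ((cc k : ℝ) ^ 4 * (16 * ∑ x ∈ S, th (e - x) ^ 2 * staticZ E u r x)) := by gcongr
    _ = (cc k : ℝ) ^ 10 * (82 ^ 2 * 16 * ∑ x ∈ S, th (e - x) ^ 2 * staticZ E u r x) := by ring
    _ ≤ _ := by gcongr

lemma static_local {T S : Finset Z3} {R : ℕ} (h : ∀ y ∈ T, cube y R ⊆ S) {z : Z3 → ℝ}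
    (hz : ∀ x, 0 ≤ z x) :
    ∑ y ∈ T, ∑ x ∈ cube y R, z x ≤ ((2 * R + 1) ^ 3 : ℕ) * ∑ x ∈ S, z x := by
  rw [sum_comm' (t' := S) (s' := fun x => T.filter fun y => x ∈ cube y R) fun y x => by
    rw [mem_filter]
    exact ⟨fun h1 => ⟨h1, h y h1.1 h1.2⟩, fun h1 => h1.1⟩, mul_sum]
  refine sum_le_sum fun x _ => ?_
  rw [sum_const, nsmul_eq_mul, ← card_cube x]
  exact mul_le_mul_of_nonneg_right (Nat.cast_le.2 (card_le_card fun y hy =>
    mem_cube_symm.1 (mem_filter.1 hy).2)) (hz x)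

lemma static_sq_le {E : Set Z3} {Kc : ℕ} {T S : Finset Z3} (h : T ⊆ S) {ν : Z3 → ℝ}
    (hν : ∀ y, 0 ≤ ν y) :
    ∑ y ∈ T, ν y ^ 2 ≤ ∑ e ∈ S, wgt E Kc e * (∑ y ∈ T, ν y * th (e - y)) ^ 2 := by
  refine (sum_le_sum fun e he => ?_).trans (sum_le_sum_of_subset_of_nonneg h fun e _ _ =>
    mul_nonneg (zero_le_one.trans (one_le_wgt E Kc e)) (sq_nonneg _))
  refine le_trans (pow_le_pow_left₀ (hν e) ?_ 2) (le_mul_of_one_le_left (sq_nonneg _)
    (one_le_wgt E Kc e))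
  simpa [th] using single_le_sum (f := fun y => ν y * th (e - y))
    (fun y _ => mul_nonneg (hν y) (th_pos _).le) he

theorem static_bound : ∃ C : ℝ, 0 < C ∧ ∀ (E : Set Z3) (Kc : ℕ), hier E Kc = ∅ →
    ∃ nb : Z3 → Z3, (∀ y, (∀ w ∈ cube y r0, GoodPt E Kc w) → zadj y (nb y) ∧ nb y ∉ E) ∧
      ∀ (r ρ : ℕ) (c : Z3) (ν u : Z3 → ℝ), 1 ≤ r → (∀ y, 0 ≤ ν y) →
        (∀ y ∈ cube c ρ, ν y ≠ 0 → ∀ w ∈ cube y r0, GoodPt E Kc w) →
        ∑ y ∈ cube c ρ, ν y * |u (nb y)| ≤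
          C * Real.sqrt (∑ e ∈ cube c (ρ + 2 * r),
              wgt E Kc e * (∑ y ∈ cube c ρ, ν y * th (e - y)) ^ 2) *
            Real.sqrt (zen E u r (cube c (ρ + 2 * r + cc Kc + r1))) := by
  obtain ⟨Cs, hCs, Hs⟩ := sobolev
  obtain ⟨Ct, hCt, Ht⟩ := sum_th_sq
  obtain ⟨K, hK⟩ : ∃ K : ℕ, K = (2 * r1 + 1) ^ 3 := ⟨_, rfl⟩
  refine ⟨Cs * √(82 ^ 2 * 16 * Ct) + K * √K, by positivity, fun E Kc hcat => ?_⟩
  obtain ⟨φ, nb, hφ, hnb⟩ := fill_core E Kc hcat
  refine ⟨nb, fun y hy => ⟨(hnb y hy).1, (hnb y hy).2.1.2⟩, fun r ρ c ν u hr hν hg => ?_⟩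
  set A := ∑ e ∈ cube c (ρ + 2 * r), wgt E Kc e * (∑ y ∈ cube c ρ, ν y * th (e - y)) ^ 2 with hA
  set S := cube c (ρ + 2 * r + cc Kc + r1) with hS
  have hw : ∀ e, 0 ≤ wgt E Kc e := fun e => zero_le_one.trans (one_le_wgt E Kc e)
  have hA0 : 0 ≤ A := sum_nonneg fun e _ => mul_nonneg (hw e) (sq_nonneg _)
  let X : Z3 → ℝ := fun e => (∑ i, |u (φ (e + ev i)) - u (φ e)|) + |u (φ e)| / (r : ℝ)
  have hX : ∀ e, 0 ≤ X e := fun e => by positivity
  have h1 : ∑ e ∈ cube c (ρ + 2 * r), (∑ y ∈ cube c ρ, ν y * th (e - y)) * X e ≤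
      √(82 ^ 2 * 16 * Ct) * √A * √(zen E u r S) := by
    rw [← Real.sqrt_mul (by positivity), ← Real.sqrt_mul (by positivity)]
    refine Real.le_sqrt_of_sq_le ((sum_sq_le_sum_mul_sum_of_sq_le_mul _
      (f := fun e => wgt E Kc e * (∑ y ∈ cube c ρ, ν y * th (e - y)) ^ 2)
      (g := fun e => 82 ^ 2 * 16 * ∑ x ∈ S, th (e - x) ^ 2 * staticZ E u r x)
      (fun e _ => mul_nonneg (hw e) (sq_nonneg _))
      (fun e _ => mul_nonneg (by positivity) (sum_nonneg fun x _ =>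
        mul_nonneg (sq_nonneg _) (staticZ_nonneg E u r x))) fun e he => ?_).trans ?_)
    · rw [mul_pow, mul_comm (wgt E Kc e), mul_assoc]
      exact mul_le_mul_of_nonneg_left (static_X hφ u r e (cube_subset he (by omega))) (sq_nonneg _)
    · rw [← hA, mul_comm _ A, mul_assoc A, ← mul_sum, sum_comm, mul_assoc _ Ct]
      refine mul_le_mul_of_nonneg_left (mul_le_mul_of_nonneg_left ?_ (by norm_num)) hA0
      rw [static_zen, mul_sum]
      refine sum_le_sum fun x _ => ?_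
      rw [← sum_mul]
      exact mul_le_mul_of_nonneg_right (Ht _ _) (staticZ_nonneg E u r x)
  have h2 : ∑ y ∈ cube c ρ, ν y * |u (φ y)| ≤
      Cs * ∑ e ∈ cube c (ρ + 2 * r), (∑ y ∈ cube c ρ, ν y * th (e - y)) * X e := by
    simp only [sum_mul]
    rw [sum_comm, mul_sum]
    refine sum_le_sum fun y hy => (mul_le_mul_of_nonneg_left (Hs (fun x => u (φ x)) y r hr)
      (hν y)).trans ?_
    rw [mul_left_comm, mul_sum]
    refine mul_le_mul_of_nonneg_left ((sum_le_sum fun e _ => (mul_assoc _ _ _).ge).trans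
      (sum_le_sum_of_subset_of_nonneg (cube_subset hy le_rfl) fun e _ _ =>
        mul_nonneg (mul_nonneg (hν y) (th_pos _).le) (hX e))) hCs.le
  have h3 : ∑ y ∈ cube c ρ, ν y * √(zen E u r (cube y r1)) ≤ √K * √A * √(zen E u r S) := by
    refine (Real.sum_mul_le_sqrt_mul_sqrt _ _ _).trans ?_
    rw [mul_comm √K, mul_assoc, ← Real.sqrt_mul (Nat.cast_nonneg _)]
    refine mul_le_mul (Real.sqrt_le_sqrt (static_sq_le (cube_mono c (by omega)) hν))
      (Real.sqrt_le_sqrt ?_) (Real.sqrt_nonneg _) (Real.sqrt_nonneg _)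
    simp only [Real.sq_sqrt (static_zen_nonneg E u r _)]
    rw [hK]
    exact static_local (fun y hy => cube_subset hy (by omega)) (staticZ_nonneg E u r)
  have h4 : ∑ y ∈ cube c ρ, ν y * |u (nb y)| ≤ ∑ y ∈ cube c ρ, ν y * |u (φ y)| +
      K * ∑ y ∈ cube c ρ, ν y * √(zen E u r (cube y r1)) := by
    rw [mul_sum, ← sum_add_distrib]
    refine sum_le_sum fun y hy => ?_
    by_cases h0 : ν y = 0
    · simp [h0]
    · have h5 := static_conn u r (hnb y (hg y hy h0)).2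
      rw [card_cube, ← hK] at h5
      rw [mul_left_comm, ← mul_add]
      refine mul_le_mul_of_nonneg_left ?_ (hν y)
      linarith [abs_sub_abs_le_abs_sub (u (nb y)) (u (φ y)), abs_sub_comm (u (nb y)) (u (φ y))]
  have h5 := mul_le_mul_of_nonneg_left h1 hCs.le
  have h6 := mul_le_mul_of_nonneg_left h3 (Nat.cast_nonneg (α := ℝ) K)
  linarith

end Vale.Agent.P361
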