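import Vale.Agent.P361.Basic

namespace Vale.Agent.P361

open Matrix Finset

/-- the indices below `k`, in increasing order -/
def symmLt (s k : ℕ) : List (Fin s) := (List.finRange s).filter fun i => decide ((i : ℕ) < k)

theorem symmLt_zero (s : ℕ) : symmLt s 0 = [] := by simp [symmLt]

theorem symmLt_self (s : ℕ) : symmLt s s = List.finRange s := by simp [symmLt]

theorem symmLt_succ {s : ℕ} (k : Fin s) : symmLt s (k + 1) = symmLt s k ++ [k] := by
  have h := (List.sortedLT_finRange s).pairwise
  refine List.Pairwise.eq_of_mem_iff (r := (· < ·)) (h.filter _) ?_ fun a => ?_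
  · refine List.pairwise_append.2 ⟨h.filter _, List.pairwise_singleton _ _, fun a ha b hb => ?_⟩
    rw [List.mem_singleton.1 hb]
    simpa [symmLt] using ha
  · simp only [symmLt, List.mem_filter, List.mem_finRange, true_and, decide_eq_true_eq,
      List.mem_append, List.mem_singleton, Fin.ext_iff]
    omega

section Alg

variable {A : Type} [Ring A] [Algebra ℝ A] {s : ℕ} (R : Equiv.Perm (Fin s) → A)

/-- one lazy transposition -/
noncomputable def symmG (i j : Fin s) : A :=
  (1 - 1 / (((j : ℕ) : ℝ) + 1 - ((i : ℕ) : ℝ))) • 1 +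
    (1 / (((j : ℕ) : ℝ) + 1 - ((i : ℕ) : ℝ))) • R (Equiv.swap i j)

/-- the product of the gates with second index below `k` -/
noncomputable def symmQ (k : ℕ) : A :=
  ((symmLt s k).map fun j : Fin s => ((symmLt s j).map fun i => symmG R i j).prod).prod

variable {R}

theorem symm_inner (hm : ∀ σ τ, R σ * R τ = R (τ * σ)) (j : Fin s) (Q : A)
    (hQ : ∀ π : Equiv.Perm (Fin s), (∀ i, j ≤ i → π i = i) → Q * R π = Q) (k : ℕ) (hk : k ≤ j) :
    (((j : ℕ) : ℝ) + 1) • (Q * ((symmLt s k).map fun i => symmG R i j).prod) =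
      (((j : ℕ) : ℝ) + 1 - k) • Q +
        ∑ i ∈ univ.filter (fun i : Fin s => (i : ℕ) < k), Q * R (Equiv.swap i j) := by
  induction k with
  | zero => simp [symmLt_zero]
  | succ k ih =>
    let k' : Fin s := ⟨k, by omega⟩
    have hk' : k' < j := hk
    have e1 : symmLt s (k + 1) = symmLt s k ++ [k'] := symmLt_succ k'
    have e2 : univ.filter (fun i : Fin s => (i : ℕ) < k + 1) =
        insert k' (univ.filter fun i : Fin s => (i : ℕ) < k) := by
      ext i
      simp only [mem_filter, mem_univ, true_and, mem_insert, Fin.ext_iff, k']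
      omega
    have e3 : ∀ i ∈ univ.filter (fun i : Fin s => (i : ℕ) < k),
        Q * R (Equiv.swap i j) * symmG R k' j = Q * R (Equiv.swap i j) := fun i hi => by
      have hi' : i < k' := (mem_filter.1 hi).2
      have e4 : Equiv.swap k' j * Equiv.swap i j = Equiv.swap i j * Equiv.swap k' i := by
        rw [Equiv.mul_swap_eq_swap_mul (Equiv.swap i j), Equiv.swap_apply_left,
          Equiv.swap_apply_of_ne_of_ne hi'.ne' hk'.ne]
      have e5 : Q * R (Equiv.swap k' i) = Q := hQ _ fun m hm =>
        Equiv.swap_apply_of_ne_of_ne (hk'.trans_le hm).ne' ((hi'.trans hk').trans_le hm).ne'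
      rw [symmG, mul_add, mul_smul_comm, mul_smul_comm, mul_one, mul_assoc, hm, e4, ← hm,
        ← mul_assoc, e5, ← add_smul, sub_add_cancel, one_smul]
    have h0 : ((j : ℕ) : ℝ) + 1 - k ≠ 0 := by
      have : (k : ℝ) + 1 ≤ (j : ℕ) := by exact_mod_cast hk
      linarith
    rw [e1, List.map_append, List.prod_append, List.map_singleton, List.prod_singleton,
      ← mul_assoc, ← smul_mul_assoc, ih (by omega), add_mul, Finset.sum_mul, Finset.sum_congr rfl e3,
      e2, Finset.sum_insert (by simp [k']), ← add_assoc, smul_mul_assoc, symmG, mul_add,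
      mul_smul_comm, mul_smul_comm, mul_one, smul_add, smul_smul, smul_smul, mul_one_div_cancel h0,
      one_smul, mul_sub, mul_one_div_cancel h0]
    congr 3
    push_cast
    ring

theorem symm_outer (h1 : R 1 = 1) (hm : ∀ σ τ, R σ * R τ = R (τ * σ)) (k : ℕ) (hk : k ≤ s)
    (π : Equiv.Perm (Fin s)) (hπ : ∀ i : Fin s, k ≤ i → π i = i) :
    symmQ R k * R π = symmQ R k := by
  induction k generalizing π with
  | zero => rw [show π = 1 from Equiv.ext fun i => hπ i (Nat.zero_le _), h1, mul_one]
  | succ k ih =>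
    let j : Fin s := ⟨k, by omega⟩
    have hQ : ∀ π : Equiv.Perm (Fin s), (∀ i, j ≤ i → π i = i) →
        symmQ R k * R π = symmQ R k := ih (by omega)
    have h2 := symm_inner hm j _ hQ k le_rfl
    have e1 : symmLt s (k + 1) = symmLt s k ++ [j] := symmLt_succ j
    have e2 : univ.filter (fun i : Fin s => (i : ℕ) < k + 1) =
        insert j (univ.filter fun i : Fin s => (i : ℕ) < k) := by
      ext i
      simp only [mem_filter, mem_univ, true_and, mem_insert, Fin.ext_iff, j]
      omega
    have h3 : ((k : ℝ) + 1) • symmQ R (k + 1) =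
        ∑ i ∈ univ.filter (fun i : Fin s => (i : ℕ) < k + 1), symmQ R k * R (Equiv.swap i j) := by
      rw [e2, Finset.sum_insert (by simp [j]), Equiv.swap_self, ← Equiv.Perm.one_def, h1, mul_one,
        symmQ, e1, List.map_append, List.prod_append, List.map_singleton, List.prod_singleton]
      refine h2.trans ?_
      rw [add_sub_cancel_left, one_smul]
    have hlt : ∀ i : Fin s, (π i : ℕ) < k + 1 ↔ (i : ℕ) < k + 1 := fun i => by
      constructor
      · intro h
        by_contra hc
        rw [hπ i (not_lt.1 hc)] at h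
        exact hc h
      · intro h
        by_contra hc
        rw [π.injective (hπ (π i) (not_lt.1 hc))] at hc
        exact hc h
    have h0 : (k : ℝ) + 1 ≠ 0 := by positivity
    refine smul_right_injective A h0 ?_
    dsimp only
    rw [← smul_mul_assoc, h3, Finset.sum_mul]
    refine Finset.sum_equiv π (fun i => by simp only [mem_filter, mem_univ, true_and, hlt]) fun i hi => ?_
    have hi' : (i : ℕ) < k + 1 := (mem_filter.1 hi).2
    have e3 : π * Equiv.swap i j =
        Equiv.swap (π i) j * (Equiv.swap (π i) j * π * Equiv.swap i j) := by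
      rw [← mul_assoc, ← mul_assoc, Equiv.swap_mul_self, one_mul]
    rw [mul_assoc, hm, e3, ← hm, ← mul_assoc, hQ]
    intro m hm
    rw [Equiv.Perm.mul_apply, Equiv.Perm.mul_apply]
    rcases hm.eq_or_lt with rfl | hm'
    · rw [Equiv.swap_apply_right, Equiv.swap_apply_left]
    · have h4 : k + 1 ≤ (m : ℕ) := hm'
      have h5 := (hlt i).2 hi'
      rw [Equiv.swap_apply_of_ne_of_ne (Fin.ne_of_val_ne (by omega)) hm'.ne', hπ m h4,
        Equiv.swap_apply_of_ne_of_ne (Fin.ne_of_val_ne (by omega)) hm'.ne']

end Alg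

section Gen

variable {Y : Type} [Fintype Y] [DecidableEq Y]

theorem symm_lz_mul (a b : Equiv.Perm Y) : lz a 1 * lz b 1 = lz (b * a) 1 := by
  ext y z
  simp only [lz, Matrix.mul_apply, Matrix.of_apply, sub_self, zero_mul, zero_add, one_mul, ite_mul,
    Finset.sum_ite_eq', mem_univ, if_true]
  rfl

omit [Fintype Y] in
theorem symm_lz_one : lz (1 : Equiv.Perm Y) 1 = 1 := by
  ext y z
  simp [lz, Matrix.one_apply, eq_comm]

omit [Fintype Y] in
theorem symm_lz_eq (a : Equiv.Perm Y) (q : ℝ) : lz a q = (1 - q) • 1 + q • lz a 1 := by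
  ext y z
  simp [lz, Matrix.one_apply, eq_comm]

theorem symm_absorb {Q : Matrix Y Y ℝ} {a : Equiv.Perm Y} (h : Q * lz a 1 = Q) (y z : Y) :
    Q y (a z) = Q y z := by
  conv_lhs => rw [← h]
  simp [lz, Matrix.mul_apply]

theorem symm_prod_dstoch (l : List (Matrix Y Y ℝ)) (h : ∀ A ∈ l, DStoch A) : DStoch l.prod := by
  induction l with
  | nil => exact dstoch_one
  | cons a l ih =>
    rw [List.prod_cons]
    exact (h a List.mem_cons_self).mul (ih fun A hA => h A (List.mem_cons_of_mem _ hA))

theorem symm_prod_supp {C : Type} (c : Y → C) (l : List (Matrix Y Y ℝ))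
    (h : ∀ A ∈ l, ∀ y z, A y z ≠ 0 → c z = c y) (y z : Y) (hz : l.prod y z ≠ 0) : c z = c y := by
  induction l generalizing y with
  | nil =>
    by_contra hc
    exact hz (Matrix.one_apply_ne fun e => hc (e ▸ rfl))
  | cons a l ih =>
    rw [List.prod_cons, Matrix.mul_apply] at hz
    obtain ⟨x, -, hx⟩ := Finset.exists_ne_zero_of_sum_ne_zero hz
    exact (ih (fun A hA => h A (List.mem_cons_of_mem _ hA)) x (right_ne_zero_of_mul hx)).trans
      (h a List.mem_cons_self y x (left_ne_zero_of_mul hx))

omit [DecidableEq Y] in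
theorem symm_uniform {C : Type} [DecidableEq C] (c : Y → C) {Q : Matrix Y Y ℝ}
    (h1 : ∀ y, ∑ z, Q y z = 1) (h2 : ∀ y z, Q y z ≠ 0 → c z = c y)
    (h3 : ∀ y z z', c z = c z' → Q y z = Q y z') (y z : Y) :
    Q y z = if c y = c z then 1 / ((univ.filter fun w => c w = c y).card : ℝ) else 0 := by
  split_ifs with h
  · have h4 : ∑ w, Q y w = ∑ w ∈ univ.filter (fun w => c w = c y), Q y z := by
      rw [Finset.sum_filter]
      refine Finset.sum_congr rfl fun w _ => ?_
      split_ifs with hw
      · exact h3 y w z (hw.trans h)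
      · exact not_not.1 (mt (h2 y w) hw)
    rw [h1, Finset.sum_const, nsmul_eq_mul] at h4
    exact eq_one_div_of_mul_eq_one_right h4.symm
  · exact not_not.1 (mt (h2 y z) (Ne.symm h))

variable {V : Type} [DecidableEq V] {s : ℕ}

theorem symm_swap (x : V) (i j : Fin s) : Equiv.swap (x, i) (x, j) =
    Equiv.prodCongrRight (Pi.mulSingle (M := fun _ => Equiv.Perm (Fin s)) x (Equiv.swap i j)) := by
  ext1 ⟨y, k⟩
  rw [Equiv.prodCongrRight_apply]
  by_cases h : y = x
  · subst h
    rw [Pi.mulSingle_eq_same]
    exact (Function.Injective.map_swap (Prod.mk_right_injective y) i j k).symm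
  · rw [Pi.mulSingle_eq_of_ne h, Equiv.swap_apply_of_ne_of_ne (fun e => h (congrArg Prod.fst e))
      fun e => h (congrArg Prod.fst e)]
    rfl

theorem symm_sites {A : Type} [Ring A] [Algebra ℝ A] (T : (V → Equiv.Perm (Fin s)) → A)
    (h1 : T 1 = 1) (hm : ∀ σ τ, T σ * T τ = T (τ * σ)) (l : List V)
    (π : V → Equiv.Perm (Fin s)) (hπ : ∀ x ∉ l, π x = 1) :
    (l.map fun x => symmQ (fun σ => T (Pi.mulSingle x σ)) s).prod * T π =
      (l.map fun x => symmQ (fun σ => T (Pi.mulSingle x σ)) s).prod := by
  induction l generalizing π with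
  | nil => rw [show π = 1 from funext fun x => hπ x List.not_mem_nil, h1, mul_one]
  | cons a l ih =>
    rw [List.map_cons, List.prod_cons, mul_assoc]
    by_cases ha : a ∈ l
    · rw [ih π fun x hx => hπ x fun h => hx (by
        rcases List.mem_cons.1 h with rfl | h
        exacts [ha, h])]
    · have e : π = Pi.mulSingle a (π a) * Function.update π a 1 := by
        funext x
        by_cases h : x = a
        · subst h
          simp
        · simp [h]
      have hc : Commute (l.map fun x => symmQ (fun σ => T (Pi.mulSingle x σ)) s).prod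
          (T (Pi.mulSingle a (π a))) := by
        refine Commute.list_prod_left _ _ fun B hB => ?_
        obtain ⟨x, hx, rfl⟩ := List.mem_map.1 hB
        refine Commute.list_prod_left _ _ fun B hB => ?_
        obtain ⟨j, -, rfl⟩ := List.mem_map.1 hB
        refine Commute.list_prod_left _ _ fun B hB => ?_
        obtain ⟨i, -, rfl⟩ := List.mem_map.1 hB
        refine ((Commute.one_left _).smul_left _).add_left (Commute.smul_left ?_ _)
        have hxa : x ≠ a := fun h => ha (h ▸ hx)
        rw [Commute, SemiconjBy, hm, hm, (Pi.mulSingle_commute hxa _ _).eq]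
      rw [e, ← hm, ← mul_assoc _ (T _), ih _ fun x hx => ?_, hc.eq, ← mul_assoc,
        symm_outer (R := fun σ => T (Pi.mulSingle a σ)) (by simpa using h1)
          (fun σ τ => by rw [hm, Pi.mulSingle_mul]) s le_rfl _ fun i hi => absurd i.2 (by omega)]
      by_cases h : x = a
      · subst h
        simp
      · rw [Function.update_of_ne h]
        exact hπ x (by simp [h, hx])

variable [Fintype V]

theorem symm_main {C : Type} [DecidableEq C] (ρ : Equiv.Perm (V × Fin s) → Equiv.Perm Y)
    (h1 : ρ 1 = 1) (hm : ∀ a b, ρ (a * b) = ρ a * ρ b) (c : Y → C)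
    (hc : ∀ z z', c z = c z' ↔ ∃ π : V → Equiv.Perm (Fin s), z = ρ (Equiv.prodCongrRight π) z') :
    DStoch ((siteList V s).map fun e => lz (ρ (Equiv.swap e.1 e.2.1)) e.2.2).prod ∧ ∀ y z,
      ((siteList V s).map fun e => lz (ρ (Equiv.swap e.1 e.2.1)) e.2.2).prod y z =
        if c y = c z then 1 / ((univ.filter fun w => c w = c y).card : ℝ) else 0 := by
  have hmem : ∀ B ∈ (siteList V s).map fun e => lz (ρ (Equiv.swap e.1 e.2.1)) e.2.2,
      ∃ (x : V) (i j : Fin s), i < j ∧
        B = lz (ρ (Equiv.swap (x, i) (x, j))) (1 / (((j : ℕ) : ℝ) + 1 - ((i : ℕ) : ℝ))) := by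
    intro B hB
    simp only [siteList, List.mem_flatMap, List.mem_map, List.mem_filter, decide_eq_true_eq] at hB
    obtain ⟨_, ⟨x, -, j, -, i, ⟨-, hij⟩, rfl⟩, rfl⟩ := hB
    exact ⟨x, i, j, hij, rfl⟩
  have hd := symm_prod_dstoch _ fun B hB => by
    obtain ⟨x, i, j, hij, rfl⟩ := hmem B hB
    have h4 : ((i : ℕ) : ℝ) + 1 ≤ ((j : ℕ) : ℝ) := by exact_mod_cast hij
    exact lz_dstoch _ (one_div_nonneg.2 (by linarith)) ((div_le_one (by linarith)).2 (by linarith))
  refine ⟨hd, symm_uniform c hd.2.1 (symm_prod_supp c _ fun B hB y z hz => ?_) fun y z z' h => ?_⟩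
  · obtain ⟨x, i, j, -, rfl⟩ := hmem B hB
    by_cases e : z = y
    · rw [e]
    · refine (hc z y).2 ⟨Pi.mulSingle x (Equiv.swap i j), ?_⟩
      rw [← symm_swap x i j]
      by_contra e'
      exact hz (by simp [lz, e, e'])
  · obtain ⟨π, rfl⟩ := (hc z z').1 h
    refine symm_absorb ?_ y z'
    let T : (V → Equiv.Perm (Fin s)) → Matrix Y Y ℝ := fun π => lz (ρ (Equiv.prodCongrRight π)) 1
    have e : ((siteList V s).map fun e => lz (ρ (Equiv.swap e.1 e.2.1)) e.2.2).prod =
        ((univ : Finset V).toList.map fun x => symmQ (fun σ => T (Pi.mulSingle x σ)) s).prod := by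
      simp only [siteList, List.map_flatMap, List.map_map, symmQ, symmLt_self]
      simp only [List.flatMap_def, List.prod_flatten, List.map_map]
      congr 2
      funext x
      simp only [Function.comp_apply, List.prod_flatten, List.map_map]
      congr 2
      funext j
      simp only [Function.comp_apply]
      congr 2
      funext i
      rw [Function.comp_apply, symm_lz_eq, symm_swap]
      rfl
    rw [e]
    refine symm_sites T ?_ (fun σ τ => ?_) _ π fun x hx => absurd (by simp) hx
    · exact (congrArg (fun a => lz a 1) h1).trans symm_lz_one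
    · rw [symm_lz_mul, ← hm]
      rfl

end Gen

theorem symm_many (V : Type) [Fintype V] [DecidableEq V] (s : ℕ) :
    DStoch ((siteList V s).map gM).prod ∧ ((siteList V s).map gM).prod = symP V s := by
  have hcnt : ∀ (η : Finset (V × Fin s)) (π : V → Equiv.Perm (Fin s)) (x : V),
      (univ.filter fun i => (x, i) ∈ (Equiv.prodCongrRight π).finsetCongr η) =
        (univ.filter fun i => (x, i) ∈ η).map (π x).toEmbedding := fun η π x => by
    ext i
    simp [Finset.mem_map_equiv, Equiv.prodCongrRight]
  obtain ⟨h1, h2⟩ := symm_main (V := V) (s := s) (fun σ => σ.finsetCongr) Equiv.finsetCongr_refl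
    (fun a b => (Equiv.finsetCongr_trans b a).symm) cnt fun z z' => by
      constructor
      · intro h
        choose π hπ using fun x => Equiv.Perm.exists_map_finset_eq _ _ (congrFun h x).symm
        refine ⟨π, Finset.ext fun ⟨x, i⟩ => ?_⟩
        have := Finset.ext_iff.1 ((hcnt z' π x).trans (hπ x)) i
        simpa using this.symm
      · rintro ⟨π, rfl⟩
        funext x
        rw [cnt, hcnt, Finset.card_map, cnt]
  refine ⟨h1, Matrix.ext fun η η' => (h2 η η').trans ?_⟩
  have h3 : (univ.filter fun w : Finset (V × Fin s) => cnt w = cnt η).card = ∏ x, s.choose (cnt η x) := by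
    have : ∏ x, s.choose (cnt η x) =
        (Fintype.piFinset fun x => powersetCard (cnt η x) (univ : Finset (Fin s))).card := by
      simp
    rw [this]
    refine Finset.card_nbij' (fun w x => univ.filter fun i => (x, i) ∈ w)
      (fun f => univ.filter fun v => v.2 ∈ f v.1) (fun w hw => ?_) (fun f hf => ?_)
      (fun w _ => ?_) fun f _ => ?_
    · have : cnt w = cnt η := (mem_filter.1 hw).2
      simp only [mem_coe, Fintype.mem_piFinset, mem_powersetCard, subset_univ, true_and]
      exact fun x => congrFun this x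
    · simp only [mem_coe, Fintype.mem_piFinset, mem_powersetCard, subset_univ, true_and] at hf
      refine mem_filter.2 ⟨mem_univ _, funext fun x => ?_⟩
      rw [← hf x, cnt]
      congr 1
      ext i
      simp
    · ext v
      simp
    · ext x i
      simp
  rw [h3, symP, Matrix.of_apply, Finset.prod_ite_zero]
  simp [funext_iff]

theorem symm_one (V : Type) [Fintype V] [DecidableEq V] (s : ℕ) :
    DStoch ((siteList V s).map g1).prod ∧ ((siteList V s).map g1).prod = symP1 V s := by
  obtain ⟨h1, h2⟩ := symm_main (V := V) (s := s) (fun σ => σ) rfl (fun _ _ => rfl) Prod.fst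
    fun z z' => by
      constructor
      · intro h
        exact ⟨fun _ => Equiv.swap z.2 z'.2, Prod.ext h (Equiv.swap_apply_right _ _).symm⟩
      · rintro ⟨π, rfl⟩
        rfl
  refine ⟨h1, Matrix.ext fun v w => (h2 v w).trans ?_⟩
  have h3 : (univ.filter fun w : V × Fin s => w.1 = v.1) = ({v.1} : Finset V) ×ˢ univ := by
    ext w
    simp only [mem_filter, mem_univ, true_and, mem_product, mem_singleton, and_true]
  rw [h3, symP1, Matrix.of_apply]
  simp

theorem siteList_many (V : Type) [Fintype V] [DecidableEq V] (s : ℕ) :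
    ((siteList V s).map gM).prod = symP V s := by
  exact (symm_many V s).2

theorem siteList_one (V : Type) [Fintype V] [DecidableEq V] (s : ℕ) :
    ((siteList V s).map g1).prod = symP1 V s := by
  exact (symm_one V s).2

theorem symP_dstoch (V : Type) [Fintype V] [DecidableEq V] (s : ℕ) : DStoch (symP V s) := by
  exact (symm_many V s).2 ▸ (symm_many V s).1

theorem symP1_dstoch (V : Type) [Fintype V] [DecidableEq V] (s : ℕ) : DStoch (symP1 V s) := by
  exact (symm_one V s).2 ▸ (symm_one V s).1

end Vale.Agent.P361
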