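import Vale.Agent.P361.LinesB
import Vale.Agent.P361.RunOne
import Vale.Agent.P361.Lost
import Vale.Agent.P361.Pair

namespace Vale.Agent.P361

open Matrix Finset

variable {L s : ℕ} [NeZero L] {g : GD (XX L s)} {n u l w nw K R r Kc k0 : ℕ} [NeZero n]
  [NeZero (n * g.M)] {ζ ξ ε1 ε2 q : ℝ} {σ : ℕ → ℝ}

/-- sweep weights with pins -/
noncomputable def upD {X : Type} [DecidableEq X] {n : ℕ} (x : ℝ) (P : Finset (ZMod n × X))
    (κ : ZMod n) (v : X) : ℝ := if (κ, v) ∈ P then 0 else x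

/-- the hitting function at the sweep starts -/
noncomputable def upH (g : GD (XX L s)) (n : ℕ) [NeZero (n * g.M)] (ζ : ℝ)
    (P : Finset (ZMod n × XX L s)) (k : ZMod n) (B : Finset (XX L s))
    (o : Env (ZMod (n * g.M)) (XX L s)) (κ : ZMod n) (v : XX L s) : ℝ :=
  (g.circ n).hit (dP n g.M ζ P) (atS n g.M k B) o (sl n g.M κ, v)

theorem upD_bd {X : Type} [DecidableEq X] {n : ℕ} {x : ℝ} (hx : 0 ≤ x) (P : Finset (ZMod n × X))
    (κ : ZMod n) (v : X) : 0 ≤ upD x P κ v ∧ upD x P κ v ≤ x := by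
  unfold upD
  split_ifs
  · exact ⟨le_rfl, hx⟩
  · exact ⟨hx, le_rfl⟩

omit [NeZero n] in
theorem Par.up_nat (hP : Par g n u l w nw K R r Kc k0 ζ ξ ε1 ε2 q σ) :
    1 ≤ u ∧ w ≤ n ∧ k0 * n + n ≤ nw * w := by
  have h1 := Nat.mul_le_mul hP.hl hP.hw
  have h2 := Nat.mul_le_mul_right w hP.hl
  have h3 := Nat.mul_le_mul_right w hP.hnw
  have h4 := hP.hn
  have h5 := hP.hu
  refine ⟨by omega, by omega, le_trans (le_of_eq ?_) h3⟩
  rw [h4, h5]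
  ring

theorem Par.up_fwd (hP : Par g n u l w nw K R r Kc k0 ζ ξ ε1 ε2 q σ)
    (P : Finset (ZMod n × XX L s)) (k : ZMod n) :
    (g.fwd n (dP n g.M ζ P) k).Ok w (2 * s * ε1) (2 * s * ε2) :=
  fwd_ok hP.ok hP.hζ0 hP.hζ1 hP.hε1 hP.hε2 hP.bh hP.up_nat.2.1 P k

theorem Par.up_bwd (hP : Par g n u l w nw K R r Kc k0 ζ ξ ε1 ε2 q σ)
    (P : Finset (ZMod n × XX L s)) (k : ZMod n) :
    (g.bwd n (dP n g.M ζ P) k).Ok w (2 * s * ε1) (2 * s * ε2) :=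
  bwd_ok hP.ok hP.hζ0 hP.hζ1 hP.hε1 hP.hε2 hP.bh hP.up_nat.2.1 P k

omit [NeZero n] in
theorem Par.up_d (hP : Par g n u l w nw K R r Kc k0 ζ ξ ε1 ε2 q σ)
    (P : Finset (ZMod n × XX L s)) (f : ℕ → ZMod n) :
    (∀ j v, 0 ≤ (if j = 0 then 1 else upD (ζ ^ g.M) P (f j) v)) ∧
      ∀ j v, (if j = 0 then 1 else upD (ζ ^ g.M) P (f j) v) ≤ 1 := by
  have h := fun j v => upD_bd (pow_nonneg hP.hζ0 g.M) P (f j) v
  have h1 := pow_le_one₀ (n := g.M) hP.hζ0 hP.hζ1.le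
  constructor <;> intro j v <;> split_ifs
  · exact zero_le_one
  · exact (h j v).1
  · exact le_rfl
  · exact (h j v).2.trans h1

theorem up_etaB_mono {C C' : ℝ} (h : C ≤ C') (p : ℝ) (M L Kc R : ℕ) (e1 e2 : ℝ) :
    etaB C p M L Kc R e1 e2 ≤ etaB C' p M L Kc R e1 e2 := by
  unfold etaB
  gcongr

theorem up_lostB_nonneg (s nw K : ℕ) (e2 : ℝ) (σ : ℕ → ℝ) : 0 ≤ lostB s nw K e2 σ := by
  unfold lostB
  positivity

theorem up_lamB_nonneg (s nw K R : ℕ) {η : ℝ} (hη : 0 ≤ η) (qu : ℝ) : 0 ≤ lamB s nw K R η qu := by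
  unfold lamB
  positivity

theorem up_alB_mono {C C' pu σ0 LM : ℝ} (h : C ≤ C') (hp : 0 ≤ pu) (hσ : 0 ≤ σ0) (hL : 0 ≤ LM)
    (qu : ℝ) (k0 ρ R : ℕ) : alB C pu qu k0 ρ R σ0 LM ≤ alB C' pu qu k0 ρ R σ0 LM := by
  unfold alB
  gcongr

theorem Par.up_rB (hP : Par g n u l w nw K R r Kc k0 ζ ξ ε1 ε2 q σ)
    (P : Finset (ZMod n × XX L s)) (k : ZMod n) (B : Finset (XX L s)) (a : XX L s) :
    g.rB n ζ P k B a = ζ ^ (g.M - 1) *
      Ex ((g.circ n).ew (dP n g.M ζ (P ∪ B.image fun x => (k, x)))) (fun o =>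
        (g.Kz n o k *ᵥ upH g n ζ (P ∪ B.image fun x => (k, x)) k B o (k + 1)) a) := by
  rw [← Ex_const_mul]
  exact Ex_congr fun o _ => kE_hit_sweep hP.ok hP.hζ0 hP.hζ1 _ k B o k a

theorem Par.up_H_nonneg (hP : Par g n u l w nw K R r Kc k0 ζ ξ ε1 ε2 q σ)
    (P : Finset (ZMod n × XX L s)) (k : ZMod n) (B : Finset (XX L s))
    (o : Env (ZMod (n * g.M)) (XX L s)) (κ : ZMod n) (v : XX L s) : 0 ≤ upH g n ζ P k B o κ v :=
  hit_nonneg (hP.ok.circ n) (dP_nonneg n g.M hP.hζ0 P) (dP_le n g.M hP.hζ0 P) hP.hζ1 _ o _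

theorem Par.up_lost_bwd (hP : Par g n u l w nw K R r Kc k0 ζ ξ ε1 ε2 q σ)
    (P : Finset (ZMod n × XX L s)) (k : ZMod n) (b : XX L s) {t : ℕ} (ht : t ≤ nw * w) :
    Ex (g.bwd n (dP n g.M ζ P) k).wt (fun o => (g.bwd n (dP n g.M ζ P) k).g.lost
      ((g.bwd n (dP n g.M ζ P) k).om o) ((g.bwd n (dP n g.M ζ P) k).U o) b t ^ 2) ≤
      lostB s nw K (2 * s * ε2) σ :=
  ex_lost_sq (hP.up_bwd P k) hP.hp hP.hσ (hP.ok.rev_freeBd hP.free) K b ht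

theorem Par.up_cdef (hP : Par g n u l w nw K R r Kc k0 ζ ξ ε1 ε2 q σ)
    (P : Finset (ZMod n × XX L s)) (k : ZMod n) (b : XX L s) {T t j : ℕ} (hT : T + t = j * n)
    (ht : t ≤ nw * w) :
    Ex (g.fwd n (dP n g.M ζ P) k).wt (fun o => (g.fwd n (dP n g.M ζ P) k).g.cdef
      ((g.fwd n (dP n g.M ζ P) k).om o) ((g.fwd n (dP n g.M ζ P) k).U o) T t b) ≤
      Real.sqrt (lostB s nw K (2 * s * ε2) σ) := by
  have h := ((hP.up_bwd P k).sl 0)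
  refine le_trans (le_of_eq ?_) ((Ex_le_sqrt h.wt_nonneg h.wt_sum _).trans
    (Real.sqrt_le_sqrt (hP.up_lost_bwd P k b ht)))
  exact Ex_congr fun o ho => cdef_eq_lost hP.ok _ k o ho hT b

theorem Par.up_pair (hP : Par g n u l w nw K R r Kc k0 ζ ξ ε1 ε2 q σ)
    (P : Finset (ZMod n × XX L s)) (k : ZMod n) (B : Finset (XX L s))
    {P' : Finset (ZMod n × XX L s)} (hP' : P' = P ∪ B.image fun x => (k, x)) {N : ℕ}
    {mu lam occ mu' lam' occ' : Env (ZMod (n * g.M)) (XX L s) → ℕ → XX L s → ℝ}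
    {al al' : Env (ZMod (n * g.M)) (XX L s) → ℝ}
    (hA : ∀ o, (g.circ n).ew (dP n g.M ζ P') o ≠ 0 → IsRun ((g.fwd n (dP n g.M ζ P') k).g.Ks
      ((g.fwd n (dP n g.M ζ P') k).om o) ((g.fwd n (dP n g.M ζ P') k).U o))
      (fun j v => if j = 0 then 1 else upD (ζ ^ g.M) P' (k + j) v) (g.p / (r : ℝ) ^ 2) n u (8 * u) N
      (ind B) (mu o) (lam o) (occ o) (al o))
    (hC : ∀ o, (g.circ n).ew (dP n g.M ζ P') o ≠ 0 → IsRun ((g.bwd n (dP n g.M ζ P') k).g.Ks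
      ((g.bwd n (dP n g.M ζ P') k).om o) ((g.bwd n (dP n g.M ζ P') k).U o))
      (fun j v => if j = 0 then 1 else upD (ζ ^ g.M) P' (k - j) v) (g.p / (r : ℝ) ^ 2) n u u
      (u + 2 * u) (ind B) (mu' o) (lam' o) (occ' o) (al' o)) :
    ∑ a ∈ B, g.rB n ζ P k B a ≤
      (∑ j ∈ Icc 1 (N / n), ∑ b ∈ B,
          Ex ((g.circ n).ew (dP n g.M ζ P')) fun o => occ o (j * n) b) +
        Ex ((g.circ n).ew (dP n g.M ζ P')) (fun o => mass N (lam o)) +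
        Ex ((g.circ n).ew (dP n g.M ζ P')) (fun o => mass (u + 2 * u) (lam' o)) +
        4 * (Real.sqrt (Ex ((g.circ n).ew (dP n g.M ζ P')) fun o => al o ^ 2) *
          Real.sqrt (Ex ((g.circ n).ew (dP n g.M ζ P')) fun o => al' o ^ 2)) := by
  have hw : ∀ o, 0 ≤ (g.circ n).ew (dP n g.M ζ P') o := ((hP.up_fwd P' k).sl 0).wt_nonneg
  have h1 : ∀ a, g.rB n ζ P k B a ≤ Ex ((g.circ n).ew (dP n g.M ζ P')) (fun o =>
      (g.Kz n o k *ᵥ upH g n ζ P' k B o (k + 1)) a) := by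
    intro a
    rw [hP.up_rB, ← hP']
    refine mul_le_of_le_one_left (Ex_nonneg hw fun o _ => ?_) (pow_le_one₀ hP.hζ0 hP.hζ1.le)
    exact sum_nonneg fun x _ =>
      mul_nonneg ((Kz_dstoch hP.ok o k).1 a x) (hP.up_H_nonneg P' k B o _ x)
  refine (sum_le_sum fun a _ => h1 a).trans ?_
  rw [← Ex_sum]
  refine (Ex_mono hw (g := fun o => (∑ j ∈ Icc 1 (N / n), ∑ b ∈ B, occ o (j * n) b) +
    mass N (lam o) + mass (u + 2 * u) (lam' o) + 4 * (al o * al' o)) fun o ho => ?_).trans ?_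
  · have h2 := hA o ho
    have h3 := hC o ho
    rw [funext (Ks_fwd hP.ok _ k o)] at h2
    rw [funext (Ks_bwd hP.ok _ k o ho)] at h3
    rw [← mul_assoc]
    refine pair_bound hP.hn (g.Kz n o) (upD (ζ ^ g.M) P') (upH g n ζ P' k B o) B k
      (Kz_dstoch hP.ok o) (fun κ v => (upD_bd (pow_nonneg hP.hζ0 _) P' κ v).1)
      (fun κ v => (upD_bd (pow_nonneg hP.hζ0 _) P' κ v).2.trans hP.hζξ) hP.hξ0 hP.hξ1
      (div_nonneg hP.ok.p_pos.le (sq_nonneg _)) hP.hc (fun b hb => if_pos ?_)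
      (hit_sweep hP.ok hP.hζ0 hP.hζ1 P' k B o) h2 h3
    rw [hP']
    exact mem_union_right _ (mem_image_of_mem _ hb)
  · rw [Ex_add, Ex_add, Ex_add, Ex_const_mul, Ex_sum]
    simp only [Ex_sum]
    gcongr
    exact Ex_mul_le_sqrt hw _ _

end Vale.Agent.P361
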