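import Vale.Agent.P361.UpA
import Vale.Agent.P361.RunCrude

namespace Vale.Agent.P361

open Matrix Finset

theorem upper_crude (s G : ℕ) [NeZero s] : ∃ C : ℝ, 0 < C ∧ ∀ {L : ℕ} [NeZero L]
    {g : GD (XX L s)} {n u l w nw K R r Kc k0 : ℕ} [NeZero n] [NeZero (n * g.M)]
    {ζ ξ ε1 ε2 q : ℝ} {σ : ℕ → ℝ}, Par g n u l w nw K R r Kc k0 ζ ξ ε1 ε2 q σ → g.G = G →
    ∀ (P : Finset (ZMod n × XX L s)) (k : ZMod n) (B : Finset Z3) (c : Z3 → Fin s), Adm L B →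
    ∀ {nst : ℕ}, (∀ e, (B.filter fun a => nrm (e - a) ≤ 2 * R).card ≤ nst) →
    ∑ a ∈ B.image fun y => (prj L y, c y), g.rB n ζ P k (B.image fun y => (prj L y, c y)) a ≤
      B.card * (2 * lamB s nw K R (etaB C g.p g.M L Kc R (2 * s * ε1) (2 * s * ε2)) (q * u) +
        C / (g.p * u) * (q * u) ^ 2 * (nst + 1)) := by
  obtain ⟨C0, hC0, h0⟩ := good_prob
  obtain ⟨C1, hC1, h1⟩ := run_crude s G
  refine ⟨C0 + 4 * C1, by positivity, ?_⟩
  intro L _ g n u l w nw K R r Kc k0 _ _ ζ ξ ε1 ε2 q σ hP hG P k B c hB nst hnst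
  obtain ⟨hu, -, hN⟩ := hP.up_nat
  have hn := hP.hn
  obtain ⟨P', hP'⟩ : ∃ P', P' = P ∪ (B.image fun y => (prj L y, c y)).image fun x => (k, x) :=
    ⟨_, rfl⟩
  have hst : ∀ y ∈ B, (k, prj L y, c y) ∈ P' := fun y hy => by
    rw [hP']
    exact mem_union_right _ (mem_image_of_mem _ (mem_image_of_mem _ hy))
  obtain ⟨mu, lam, occ, al, a1, a2, a3⟩ := h1 (hP.up_fwd P' k) hG hP.hw hP.hp hP.he1 hP.geo _
    (hP.up_d P' fun j => k + j).1 (hP.up_d P' fun j => k + j).2 B c hB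
    (fun o ho y hy => (fwd_start (hst y hy) o ho).1) hnst
    (η := etaB (C0 + 4 * C1) g.p g.M L Kc R (2 * s * ε1) (2 * s * ε2))
    (fun y j => (h0 (hP.up_fwd P' k) hP.hw hP.he1 hP.geo y j).trans
      (up_etaB_mono (by linarith) _ _ _ _ _ _ _))
    (n := n) (J0 := 8 * u) hu (by omega) (by omega) (by omega) hP.hq0 hP.hq1
  obtain ⟨mu', lam', occ', al', b1, b2, b3⟩ := h1 (hP.up_bwd P' k) hG hP.hw hP.hp hP.he1 hP.geo _
    (hP.up_d P' fun j => k - j).1 (hP.up_d P' fun j => k - j).2 B c hB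
    (fun o ho y hy => (fwd_start (hst y hy) o ho).2) hnst
    (η := etaB (C0 + 4 * C1) g.p g.M L Kc R (2 * s * ε1) (2 * s * ε2))
    (fun y j => (h0 (hP.up_bwd P' k) hP.hw hP.he1 hP.geo y j).trans
      (up_etaB_mono (by linarith) _ _ _ _ _ _ _))
    (n := n) (J0 := u) hu hu (by omega) (by omega) hP.hq0 hP.hq1
  have h2 := hP.up_pair P k _ hP' a1 b1
  rw [Nat.div_eq_of_lt (by omega), Icc_eq_empty (by omega), sum_empty, zero_add] at h2
  have hp := hP.ok.p_pos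
  have hu' : (0 : ℝ) < u := by exact_mod_cast hu
  have h3 := mul_le_mul (Real.sqrt_le_sqrt a2) (Real.sqrt_le_sqrt b2) (Real.sqrt_nonneg _)
    (Real.sqrt_nonneg _)
  have h4 : (0 : ℝ) ≤ C1 / (g.p * u) * (q * u) ^ 2 * (nst + 1) * B.card := by positivity
  have h5 : (0 : ℝ) ≤ C0 / (g.p * u) * (q * u) ^ 2 * (nst + 1) * B.card := by positivity
  have h6 := h3.trans (Real.mul_self_sqrt h4).le
  have h7 := add_le_add (add_le_add a3 b3) (mul_le_mul_of_nonneg_left h6 (by norm_num : (0 : ℝ) ≤ 4))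
  refine (h2.trans h7).trans ((le_add_of_nonneg_right h5).trans (le_of_eq ?_))
  ring

end Vale.Agent.P361
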